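import Vale.Agent.P269.Spl.Dim

/-!
# Fundamental classes of cycles
-/

set_option linter.all false

namespace Vale.Agent.P269

open P291Z Set Function Topology Filter Holo Module

variable {A W : Type} [NormedRing A] [NormedAlgebra ℂ A] [NormedAddCommGroup W] [NormedSpace ℂ W]
  [FiniteDimensional ℂ A] [FiniteDimensional ℂ W] {act : A → W → W} {S S' M M' Z O : Set W} {d : ℕ}

theorem Holo.lh_of_isEmbedding {X Y : Type*} [TopologicalSpace X] [TopologicalSpace Y] {j : X → Y}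
    (hj : IsEmbedding j) {x : X} (h : range j ∈ 𝓝 (j x)) : LH j x := by
  haveI : Nonempty X := ⟨x⟩
  have h1 : ∀ᶠ y in 𝓝 (j x), j (invFun j y) = y := mem_of_superset h fun _ => invFun_eq
  exact LH.of_inv (invFun j) (.of_forall fun _ => hj.continuous.continuousAt)
    (h1.eventually_nhds.mono fun y hy => hj.isInducing.continuousAt_iff.2
      (continuousAt_id.congr (EventuallyEq.symm hy)))
    (.of_forall (leftInverse_invFun hj.injective)) h1

theorem lh_inclusion {x : W} (hx : x ∈ M) (e : M ⊆ S) (h : M ∈ 𝓝[S] x) :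
    LH (inclusion e) ⟨x, hx⟩ :=
  lh_of_isEmbedding (IsEmbedding.inclusion e) (by
    rw [range_inclusion]
    exact preimage_coe_mem_nhds_subtype.2 h)

/-- invariance of domain -/
theorem mem_nhdsWithin_of_mfd {n : ℕ} (h : ∀ x : M, IsMfd (Subtype.val : M → W) n x)
    (h' : ∀ x : M', IsMfd (Subtype.val : M' → W) n x) (e : M' ⊆ M) {x : W} (hx : x ∈ M') :
    M' ∈ 𝓝[M] x := by
  obtain ⟨ψ, a, b⟩ := h ⟨x, e hx⟩
  obtain ⟨φ, c, f⟩ := h' ⟨x, hx⟩
  have g := (a.of_injective (φ := fun z => inclusion e (φ z)) (by rw [b, f])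
    ((continuous_inclusion e).continuousAt.comp c.lh.cont) c.an c.injective rfl).lh.map_nhds
  rw [f] at g
  exact (preimage_coe_mem_nhds_subtype (a := ⟨x, e hx⟩)).1
    (g.ge (mem_map.2 (Eventually.of_forall fun z => (φ z).2)))

theorem isMfd_of_nhdsWithin {n : ℕ} {x : W} (hx : x ∈ M) (e : M ⊆ S) (h : M ∈ 𝓝[S] x) :
    IsMfd (Subtype.val : M → W) n ⟨x, hx⟩ ↔ IsMfd (Subtype.val : S → W) n ⟨x, e hx⟩ :=
  ⟨fun a => a.push (lh_inclusion hx e h) HolAt.self HolAt.self,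
    fun a => IsMfd.pull (u := inclusion e) a (lh_inclusion hx e h)⟩

theorem Str.inter (h : Str act M d) (hO : IsOpen O) (hi : Ivt act (M ∩ O)) : Str act (M ∩ O) d :=
  ⟨hi, fun x => (isMfd_of_nhdsWithin x.2 inter_subset_left
      (inter_mem_nhdsWithin _ (hO.mem_nhds x.2.2))).2 (h.mfd _),
    fun _ hx => closure_mono (by exact fun _ a => ⟨⟨a.1.1, a.2⟩, a.1.2⟩)
      (hO.closure_inter ⟨h.free hx.1, hx.2⟩)⟩

theorem Tpc.inter (h : Tpc act Z M d) (hO : IsOpen O) (hi : Ivt act (Z ∩ O)) :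
    Tpc act (Z ∩ O) (M ∩ O) d :=
  ⟨h.toStr.inter hO fun a ha x hx => ⟨h.inv a ha x hx.1, (hi a ha x ⟨h.sub hx.1, hx.2⟩).2⟩,
    h.lc.inter hO.isLocallyClosed, inter_subset_inter_left _ h.sub,
    h.opn.imp fun _ a => ⟨a.1, by rw [a.2, inter_right_comm]⟩,
    h.small.mono fun _ a => ⟨a.1.1, fun b => a.2 ⟨b, a.1.2⟩⟩⟩

theorem Cyc.inter (h : Cyc act S M d) (hO : IsOpen O) (hi : Ivt act (S ∩ O)) :
    Cyc act (S ∩ O) (M ∩ O) d :=
  ⟨h.toTpc.inter hO hi, fun _ hx => hO.closure_inter ⟨h.dense hx.1, hx.2⟩⟩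

theorem dense_sp {D : Set W} (h : S ⊆ closure (S ∩ D)) : Dense {x : Sp act S | x.val ∈ D} :=
  Subtype.dense_iff.2 (h.trans (closure_mono fun x a => ⟨⟨x, a.1⟩, a.2, rfl⟩))

section incl

variable [IsAct act S] [IsAct act S']

theorem Ivt.mem_iff {B : Set W} (hB : Ivt act (S ∩ B)) (g : Aˣ) (x : Sp act S) :
    (g • x).val ∈ B ↔ x.val ∈ B := by
  have : ∀ (g : Aˣ) (x : Sp act S), x.val ∈ B → (g • x).val ∈ B := fun g x h =>
    (hB g g.isUnit _ ⟨x.val_mem, h⟩).2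
  exact ⟨fun h => inv_smul_smul g x ▸ this g⁻¹ _ h, this g x⟩

theorem ivt_inter : Ivt act (S ∩ S') := fun a ha x hx =>
  ⟨IsAct.mem a ha x hx.1, IsAct.mem a ha x hx.2⟩

theorem Ivt.diff (h : Ivt act M) : Ivt act (S \ M) := by
  rintro _ ⟨g, rfl⟩ x hx
  exact ⟨IsAct.mem _ g.isUnit x hx.1, fun a => hx.2 ((Ivt.mem_iff (fun a ha x hx =>
    ⟨IsAct.mem a ha x hx.1, h a ha x hx.2⟩) g (Sp.of act x hx.1)).1 a)⟩

theorem Quo.mem_part {B : Set W} (hB : Ivt act (S ∩ B)) (x : Sp act S) :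
    x.mk ∈ Quo.part act S B ↔ x.val ∈ B :=
  let ⟨g, hg⟩ := x.exists_smul_out
  (congrArg (fun y : Sp act S => y.val ∈ B) hg).symm.to_iff.trans (hB.mem_iff g x)

theorem Quo.range_incl (h : S' ⊆ S) : range (Quo.incl act h) = Quo.part act S S' := by
  ext z
  obtain ⟨x, rfl⟩ := Sp.surjective_mk z
  rw [Quo.mem_part ivt_inter]
  refine ⟨fun ⟨y, a⟩ => ?_, fun a => ⟨(Sp.of act _ a).mk, rfl⟩⟩
  obtain ⟨y, rfl⟩ := Sp.surjective_mk y
  obtain ⟨g, rfl⟩ := Sp.mk_eq_iff.1 ((Sp.mk_incl h y).trans a)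
  exact (g • y).val_mem

theorem Quo.mk_mem_range (h : S' ⊆ S) {x : Sp act S} :
    x.mk ∈ range (Quo.incl act h) ↔ x.val ∈ S' := by
  rw [Quo.range_incl, Quo.mem_part ivt_inter]

theorem Quo.isEmbedding_incl (h : S' ⊆ S) : IsEmbedding (Quo.incl act h) :=
  Orb.isQuo_sp.isEmbedding_map Orb.isQuo_sp (fun _ => rfl) (fun g _ => ⟨g, rfl⟩)
    (Sp.isEmbedding_incl h)

omit [IsAct act S] [IsAct act S'] in
theorem Holo.Sp.range_incl (h : S' ⊆ S) {C : Set W} (e : S' = S ∩ C) :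
    range (Sp.incl act h) = Sp.val ⁻¹' C :=
  Set.ext fun x => (Sp.mem_range_incl h).trans (e ▸ and_iff_right x.val_mem)

omit [IsAct act S] [IsAct act S'] in
theorem Holo.Sp.isOpenEmbedding_incl (h : S' ⊆ S) (ho : ∃ U, IsOpen U ∧ S' = S ∩ U) :
    IsOpenEmbedding (Sp.incl act h) :=
  let ⟨_, a, b⟩ := ho
  ⟨Sp.isEmbedding_incl h, Sp.range_incl (act := act) h b ▸ a.preimage Sp.continuous_val⟩

theorem Quo.isClosedEmbedding_incl (h : S' ⊆ S) (hc : Clo S' S) :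
    IsClosedEmbedding (Quo.incl act h) :=
  let ⟨_, a, b⟩ := hc
  Orb.isQuo_sp.isClosedEmbedding Orb.isQuo_sp
    ⟨Sp.isEmbedding_incl h, Sp.range_incl (act := act) h b ▸ a.preimage Sp.continuous_val⟩ (Sp.incl_smul h)
    fun _ => rfl

theorem Quo.isOpenEmbedding_incl (h : S' ⊆ S) (ho : ∃ U, IsOpen U ∧ S' = S ∩ U) :
    IsOpenEmbedding (Quo.incl act h) :=
  Orb.isQuo_sp.isOpenEmbedding Orb.isQuo_sp (Sp.isOpenEmbedding_incl h ho) (Sp.incl_smul h)
    fun _ => rfl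

theorem orb_mono (ho : Orb.Orb Aˣ (Sp act S)) (h : S' ⊆ S) (hl : IsLocallyClosed S') :
    Orb.Orb Aˣ (Sp act S') :=
  haveI := FiniteDimensional.proper ℂ W
  haveI : LocallyCompactSpace S' := hl.locallyCompactSpace
  haveI : Nice (Sp act S') := ⟨inferInstance, inferInstance, inferInstance⟩
  ho.of_map (Sp.isEmbedding_incl h).continuous (Sp.incl_smul h)

theorem nice_of_orb (ho : Orb.Orb Aˣ (Sp act S)) : Nice (Quo act S) := Orb.isQuo_sp.nice ho

theorem eventually_fre (ho : Orb.Orb Aˣ (Sp act S)) {x : Sp act S} (h : Fre act x.val) :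
    ∀ᶠ y : Sp act S in 𝓝 x, Fre act y.val := by
  haveI := ho.proper
  obtain ⟨τ, -, a⟩ := ho.loc x
  obtain ⟨U, b, V, c, e⟩ := mem_nhds_prod_iff.1 a
  obtain ⟨N, f, k⟩ := Orb.exists_nhds_of_proper (t := x) isOpen_interior fun g hg =>
    show g ∈ interior U from Sp.free_iff.1 h g hg ▸ mem_interior_iff_mem_nhds.2 b
  filter_upwards [c, f] with y p q
  refine Sp.free_iff.2 fun g hg => ?_
  have := e (mk_mem_prod (interior_subset (k y q g (hg.symm ▸ q))) p)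
  rwa [mem_ofPred, hg, right_eq_mul] at this

theorem exists_isSlice (ho : Orb.Orb Aˣ (Sp act S)) {x : Sp act S}
    (h : IsMfd Sp.val (finrank ℂ A + d) x) :
    ∃ φ : (Fin d → ℂ) → Sp act S, Orb.IsSlice Aˣ Sp.val φ ∧ φ 0 = x :=
  haveI := FiniteDimensional.complete ℂ A
  haveI := FiniteDimensional.complete ℂ W
  let ⟨φ, a, b⟩ := Sp.exists_slK h (ho.finite_stabilizer x) rfl
  ⟨φ, isSlice_iff.2 (b.isSl isExp_expU), a⟩

theorem holOrb_of_orb (ho : Orb.Orb Aˣ (Sp act S))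
    (h : ∀ x : S, IsMfd (Subtype.val : S → W) (finrank ℂ A + d) x) :
    Orb.HolOrb Aˣ (Sp.val : Sp act S → W) d :=
  haveI := ho.proper
  haveI : LocallyCompactSpace S := ho.nice.lc
  Orb.holOrb_sp h ho.finite_stabilizer

end incl

namespace PtVal

variable [IsAct act S] {γ γ' : BM (Quo act S)} {x : Sp act S} {m m' : ℂ}

theorem zero : PtVal (0 : BM (Quo act S)) d x 0 := fun _ _ _ _ _ _ _ _ => by
  rw [ev_eq, zero_mul]; rfl

theorem add (h : PtVal γ d x m) (h' : PtVal γ' d x m') : PtVal (γ + γ') d x (m + m') :=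
  fun φ a b c e f g k => by rw [Orb.add_ev, h φ a b c e f g k, h' φ a b c e f g k, add_mul]

theorem smul (h : PtVal γ d x m) (c : ℂ) : PtVal (c • γ) d x (c * m) :=
  fun φ a b c e f g k => by rw [Orb.smul_ev, h φ a b c e f g k, mul_assoc]

theorem sum {ι : Type*} (s : Finset ι) {γ : ι → BM (Quo act S)} {m : ι → ℂ}
    (h : ∀ i ∈ s, PtVal (γ i) d x (m i)) : PtVal (∑ i ∈ s, γ i) d x (∑ i ∈ s, m i) :=
  fun φ a b c e f g k => by
    rw [Orb.sum_ev, Finset.sum_mul]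
    exact Finset.sum_congr rfl fun i hi => h i hi φ a b c e f g k

/-- one slice is enough -/
theorem of_slice (ho : Orb.Orb Aˣ (Sp act S)) {φ : (Fin d → ℂ) → Sp act S}
    (hφ : Orb.IsSlice Aˣ Sp.val φ) (h : ∀ a c, supp (δ a) = ∅ → supp a ⊆ {(φ 0).mk} →
      Orb.LocCo (pull (Sp.mk ∘ φ) a) c → ev γ a = m * c) : PtVal γ d (φ 0) m :=
  fun φ' h1 h2 a c h3 h4 h5 => by
    obtain ⟨θ, h6, h7, -⟩ := hφ.exists_trans h1 (g := 1) (by rw [one_smul, h2])
      (Orb.holAt_sp _ _) (Orb.holAt_sp _ _)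
    exact h a c h3 h4 (Orb.Rep.locCo ⟨θ, h6, h7.mono fun z ⟨g, hz⟩ =>
      (Sp.mk_eq_iff.2 ⟨g, hz.trans (one_smul _ _)⟩).symm⟩ h5)

variable [IsAct act S']

theorem pull_incl (e : S' ⊆ S) {γ : BM (Quo act S')} {x : Sp act S'} (hx : LH (Sp.incl act e) x)
    (h : PtVal γ d x m) {φ : (Fin d → ℂ) → Sp act S} (h1 : Orb.IsSlice Aˣ Sp.val φ)
    (h2 : φ 0 = Sp.incl act e x) {a : Coch (Quo act S)} {c : ℂ} (h3 : supp (δ a) = ∅)
    (h4 : supp a ⊆ {(Sp.incl act e x).mk}) (h5 : Orb.LocCo (pull (Sp.mk ∘ φ) a) c) :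
    ev γ (pull (Quo.incl act e) a) = m * c := by
  obtain ⟨φ', k1, k2, k3⟩ := h1.lift_lh (Sp.incl_smul e) hx h2
  have hi := Quo.isEmbedding_incl (act := act) e
  refine h φ' k1 k2 _ c (cocycle_pull hi.continuous h3)
    (fun y hy => hi.injective (h4 (supp_pull hi.continuous a hy))) ?_
  rw [pull_pull]
  exact h5.pull_congr (k3.mono fun z hz => congrArg Sp.mk hz)

variable (ho : Orb.Orb Aˣ (Sp act S)) (e : S' ⊆ S)
include ho

theorem push_of_mem (hc : Clo S' S) {γ : BM (Quo act S')} {x : Sp act S'} (hx : S' ∈ 𝓝[S] x.val)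
    (h : PtVal γ d x m) : PtVal (push (Quo.incl act e) γ) d (Sp.incl act e x) m :=
  fun _ h1 h2 _ _ h3 h4 h5 => (Orb.ev_push (.of_isClosedEmbedding (Quo.isClosedEmbedding_incl e hc))
    γ (Orb.Zc_of_pt h3 h4)).trans (h.pull_incl e (lh_inclusion x.val_mem e hx) h1 h2 h3 h4 h5)

theorem push_of_notMem (hc : Clo S' S) (γ : BM (Quo act S')) (hx : x.val ∉ S') :
    PtVal (push (Quo.incl act e) γ) d x 0 := fun _ _ _ a c h3 h4 _ => by
  have hi := Quo.isClosedEmbedding_incl (act := act) e hc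
  rw [Orb.ev_push (.of_isClosedEmbedding hi) γ (Orb.Zc_of_pt h3 h4), ev_eq,
    cls_of_mem_Bc (mem_Bc_of_null fun y hy => hx ((Quo.mk_mem_range e).1
      ⟨y, h4 (supp_pull hi.continuous a hy)⟩)), map_zero, zero_mul]

theorem res_iff (hO : ∃ U, IsOpen U ∧ S' = S ∩ U) {x : Sp act S'} :
    haveI := nice_of_orb ho
    PtVal (res (Quo.incl act e) γ) d x m ↔ PtVal γ d (Sp.incl act e x) m := by
  haveI := nice_of_orb ho
  have hj := Quo.isOpenEmbedding_incl (act := act) e hO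
  have hx := (Sp.isOpenEmbedding_incl (act := act) e hO).lh x
  refine ⟨fun h φ h1 h2 a c h3 h4 h5 => ?_, fun h φ h1 h2 a c h3 h4 h5 => ?_⟩
  · rw [← Orb.ev_res hj γ (Orb.Zc_of_pt h3 h4) (h4.trans (singleton_subset_iff.2 ⟨x.mk, rfl⟩))]
    exact h.pull_incl e hx h1 h2 h3 h4 h5
  · subst h2
    obtain ⟨b, h6, h7, h8⟩ := exists_ext_open' hj (Orb.Zc_of_pt h3 h4)
    rw [← Orb.ev_congr _ h8, Orb.ev_res hj γ h6 (h7.trans (image_subset_range _ _))]
    refine h _ (h1.push_lh (Sp.incl_smul e) hx) rfl b c h6.2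
      (h7.trans (image_subset_iff.2 fun y hy => congrArg (Quo.incl act e) (h4 hy))) ?_
    have := h5.of_van (Sp.continuous_mk.continuousAt.comp h1.cont) (h8 _)
    rwa [pull_pull] at this

end PtVal

section fund

variable [IsAct act S]

theorem Tpc.isAct (h : Tpc act S M d) : IsAct act M := IsAct.mono ‹_› h.sub h.inv

theorem Tpc.isAct_diff (h : Tpc act S M d) : IsAct act (S \ M) :=
  IsAct.mono ‹_› sdiff_subset h.inv.diff

omit [IsAct act S] in
theorem Tpc.clo (h : Tpc act S M d) : Clo (S \ M) S :=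
  let ⟨U, a, b⟩ := h.opn
  ⟨Uᶜ, a.isClosed_compl, by rw [b, sdiff_self_inter, sdiff_eq]⟩

omit [IsAct act S] in
theorem Tpc.lcM (h : Tpc act S M d) : IsLocallyClosed M :=
  let ⟨_, a, b⟩ := h.opn
  b ▸ h.lc.inter a.isLocallyClosed

omit [IsAct act S] in
theorem Tpc.mem_nhds (h : Tpc act S M d) {x : W} (hx : x ∈ M) : M ∈ 𝓝[S] x :=
  let ⟨_, a, b⟩ := h.opn
  b ▸ inter_mem_nhdsWithin _ (a.mem_nhds (b.le hx).2)

theorem Tpc.range_incl (h : Tpc act S M d) [IsAct act M] [IsAct act (S \ M)] :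
    range (Quo.incl act h.sub) = (range (Quo.incl act (sdiff_subset : S \ M ⊆ S)))ᶜ := by
  ext z
  obtain ⟨x, rfl⟩ := Sp.surjective_mk z
  rw [mem_compl_iff, Quo.mk_mem_range, Quo.mk_mem_range, Set.mem_sdiff, and_iff_right x.val_mem, not_not]

omit [IsAct act S] in
theorem Str.dense_fre (h : Str act M d) : Dense {x : Sp act M | Fre act x.val} := dense_sp h.free

variable (ho : Orb.Orb Aˣ (Sp act S))
include ho

theorem Tpc.holOrb (h : Tpc act S M d) [IsAct act M] : Orb.HolOrb Aˣ (Sp.val : Sp act M → W) d :=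
  holOrb_of_orb (orb_mono ho h.sub h.lcM) h.mfd

theorem Tpc.cd_diff (h : Tpc act S M d) [IsAct act (S \ M)] :
    Orb.CD (2 * d - 2) (range (Quo.incl act (sdiff_subset : S \ M ⊆ S))) :=
  Quo.range_incl (act := act) (sdiff_subset : S \ M ⊆ S) ▸
    DimLt.cd ho ivt_inter (h.small.mono inter_subset_right)

theorem Tpc.top (h : Tpc act S M d) [IsAct act (S \ M)] : Top (Quo act (S \ M)) (2 * d - 2) :=
  haveI := nice_of_orb ho
  have hi := Quo.isClosedEmbedding_incl (act := act) sdiff_subset h.clo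
  (h.cd_diff ho).top hi.isEmbedding hi.isClosed_range.isLocallyClosed Subset.rfl

theorem Tpc.cd (h : Tpc act S M d) : Orb.CD (2 * d) (univ : Set (Quo act S)) := by
  haveI := nice_of_orb ho
  haveI := h.isAct
  haveI := h.isAct_diff
  have hj := Quo.isOpenEmbedding_incl (act := act) h.sub h.opn
  rw [← compl_union_self (range (Quo.incl act (sdiff_subset : S \ M ⊆ S))), ← h.range_incl]
  exact Orb.CD.union hj.isOpen_range.isLocallyClosed
    (Quo.isClosedEmbedding_incl sdiff_subset h.clo).isClosed_range.isLocallyClosed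
    (((h.holOrb ho).cd Orb.isQuo_sp).range_emb hj.isEmbedding) ((h.cd_diff ho).le (by omega))

theorem Tpc.eq_of_ptVal' (h : Tpc act S M d) {γ γ' : BM (Quo act S)} (hγ : BM.IsDeg (2 * d) γ)
    (hγ' : BM.IsDeg (2 * d) γ') {B : Set W} (hB : DimLt (finrank ℂ A + d) B)
    (e : ∀ x : Sp act S, x.val ∈ M → x.val ∉ B → Fre act x.val →
      ∃ m, PtVal γ d x m ∧ PtVal γ' d x m) : γ = γ' := by
  haveI := nice_of_orb ho
  haveI := h.isAct
  haveI := h.isAct_diff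
  have hM := h.holOrb ho
  haveI := hM.niceX Orb.isQuo_sp
  refine Orb.eq_of_res_of_top (Quo.isClosedEmbedding_incl sdiff_subset h.clo)
    (Quo.isOpenEmbedding_incl h.sub h.opn) h.range_incl ((h.top ho).mono (by omega)) hγ hγ' ?_
  have hD : Dense ({x : Sp act M | x.val ∈ Bᶜ} ∩ {x | Fre act x.val}) :=
    (dense_sp (hB.dense h.mfd)).inter_of_isOpen_right h.dense_fre
      (isOpen_iff_mem_nhds.2 fun _ => eventually_fre hM.orb)
  rw [← sub_eq_zero, (hM.ori Orb.isQuo_sp).eq_smul (Orb.isDeg_sub (hγ.res _) (hγ'.res _)) (l := 0)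
    (Orb.isQuo_sp.meets hD) ?_, zero_smul]
  rintro _ ⟨x, hx, rfl⟩
  obtain ⟨φ, h1, rfl⟩ := hM.slice x
  obtain ⟨a, h2, h3⟩ := (hM.gch Orb.isQuo_sp h1).gen
  obtain ⟨m, h4, h5⟩ := e (Sp.incl act h.sub (φ 0)) (φ 0).val_mem hx.1 hx.2
  refine ⟨a, h2.cyc, h2.pt, right_ne_zero_of_mul_eq_one
    (hM.val Orb.isQuo_sp h1 a 1 h2.cyc h2.pt h3), ?_⟩
  rw [Orb.sub_ev, (PtVal.res_iff ho h.sub h.opn).2 h4 φ h1 rfl a 1 h2.cyc h2.pt h3,
    (PtVal.res_iff ho h.sub h.opn).2 h5 φ h1 rfl a 1 h2.cyc h2.pt h3, sub_self, zero_mul]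

/-- **uniqueness** -/
theorem Tpc.eq_of_ptVal (h : Tpc act S M d) {γ γ' : BM (Quo act S)} (hγ : BM.IsDeg (2 * d) γ)
    (hγ' : BM.IsDeg (2 * d) γ') {B : Set W} (hB : DimLt (finrank ℂ A + d) B) (hc : IsClosed B)
    (e : ∀ x : Sp act S, x.val ∈ M → x.val ∉ B → Fre act x.val →
      ∃ m, PtVal γ d x m ∧ PtVal γ' d x m) : γ = γ' := h.eq_of_ptVal' ho hγ hγ' hB e

omit ho [IsAct act S] in
theorem Cyc.dense_range (h : Cyc act S M d) : Dense (range (Sp.incl act h.sub)) :=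
  Sp.range_incl (act := act) h.sub (inter_eq_right.2 h.sub).symm ▸
    dense_sp ((inter_eq_right.2 h.sub).symm ▸ h.dense)

theorem Cyc.isFund_slCh (h : Cyc act S M d) :
    Orb.IsFund (Orb.slCh Aˣ Sp.val Sp.mk d) (fnd act S d) :=
  haveI := nice_of_orb ho
  haveI := h.isAct
  haveI := h.isAct_diff
  haveI := ho.proper
  haveI : LocallyCompactSpace S := ho.nice.lc
  Orb.preOrb_sp.isFund_of_top (h.holOrb ho) Orb.isQuo_sp Orb.isQuo_sp
    (Sp.isOpenEmbedding_incl h.sub h.opn) (Sp.incl_smul h.sub) (fun _ => rfl) h.dense_range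
    (Quo.isClosedEmbedding_incl sdiff_subset h.clo) h.range_incl (h.top ho)

theorem Cyc.isFund (h : Cyc act S M d) : IsFund act S (fnd act S d) :=
  haveI := h.isAct
  haveI := h.isAct_diff
  haveI := ho.proper
  haveI : LocallyCompactSpace S := ho.nice.lc
  Orb.isFund_of_top (h.holOrb ho) Orb.isQuo_sp
    (Sp.isOpenEmbedding_incl h.sub h.opn) (Sp.incl_smul h.sub) (fun _ => rfl) h.dense_range
    (Quo.isClosedEmbedding_incl sdiff_subset h.clo) h.range_incl (h.top ho)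

theorem Cyc.eq_fnd (h : Cyc act S M d) {β : BM (Quo act S)} (hβ : IsFund act S β) :
    β = fnd act S d :=
  haveI := h.isAct
  haveI := h.isAct_diff
  haveI := ho.proper
  haveI : LocallyCompactSpace S := ho.nice.lc
  hβ.eq_of_top (j := Sp.incl act h.sub) (h.holOrb ho) Orb.isQuo_sp
    (Sp.isOpenEmbedding_incl h.sub h.opn) (Sp.incl_smul h.sub) (fun _ => rfl)
    (Orb.isQuo_sp.meets (h.dense_fre.mono fun _ => Sp.free_iff.1)) h.dense_range
    (Quo.isClosedEmbedding_incl sdiff_subset h.clo) h.range_incl (h.top ho)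

theorem Cyc.deg (h : Cyc act S M d) : BM.IsDeg (2 * d) (fnd act S d) := (h.isFund_slCh ho).1

theorem Cyc.val (h : Cyc act S M d) {φ : (Fin d → ℂ) → Sp act S} (hφ : Orb.IsSlice Aˣ Sp.val φ) :
    Orb.Val (fnd act S d) (Sp.mk ∘ φ) (Orb.stab Aˣ (φ 0)) :=
  (h.isFund_slCh ho).2 _ _ ⟨φ, hφ, rfl, rfl⟩

theorem Cyc.ptVal (h : Cyc act S M d) {x : Sp act S} (hx : Fre act x.val) :
    PtVal (fnd act S d) d x 1 := fun φ h1 h2 a c h3 h4 h5 => by
  subst h2
  have := h.val ho h1 a c h3 h4 h5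
  rwa [Orb.stab_eq_one (Sp.free_iff.1 hx), Nat.cast_one, one_mul, ← one_mul c] at this

theorem Cyc.res_fnd [IsAct act S'] (h : Cyc act S M d) (e : S' ⊆ S)
    (hO : ∃ U, IsOpen U ∧ S' = S ∩ U) :
    haveI := nice_of_orb ho
    res (Quo.incl act e) (fnd act S d) = fnd act S' d := by
  haveI := nice_of_orb ho
  obtain ⟨U, hU, rfl⟩ := id hO
  have h' := h.inter hU IsAct.mem
  have ho' := orb_mono ho e h'.lc
  haveI := nice_of_orb ho'
  exact h'.eq_of_ptVal' ho' ((h.deg ho).res _) (h'.deg ho') (dimLt_empty _) fun x _ _ hx =>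
    ⟨1, (PtVal.res_iff ho e hO).2 (h.ptVal ho hx), h'.ptVal ho' hx⟩

open Classical in
/-- **decomposition** of a class of top degree -/
theorem Tpc.eq_sum (h : Tpc act S M d) {ι : Type} (s : Finset ι) {T N : ι → Set W}
    [∀ i, IsAct act (T i)] (hT : ∀ i ∈ s, Cyc act (T i) (N i) d) (e : ∀ i, T i ⊆ S)
    (hc : ∀ i ∈ s, Clo (T i) S) (hN : ∀ i ∈ s, N i ⊆ M) (c : ι → ℂ) {γ : BM (Quo act S)}
    (hγ : BM.IsDeg (2 * d) γ) (hv : ∀ x : Sp act S, x.val ∈ M → Fre act x.val →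
      PtVal γ d x (∑ i ∈ s with x.val ∈ N i, c i)) :
    γ = ∑ i ∈ s, c i • push (Quo.incl act (e i)) (fnd act (T i) d) := by
  have ho' := fun i hi => orb_mono ho (e i) (hT i hi).lc
  haveI := nice_of_orb ho
  refine h.eq_of_ptVal' ho hγ (Orb.isDeg_sum fun i hi => haveI := nice_of_orb (ho' i hi)
    Orb.isDeg_smul (((hT i hi).deg (ho' i hi)).push _) _)
    (DimLt.iUnion fun i : s => (hT i i.2).small) fun x h1 h2 h3 => ⟨_, hv x h1 h3, ?_⟩
  rw [Finset.sum_filter]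
  refine PtVal.sum s fun i hi => ?_
  split_ifs with h4
  · have := (PtVal.push_of_mem ho (e i) (hc i hi) (x := Sp.of act _ ((hT i hi).sub h4))
      (mem_of_superset (nhdsWithin_le_iff.2 (h.mem_nhds h1)
        (mem_nhdsWithin_of_mfd h.mfd (hT i hi).mfd (hN i hi) h4)) (hT i hi).sub)
      ((hT i hi).ptVal (ho' i hi) h3)).smul (c i)
    rwa [mul_one] at this
  · have := (PtVal.push_of_notMem (d := d) ho (e i) (hc i hi) (fnd act (T i) d)
      fun a => h2 (mem_iUnion.2 ⟨⟨i, hi⟩, a, h4⟩)).smul (c i)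
    rwa [mul_zero] at this

end fund

end Vale.Agent.P269
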