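import Vale.Agent.P281.MF.Hol

/-!
# Finite projections of analytic sets
-/

namespace Vale.Agent.P269.An

open Set Function Topology Filter Metric

namespace Nrm

/-- Division by the zero at `b`. -/
theorem factor {K : Set ℂ} {f : ℂ → ℂ} (hf : AnalyticOnNhd ℂ f K) {b : ℂ} (hb : b ∈ K)
    (hne : ¬∀ᶠ t in 𝓝 b, f t = 0) :
    ∃ (m : ℕ) (g : ℂ → ℂ), AnalyticOnNhd ℂ g K ∧ g b ≠ 0 ∧ ∀ t, f t = (t - b) ^ m * g t := by
  obtain ⟨p, hp⟩ := hf b hb
  have h0 : p ≠ 0 := fun h => hne (hp.locally_zero_iff.2 h)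
  have he := hp.eq_pow_order_mul_iterate_dslope
  refine ⟨p.order, (swap dslope b)^[p.order] f, fun t ht => ?_,
    hp.iterate_dslope_fslope_ne_zero h0, he⟩
  by_cases h : t = b
  · subst h
    exact ⟨_, hp.has_fpower_series_iterate_dslope_fslope p.order⟩
  · have h1 : AnalyticAt ℂ (fun s => f s / (s - b) ^ p.order) t :=
      (hf t ht).div (by fun_prop) (pow_ne_zero _ (sub_ne_zero.2 h))
    refine h1.congr ?_
    filter_upwards [isOpen_ne.mem_nhds h] with s hs
    rw [he s, smul_eq_mul, mul_div_cancel_left₀ _ (pow_ne_zero _ (sub_ne_zero.2 hs))]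

/-- `Z` is the list of the zeros of `f` in the disc, with multiplicities. -/
def AP (r : ℝ) (f : ℂ → ℂ) (Z : Multiset ℂ) : Prop :=
  (∀ z, z ∈ Z ↔ ‖z‖ < r ∧ f z = 0) ∧ ∀ φ : ℂ → ℂ, AnalyticOnNhd ℂ φ (closedBall 0 r) →
    (∮ t in C(0, r), φ t * (deriv f t / f t)) = 2 * Real.pi * Complex.I * (Z.map φ).sum

variable {r : ℝ} {f g : ℂ → ℂ} {Z : Multiset ℂ} {b : ℂ}

theorem ap_zero (hr : 0 < r) (hf : AnalyticOnNhd ℂ f (closedBall 0 r))
    (h : ∀ z ∈ closedBall (0 : ℂ) r, f z ≠ 0) : AP r f 0 := by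
  refine ⟨fun z => ⟨fun h => absurd h (Multiset.notMem_zero z), fun hz =>
    (h z (mem_closedBall_zero_iff.2 hz.1.le) hz.2).elim⟩, fun φ hφ => ?_⟩
  have hd : ∀ t ∈ closedBall (0 : ℂ) r, AnalyticAt ℂ (fun t => φ t * (deriv f t / f t)) t :=
    fun t ht => (hφ t ht).mul ((hf t ht).deriv.div (hf t ht) (h t ht))
  rw [Multiset.map_zero, Multiset.sum_zero, mul_zero]
  exact Complex.circleIntegral_eq_zero_of_differentiable_on_off_countable hr.le countable_empty
    (fun t ht => (hd t ht).continuousAt.continuousWithinAt)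
    (fun t ht => (hd t (ball_subset_closedBall ht.1)).differentiableAt)

theorem ne_of_sphere (hb : ‖b‖ < r) {t : ℂ} (ht : t ∈ sphere (0 : ℂ) r) : t - b ≠ 0 := by
  rw [sub_ne_zero]
  rintro rfl
  exact hb.ne (mem_sphere_zero_iff_norm.1 ht)

theorem AP.cons (hr : 0 < r) (hg : AnalyticOnNhd ℂ g (closedBall 0 r))
    (h0 : ∀ z ∈ sphere (0 : ℂ) r, g z ≠ 0) (hb : ‖b‖ < r) (h : AP r g Z) :
    AP r (fun t => (t - b) * g t) (b ::ₘ Z) := by
  refine ⟨fun z => ?_, fun φ hφ => ?_⟩
  · rw [Multiset.mem_cons, h.1, mul_eq_zero, sub_eq_zero]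
    constructor
    · rintro (rfl | h)
      · exact ⟨hb, .inl rfl⟩
      · exact ⟨h.1, .inr h.2⟩
    · rintro ⟨h1, h2 | h2⟩
      · exact .inl h2
      · exact .inr ⟨h1, h2⟩
  · have h1 : EqOn (fun t => φ t * (deriv (fun t => (t - b) * g t) t / ((t - b) * g t)))
        (fun t => (t - b)⁻¹ • φ t + φ t * (deriv g t / g t)) (sphere 0 r) := by
      intro t ht
      have h2 := h0 t ht
      have h3 := ne_of_sphere hb ht
      have h5 : HasDerivAt (fun t => (t - b) * g t) (1 * g t + (t - b) * deriv g t) t :=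
        ((hasDerivAt_id t).sub_const b).mul
          (hg t (sphere_subset_closedBall ht)).differentiableAt.hasDerivAt
      simp only [h5.deriv, smul_eq_mul]
      field_simp
    have hi1 : CircleIntegrable (fun t => (t - b)⁻¹ • φ t) 0 r := by
      refine ContinuousOn.circleIntegrable hr.le fun t ht => ContinuousAt.continuousWithinAt ?_
      exact ((by fun_prop : ContinuousAt (fun t : ℂ => t - b) t).inv₀ (ne_of_sphere hb ht)).smul
        (hφ t (sphere_subset_closedBall ht)).continuousAt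
    have hi2 : CircleIntegrable (fun t => φ t * (deriv g t / g t)) 0 r := by
      refine ContinuousOn.circleIntegrable hr.le fun t ht => ContinuousAt.continuousWithinAt ?_
      have h3 := hg t (sphere_subset_closedBall ht)
      exact (hφ t (sphere_subset_closedBall ht)).continuousAt.mul
        (h3.deriv.continuousAt.div h3.continuousAt (h0 t ht))
    rw [circleIntegral.integral_congr hr.le h1, circleIntegral.integral_add hi1 hi2, h.2 φ hφ,
      hφ.differentiableOn.circleIntegral_sub_inv_smul (mem_ball_zero_iff.2 hb), Multiset.map_cons,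
      Multiset.sum_cons, smul_eq_mul, mul_add]

theorem AP.pow (hr : 0 < r) (hg : AnalyticOnNhd ℂ g (closedBall 0 r))
    (h0 : ∀ z ∈ sphere (0 : ℂ) r, g z ≠ 0) (hb : ‖b‖ < r) (h : AP r g Z) (m : ℕ) :
    ∃ Z', AP r (fun t => (t - b) ^ m * g t) Z' := by
  induction m with
  | zero => exact ⟨Z, by simpa only [pow_zero, one_mul] using h⟩
  | succ m ih =>
    obtain ⟨Z', h'⟩ := ih
    refine ⟨b ::ₘ Z', ?_⟩
    have e : (fun t => (t - b) ^ (m + 1) * g t) = fun t => (t - b) * ((t - b) ^ m * g t) := by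
      funext t
      ring
    rw [e]
    exact h'.cons hr (fun t ht => AnalyticAt.mul (by fun_prop) (hg t ht))
      (fun t ht => mul_ne_zero (pow_ne_zero _ (ne_of_sphere hb ht)) (h0 t ht)) hb

theorem not_eqOn (hr : 0 < r) (h0 : ∀ z ∈ sphere (0 : ℂ) r, f z ≠ 0) :
    ¬EqOn f 0 (closedBall 0 r) := fun h => by
  obtain ⟨t, ht⟩ : (sphere (0 : ℂ) r).Nonempty := NormedSpace.sphere_nonempty.2 hr.le
  exact h0 t ht (h (sphere_subset_closedBall ht))

theorem exists_ap_aux (hr : 0 < r) (S : Finset ℂ) : ∀ f : ℂ → ℂ,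
    AnalyticOnNhd ℂ f (closedBall 0 r) → (∀ z ∈ sphere (0 : ℂ) r, f z ≠ 0) →
      (∀ z ∈ closedBall (0 : ℂ) r, f z = 0 → z ∈ S) → ∃ Z, AP r f Z := by
  classical
  induction S using Finset.induction_on with
  | empty => exact fun f hf _ h => ⟨0, ap_zero hr hf fun z hz h0 => by simpa using h z hz h0⟩
  | insert b S _ ih =>
    intro f hf h0 h
    by_cases hb : ‖b‖ < r
    · have hb' : b ∈ closedBall (0 : ℂ) r := mem_closedBall_zero_iff.2 hb.le
      obtain ⟨m, g, hg, hgb, e⟩ := factor hf hb' fun h' => not_eqOn hr h0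
        (hf.eqOn_zero_of_preconnected_of_eventuallyEq_zero (convex_closedBall 0 r).isPreconnected
          hb' h')
      have h0' : ∀ z ∈ sphere (0 : ℂ) r, g z ≠ 0 := fun z hz h' =>
        h0 z hz (by rw [e, h', mul_zero])
      obtain ⟨Z, hZ⟩ := ih g hg h0' fun z hz h' => by
        rcases Finset.mem_insert.1 (h z hz (by rw [e, h', mul_zero])) with rfl | h1
        · exact (hgb h').elim
        · exact h1
      rw [show f = fun t => (t - b) ^ m * g t from funext e]
      exact hZ.pow hr hg h0' hb m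
    · refine ih f hf h0 fun z hz h' => ?_
      rcases Finset.mem_insert.1 (h z hz h') with rfl | h1
      · exact (h0 z (mem_sphere_zero_iff_norm.2
          ((mem_closedBall_zero_iff.1 hz).antisymm (not_lt.1 hb))) h').elim
      · exact h1

/-- The argument principle. -/
theorem exists_ap (hr : 0 < r) (hf : AnalyticOnNhd ℂ f (closedBall 0 r))
    (h0 : ∀ z ∈ sphere (0 : ℂ) r, f z ≠ 0) : ∃ Z, AP r f Z := by
  have h1 := (hf.eqOn_zero_or_eventually_ne_zero_of_preconnected
    (convex_closedBall 0 r).isPreconnected).resolve_left (not_eqOn hr h0)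
  have h2 := (isCompact_closedBall (0 : ℂ) r).finite_sdiff_of_mem_codiscreteWithin h1
  exact exists_ap_aux hr h2.toFinset f hf h0 fun z hz h' =>
    h2.mem_toFinset.2 ⟨hz, fun h'' => h'' h'⟩

/-- Newton's identities. -/
theorem newton (s : Multiset ℂ) (k : ℕ) : k * s.esymm k = (-1) ^ (k + 1) *
    ∑ a ∈ Finset.HasAntidiagonal.antidiagonal k with a.1 < k, (-1) ^ a.1 * s.esymm a.1 * (s.map (· ^ a.2)).sum := by
  classical
  have h := congrArg (MvPolynomial.aeval fun x : s => (x : ℂ)) (MvPolynomial.mul_esymm_eq_sum s ℂ k)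
  have h1 : ∀ n, MvPolynomial.aeval (fun x : s => (x : ℂ)) (MvPolynomial.psum s ℂ n) =
      (s.map (· ^ n)).sum := fun n => by
    rw [MvPolynomial.psum, map_sum]
    simp only [map_pow, MvPolynomial.aeval_X]
    conv_rhs => rw [← Multiset.map_univ_coe s, Multiset.map_map]
    rfl
  simpa only [map_mul, map_natCast, map_pow, map_neg, map_one, map_sum, h1,
    MvPolynomial.aeval_esymm_eq_multiset_esymm, Multiset.map_univ_coe] using h

variable {E : Type} [NormedAddCommGroup E] [NormedSpace ℂ E]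

/-- The product of a family of numbers with analytic power sums is analytic. -/
theorem analyticAt_prod {s : E → Multiset ℂ} {y : E}
    (h : ∀ m : ℕ, AnalyticAt ℂ (fun x => ((s x).map (· ^ m)).sum) y) :
    AnalyticAt ℂ (fun x => (s x).prod) y := by
  have h1 : ∀ k, AnalyticAt ℂ (fun x => (s x).esymm k) y := by
    intro k
    induction k using Nat.strong_induction_on with
    | _ k ih =>
      rcases Nat.eq_zero_or_pos k with rfl | hk
      · simpa only [Multiset.esymm, Multiset.powersetCard_zero_left, Multiset.map_singleton,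
          Multiset.prod_zero, Multiset.sum_singleton] using analyticAt_const
      · have hk' : (k : ℂ) ≠ 0 := Nat.cast_ne_zero.2 hk.ne'
        have e : (fun x => (s x).esymm k) = fun x => (k : ℂ)⁻¹ * ((-1) ^ (k + 1) *
            ∑ a ∈ Finset.HasAntidiagonal.antidiagonal k with a.1 < k,
              (-1) ^ a.1 * (s x).esymm a.1 * ((s x).map (· ^ a.2)).sum) := by
          funext x
          rw [← newton, inv_mul_cancel_left₀ hk']
        rw [e]
        exact analyticAt_const.mul (analyticAt_const.mul (Finset.analyticAt_fun_sum _ fun a ha =>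
          (analyticAt_const.mul (ih _ (Finset.mem_filter.1 ha).2)).mul (h _)))
  have h2 : ContinuousAt (fun x => (((s x).card : ℝ) : ℂ)) y := by
    simpa only [pow_zero, Multiset.map_const', Multiset.sum_replicate, nsmul_one,
      Complex.ofReal_natCast] using (h 0).continuousAt
  have h3 : ContinuousAt (fun x => (s x).card) y :=
    Nat.isClosedEmbedding_coe_real.isInducing.continuousAt_iff.2
      (Complex.isUniformEmbedding_ofReal.isEmbedding.isInducing.continuousAt_iff.2 h2)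
  refine (h1 (s y).card).congr ?_
  filter_upwards [h3.eventually (isOpen_discrete {(s y).card} |>.mem_nhds rfl)] with x hx
  rw [← show (s x).card = (s y).card from hx, Multiset.esymm, Multiset.powersetCard_self,
    Multiset.map_singleton, Multiset.sum_singleton]

/-- Integrals which depend on a parameter. -/
theorem analyticAt_integral [FiniteDimensional ℂ E] {G : E × ℂ → ℂ} {y : E} (hr : 0 ≤ r)
    (h : ∀ t ∈ sphere (0 : ℂ) r, AnalyticAt ℂ G (y, t)) :
    AnalyticAt ℂ (fun x => ∮ t in C(0, r), G (x, t)) y := by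
  obtain ⟨U, W, hU, hW, h1, h2, h3⟩ := generalized_tube_lemma (isCompact_singleton (x := y))
    (isCompact_sphere (0 : ℂ) r) (isOpen_analyticAt ℂ G) (by
      rintro ⟨x, t⟩ ⟨rfl, ht⟩
      exact h t ht)
  exact P281.MF.analyticAt_of_differentiableOn hU (P281.MF.differentiableOn_circleIntegral hr hU hW
    h2 fun q hq => (show AnalyticAt ℂ G q from h3 hq).differentiableAt.differentiableWithinAt)
    (h1 rfl)

theorem slice {g : E × ℂ → ℂ} {y : E} {t : ℂ} (h : AnalyticAt ℂ g (y, t)) :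
    AnalyticAt ℂ (fun s => g (y, s)) t :=
  h.comp₂ analyticAt_const analyticAt_id

theorem deriv_slice {g : E × ℂ → ℂ} {y : E} {t : ℂ} (h : AnalyticAt ℂ g (y, t)) :
    deriv (fun s => g (y, s)) t = fderiv ℂ g (y, t) (0, 1) :=
  (h.differentiableAt.hasFDerivAt.comp_hasDerivAt t
    ((hasDerivAt_const t y).prodMk (hasDerivAt_id t))).deriv

end Nrm

variable {E : Type} [NormedAddCommGroup E] [NormedSpace ℂ E] [FiniteDimensional ℂ E] {U : Set E}
  {r : ℝ} {g : E × ℂ → ℂ}

/-- The zeros of `g (y, ·)`, listed with multiplicities, have analytic symmetric functions. -/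
theorem exists_roots (hU : IsOpen U) (hr : 0 < r)
    (hg : AnalyticOnNhd ℂ g (U ×ˢ closedBall 0 r)) (h0 : ∀ y ∈ U, ∀ z, ‖z‖ = r → g (y, z) ≠ 0) :
    ∃ Z : E → Multiset ℂ, (∀ y ∈ U, ∀ z, z ∈ Z y ↔ ‖z‖ < r ∧ g (y, z) = 0) ∧
      ∀ h : E × ℂ → ℂ, AnalyticOnNhd ℂ h (U ×ˢ closedBall 0 r) →
        AnalyticOnNhd ℂ (fun y => ((Z y).map fun z => h (y, z)).sum) U := by
  have h1 : ∀ y, ∃ Z, y ∈ U → Nrm.AP r (fun z => g (y, z)) Z := fun y => by
    by_cases hy : y ∈ U
    · obtain ⟨Z, hZ⟩ := Nrm.exists_ap hr (f := fun z => g (y, z))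
        (fun z hz => Nrm.slice (hg _ ⟨hy, hz⟩)) fun z hz => h0 y hy z (mem_sphere_zero_iff_norm.1 hz)
      exact ⟨Z, fun _ => hZ⟩
    · exact ⟨0, fun h => (hy h).elim⟩
  choose Z hZ using h1
  refine ⟨Z, fun y hy => (hZ y hy).1, fun h hh y hy => ?_⟩
  have hc : CompleteSpace E := FiniteDimensional.complete ℂ E
  have h2 := Nrm.analyticAt_integral (G := fun q => h q * (fderiv ℂ g q (0, 1) / g q)) (y := y)
    hr.le fun t ht => by
      have h3 := hg (y, t) ⟨hy, sphere_subset_closedBall ht⟩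
      exact (hh (y, t) ⟨hy, sphere_subset_closedBall ht⟩).mul
        ((((ContinuousLinearMap.apply ℂ ℂ ((0 : E), (1 : ℂ))).analyticAt _).comp h3.fderiv).div h3
          (h0 y hy t (mem_sphere_zero_iff_norm.1 ht)))
  refine ((analyticAt_const (v := (2 * Real.pi * Complex.I)⁻¹)).mul h2).congr ?_
  filter_upwards [hU.mem_nhds hy] with x hx
  have h4 := (hZ x hx).2 (fun z => h (x, z)) fun z hz => Nrm.slice (hh _ ⟨hx, hz⟩)
  have h5 : EqOn (fun t => h (x, t) * (fderiv ℂ g (x, t) (0, 1) / g (x, t)))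
      (fun t => h (x, t) * (deriv (fun s => g (x, s)) t / g (x, t))) (sphere 0 r) := fun t ht => by
    simp only [Nrm.deriv_slice (hg (x, t) ⟨hx, sphere_subset_closedBall ht⟩)]
  rw [Pi.mul_apply, circleIntegral.integral_congr hr.le h5, h4,
    inv_mul_cancel_left₀ Complex.two_pi_I_ne_zero]

/-- the norm of `h` for the branched covering `g = 0` -/
theorem exists_norm (hU : IsOpen U) (_hc : IsPreconnected U) (hr : 0 < r)
    (hg : AnalyticOnNhd ℂ g (U ×ˢ closedBall 0 r)) (h0 : ∀ y ∈ U, ∀ z, ‖z‖ = r → g (y, z) ≠ 0)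
    {h : E × ℂ → ℂ} (hh : AnalyticOnNhd ℂ h (U ×ˢ closedBall 0 r)) :
    ∃ N : E → ℂ, AnalyticOnNhd ℂ N U ∧
      ∀ y ∈ U, N y = 0 ↔ ∃ z, ‖z‖ < r ∧ g (y, z) = 0 ∧ h (y, z) = 0 := by
  obtain ⟨Z, h1, h2⟩ := exists_roots hU hr hg h0
  refine ⟨fun y => ((Z y).map fun z => h (y, z)).prod, fun y hy =>
    Nrm.analyticAt_prod fun m => ?_, fun y hy => ?_⟩
  · simpa only [Multiset.map_map, Function.comp_def] using
      h2 (fun q => h q ^ m) (fun q hq => (hh q hq).fun_pow m) y hy
  · simp only [Multiset.prod_eq_zero_iff, Multiset.mem_map, h1 y hy, and_assoc]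

/-- the projection of an analytic set is analytic -/
theorem exists_proj (hU : IsOpen U) (hc : IsPreconnected U) (hr : 0 < r)
    (hg : AnalyticOnNhd ℂ g (U ×ˢ closedBall 0 r)) (h0 : ∀ y ∈ U, ∀ z, ‖z‖ = r → g (y, z) ≠ 0)
    {G : Set (E × ℂ → ℂ)} (hG : ∀ h ∈ G, AnalyticOnNhd ℂ h (U ×ˢ closedBall 0 r)) :
    ∃ G' : Set (E → ℂ), (∀ N ∈ G', AnalyticOnNhd ℂ N U) ∧
      ∀ y ∈ U, (∀ N ∈ G', N y = 0) ↔ ∃ z, ‖z‖ < r ∧ g (y, z) = 0 ∧ ∀ h ∈ G, h (y, z) = 0 := by
  have hS : ∀ h ∈ Submodule.span ℂ G, AnalyticOnNhd ℂ h (U ×ˢ closedBall 0 r) := fun h hh => by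
    induction hh using Submodule.span_induction with
    | mem h hh => exact hG h hh
    | zero => exact analyticOnNhd_const
    | add _ _ _ _ h1 h2 => exact h1.add h2
    | smul c _ _ h1 => exact h1.const_smul
  refine ⟨{N | AnalyticOnNhd ℂ N U ∧ ∃ h ∈ Submodule.span ℂ G,
    ∀ y ∈ U, N y = 0 ↔ ∃ z, ‖z‖ < r ∧ g (y, z) = 0 ∧ h (y, z) = 0}, fun N hN => hN.1,
    fun y hy => ⟨fun H => ?_, ?_⟩⟩
  · obtain ⟨Z, h1, -⟩ := exists_roots hU hr hg h0
    have hf : Finite {z // z ∈ Z y} := (Z y).finite_toSet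
    obtain ⟨z, hz⟩ := Subspace.exists_eq_top_of_iUnion_eq_univ
      (p := fun z : {z // z ∈ Z y} => LinearMap.ker
        ((LinearMap.proj (R := ℂ) (φ := fun _ : E × ℂ => ℂ) (y, z.1)).comp
          (Submodule.span ℂ G).subtype)) (eq_univ_of_forall fun h => by
        obtain ⟨N, hN, hN'⟩ := exists_norm hU hc hr hg h0 (hS h.1 h.2)
        obtain ⟨z, z1, z2, z3⟩ := (hN' y hy).1 (H N ⟨hN, h.1, h.2, hN'⟩)
        exact mem_iUnion.2 ⟨⟨z, (h1 y hy z).2 ⟨z1, z2⟩⟩, z3⟩)
    obtain ⟨z1, z2⟩ := (h1 y hy z.1).1 z.2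
    refine ⟨z.1, z1, z2, fun h hh => ?_⟩
    exact (Submodule.eq_top_iff'.1 hz ⟨h, Submodule.subset_span hh⟩ :)
  · rintro ⟨z, z1, z2, z3⟩ N ⟨-, h, hh, hN⟩
    refine (hN y hy).2 ⟨z, z1, z2, ?_⟩
    clear hN
    induction hh using Submodule.span_induction with
    | mem h hh => exact z3 h hh
    | zero => rfl
    | add _ _ _ _ h1 h2 => rw [Pi.add_apply, h1, h2, add_zero]
    | smul c _ _ h1 => rw [Pi.smul_apply, h1, smul_zero]

end Vale.Agent.P269.An
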