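import Vale.Agent.P269.Spl.Dim
import Vale.Agent.P269.Spl.Norm
import Vale.Agent.P269.Holo.Morse

/-!
# The boundary of an analytically constructible set has smaller dimension
-/

set_option linter.unusedSectionVars false

namespace Vale.Agent.P269

open Set Function Topology Filter Metric Holo Module

variable {A E : Type} [NormedRing A] [NormedAlgebra ℂ A] [FiniteDimensional ℂ A]
  [NormedAddCommGroup E] [NormedSpace ℂ E] [FiniteDimensional ℂ E] {n d : ℕ}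

/-- the derivative in the last coordinate -/
noncomputable def An.pd (g : E × ℂ → ℂ) (q : E × ℂ) : ℂ := deriv (fun z => g (q.1, z)) q.2

theorem An.an_line {g : E × ℂ → ℂ} {q : E × ℂ} (hg : AnalyticAt ℂ g q) :
    AnalyticAt ℂ (fun z => g (q.1, z)) q.2 :=
  hg.comp (f := fun z => (q.1, z)) (analyticAt_const.prod analyticAt_id)

theorem An.an_pd {g : E × ℂ → ℂ} {q : E × ℂ} (hg : AnalyticAt ℂ g q) :
    AnalyticAt ℂ (An.pd g) q := by
  have := FiniteDimensional.complete ℂ E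
  refine (((ContinuousLinearMap.apply ℂ ℂ ((0 : E), (1 : ℂ))).analyticAt _).comp hg.fderiv).congr ?_
  filter_upwards [hg.eventually_analyticAt] with p hp
  have h1 : HasDerivAt (fun z : ℂ => (p.1, z)) ((0 : E), (1 : ℂ)) p.2 :=
    (hasDerivAt_const _ _).prodMk (hasDerivAt_id _)
  exact (hp.differentiableAt.hasFDerivAt.comp_hasDerivAt p.2 h1).deriv.symm

theorem An.an_pd_iter {g : E × ℂ → ℂ} {q : E × ℂ} (hg : AnalyticAt ℂ g q) (j : ℕ) :
    AnalyticAt ℂ (An.pd^[j] g) q := by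
  induction j with
  | zero => exact hg
  | succ j ih => rw [iterate_succ_apply']; exact An.an_pd ih

omit [NormedAddCommGroup E] [NormedSpace ℂ E] [FiniteDimensional ℂ E] in
theorem An.pd_iter (g : E × ℂ → ℂ) (y : E) (j : ℕ) :
    iteratedDeriv j (fun z => g (y, z)) = fun z => An.pd^[j] g (y, z) := by
  induction j with
  | zero => rfl
  | succ j ih => rw [iteratedDeriv_succ, ih, iterate_succ_apply']; rfl

theorem An.dimLt_of_simple {g : E × ℂ → ℂ} {B : Set (E × ℂ)}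
    (hg : ∀ q ∈ B, AnalyticAt ℂ g q ∧ g q = 0 ∧ An.pd g q ≠ 0)
    (h : DimLt n (Prod.fst '' B)) : DimLt n B := by
  have := FiniteDimensional.complete ℂ E
  refine DimLt.of_locally fun q hq => ?_
  obtain ⟨h1, h2, h3⟩ := hg q hq
  have h4 : AnalyticAt ℂ (fun p : ℂ × E => g p.swap) (q.2, q.1) :=
    h1.comp_of_eq (analyticAt_snd.prod analyticAt_fst) rfl
  obtain ⟨k, h5, -, h6⟩ := implicit (f := fun p : ℂ × E => g p.swap) h4 (by
    refine bijective_of_injective _ ((injective_iff_map_eq_zero _).2 fun c hc => ?_) rfl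
    rw [fderiv_eq_smul_deriv] at hc
    exact (smul_eq_zero.1 hc).resolve_right h3)
  have h7 : Tendsto (Prod.swap : E × ℂ → ℂ × E) (𝓝 q) (𝓝 (q.2, q.1)) :=
    continuous_swap.tendsto q
  refine ⟨_, inter_mem (h7.eventually h6) (continuousAt_fst.eventually h5.eventually_analyticAt),
    ((h.mono (B := Prod.fst '' B ∩ {y | AnalyticAt ℂ k y}) inter_subset_left).image_an
      (f := fun y => (y, k y)) fun y hy => analyticAt_id.prod hy.2).mono ?_⟩
  rintro p ⟨hp, h8, h9⟩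
  refine ⟨p.1, ⟨mem_image_of_mem _ hp, h9⟩, Prod.ext rfl ?_⟩
  exact (h8.1 ((hg p hp).2.1.trans h2.symm)).symm

/-- subsets of a branched covering -/
theorem An.dimLt_of_proj {g : E × ℂ → ℂ} {B : Set (E × ℂ)}
    (hg : ∀ q ∈ B, AnalyticAt ℂ g q ∧ g q = 0 ∧ ¬∀ᶠ z in 𝓝 q.2, g (q.1, z) = 0)
    (h : DimLt n (Prod.fst '' B)) : DimLt n B := by
  refine (DimLt.iUnion fun j : ℕ => An.dimLt_of_simple (g := An.pd^[j] g)
    (B := {q | q ∈ B ∧ An.pd^[j] g q = 0 ∧ An.pd (An.pd^[j] g) q ≠ 0})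
    (fun q hq => ⟨An.an_pd_iter (hg q hq.1).1 j, hq.2⟩)
    (h.mono (image_mono fun q hq => hq.1))).mono fun q hq => ?_
  by_contra hc
  simp only [mem_iUnion, mem_ofPred_eq, not_exists, not_and, not_not] at hc
  have h1 : ∀ j, An.pd^[j] g q = 0 := fun j => by
    induction j with
    | zero => exact (hg q hq).2.1
    | succ j ih => rw [iterate_succ_apply']; exact hc j hq ih
  refine (hg q hq).2.2 (analyticOrderAt_eq_top.1 (ENat.eq_top_iff_forall_ge.2 fun m => ?_))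
  rw [natCast_le_analyticOrderAt_iff_iteratedDeriv_eq_zero (An.an_line (hg q hq).1)]
  intro i _
  rw [An.pd_iter]
  exact h1 i

/-- a non zero germ is non zero on some line -/
theorem An.exists_dir {f : E → ℂ} {x : E} (hf : AnalyticAt ℂ f x) (h : ¬∀ᶠ z in 𝓝 x, f z = 0) :
    ∃ v : E, ¬∀ᶠ t in 𝓝 (0 : ℂ), f (x + t • v) = 0 := by
  have := FiniteDimensional.complete ℂ E
  obtain ⟨r, hr, h1⟩ := Metric.eventually_nhds_iff_ball.1 hf.eventually_analyticAt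
  obtain ⟨a, ha, h2⟩ := ((not_eventually.1 h).and_eventually (ball_mem_nhds x hr)).exists
  refine ⟨a - x, fun e => ha ?_⟩
  have h3 : AnalyticOnNhd ℂ (fun t : ℂ => f (x + t • (a - x)))
      ((fun t : ℂ => x + t • (a - x)) ⁻¹' ball x r) :=
    fun t ht => (h1 _ ht).comp_of_eq
      (analyticAt_const.add (analyticAt_id.smul analyticAt_const)) rfl
  have h4 : Convex ℝ ((fun t : ℂ => x + t • (a - x)) ⁻¹' ball x r) :=
    ((convex_ball x r).translate_preimage_right x).linear_preimage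
      ((LinearMap.toSpanSingleton ℂ E (a - x)).restrictScalars ℝ)
  simpa using h3.eqOn_zero_of_preconnected_of_eventuallyEq_zero h4.isPreconnected
    (z₀ := 0) (by simpa using hr) e (show (1 : ℂ) ∈ _ by simpa using h2)

/-- division by the largest power of the last coordinate -/
theorem An.exists_div {g : E × ℂ → ℂ} {y : E} (hg : AnalyticAt ℂ g (y, 0))
    (h : ¬∀ᶠ q in 𝓝 (y, 0), g q = 0) : ∃ (k : ℕ) (g' : E × ℂ → ℂ), AnalyticAt ℂ g' (y, 0) ∧
      (∀ᶠ q in 𝓝 (y, 0), g q = q.2 ^ k * g' q) ∧ ¬∀ᶠ x in 𝓝 y, g' (x, 0) = 0 := by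
  by_contra hc
  push Not at hc
  have h1 : ∀ k : ℕ, ∃ g' : E × ℂ → ℂ, AnalyticAt ℂ g' (y, 0) ∧
      ∀ᶠ q in 𝓝 (y, 0), g q = q.2 ^ k * g' q := fun k => by
    induction k with
    | zero => exact ⟨g, hg, .of_forall fun q => by simp⟩
    | succ k ih =>
      obtain ⟨g', a, b⟩ := ih
      obtain ⟨e, c, f⟩ := Holo.exists_div (f := fun q : ℂ × E => g' q.swap) (w := y)
        (a.comp_of_eq (analyticAt_snd.prod analyticAt_fst) rfl)
      refine ⟨fun q => e q.swap, c.comp_of_eq (analyticAt_snd.prod analyticAt_fst) rfl, ?_⟩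
      filter_upwards [b, (continuousAt_fst (p := (y, (0 : ℂ)))).eventually (hc k g' a b)]
        with q h2 h3
      have h4 : g' q = g' (q.1, 0) + q.2 * e q.swap := f q.swap
      rw [h2, h4, h3, pow_succ]
      ring
  obtain ⟨v, hv⟩ := An.exists_dir hg h
  have h2 : AnalyticAt ℂ (fun t : ℂ => ((y, 0) : E × ℂ) + t • v) 0 :=
    analyticAt_const.add (analyticAt_id.smul analyticAt_const)
  have h3 : ((y, 0) : E × ℂ) + (0 : ℂ) • v = (y, 0) := by simp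
  refine hv (analyticOrderAt_eq_top.1 (ENat.eq_top_iff_forall_ge.2 fun m => ?_))
  obtain ⟨g', a, b⟩ := h1 m
  refine (natCast_le_analyticOrderAt (hg.comp_of_eq h2 h3)).2
    ⟨fun t => v.2 ^ m * g' ((y, 0) + t • v), analyticAt_const.mul (a.comp_of_eq h2 h3), ?_⟩
  filter_upwards [h2.continuousAt.eventually (h3.symm ▸ b)] with t ht
  simp only [comp_apply, ht, Prod.snd_add, Prod.smul_snd, smul_eq_mul, zero_add, sub_zero, mul_pow,
    mul_assoc]

/-- the statement about boundaries, for the space `E × ℂ` -/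
def An.Bd (E : Type) [NormedAddCommGroup E] [NormedSpace ℂ E] (n : ℕ) : Prop :=
  ∀ (U : Set (E × ℂ)) (G : Set (E × ℂ → ℂ)), IsOpen U → (∀ g ∈ G, AnalyticOnNhd ℂ g U) →
    DimLt (n + 1) {x | x ∈ U ∧ (∀ g ∈ G, g x = 0) ∧ x.2 ≠ 0} →
    DimLt n (closure {x | x ∈ U ∧ (∀ g ∈ G, g x = 0) ∧ x.2 ≠ 0} ∩ {x | x ∈ U ∧ x.2 = 0})

theorem An.step (ih : An.Bd E n) {U : Set ((E × ℂ) × ℂ)} (hU : U ∈ 𝓝 0)
    {G : Set ((E × ℂ) × ℂ → ℂ)} (hG : ∀ g ∈ G, AnalyticOnNhd ℂ g U) {g : (E × ℂ) × ℂ → ℂ}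
    (hg : AnalyticAt ℂ g 0) (h0 : ¬∀ᶠ s in 𝓝 (0 : ℂ), g (0, s) = 0) {S : Set ((E × ℂ) × ℂ)}
    (hS : ∀ x, x ∈ S ↔ x ∈ U ∧ (∀ g ∈ G, g x = 0) ∧ x.1.2 ≠ 0)
    (h1 : ∀ᶠ x in 𝓝 0, x ∈ S → g x = 0) (h : DimLt (n + 1) S) :
    ∃ O ∈ 𝓝 0, DimLt n (closure S ∩ {x | x.1.2 = 0} ∩ O) := by
  have := FiniteDimensional.complete ℂ E
  obtain ⟨N, h2, hN, h3⟩ := _root_.eventually_nhds_iff.1
    ((hg.eventually_analyticAt.and h1).and hU)
  have h4 : ∀ᶠ s in 𝓝[≠] (0 : ℂ), g (0, s) ≠ 0 :=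
    (An.an_line hg).eventually_eq_zero_or_eventually_ne_zero.resolve_left h0
  have h5 : ∀ᶠ s in 𝓝 (0 : ℂ), ((0 : E × ℂ), s) ∈ N :=
    (Continuous.prodMk_right 0).continuousAt.eventually (hN.mem_nhds h3)
  obtain ⟨r, hr, h6⟩ := Metric.nhds_basis_closedBall.eventually_iff.1
    (h5.and (eventually_nhdsWithin_iff.1 h4))
  have h7 : ∀ᶠ p in 𝓝 (0 : E × ℂ), ∀ s ∈ closedBall (0 : ℂ) r,
      (p, s) ∈ N ∧ (‖s‖ = r → g (p, s) ≠ 0) := by
    refine (isCompact_closedBall 0 r).eventually_forall_of_forall_eventually fun s hs => ?_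
    refine Eventually.and (hN.mem_nhds (h6 hs).1) ?_
    by_cases e : ‖s‖ = r
    · have h8 : s ≠ 0 := fun e' => by rw [e', norm_zero] at e; exact hr.ne e
      exact ((h2 _ (h6 hs).1).1.1.continuousAt.eventually_ne ((h6 hs).2 h8)).mono fun _ a _ => a
    · exact ((continuous_snd.norm.continuousAt (x := ((0 : E × ℂ), s))).eventually_ne e).mono
        fun _ a b => absurd b a
  obtain ⟨ρ, hρ, h8⟩ := Metric.eventually_nhds_iff_ball.1 h7
  have h9 : ball (0 : E × ℂ) ρ ×ˢ closedBall (0 : ℂ) r ⊆ N := fun q hq => (h8 _ hq.1 _ hq.2).1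
  have h10 : ∀ y ∈ ball (0 : E × ℂ) ρ, ∀ z, ‖z‖ = r → g (y, z) ≠ 0 := fun y hy z hz =>
    (h8 y hy z (by simp [hz])).2 hz
  obtain ⟨G', k1, k2⟩ := An.exists_proj isOpen_ball (convex_ball 0 ρ).isPreconnected hr
    (fun q hq => (h2 q (h9 hq)).1.1) h10 fun f hf q hq => hG f hf q (h2 q (h9 hq)).2
  have k3 := ih _ G' isOpen_ball k1 ((h.image_an (f := Prod.fst) fun _ _ => analyticAt_fst).mono ?_)
  swap
  · rintro p ⟨a, b, c⟩
    obtain ⟨z, e1, -, e2⟩ := (k2 p a).1 b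
    exact ⟨(p, z), (hS _).2 ⟨(h2 _ (h9 ⟨a, by simpa using e1.le⟩)).2, e2, c⟩, rfl⟩
  have k4 : IsOpen (ball (0 : E × ℂ) ρ ×ˢ ball (0 : ℂ) r) := isOpen_ball.prod isOpen_ball
  have k5 : ball (0 : E × ℂ) ρ ×ˢ ball (0 : ℂ) r ⊆ N :=
    (Set.prod_mono Subset.rfl ball_subset_closedBall).trans h9
  refine ⟨_, k4.mem_nhds ⟨mem_ball_self hρ, mem_ball_self hr⟩,
    An.dimLt_of_proj (g := g) (fun q hq => ?_) (k3.mono ?_)⟩
  · have k6 := (h2 q (k5 hq.2)).1.1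
    refine ⟨k6, ?_, fun e => ?_⟩
    · by_contra e
      obtain ⟨x, a, b, c⟩ := ((mem_closure_iff_frequently.1 hq.1.1).and_eventually
        ((k6.continuousAt.eventually_ne e).and (hN.mem_nhds (k5 hq.2)))).exists
      exact b ((h2 x c).1.2 a)
    · have k7 : AnalyticOnNhd ℂ (fun z => g (q.1, z)) (closedBall 0 r) := fun z hz =>
        An.an_line (q := (q.1, z)) (h2 (q.1, z) (h9 ⟨hq.2.1, hz⟩)).1.1
      exact h10 q.1 hq.2.1 r (by simp [hr.le])
        (k7.eqOn_zero_of_preconnected_of_eventuallyEq_zero (convex_closedBall 0 r).isPreconnected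
          (ball_subset_closedBall hq.2.2) e (by simp [abs_of_pos hr]))
  · rintro _ ⟨q, hq, rfl⟩
    refine ⟨?_, hq.2.1, hq.1.2⟩
    refine closure_mono ?_ (mem_closure_image continuousAt_fst (k4.closure_inter ⟨hq.1.1, hq.2⟩))
    rintro _ ⟨x, ⟨a, b⟩, rfl⟩
    obtain ⟨-, c, e⟩ := (hS x).1 a
    exact ⟨b.1, (k2 _ b.1).2 ⟨x.2, by simpa using b.2, (h2 x (k5 b)).1.2 a, c⟩, e⟩

theorem An.bd (m : ℕ) : ∀ (E : Type) [NormedAddCommGroup E] [NormedSpace ℂ E]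
    [FiniteDimensional ℂ E], finrank ℂ E = m → An.Bd E n := by
  induction m using Nat.strong_induction_on with
  | _ m ih =>
  intro E _ _ _ hm U G hU hG h
  have := FiniteDimensional.complete ℂ E
  rcases lt_or_ge m n with hn | hn
  · refine (((dimLt_finrank (univ : Set E)).image_an (f := fun y => (y, (0 : ℂ)))
      fun _ _ => analyticAt_id.prod analyticAt_const).le (by omega)).mono fun x hx => ?_
    exact ⟨x.1, trivial, Prod.ext rfl hx.2.2.symm⟩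
  set S := {x | x ∈ U ∧ (∀ g ∈ G, g x = 0) ∧ x.2 ≠ 0} with hS
  refine DimLt.of_locally ?_
  rintro ⟨y, w⟩ ⟨hx, hxU, rfl⟩
  have h1 : ∃ g ∈ G, ¬∀ᶠ q in 𝓝 (y, (0 : ℂ)), g q = 0 := by
    by_contra hc
    push Not at hc
    obtain ⟨r, hr, h2⟩ := Metric.isOpen_iff.1 hU _ hxU
    have h3 : ball (y, (0 : ℂ)) r ∩ {x | x.2 ≠ 0} ⊆ interior S :=
      interior_maximal (fun x hx => ⟨h2 hx.1, fun g hg =>
        ((hG g hg).mono h2).eqOn_zero_of_preconnected_of_eventuallyEq_zero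
          (convex_ball _ r).isPreconnected (mem_ball_self hr) (hc g hg) hx.1, hx.2⟩)
        (isOpen_ball.inter (isOpen_ne_fun continuous_snd continuous_const))
    rw [DimLt.interior_eq (h.le (by simp; omega))] at h3
    obtain ⟨x, a, b⟩ := mem_closure_iff_nhds.1 hx _ (ball_mem_nhds _ hr)
    exact h3 ⟨a, b.2.2⟩
  obtain ⟨g, hg, h2⟩ := h1
  obtain ⟨k, g', h3, h4, h5⟩ := An.exists_div (hG g hg _ hxU) h2
  have h6 : ∀ᶠ q in 𝓝 (y, (0 : ℂ)), q ∈ S → g' q = 0 := h4.mono fun q a b =>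
    (mul_eq_zero.1 (a.symm.trans (b.2.1 g hg))).resolve_left (pow_ne_zero _ b.2.2)
  have h7 : g' (y, 0) = 0 := by
    by_contra e
    obtain ⟨x, a, b, c⟩ := ((mem_closure_iff_frequently.1 hx).and_eventually
      ((h3.continuousAt.eventually_ne e).and h6)).exists
    exact b (c a)
  obtain ⟨v, hv⟩ := An.exists_dir (f := fun x => g' (x, 0))
    (h3.comp (f := fun x => (x, (0 : ℂ))) (analyticAt_id.prod analyticAt_const)) h5
  have h8 : v ≠ 0 := fun e => hv (.of_forall fun t => by simp [e, h7])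
  have h9 : 0 < m := hm ▸ finrank_pos_iff_exists_ne_zero.2 ⟨v, h8⟩
  obtain ⟨j, hj⟩ := exists_compl_range (ContinuousLinearMap.toSpanSingleton ℂ v)
    (smul_left_injective ℂ h8) (n := m - 1) (by rw [finrank_self]; omega)
  let e := (LinearEquiv.ofBijective
    ((ContinuousLinearMap.toSpanSingleton ℂ v).coprod j).toLinearMap hj).toContinuousLinearEquiv
  have he : ∀ s, e (s, 0) = s • v := fun s => by simp [e]
  let Ψ : ((Fin (m - 1) → ℂ) × ℂ) × ℂ → E × ℂ := fun p => (y + e (p.2, p.1.1), p.1.2)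
  let Φ : E × ℂ → ((Fin (m - 1) → ℂ) × ℂ) × ℂ := fun x =>
    (((e.symm (x.1 - y)).2, x.2), (e.symm (x.1 - y)).1)
  have k1 : ∀ p, AnalyticAt ℂ Ψ p := fun p =>
    (analyticAt_const.add ((e.analyticAt _).comp (analyticAt_snd.prod
      (analyticAt_fst.comp analyticAt_fst)))).prod (analyticAt_snd.comp analyticAt_fst)
  have k2 : ∀ x, AnalyticAt ℂ Φ x := fun x => by
    have : AnalyticAt ℂ (fun x : E × ℂ => e.symm (x.1 - y)) x :=
      (e.symm.analyticAt _).comp (analyticAt_fst.sub analyticAt_const)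
    exact ((analyticAt_snd.comp this).prod analyticAt_snd).prod (analyticAt_fst.comp this)
  have k3 : ∀ x, Ψ (Φ x) = x := fun x => by
    simp only [Ψ, Φ, Prod.mk.eta, e.apply_symm_apply, add_sub_cancel]
  have k4 : ∀ p, Φ (Ψ p) = p := fun p => by simp [Ψ, Φ]
  have k5 : Ψ 0 = (y, 0) := by simp [Ψ, ← Prod.zero_eq_mk]
  have k6 : Tendsto Ψ (𝓝 0) (𝓝 (y, 0)) := k5 ▸ (k1 0).continuousAt.tendsto
  obtain ⟨O, k7, k8⟩ := An.step (ih (m - 1) (by omega) (Fin (m - 1) → ℂ) (finrank_fin_fun ℂ))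
    (U := Ψ ⁻¹' U) (k6 (hU.mem_nhds hxU)) (G := (fun g => g ∘ Ψ) '' G)
    (by rintro _ ⟨f, hf, rfl⟩ p hp; exact (hG f hf _ hp).comp (k1 p)) (g := g' ∘ Ψ)
    (h3.comp_of_eq (k1 0) k5) (by simpa [Ψ, he] using hv) (S := Ψ ⁻¹' S)
    (fun x => and_congr_right fun _ => and_congr_left fun _ => by simp) (k6.eventually h6) ((h.image_an fun x _ => k2 x).mono fun p hp => ⟨Ψ p, hp, k4 p⟩)
  refine ⟨Φ ⁻¹' O, (k2 _).continuousAt.preimage_mem_nhds (by rwa [← k5, k4]),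
    (k8.image_an fun p _ => k1 p).mono fun x a => ⟨Φ x, ⟨⟨?_, a.1.2.2⟩, a.2⟩, k3 x⟩⟩
  refine closure_mono ?_ (mem_closure_image (k2 x).continuousAt a.1.1)
  rintro _ ⟨z, hz, rfl⟩
  rwa [mem_preimage, k3]

theorem An.bdry₀ {U : Set (E × ℂ)} (hU : IsOpen U) {G : Set (E × ℂ → ℂ)}
    (hG : ∀ g ∈ G, AnalyticOnNhd ℂ g U)
    (h : DimLt (n + 1) {x | x ∈ U ∧ (∀ g ∈ G, g x = 0) ∧ x.2 ≠ 0}) :
    DimLt n (closure {x | x ∈ U ∧ (∀ g ∈ G, g x = 0) ∧ x.2 ≠ 0} ∩ {x | x ∈ U ∧ x.2 = 0}) :=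
  An.bd _ E rfl U G hU hG h

theorem An.bdry {U : Set E} (hU : IsOpen U) {G : Set (E → ℂ)} (hG : ∀ g ∈ G, AnalyticOnNhd ℂ g U)
    {f : E → ℂ} (hf : AnalyticOnNhd ℂ f U)
    (h : DimLt (n + 1) {x | x ∈ U ∧ (∀ g ∈ G, g x = 0) ∧ f x ≠ 0}) :
    DimLt n (closure {x | x ∈ U ∧ (∀ g ∈ G, g x = 0) ∧ f x ≠ 0} ∩ {x | x ∈ U ∧ f x = 0}) := by
  have h1 := An.bdry₀ (n := n) (U := Prod.fst ⁻¹' U) (hU.preimage continuous_fst)
    (G := insert (fun q => q.2 - f q.1) ((fun g => g ∘ Prod.fst) '' G)) (by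
      rintro _ (rfl | ⟨g, hg, rfl⟩) q hq
      · exact analyticAt_snd.sub ((hf _ hq).comp analyticAt_fst)
      · exact (hG g hg _ hq).comp analyticAt_fst)
    ((h.image_an (f := fun x => (x, f x)) fun x hx => analyticAt_id.prod (hf x hx.1)).mono (by
      rintro q ⟨a, b, c⟩
      have e : q.2 = f q.1 := sub_eq_zero.1 (b _ (mem_insert _ _))
      exact ⟨q.1, ⟨a, fun g hg => b _ (mem_insert_of_mem _ (mem_image_of_mem _ hg)), e ▸ c⟩,
        Prod.ext rfl e.symm⟩))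
  refine (h1.image_an (f := Prod.fst) fun _ _ => analyticAt_fst).mono fun x hx => ?_
  refine ⟨(x, f x), ⟨closure_mono ?_ (mem_closure_image (f := fun x => (x, f x))
    (continuousAt_id.prodMk (hf x hx.2.1).continuousAt) hx.1), hx.2⟩, rfl⟩
  rintro _ ⟨z, ⟨a, b, c⟩, rfl⟩
  refine ⟨a, ?_, c⟩
  rintro _ (rfl | ⟨g, hg, rfl⟩)
  · exact sub_self _
  · exact b g hg

theorem LocAn.bdry {T M : Set E} (h : LocAn T M) (hM : M ⊆ T)
    (hT : ∀ x : T, ∃ N, IsMfd (Subtype.val : T → E) N x) (hd : DimLt (n + 1) M) :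
    DimLt n ((closure M ∩ T) \ M) := by
  have := FiniteDimensional.complete ℂ E
  refine DimLt.of_locally fun x hx => ?_
  obtain ⟨r, s, g, f, h1, h2⟩ := h ⟨x, hx.1.2⟩
  obtain ⟨N, ψ, h3, h4⟩ := hT ⟨x, hx.1.2⟩
  obtain ⟨w, h5, h6, h7, h8, -⟩ := h3.exists_inv
  rw [← h4] at h1 h2
  have h9 : ∀ᶠ z in 𝓝 (0 : Fin N → ℂ), ∀ i, AnalyticAt ℂ (fun z => g i (ψ z)) z ∧
      AnalyticAt ℂ (fun z => f i (ψ z)) z := eventually_all.2 fun i =>
    (h3.holAt_iff.1 (h1 i).1).eventually_analyticAt.and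
      (h3.holAt_iff.1 (h1 i).2).eventually_analyticAt
  obtain ⟨U, k1, hU, k2⟩ := _root_.eventually_nhds_iff.1
    ((h9.and (h3.lh.cont.eventually h2)).and ((h7.and h3.an.eventually_analyticAt).and
      (h3.an.continuousAt.eventually h5.eventually_analyticAt)))
  have k3 : ∀ i, DimLt n (closure {z | z ∈ U ∧ (∀ u ∈ range fun a z => g i (ψ z) a, u z = 0) ∧
      f i (ψ z) ≠ 0} ∩ {z | z ∈ U ∧ f i (ψ z) = 0}) := fun i => by
    refine An.bdry hU ?_ (fun z hz => ((k1 z hz).1.1 i).2)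
      (((hd.mono (B := M ∩ {y | AnalyticAt ℂ w y}) inter_subset_left).image_an
        fun y hy => hy.2).mono fun z hz => ?_)
    · rintro _ ⟨a, rfl⟩ z hz
      exact analyticAt_pi_iff.1 ((k1 z hz).1.1 i).1 a
    · exact ⟨(ψ z).1, ⟨(k1 z hz.1).1.2.2 ⟨i, funext fun a => hz.2.1 _ (mem_range_self a), hz.2.2⟩,
        (k1 z hz.1).2.2⟩, (k1 z hz.1).2.1.1⟩
  have k4 : (ψ 0).1 = x := congrArg Subtype.val h4
  rw [h4, nhds_subtype, eventually_comap] at h8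
  rw [k4] at h5 h6
  obtain ⟨O, k5, hO, k6⟩ := _root_.eventually_nhds_iff.1 ((h8.and h5.eventually_analyticAt).and
    (h5.continuousAt.eventually (h6.symm ▸ hU.mem_nhds k2)))
  refine ⟨O, hO.mem_nhds k6, (DimLt.iUnion fun i => (k3 i).image_an (f := fun z => (ψ z).1)
    fun z hz => (k1 z hz.2.1).2.1.2).mono fun y hy => ?_⟩
  have k7 : ∀ t ∈ O, t ∈ T → (ψ (w t)).1 = t := fun t a b =>
    congrArg Subtype.val ((k5 t a).1.1 ⟨t, b⟩ rfl)
  have k8 : w y ∈ closure (⋃ i, {z | z ∈ U ∧ (∀ u ∈ range fun a z => g i (ψ z) a, u z = 0) ∧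
      f i (ψ z) ≠ 0}) := by
    refine closure_mono ?_ (mem_closure_image (k5 y hy.2).1.2.continuousAt
      (hO.closure_inter ⟨hy.1.1.1, hy.2⟩))
    rintro _ ⟨t, ⟨a, b⟩, rfl⟩
    obtain ⟨i, c, e⟩ := (k1 _ (k5 t b).2).1.2.1 ((k7 t b (hM a)).symm ▸ a)
    exact mem_iUnion.2 ⟨i, (k5 t b).2, by rintro _ ⟨l, rfl⟩; exact congrFun c l, e⟩
  rw [closure_iUnion_of_finite] at k8
  obtain ⟨i, hi⟩ := mem_iUnion.1 k8
  have k9 := k1 _ (k5 y hy.2).2
  refine mem_iUnion.2 ⟨i, w y, ⟨hi, (k5 y hy.2).2, ?_⟩, k7 y hy.2 hy.1.1.2⟩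
  by_contra e
  refine hy.1.2 (k7 y hy.2 hy.1.1.2 ▸ k9.1.2.2 ⟨i, ?_, e⟩)
  by_contra e'
  obtain ⟨z, a, b⟩ := ((mem_closure_iff_frequently.1 hi).and_eventually
    ((k9.1.1 i).1.continuousAt.eventually_ne e')).exists
  exact b (funext fun l => a.2.1 _ (mem_range_self l))

theorem isLocallyClosed_of_mfd {M : Set E} (h : ∀ x : M, ∃ N, IsMfd (Subtype.val : M → E) N x) :
    IsLocallyClosed M := by
  have := FiniteDimensional.complete ℂ E
  refine ((isLocallyClosed_tfae M).out 3 0).1 fun x hx => ?_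
  obtain ⟨N, ψ, h1, h2⟩ := h ⟨x, hx⟩
  obtain ⟨w, h3, h4, -, h5, -⟩ := h1.exists_inv
  have h6 : (ψ 0).1 = x := congrArg Subtype.val h2
  rw [h2, nhds_subtype, eventually_comap] at h5
  rw [h6] at h3 h4
  have h7 : AnalyticAt ℂ (fun y => (ψ (w y)).1) x := h1.an.comp_of_eq h3 h4
  obtain ⟨O, k1, hO, k2⟩ := _root_.eventually_nhds_iff.1 (h5.and h7.eventually_analyticAt)
  refine ⟨O, k2, hO, fun y hy => ?_⟩
  suffices e : (ψ (w y)).1 = y from e ▸ (ψ (w y)).2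
  by_contra e
  obtain ⟨z, a, b, c⟩ := ((mem_closure_iff_frequently.1 hy.2).and_eventually
    ((((k1 y hy.1).2.continuousAt.sub continuousAt_id).eventually_ne (sub_ne_zero.2 e)).and
      (hO.mem_nhds hy.1))).exists
  exact b (sub_eq_zero.2 (congrArg Subtype.val ((k1 z c).1 ⟨z, a⟩ rfl)))

/-- **existence of cycles** -/
theorem Str.cyc {act : A → E → E} {T M : Set E} (h : Str act M d) (ha : LocAn T M) (hM : M ⊆ T)
    (hT : ∀ x : T, ∃ N, IsMfd (Subtype.val : T → E) N x) : Cyc act (closure M ∩ T) M d where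
  toStr := h
  lc := isClosed_closure.isLocallyClosed.inter (isLocallyClosed_of_mfd hT)
  sub := subset_inter subset_closure hM
  opn := ⟨coborder M, (isLocallyClosed_of_mfd fun x => ⟨_, h.mfd x⟩).isOpen_coborder, by
    rw [inter_right_comm, closure_inter_coborder, inter_eq_left.2 hM]⟩
  small := ha.bdry hM hT (DimLt.of_mfd' h.mfd)
  dense := inter_subset_left

end Vale.Agent.P269
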