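import Vale.Agent.P269.Orb.Brg
import Vale.Agent.P269.Orb.Dim2
import Vale.Agent.P269.Orb.LC

/-!
# Cycles: closures of invariant manifolds with small boundary
-/

namespace Vale.Agent.P269

open P291Z Set Function Topology Filter Holo Module

variable {A W : Type} [NormedRing A] [NormedAlgebra ℂ A] [NormedAddCommGroup W] [NormedSpace ℂ W]

/-- `B` has complex dimension less than `n`. -/
def DimLt (n : ℕ) (B : Set W) : Prop := Mono.Small (2 * n) (B ×ˢ (univ : Set ℂ))

/-- Near every point of `T` the set `M` is a finite union of sets `g = 0`, `f ≠ 0`. -/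
def LocAn (T M : Set W) : Prop :=
  ∀ x : T, ∃ (r s : ℕ) (g : Fin r → T → Fin s → ℂ) (f : Fin r → T → ℂ),
    (∀ i, HolAt Subtype.val (g i) x ∧ HolAt Subtype.val (f i) x) ∧
      ∀ᶠ y in 𝓝 x, y.1 ∈ M ↔ ∃ i, g i y = 0 ∧ f i y ≠ 0

/-- The stabiliser of `x` is trivial. -/
def Fre (act : A → W → W) (x : W) : Prop := ∀ a, IsUnit a → act a x = x → a = 1

/-- `B` is invariant. -/
def Ivt (act : A → W → W) (B : Set W) : Prop := ∀ a, IsUnit a → ∀ x ∈ B, act a x ∈ B

/-- `M` is an invariant manifold whose orbit space has dimension `d`, with a dense set of points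
with trivial stabiliser. -/
structure Str (act : A → W → W) (M : Set W) (d : ℕ) : Prop where
  inv : Ivt act M
  mfd : ∀ x : M, IsMfd (Subtype.val : M → W) (finrank ℂ A + d) x
  free : M ⊆ closure {x | x ∈ M ∧ Fre act x}

/-- `M` is an open part of `Z` with small complement. -/
structure Tpc (act : A → W → W) (Z M : Set W) (d : ℕ) : Prop extends Str act M d where
  lc : IsLocallyClosed Z
  sub : M ⊆ Z
  opn : ∃ U, IsOpen U ∧ M = Z ∩ U
  small : DimLt (finrank ℂ A + d) (Z \ M)

/-- `S` is a cycle of dimension `d` with smooth dense part `M`. -/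
structure Cyc (act : A → W → W) (S M : Set W) (d : ℕ) : Prop extends Tpc act S M d where
  dense : S ⊆ closure M

/-- The fundamental class of a cycle. -/
noncomputable def fnd (act : A → W → W) (S : Set W) [IsAct act S] (d : ℕ) : BM (Quo act S) :=
  Orb.fundQ Aˣ Sp.val Sp.mk d

/-- `Z` is a closed part of `S`. -/
def Clo (Z S : Set W) : Prop := ∃ C, IsClosed C ∧ Z = S ∩ C

/-- The orbits contained in `B`. -/
def Quo.part (act : A → W → W) (S B : Set W) : Set (Quo act S) := {z | z.out.1 ∈ B}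

/-- The class `γ` takes the value `m` on the orientation cocycle at the orbit of `x`. -/
def PtVal {act : A → W → W} {S : Set W} [IsAct act S] (γ : BM (Quo act S)) (d : ℕ) (x : Sp act S)
    (m : ℂ) : Prop :=
  ∀ φ : (Fin d → ℂ) → Sp act S, Orb.IsSlice Aˣ Sp.val φ → φ 0 = x → ∀ a c, supp (δ a) = ∅ →
    supp a ⊆ {x.mk} → Orb.LocCo (pull (Sp.mk ∘ φ) a) c → ev γ a = m * c

/-- Near `x` the cochain `θ` represents the divisor of the function `s`. -/
def LocDiv {X : Type} [TopologicalSpace X] (θ : Coch X) (s : X → ℂ) (x : X) : Prop :=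
  ∃ c, ∀ᶠ y in 𝓝 x, θ - pull (fun z (_ : Fin 1) => s z) (tau 1) - δ c ∈ Van y ∧ (y ∈ supp c → s y = 0)

/-- For values `w` near `Φ x` the fibre of `Φ` near `x` consists of `m` points with property `P`. -/
def Cnt {X Y : Type} [TopologicalSpace X] [TopologicalSpace Y] (Φ : X → Y) (x : X) (m : ℕ)
    (P : X → Prop) : Prop :=
  ∃ V₀ ∈ 𝓝 x, ∀ V ∈ 𝓝 x, ∃ᶠ w in 𝓝 (Φ x), ∃ F : Finset X, F.card = m ∧
    (∀ y ∈ V₀, Φ y = w → y ∈ F) ∧ ∀ y ∈ F, y ∈ V ∧ Φ y = w ∧ P y

end Vale.Agent.P269
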