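import Vale.Agent.P269.Spl.Geo2
import Vale.Agent.P269.Bas.Defs
import Vale.Agent.P269.Glu.Defs

/-!
# Gluing, nodes and products for closures of strata: numerical statements
-/

set_option linter.unusedSectionVars false

namespace Vale.Agent.P269

open P291Z Set Function Topology Filter Module

variable {S Λ R J K ι ν κ ν₁ κ₁ ν₂ κ₂ : Type} [Fintype S] [Fintype Λ] [Fintype R] [Fintype J]
  [Fintype K] [Fintype ι] [DecidableEq ι] [Fintype ν] [Fintype κ] [Fintype ν₁] [Fintype κ₁]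
  [Fintype ν₂] [Fintype κ₂]

/-- Near the solutions the closure of the locus `Q` is a cycle; `n` is the dimension of the stack of
curves with line bundles and base fields. -/
def Ch.CyP (ch : Ch ι J) (F : Fam S Λ R J K) (ℓ : R → ι → ℤ) (Q : AM Λ R J ν κ → Prop) (n : ℤ) :
    Prop :=
  ∃ (U : Set (ch.WF ν κ Λ)) (N : ℕ), IsOpen U ∧ Ivt (Ch.actF F.toWt) U ∧ Ch.Stb F.mov U ∧
    ch.solF ν κ F ∩ ch.clP F ℓ Q ⊆ U ∧ PCy (ch.clP F ℓ Q ∩ U) (ch.locP F ℓ Q ∩ U) N ∧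
    ((ch.locP F ℓ Q ∩ U).Nonempty → (N : ℤ) = n + finrank ℂ (ch.AF ν κ S) + ch.fm F.mov)

/-- The factor is not a twisting class. -/
def Fac.NoTw {F : Wt S Λ R J} : Fac F ν κ → Prop
  | .tw _ => False
  | _ => True

/-- `m` is the disjoint union of `U` and its complement, which are in the main strata of the
families `F₁` and `F₂`. -/
def AM.Pr2 (m : AM Λ R J ν κ) (F₁ F₂ : Fam S Λ R J K) (φ : ν₁ ⊕ ν₂ ≃ ν) (ψ : κ₁ ⊕ κ₂ ≃ κ)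
    (u₁ : ν₁ → J → ℕ) (u₂ : ν₂ → J → ℕ) (g₂ : ℤ) (d₂ : R → ℤ) (U : Set m.X) : Prop :=
  ∃ (m₁ : AM Λ R J ν₁ κ₁) (m₂ : AM Λ R J ν₂ κ₂) (j₁ : m₁.X → m.X) (j₂ : m₂.X → m.X),
    AM.Split m m₁ m₂ φ ψ j₁ j₂ ∧ range j₁ = U ∧ m₂.Typ g₂ d₂ ∧ (∀ j ∈ F₁.zer, m₁.y j = 0) ∧
      m₁.Main F₁ u₁ ∧ (∀ j ∈ F₂.zer, m₂.y j = 0) ∧ m₂.Main F₂ u₂

namespace Fam

variable (F : Fam S Λ R J K) [DecidableEq R] (k : ℕ)

/-- The standing hypotheses without the shape of the base fields. -/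
structure Sg : Prop extends F.Good where
  reg : ∃ K₀, F.Reg K₀
  sm : ∃ b, F.Sm b
  cp : F.Cp
  big : F.Big k

/-- The integral over the closure of the locus `Q` in the standard chart. -/
noncomputable def intQ (D : ℕ) (g : ℤ) (d : R → ℤ) (Q : AM Λ R J ν κ → Prop)
    (fs : List (Fac F.toWt ν κ)) : ℂ :=
  F.intS ℓs ((F.sch ν κ k D g d).clP F ℓs Q) (fun _ => True) fs

/-- The integral over the closure of the main stratum in the standard chart. -/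
noncomputable def intM (D : ℕ) (g : ℤ) (d : R → ℤ) (u : ν → J → ℕ)
    (fs : List (Fac F.toWt ν κ)) : ℂ :=
  F.intg (F.vir κ k D g d u) (fun _ => True) fs

/-- The closure of the locus `Q` is a cycle of dimension `n`. -/
def Cy (g : ℤ) (d : R → ℤ) (Q : AM Λ R J ν κ → Prop) (n : ℤ) : Prop :=
  AM.IvtA F.toWt F.movᶜ Q ∧ ∀ᶠ D in atTop, (F.sch ν κ k D g d).CyP F ℓs Q n

/-- Factors without twisting classes, with all diagonals. -/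
def Fs (u : ν → J → ℕ) (fs : List (Fac F.toWt ν κ)) : Prop :=
  (∀ f ∈ fs, f.Ok F u ∧ f.NoTw) ∧ ∀ q, .dg q ∈ fs

end Fam

namespace St

/-- **Gluing**: normalising the nodes `ε`; `N` is the number of labellings. -/
def GLn : Prop :=
  ∀ {S Λ R J K ν κ ε : Type} [Fintype S] [Fintype Λ] [Fintype R] [Fintype J] [Fintype K] [Fintype ν]
    [Fintype κ] [Fintype ε] [DecidableEq R] (F : Fam S Λ R J K) (k : ℕ) (g g' : ℤ) (d : R → ℤ)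
    (Q : AM Λ R J ν (κ ⊕ ε) → Prop) (n : ℤ) (N : ℕ) (fs : List (Fac F.toWt ν κ)) (es : List ε),
    F.Sg k → g' + Fintype.card ε = g → F.Cy k g' d Q n → F.Cy k g d (AM.Ct Q) n →
    (∀ m : AM Λ R J ν κ, AM.Ct Q m →
      Nat.card {x : ε × Bool → m.X // ∃ h : m.Nds x, Q (m.cut h)} = N) →
    F.Fs 0 fs → es.Nodup → (∀ e, e ∈ es) →
    ∀ᶠ D in atTop, N * F.intQ k D g d (AM.Ct Q) fs =
      F.intQ k D g' d Q (fs.map (Fac.re id .inl) ++ es.map fun e => .dg (.inr e))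

/-- **Nodes**: the persistent nodes `ε`, at which all base fields vanish, are replaced by pairs of
marked points. -/
def NDn : Prop :=
  ∀ {S Λ R J K ν κ ε β : Type} [Fintype S] [Fintype Λ] [Fintype R] [Fintype J] [Fintype K]
    [Fintype ν] [Fintype κ] [Fintype ε] [Fintype β] [DecidableEq R] [DecidableEq ε]
    (F : Fam S Λ R J K) (k : ℕ) (g : ℤ) (d : R → ℤ) (Z : Set J)
    (a a' : β → H (F.X (F.sub F.B Z).cone)) (Q : AM Λ R J ν (κ ⊕ ε) → Prop)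
    (Q' : AM Λ R J (ν ⊕ ε × Bool) κ → Prop) (n : ℤ) (fs : List (Fac F.toWt ν κ)) (es : List ε),
    F.Sg k → Z = F.movᶜ → (F.sub F.B Z).Nice 0 → (F.sub F.B Z).IsCas a a' →
    F.Cy k g d Q (n + Fintype.card ε * Fintype.card R) → F.Cy k g d Q' n →
    (∀ m, Q m ↔ Q' (m.re (Ch.unp ν κ ε).toEmbedding)) →
    (∀ m, Q' m → ∀ e, ∀ j ∈ Z, m.y j (m.p (.inl (.inr e))) = 0) →
    F.Fs 0 fs → es.Nodup → (∀ e, e ∈ es) →
    ∀ᶠ D in atTop, F.intQ k D g d Q (fs.map (Fac.re id .inl) ++ es.map fun e => .dg (.inr e)) =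
      ∑ s : ε → β, F.intQ k D g d Q' (fs.map (Fac.re .inl id) ++ es.flatMap fun e =>
        [.ev (.inl (.inr (e, false))) _ (a (s e)), .ev (.inl (.inr (e, true))) _ (a' (s e))])

/-- **Products**: the domain is a disjoint union. -/
def PRn : Prop :=
  ∀ {S Λ R J K ν κ ν₁ κ₁ ν₂ κ₂ β : Type} [Fintype S] [Fintype Λ] [Fintype R] [Fintype J] [Fintype K]
    [Fintype ν] [Fintype κ] [Fintype ν₁] [Fintype κ₁] [Fintype ν₂] [Fintype κ₂] [Fintype β]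
    [DecidableEq R] (F : Fam S Λ R J K) (k : ℕ) (g₁ g₂ : ℤ) (d₁ d₂ : R → ℤ) (Z₁ Z₂ : Set J)
    (δ₁ δ₂ : J → ℕ) (u₁ : ν₁ → ℕ) (u₂ : ν₂ → ℕ) (φ : ν₁ ⊕ ν₂ ≃ ν) (ψ : κ₁ ⊕ κ₂ ≃ κ)
    (e f : β → H (F.Bs F.B)) (Q : AM Λ R J ν κ → Prop) (n : ℤ) (fs₁ : List (Fac F.toWt ν₁ κ₁))
    (fs₂ : List (Fac F.toWt ν₂ κ₂)),
    F.Sg k → F.zer ⊆ Z₁ → F.zer ⊆ Z₂ → (F.sub F.B Z₁).Nice δ₁ → (F.sub F.B Z₂).Nice δ₂ →
    (∀ l ∈ F.B, ∀ y, (∀ j ∈ Z₁, y j = 0) ∨ (∀ j ∈ Z₂, y j = 0) → (l, y) ∈ F.E) →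
    F.CasB F.B e f → F.Cy k (g₁ + g₂ - 1) (d₁ + d₂) Q n →
    (∀ m : AM Λ R J ν κ, (∀ j ∉ F.mov, m.y j ∈ Cv.H0 m.N (Cv.bz m.L (F.w j))) → (Q m ↔ ∃ U,
      m.Pr2 (F.sub F.B Z₁) (F.sub F.B Z₂) φ ψ (fun a => u₁ a • δ₁) (fun a => u₂ a • δ₂) g₂ d₂ U)) →
    (∀ (m : AM Λ R J ν κ) U U',
      m.Pr2 (F.sub F.B Z₁) (F.sub F.B Z₂) φ ψ (fun a => u₁ a • δ₁) (fun a => u₂ a • δ₂) g₂ d₂ U →
      m.Pr2 (F.sub F.B Z₁) (F.sub F.B Z₂) φ ψ (fun a => u₁ a • δ₁) (fun a => u₂ a • δ₂) g₂ d₂ U' →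
      U = U') →
    (F.sub F.B Z₁).Fs (fun a => u₁ a • δ₁) fs₁ → (F.sub F.B Z₂).Fs (fun a => u₂ a • δ₂) fs₂ →
    ∀ᶠ D in atTop, F.intQ k D (g₁ + g₂ - 1) (d₁ + d₂) Q
        (fs₁.map (Fac.re (φ ∘ .inl) (ψ ∘ .inl)) ++ fs₂.map (Fac.re (φ ∘ .inr) (ψ ∘ .inr))) =
      ∑ q, (F.sub F.B Z₁).intM k D g₁ d₁ (fun a => u₁ a • δ₁) (.par _ (e q) :: fs₁) *
        (F.sub F.B Z₂).intM k D g₂ d₂ (fun a => u₂ a • δ₂) (.par _ (f q) :: fs₂)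

end St

end Vale.Agent.P269
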