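import Vale.Agent.P269.Spl.Geo2
import Vale.Agent.P269.Pt.Glue
import Vale.Agent.P269.Pt.Bnd
import Vale.Agent.P269.Base.MerPar

/-!
# Positive maps
-/

set_option linter.unusedSectionVars false

namespace Vale.Agent.P269

open Set Function Topology Filter Holo Base Cv

variable {S Λ R J K ι ν ν' κ κ' ε ε' : Type} [Fintype S] [Fintype Λ] [Fintype R] [Fintype J]
  [Fintype K] [Fintype ι] [DecidableEq ι] [Fintype ν] [Fintype ν'] [Fintype κ] [Fintype κ']
  [Fintype ε] [Fintype ε']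

namespace AM

variable {W : Wt S Λ R J} {A : Set J} {w d d' : R → ℤ} {b c : J} {a a' : ℤ}
  {U : Ch.Mk ν κ → ℤ} {T T' : Set (Ch.Mk ν κ)} {m m' : AM Λ R J ν κ} {u : ε → ℕ} {u' : ε' → ℕ}
  {n : ε × Bool → m.X} {n' : ε' × Bool → m.X}

section pos

variable [DecidableEq R] {F : Fam S Λ R J K} {θ : R → ℤ} {k : ℕ}

/-- positivity only depends on the degrees on open and closed sets -/
theorem Pos.of_degOn {m' : AM Λ R J ν' κ'} (h : m.Pos θ k) (f : Set m'.X → Set m.X)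
    (hc : ∀ V, IsClopen V → V.Nonempty → IsClopen (f V) ∧ (f V).Nonempty)
    (hω : ∀ V, IsClopen V → degOn m.ω (f V) = degOn m'.ω V)
    (hL : ∀ V, IsClopen V → ∀ r, degOn (m.L r) (f V) = degOn (m'.L r) V) : m'.Pos θ k := by
  obtain ⟨a, b, N, c, e⟩ := h
  have g : ∀ V, IsClopen V → ∀ o : Option R,
      degOn (o.elim 1 m.L) (f V) = degOn (o.elim 1 m'.L) V := by
    rintro V p (_ | r)
    exacts [(degOn_one _).trans (degOn_one _).symm, hL V p r]
  refine ⟨fun V p q => ?_, fun V p q => ?_, N, c, fun o => ⟨fun V p q => ?_, fun V p q => ?_⟩⟩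
  · simpa only [degOn_mul, degOn_bz, hω V p, hL V p] using a _ (hc V p q).1 (hc V p q).2
  · simpa only [degOn_bz, hL V p] using b _ (hc V p q).1 (hc V p q).2
  · simpa only [stdA, degOn_div, degOn_mul, degOn_pow, degOn_bz, hω V p, hL V p, g V p] using
      (e o).1 _ (hc V p q).1 (hc V p q).2
  · simpa only [stdA, degOn_div, degOn_mul, degOn_pow, degOn_bz, hω V p, hL V p, g V p] using
      (e o).2 _ (hc V p q).1 (hc V p q).2

theorem Sol.pos (hk : F.Big k) (h : m.Sol F) (hs : m.Stable F.θ) : m.Pos F.θ k := by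
  obtain ⟨θ₀, N, ha, hN⟩ := hk
  refine ⟨hs, fun V _ _ => ?_, N, hN, (near_of_ample ha h.2.1 h.2.2 AC.degOn_ω hs k).2⟩
  rw [ha.1, degOn_nsmul]
  exact mul_nonneg (Nat.cast_nonneg _) (h.degOn_nonneg ha V)

theorem pos_cut (hn : m.Nds n) : (m.cut hn).Pos θ k ↔ m.Pos θ k := by
  obtain ⟨w, a, b, -⟩ := AC.cut_ω hn
  have e : ∀ V, degOn (m.toAC.cut hn).ω V = degOn m.ω V := fun V =>
    sub_eq_zero.1 ((degOn_div _ _ V).symm.trans (degOn_of_ne (fun x _ => a.1 x) fun x _ => b x))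
  exact ⟨fun h => h.of_degOn id (fun _ p q => ⟨p, q⟩) (fun V _ => e V) fun _ _ _ => rfl,
    fun h => h.of_degOn id (fun _ p q => ⟨p, q⟩) (fun V _ => (e V).symm) fun _ _ _ => rfl⟩

theorem pos_glue {m : AM Λ R J ν (κ ⊕ ε)} : m.glue.Pos θ k ↔ m.Pos θ k := by
  have e : ∀ V, degOn m.toAC.glue.ω V = degOn m.ω V := fun V => by rw [AC.glue_ω]
  exact ⟨fun h => h.of_degOn id (fun _ p q => ⟨p, q⟩) (fun V _ => e V) fun _ _ _ => rfl,
    fun h => h.of_degOn id (fun _ p q => ⟨p, q⟩) (fun V _ => (e V).symm) fun _ _ _ => rfl⟩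

theorem pos_re {m : AM Λ R J ν' κ'} (φ : Ch.Mk ν κ ≃ Ch.Mk ν' κ') :
    (m.re φ.toEmbedding).Pos θ k ↔ m.Pos θ k := by
  have e : ∀ V, degOn (m.toAC.re φ.toEmbedding).ω V = degOn m.ω V := fun V => by
    simp only [AC.degOn_ω, AC.re_P]
  exact ⟨fun h => h.of_degOn id (fun _ p q => ⟨p, q⟩) (fun V _ => e V) fun _ _ _ => rfl,
    fun h => h.of_degOn id (fun _ p q => ⟨p, q⟩) (fun V _ => (e V).symm) fun _ _ _ => rfl⟩

theorem ivtA_pos : IvtA W A (Pos θ k : AM Λ R J ν κ → Prop) := fun m m' i h => by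
  obtain ⟨e, t, τ, i⟩ := iso_iff.1 i
  refine h.of_degOn (fun V => e ⁻¹' V)
    (fun V p q => ⟨p.preimage i.liso.cont, e.surjective.nonempty_preimage.2 q⟩) (fun V p => ?_)
    fun V _ r => by rw [← i.degOn_L, e.image_preimage]
  rw [AC.degOn_ω_eq p, AC.degOn_ω_eq (p.preimage i.liso.cont), ← i.degOn_omega, e.image_preimage]
  refine congrArg _ (congrArg _ (congrArg _ (Finset.ext fun q => ?_)))
  simp only [Finset.mem_filter, mem_preimage, i.mark]

/-- positive maps have points in the standard chart -/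
theorem Pos.exists_repD {D : ℕ} {g : ℤ} (hD : F.BigD k D) (h : m.Pos F.θ k) (ht : m.Typ g d)
    (hy : ∀ j ∈ A, m.y j ∈ H0 m.N (bz m.L (F.w j))) {s : ν ⊕ κ → Option R → ℂ}
    (s0 : ∀ n o, s n o ≠ 0) : ∃ (x : (F.sch ν κ k D g d).WF ν κ Λ) (π u : _),
      Ch.RepD ℓs A x m (stdA ((m.ω * bz m.L F.θ) ^ k) m.L) π u s := by
  obtain ⟨hB, h0, N, hN, b⟩ := h
  have a : Ge (m.ω * bz m.L F.θ / omega m.R m.N ∅) 0 := fun V p q => by
    have := ge_omega m.N m.P (R := m.R) V p q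
    have := h0 V p q
    simp only [degOn_div, degOn_mul, AC.degOn_ω] at *
    omega
  have dg : (fun o => deg (stdA ((m.ω * bz m.L F.θ) ^ k) m.L o)) = (F.sch ν κ k D g d).m :=
    funext fun o => by
      rw [stdA, deg_mul, deg_pow, ht.deg_ω]
      cases o <;> simp [ht.2, Fam.chart, Tgt.chart]
  obtain ⟨π, f, -⟩ := exists_full (N := m.N) (A := stdA ((m.ω * bz m.L F.θ) ^ k) m.L)
    (M := (F.sch ν κ k D g d).M) fun o => by
      have := finrank_H0 (h1_eq_zero m.nd (ge_omega_of (m := 1) ((b o).ge hB (by omega)) hB a))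
      rw [congrFun dg o, ht.1] at this
      exact (Int.toNat_natCast _).symm.trans (congrArg _ this)
  obtain ⟨P, C⟩ := f.isCurve (o := none) m.nd hB a (k := k) (c := N) (by omega) (fun o => (b o).1)
    fun o => (b o).2
  rw [dg, ht.1] at C
  have hc : (F.sch ν κ k D g d).Cuts := Fam.chart_cuts hD
  obtain ⟨x, u, -, r⟩ := Ch.exists_repD (ch := F.sch ν κ k D g d) (ℓ := ℓs) (A := A) (m := m)
    (s := s) hc
    (fun l => Int.toNat_of_nonneg ((Nat.cast_nonneg _).trans_eq (P.finrank C (hc.ne l)))) P C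
    (by
      rw [chart_χ g _ d hD, bz_sub, bz_single, ← natCast_zsmul, bz_smul, bz_stdA, zpow_one,
        zpow_natCast, stdA, Option.elim_none, mul_one, mul_pow, mul_div_cancel_right]
      exact .refl _)
    (fun r => by rw [ℓs, bz_stdA, bz_single, zpow_one]; exact .refl _)
    (fun j hj => by rw [chart_wd, bz_stdA]; exact hy j hj) s0
  exact ⟨x, π, u, r⟩

end pos

end AM

end Vale.Agent.P269
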