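import Vale.Agent.P269.Spl.GBd

/-!
# Gluing on the level of the smooth spaces: the dictionary with abstract maps
-/

set_option linter.unusedSectionVars false
set_option linter.unusedVariables false

namespace Vale.Agent.P269

open Set Function Topology Filter Holo Base Cv

variable {S Λ R J K ι ν ν' κ ε : Type} [Fintype S] [Fintype Λ] [Fintype R] [Fintype J] [Fintype K]
  [Fintype ι] [DecidableEq ι] [Fintype ν] [Fintype ν'] [Fintype κ] [Fintype ε]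

namespace GBp

theorem surj_of_dual {E F : Type} [NormedAddCommGroup E] [NormedSpace ℂ E] [NormedAddCommGroup F]
    [NormedSpace ℂ F] [FiniteDimensional ℂ F] {T : E →L[ℂ] F}
    (h : ∀ l : F →L[ℂ] ℂ, l ∘L T = 0 → l = 0) : Surjective T := by
  by_contra b
  obtain ⟨l, c, d⟩ := (LinearMap.range T.toLinearMap).exists_dual_map_eq_bot_of_lt_top
    (lt_top_iff_ne_top.2 fun e => b (LinearMap.range_eq_top.1 e)) inferInstance
  refine c (congrArg ContinuousLinearMap.toLinearMap (h l.toContinuousLinearMap ?_))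
  exact ContinuousLinearMap.ext fun e => (Submodule.eq_bot_iff _).1 d _ ⟨_, ⟨e, rfl⟩, rfl⟩

variable {M M' : ι → ℕ}

theorem fac_apV (φ : HV M M') {γ δ : ℂ → V M} (h : Nrm.Fac γ δ) :
    Nrm.Fac (fun t => apV φ (γ t)) fun t => apV φ (δ t) :=
  let ⟨s, ψ, a1, a2, a3, a4, a5, a6⟩ := h
  ⟨s, ψ, a1, a2, a3, a4, a5, a6.mono fun _ e => (congrArg _ e).trans (apV_smul _ _ _)⟩

theorem fac_smul (γ : ℂ → V M) {s : ι → ℂ} (hs : ∀ i, s i ≠ 0) : Nrm.Fac γ fun t => s • γ t :=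
  ⟨fun _ => s, id, analyticAt_const, analyticAt_id, hs, rfl, by simp, .of_forall fun _ => rfl⟩

variable {X : Type} [TopologicalSpace X] [T2Space X] [CompactSpace X] {Q : RS X}
  {N N' : Finset (X × X)} {A A' : ι → LB Q} {o : ι} {C C' : Set (V M)} {π π' : X → V M}

theorem br_apV (φ : HV M M') (y : X) :
    br A (fun y => apV φ (π y)) y = fun t => apV φ (br A π y t) := funext (br_lin y)

/-- proportional presentations have the same branches -/
theorem fac_br (h : Par o C N A π) (h' : Par o C' N' A' π') {c : X → ι → ℂ}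
    (e : ∀ y, π' y = c y • π y) (y : X) : Nrm.Fac (br A π y) (br A' π' y) := by
  refine ⟨fun t i => (A' i / A i).loc (fun y => c y i) y t, id, analyticAt_pi_iff.2 fun i => ?_,
    analyticAt_id, fun i => ?_, rfl, by simp, ((br_of_eq (A := A) (A' := A') (LIso.id Q) e y).and
      (Q.tgt_nhds y)).mono fun t a => ?_⟩
  · obtain ⟨j, a⟩ := ne_iff.1 (h.ne y i)
    refine (((h'.sec i j).1 y).div ((h.sec i j).1 y) a).congr
      ((((h.sec i j).1 y).ev_ne a).mono fun z hz => ?_)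
    rw [Pi.div_apply, e]
    exact mul_div_cancel_right₀ _ hz
  · beta_reduce
    rw [LB.loc_zero]
    exact Dict.unit_of_ne (e y ▸ h'.ne y) i
  · have := a.1
    rwa [id, id, Q.e_i a.2] at this

variable {ch : Ch ι J} {n : Nm ι J}

theorem xi_glue {c : AC ν (κ ⊕ ε)} {A : ι → LB c.R} {π : c.X → V n.M} (φ : HV n.M ch.M)
    (h : ∀ i j, (fun x => π x i j) ∈ H0 c.N (A i)) (μ : Tn ch.M ch.slot) (y : c.X) :
    (c.sg ^ ch.k) y * wsec (ch := ch.re n) A π c.N c.P (pbT φ _ μ) y =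
      (c.glue.sg ^ ch.k) y * wsec A (fun y => apV φ (π y)) c.glue.N c.glue.P μ y := by
  rw [Ch.wsec_glue, ← Ch.wsec_apV φ h]
  by_cases a : Sm c.N y ∧ y ∉ c.P
  · rw [Pi.pow_apply, Pi.pow_apply, AC.sg_of_not_mem a.2,
      AC.sg_of_not_mem (c := c.glue) (AC.ord_glue.2 a).2]
  · rw [wsec, if_neg a]
    rcases Nat.eq_zero_or_pos ch.k with d | d
    · simp [d]
    · simp [d.ne']

theorem inc_fst (a : Ch.Mk ν κ) : (Ch.inc (κ' := ε) a).map id Prod.fst =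
    (a.map id Prod.fst).map id .inl := by cases a <;> rfl

end GBp

namespace Ch

open GBp

variable {ch : Ch ι J} {n : Nm ι J} {W : Wt S Λ R J} {F : Fam S Λ R J K} {ℓ : R → ι → ℤ}
  {A : Set J} {x : ch.WF ν κ Λ} {w : ch.Lb n (Mk ν (κ ⊕ ε))} {m : AM Λ R J ν (κ ⊕ ε)}

theorem Lat.re (h : ch.Lat W ℓ) : (ch.re n).Lat W ℓ := ⟨h.wd, h.dual⟩

/-- **P2**: the glued point represents the glued map -/
theorem Gl.repD (h : Gl x.2 w) {B π u s} (r : RepD ℓ A (μL x w) m B π u s)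
    (hA : ∀ j ∈ A, Mt x.2 w j) : RepD ℓ A x m.glue B (fun y => apV w.2.1 (π y))
      (fun y l => u y l ∘L w.2.2 l) fun a => s (a.map id .inl) := by
  obtain ⟨c, A₁, π₁, u₁, ξ, ξ', a⟩ := h.exists_gd
  obtain ⟨f, t, hf, hN, b, t0, d⟩ := r.cr.par.exists_iso a.cr'.par
  have hp : ∀ k, f (m.p k) = c.p k := fun k => a.cr'.orb_mark.1
    ⟨t (m.p k) * (s (k.map id Prod.fst))⁻¹, by
      rw [b, show w.1.p k = _ from r.mark k, mul_smul, Dict.inv_smul (r.ne _)]⟩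
  have ht : ∀ k, t (m.p k) = s (k.map id Prod.fst) := fun k =>
    Dict.smul_cancel (r.cr.par.ne _) (by rw [← b, hp, a.mark]; exact r.mark k)
  have par := (a.cr.par.comp hf m.glue.nd fun y z => by
    rw [AC.jn_glue, AC.jn_glue, hN]
    simp only [← hp, f.apply_eq_iff_eq]).of_iso (B := B) (c := fun y => (t y)⁻¹)
      (fun i => inv_div (hf.pb (A₁ i)) (B i) ▸ H0.inv_mem (AC.mem_H0_glue.2 ⟨d i, fun e => by
        rw [ht, ht]; rfl⟩) (t0 · i)) fun y i => inv_ne_zero (t0 y i)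
  rw [show (fun y => (t y)⁻¹ • apV w.2.1 (π₁ (f y))) = fun y => apV w.2.1 (π y) from
    funext fun y => by rw [b, apV_smul, Dict.inv_smul (t0 y)]] at par
  have mk : ∀ k, x.2.p k = s ((k.map id Prod.fst).map id .inl) • apV w.2.1 (π (m.glue.p k)) :=
    fun k => (h.mark k).trans ((congrArg _ (r.mark (inc k))).trans (by rw [apV_smul, inc_fst]))
  exact ⟨r.l, ⟨h.mem, par, fun y => h.toLk.gr (r.cr.gr y) (par.ne y), m.glue.sm, m.glue.inj,
    fun k => ⟨_, r.ne _, mk k⟩, AC.mem_triv.1 (AC.glue_ω (c := m.toAC) ▸ r.crep.eqv),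
    fun z => pow_ne_zero _ (m.glue.sg_ne z), fun y μ => (congrArg (u y none) (h.Ξ μ)).trans
      ((r.cr.Xi y _).trans (xi_glue _ r.cr.par.sec μ y))⟩, mk, r.L,
    fun j hj y μ => (congrArg (u y _) (hA j hj μ)).trans (r.ind j hj y _)⟩

/-- points that represent `m.glue` and `m` are related by a label -/
theorem RepD.exists_gl (hl : ch.Lat W ℓ) (ht : ch.Tight) {x' : (ch.re n).WF ν (κ ⊕ ε) Λ}
    {B π u s B' π' u' s'} (r : RepD ℓ A x m.glue B π u s) (r' : RepD ℓ A x' m B' π' u' s')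
    (hs : ∀ a, s a = s' (a.map id .inl)) : ∃ w : ch.Lb n (Mk ν (κ ⊕ ε)), μL x w = x' ∧ Gl x.2 w ∧
      (∀ j ∈ A, Mt x.2 w j) ∧ ∀ y, apV w.2.1 (π' y) = π y := by
  classical
  obtain ⟨v, -, -, v5⟩ := hl.dual
  have e : ∀ i, Eqv (B i) (B' i) := fun i => by
    have q : ∀ C : ι → LB m.R, C i = bz (fun o : Option R => bz C (o.elim ch.χ ℓ)) fun o => v o i :=
      fun C => by rw [bz_bz, v5, bz_single, zpow_one]
    rw [q B, q B']
    exact .bz (fun o => o.rec ((AC.glue_ω (c := m.toAC) ▸ r.crep.eqv).trans r'.crep.eqv.symm)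
      fun k => (r.L k).trans (r'.L k).symm) _
  have c' := r'.cr.eqv e
  choose φ hφ using fun i => exists_lift_vec fun j =>
    c'.full.span i _ (AC.mem_H0_glue.1 (r.cr.par.sec i j)).1
  have e₁ : ∀ y, apV φ (π' y) = π y := fun y => funext fun i => hφ i y
  have e₂ : (fun y => apV φ (π' y)) = π := funext e₁
  choose ρ hρ using fun l => exists_lift (u := fun y => u' y l) (v := fun y => u y l) fun v => by
    obtain ⟨μ, rfl⟩ := r.cr.mem.1 l v
    exact ⟨x'.2.Q l (P269.pbT φ _ μ), fun y => by rw [c'.u_Q, r.cr.u_Q, val_pbT, e₁]⟩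
  let t : m.X → ι → ℂ := extend m.p (fun a => s' (a.map id Prod.fst)) 1
  have t1 : ∀ k, t (m.p k) = s' (k.map id Prod.fst) := fun k => m.inj.extend_apply _ _ _
  have t2 : ∀ y, ¬Sm m.N y → t y = 1 := fun y a =>
    extend_apply' _ _ _ fun ⟨k, b⟩ => a (b ▸ m.sm k)
  have t0 : ∀ y i, t y i ≠ 0 := fun y i => by
    by_cases a : ∃ k, m.p k = y
    · obtain ⟨k, rfl⟩ := a
      rw [t1]
      exact r'.ne _ i
    · rw [show t y = 1 from extend_apply' _ _ _ a]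
      exact one_ne_zero
  have t3 : ∀ i, (fun y => t y i) ∈ H0 m.glue.N
      (B i * LB.cst m.R (fun y => t y i) (t0 · i) / B i) := fun i => by
    rw [mul_div_cancel_left]
    exact AC.mem_H0_glue.2 ⟨cst_mem0 _ fun k hk => by
      rw [t2 _ (Xi.not_sm_fst hk), t2 _ (Xi.not_sm_snd hk)], fun e => by rw [t1, t1]; rfl⟩
  have hM : ∀ i, Module.finrank ℂ (H0 m.glue.N (B i)) = ch.M i := fun i => by
    exact_mod_cast (r.cr.par.finrank_one r.cr.cur i).trans (ht.eq r.cr.mem i).symm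
  refine ⟨(x'.2, φ, ρ), Prod.ext (r.l.trans r'.l.symm) rfl, ⟨⟨fun l μ => c'.u_ext fun y => ?_,
    fun μ => c'.u_ext fun y => ?_⟩, r.cr.mem, r'.cr.mem, fun i => surj_of_dual fun l d =>
      r.cr.full.eq_zero (hM i) fun y => (congrArg l (hφ i y)).symm.trans (congrArg (· (π' y i)) d),
    fun l => (injective_iff_map_eq_zero _).2 fun v d => r.cr.u_inj fun y => ?_, fun a => ?_,
    fun e => ?_, m.X, _, inferInstance, inferInstance, m.R, m.N, _, _, m.p,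
    c'.par.of_iso (fun i => (AC.mem_H0_glue.1 (t3 i)).1) t0, fun a => ?_, ?_⟩,
    fun j hj μ => c'.u_ext fun y => ?_, e₁⟩
  · exact (hρ l y _).trans ((r.cr.u_Q y l μ).trans (by rw [c'.u_Q, val_pbT, e₁]))
  · exact (hρ _ y _).trans ((r.cr.Xi y μ).trans ((c'.Xi y _).trans
      ((xi_glue φ c'.par.sec μ y).trans (by rw [e₂]; rfl))).symm)
  · rw [← hρ, show ρ l v = 0 from d, map_zero]
  · exact (r.mark a).trans ((congrArg (apV φ) (r'.mark (inc a))).trans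
      (by rw [apV_smul, e₁, hs, inc_fst])).symm
  · refine (congrArg (apV φ) (r'.mark _)).trans (.trans ?_ (congrArg (apV φ) (r'.mark _)).symm)
    rw [apV_smul, apV_smul, e₁, e₁, r.cr.par.π_eq (.inr (AC.nds_glue.jn e))]
    rfl
  · rw [t1]
    exact (r'.mark a).symm
  · simpa only [apV_smul, e₁] using r.cr.par.of_iso t3 t0
  · exact (hρ _ y _).trans ((r.ind j hj y μ).trans (by rw [r'.ind j hj, val_pbT, e₁]))

theorem Gl.brs_iff (h : Gl x.2 w) {B π u s} (r : RepD ℓ A (μL x w) m B π u s)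
    {γ : ε → Bool → ℂ → V ch.M} : Brs w γ ↔
      ∀ e b, Nrm.Fac (br B (fun y => apV w.2.1 (π y)) (m.p (nq e b))) (γ e b) := by
  refine forall₂_congr fun e b => ⟨fun ⟨δ, a, c, d⟩ => ?_, fun a =>
    ⟨_, (r.cr.par.isBranch (m.p (nq e b))).const_smul r.cr.par.cone (r.ne (.inr (.inr e))),
      by rw [br_zero]; exact (r.mark (nq e b)).symm, (fac_apV _ (fac_smul _ (r.ne _))).symm.trans
        (br_apV (A := B) w.2.1 _ ▸ a)⟩⟩
  obtain ⟨y, k⟩ := r.cr.par.dc_fac a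
  obtain ⟨t, -, g⟩ := (dc_orb k).symm
  obtain rfl := r.cr.orb_mark.1 ⟨t, g.trans (congrArg _ c)⟩
  rw [br_apV]
  exact (fac_apV _ k).trans d

theorem axes_iff {c : AC ν κ} {B : ι → LB c.R} {π : c.X → V ch.M} {v : ε × Bool → c.X}
    {σ : ε → ℂ × ℂ → V ch.M} :
    Axes B π v σ ↔ ∀ e b, Nrm.Fac (br B π (v (e, b))) (axs σ e b) :=
  forall_congr' fun e => ⟨fun a b => by cases b; exacts [a.1, a.2], fun a => ⟨a false, a true⟩⟩

/-- **P1**: labels exist -/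
theorem RepD.exists_lab (hl : ch.Lat W ℓ) (ht : ch.Tight) {m : AM Λ R J ν κ} {B π u s}
    (r : RepD ℓ A x m B π u s) {v : ε × Bool → m.X} (hn : m.Nds v)
    (E : ∀ s' : ν ⊕ κ ⊕ ε → ι → ℂ, (∀ a i, s' a i ≠ 0) →
      ∃ (x' : (ch.re n).WF ν (κ ⊕ ε) Λ) (B' π' u' : _), RepD ℓ A x' (m.cut hn) B' π' u' s') :
    ∃ w : ch.Lb n (Mk ν (κ ⊕ ε)), Gl x.2 w ∧ (∀ j ∈ A, Mt x.2 w j) ∧ (∀ j ∉ A, w.1.X j = 0) ∧
      Rep ℓ A (μL x w) (m.cut hn) ∧ ∀ σ, Axes B π v σ → Brs w (axs σ) := by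
  classical
  have a : AM.IsoD W A (m.cut hn).glue m (Equiv.refl _) 1 1 :=
    ⟨LIso.id _, isUnit_one, fun _ _ => AC.jn_cut_glue hn, congrFun (AC.cut_glue_p hn),
      fun i => (div_self' (m.L i)).symm ▸ H0.one_mem, fun _ _ => one_ne_zero, fun _ _ => rfl,
      (W.actL_one _).symm, fun j _ x => by simp [Wt.actT, AM.vl]⟩
  obtain ⟨B₂, c, u₂, s₂, -, -, r₂⟩ := r.of_isoD hl a
  obtain ⟨x', B', π', u', r'⟩ := E (Sum.elim (fun a => s₂ (.inl a))
    (Sum.elim (fun a => s₂ (.inr a)) 1)) (by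
      rintro (a | a | a)
      exacts [r₂.ne _, r₂.ne _, fun _ => one_ne_zero])
  have r₃ : RepD ℓ A ((x'.1, setX x'.2 fun j => if j ∈ A then x'.2.X j else 0) :
      (ch.re n).WF ν (κ ⊕ ε) Λ) (m.cut hn) B' π' u' _ :=
    ⟨r'.l, r'.cr.setX _, r'.mark, r'.L, fun j hj y μ => (congrArg
      (fun T : _ →L[ℂ] _ => u' y _ (T μ)) (if_pos hj)).trans (r'.ind j hj y μ)⟩
  obtain ⟨w, h1, h2, h3, h4⟩ := r₂.exists_gl hl ht r₃ (by rintro (a | a) <;> rfl)
  rw [← h1] at r₃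
  refine ⟨w, h2, h3, fun j hj => (congrArg (fun z => z.2.X j) h1).trans (if_neg hj), r₃.rep,
    fun σ k => (h2.brs_iff r₃).2 fun e b => ?_⟩
  exact (fac_br r.cr.par (h2.repD r₃ h3).cr.par h4 _).symm.trans (axes_iff.1 k e b)

theorem Gl.mem_baseF (hl : ch.Lat W ℓ) (h : Gl x.2 w) {Z : Set (Λ → ℂ)}
    (hw : μL x w ∈ (ch.re n).baseF ν (κ ⊕ ε) Z) : x ∈ ch.baseF ν κ Z := by
  obtain ⟨m, a⟩ := hl.re.exists_rep (A := ∅) hw fun _ hj => hj.elim
  obtain ⟨B, π, u, s, r⟩ := a.exists_data hw.2.1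
  exact (h.repD r fun _ hj => hj.elim).mem_baseF.2 (r.mem_baseF.1 hw)

theorem Gl.mem_adm_iff (hF : F.Inv) (hl : ch.Lat F.toWt ℓ) (h : Gl x.2 w)
    (hA : ∀ j ∉ F.mov, Mt x.2 w j) (r : Rep ℓ F.movᶜ (μL x w) m) :
    x ∈ ch.adm ν κ F ↔ μL x w ∈ (ch.re n).adm ν (κ ⊕ ε) F := by
  obtain ⟨B, π, u, s, r⟩ := r.exists_data h.mem'
  have r₂ := h.repD r hA
  rw [r₂.mem_adm hF hl.wd Subset.rfl, r.mem_adm hF hl.wd Subset.rfl]
  exact and_congr_right fun _ => and_congr_right fun _ => and_congr_right fun _ =>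
    forall₂_congr fun j hj => (AC.mt_glue.trans (and_iff_left
      (AC.mem_H0_glue.1 (r₂.sec (W := F.toWt) hl.wd hj)).2)).symm

variable {P : AM Λ R J ν (κ ⊕ ε) → Prop}

theorem Zb.mem_locP (hF : F.Inv) (hl : ch.Lat F.toWt ℓ) (hP : AM.IvtA F.toWt F.movᶜ P)
    {z : ch.WG n ν κ ε Λ} (hz : z ∈ Zb F ((ch.re n).locP F ℓ P)) :
    z.1 ∈ ch.locP F ℓ (AM.Ct P) := by
  obtain ⟨h, ⟨a, m, r, b⟩, c⟩ := hz
  obtain ⟨B, π, u, s, d⟩ := r.exists_data h.mem'
  exact ⟨(h.mem_adm_iff hF hl c r).2 a, _, (h.repD d c).rep, _, AC.nds_glue,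
    hP _ _ (AM.isoD_glue_cut m).iso b⟩

/-- a label with the right branches lies over the locus of `P` -/
theorem Gl.mem_locP (hF : F.Inv) (hl : ch.Lat F.toWt ℓ) (hP : AM.IvtA F.toWt F.movᶜ P)
    (h : Gl x.2 w) (hA : ∀ j ∉ F.mov, Mt x.2 w j ∧ Sc w.1 j) (hx : x ∈ ch.adm ν κ F)
    (hw : μL x w ∈ (ch.re n).baseF ν (κ ⊕ ε) univ) {σ : ε → ℂ × ℂ → V ch.M} (b : Brs w (axs σ))
    (loc : ∀ (m : AM Λ R J ν κ) (B π u s) (v : ε × Bool → m.X) (h : m.Nds v),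
      RepD ℓ F.movᶜ x m B π u s → Axes B π v σ → P (m.cut h)) :
    μL x w ∈ (ch.re n).locP F ℓ P := by
  obtain ⟨m, r⟩ := hl.re.exists_rep (A := F.movᶜ) hw fun j hj => (hA j hj).2
  obtain ⟨B, π, u, s, d⟩ := r.exists_data h.mem'
  exact ⟨(h.mem_adm_iff hF hl (fun j hj => (hA j hj).1) r).1 hx, m, r,
    hP _ _ (AM.isoD_glue_cut m).iso.symm (loc _ _ _ _ _ _ AC.nds_glue
      (h.repD d fun j hj => (hA j hj).1) (axes_iff.2 ((h.brs_iff d).1 b)))⟩

end Ch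

end Vale.Agent.P269
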