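import Vale.Agent.P269.Pt.Iso
import Vale.Agent.P269.Base.MerPar

/-!
# Sections with a prescribed divisor
-/

set_option linter.unusedSectionVars false

namespace Vale.Agent.P269.Cv.DA

open Set Function Topology Filter MerP

variable {X β : Type} [TopologicalSpace X] [T2Space X] [CompactSpace X] [Fintype β] {R : RS X}
  {L : LB R} {s B : X → ℂ} {x : X} {y : β → X} {u : β → ℤ} {k : β}

theorem bz_neg {ι : Type} [Fintype ι] (A : ι → LB R) (a : ι → ℤ) : bz A (-a) = (bz A a)⁻¹ := by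
  rw [← zero_sub, bz_sub, bz_zero, one_div]

theorem closure_ne (h : s ∈ L.Γ) : closure {z | s z ≠ 0} = Gen s := by
  refine Subset.antisymm (closure_minimal (fun z hz => (h z).mem_gen hz) (isClopen_gen h).isClosed)
    fun z hz => mem_closure_iff_frequently.2 ?_
  have := R.neBot z
  exact (mem_gen.1 hz).frequently.filter_mono nhdsWithin_le_nhds

theorem eq_off (hs : L.Sec s x) (hB : (L / ∏ k, R.pt (y k) ^ u k).Sec B x) (hx : ∀ k, x ≠ y k)
    (e : ∀ᶠ z in 𝓝[≠] x, B z = s z) : B x = s x := by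
  rw [LB.Sec, loc_off hx] at hB
  simpa only [LB.loc_zero] using ((hB.continuousAt.eventuallyEq_nhds_iff_eventuallyEq_nhdsNE
    hs.continuousAt).1 ((R.ev_ne_iff.1 e).mono fun t a => by simp only [LB.loc, a])).self_of_nhds

theorem ord_at (hi : Injective y) (hs : L.Sec s (y k))
    (hB : (L / ∏ k, R.pt (y k) ^ u k).Sec B (y k)) (h0 : B (y k) ≠ 0)
    (e : ∀ᶠ z in 𝓝[≠] (y k), B z = s z) : 0 ≤ u k ∧ L.ord s (y k) = (u k).toNat := by
  have a : meromorphicOrderAt (L.loc s (y k)) 0 = u k :=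
    (meromorphicOrderAt_eq_int_iff hs.meromorphicAt).2 ⟨_, hB, by rwa [LB.loc_zero],
      ((R.ev_ne_iff.1 e).and (loc_at (L := L) (s := B) (u := u) hi k)).mono fun t b => by
        rw [sub_zero, smul_eq_mul, ← b.2, LB.loc, LB.loc, b.1]⟩
  rw [AnalyticAt.meromorphicOrderAt_eq hs] at a
  change ENat.map _ (L.ord s (y k)) = _ at a
  generalize L.ord s (y k) = o at a
  cases o with
  | top => simp at a
  | coe o =>
    have b : (o : ℤ) = u k := WithTop.coe_injective a
    exact ⟨b ▸ Int.natCast_nonneg o, by rw [← b, Int.toNat_natCast]⟩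

theorem exists_lead (hi : Injective y) (hs : L.Sec s (y k)) (h0 : 0 ≤ u k)
    (ho : L.ord s (y k) = (u k).toNat) : ∃ a ≠ 0, (u k = 0 → a = s (y k)) ∧ ∀ B : X → ℂ,
      B (y k) = a → (∀ z, (∀ k, z ≠ y k) → B z = s z) →
        (L / ∏ k, R.pt (y k) ^ u k).Sec B (y k) := by
  obtain ⟨g, a, b, d⟩ := (AnalyticAt.analyticOrderAt_eq_natCast hs).1 ho
  refine ⟨g 0, b, fun e => by simpa [e] using d.self_of_nhds.symm, fun B e f => a.congr
    (eventuallyEq_nhds_of_eventuallyEq_nhdsNE ?_ (e.symm.trans LB.loc_zero.symm))⟩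
  filter_upwards [loc_at (L := L) (s := B) (u := u) hi k, ev_off' (R := R) (y := y) (y k),
    mem_nhdsWithin_of_mem_nhds d, self_mem_nhdsWithin] with t e1 e2 e3 e4
  refine mul_left_cancel₀ (zpow_ne_zero (u k) e4) ?_
  rw [← e1, LB.loc, f _ e2, ← Int.toNat_of_nonneg h0, zpow_natCast]
  simpa [LB.loc] using e3.symm

/-- dividing a section by its divisor -/
theorem exists_lv (hi : Injective y) {Y : Set X} (hs : s ∈ L.Γ)
    (h : ∀ k, y k ∈ Y → 0 ≤ u k ∧ L.ord s (y k) = (u k).toNat) :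
    ∃ B : X → ℂ, (∀ z ∈ Y, (L / ∏ k, R.pt (y k) ^ u k).Sec B z) ∧
      (∀ z, (∀ k, z ≠ y k) → B z = s z) ∧
      ∀ k, y k ∈ Y → B (y k) ≠ 0 ∧ (u k = 0 → B (y k) = s (y k)) := by
  choose! a ha using fun k (hk : y k ∈ Y) => exists_lead hi (hs _) (h k hk).1 (h k hk).2
  have h1 : ∀ x, (∀ k, x ≠ y k) → extend y a s x = s x := fun x hx =>
    extend_apply' _ _ _ fun ⟨k, e⟩ => hx k e.symm
  refine ⟨_, fun x hY => ?_, h1, fun k hk => ?_⟩
  · by_cases hx : ∀ k, x ≠ y k
    · rw [LB.Sec, loc_off hx]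
      exact (hs x).congr ((eventually_all.2 fun k => eventually_ne_nhds (hx k)).mono fun t b =>
        (h1 _ b).symm)
    · obtain ⟨k, rfl⟩ : ∃ k, x = y k := by simpa using hx
      exact (ha k hY).2.2 _ (hi.extend_apply _ _ _) h1
  · rw [hi.extend_apply]
    exact ⟨(ha k hk).1, (ha k hk).2.1⟩

theorem inv_div (L : LB R) :
    (L / ∏ k, R.pt (y k) ^ u k)⁻¹ = L⁻¹ / ∏ k, R.pt (y k) ^ (-u) k := by
  simp only [Pi.neg_apply, zpow_neg, Finset.prod_inv_distrib, inv_div_inv, _root_.inv_div]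

open Classical in
theorem degOn_eq {V : Set X} (hV : IsClopen V) (hB : B ∈ (L / ∏ k, R.pt (y k) ^ u k).Γ)
    (h0 : ∀ z, B z ≠ 0) : degOn L V = ∑ k with y k ∈ V, u k := by
  have := degOn_of_ne (U := V) (fun z _ => hB z) fun z _ => h0 z
  rw [degOn_div, sub_eq_zero, degOn_prod] at this
  simp only [this, degOn_zpow, degOn_pt hV, Finset.sum_filter, mul_ite, mul_one, mul_zero]

theorem exists_div {X' : Type} [TopologicalSpace X'] [T2Space X'] {R' : RS X'} {f : X → X'}
    (h : LIso R R' f) (hf : Injective f) (hi : Injective y) :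
    ∃ v ∈ ((∏ k, R.pt (y k) ^ u k) / h.pb (∏ k, R'.pt (f (y k)) ^ u k)).Γ, (∀ z, v z ≠ 0) ∧
      (∀ z, (∀ k, z ≠ y k) → v z = 1) ∧ ∀ k, u k = 0 → v (y k) = 1 := by
  choose v a b d using fun k => h.exists_pt hf (y k)
  refine ⟨∏ k, v k ^ u k, ?_, fun z => ?_, fun z hz => ?_, fun k hk => ?_⟩
  · simpa only [div_zpow, Finset.prod_div_distrib, map_prod, map_zpow] using
      LB.prod_mem (T := Finset.univ) fun k _ => LB.zpow_mem (a k) (b k) (u k)
  · simpa only [Finset.prod_apply, Pi.pow_apply] using prod_zpow_ne (fun k => b k z) u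
  · simp only [Finset.prod_apply, Pi.pow_apply, fun k => d k z (hz k), one_zpow,
      Finset.prod_const_one]
  · rw [Finset.prod_apply]
    refine Finset.prod_eq_one fun l _ => ?_
    by_cases e : k = l
    · simp [← e, hk]
    · simp [d l _ (hi.ne e)]

end Vale.Agent.P269.Cv.DA
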