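import Vale.Agent.P269.Base.Usc
import Vale.Agent.P269.Base.MerPar
import Vale.Agent.P269.Base.FMer
import Vale.Agent.P269.Cv.P1
import Vale.Agent.P269.Pt.Core

/-!
# Specialisation of components in a local family
-/

set_option linter.unusedSectionVars false

namespace Vale.Agent.P269.SpecP

open Set Function Topology Filter Base Cv

variable {ι β : Type} [Fintype ι] {M : ι → ℕ} {o : ι} {a : ι → ℕ}

theorem norm_val_le (μ : Tens M a) (c : V M) : ‖val μ c‖ ≤ ‖μ‖ * ∏ i, ‖c i‖ ^ a i :=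
  (μ.le_opNorm fun s => c s.1).trans_eq (congrArg _ ((Fintype.prod_sigma _).trans
    (Finset.prod_congr rfl fun i _ => (Finset.prod_const ‖c i‖).trans (by simp))))

/-- `F` is cut off to a section that agrees with `F` at the points `y k`, `k ∈ S`, and vanishes at
the other points. -/
def Bad (o : ι) (C : Set (V M)) (a : ι → ℕ) (F : V M → ℂ) (y : β → V M) (S : Set β) : Prop :=
  ∃ s, IsSec o C a s ∧ (∀ c ∈ C, s c = 0 ∨ s c = F c) ∧ (∀ k ∈ S, s (y k) = F (y k)) ∧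
    ∀ k ∉ S, s (y k) = 0

section fam

variable {T P : Type*} [TopologicalSpace T] [NormedAddCommGroup P] [NormedSpace ℂ P]
  [FiniteDimensional ℂ P] {C : T → Set (V M)} {p : T → P} {t₀ : T} {F : T → V M → ℂ}

theorem exists_bound (h : LocFam o C p t₀) (hF : ∀ t, F t ∈ Pol M a)
    (hc : ∀ c, ContinuousAt (fun q : T × V M => F q.1 q.2) (t₀, c)) :
    ∃ K : ℝ, 0 < K ∧ ∀ᶠ t in 𝓝 t₀, ∀ c ∈ C t, ‖F t c‖ ≤ K * ∏ i, ‖c i‖ ^ a i := by
  obtain ⟨μ, e⟩ := mem_Pol.1 (hF t₀)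
  refine ⟨‖μ‖ + 1, by positivity, h.compact
    (p := fun q => ‖F q.1 q.2‖ ≤ (‖μ‖ + 1) * ∏ i, ‖q.2 i‖ ^ a i) (fun c b => ?_)
    (.of_forall fun t s hs c _ b => ?_)⟩
  · refine ((hc c).norm.eventually_lt (g := fun q => (‖μ‖ + 1) * ∏ i, ‖q.2 i‖ ^ a i)
      (Continuous.continuousAt (by fun_prop)) ((e ▸ norm_val_le μ c).trans_lt
        (mul_lt_mul_of_pos_right (lt_add_one _) (Finset.prod_pos fun i _ => pow_pos
          (norm_pos_iff.2 (h.ne_zero.self_of_nhds c b i)) _)))).mono fun _ d _ => d.le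
  · simp only [Pol.hom (hF t), Pi.smul_apply', norm_smul, mul_pow, Finset.prod_mul_distrib,
      norm_mul, chr, norm_prod, norm_pow, mul_left_comm (‖μ‖ + 1)] at b
    exact le_of_mul_le_mul_left b (Finset.prod_pos fun i _ => pow_pos (norm_pos_iff.2 (hs i)) _)

theorem lim (h : LocFam o C p t₀) (hF : ∀ t, F t ∈ Pol M a)
    (hc : ∀ c, ContinuousAt (fun q : T × V M => F q.1 q.2) (t₀, c)) [Finite β] {y : β → T → V M}
    (hy : ∀ k, ContinuousAt (y k) t₀ ∧ ∀ᶠ t in 𝓝 t₀, y k t ∈ C t) :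
    ∀ᶠ t in 𝓝 t₀, ∀ S, Bad o (C t) a (F t) (y · t) S → Bad o (C t₀) a (F t₀) (y · t₀) S := by
  obtain ⟨K, K0, hK⟩ := exists_bound h hF hc
  have K1 : (K : ℂ) ≠ 0 := Complex.ofReal_ne_zero.2 K0.ne'
  refine eventually_all.2 fun S => by_contra fun d => ?_
  obtain ⟨U, hU, e⟩ : ∃ U : Ultrafilter T, (U : Filter T) ≤ 𝓝 t₀ ∧ ∀ᶠ t in U,
      ¬(Bad o (C t) a (F t) (y · t) S → Bad o (C t₀) a (F t₀) (y · t₀) S) := by
    have b := le_inf_iff.1 (@Ultrafilter.of_le _ _ (frequently_iff_neBot.1 (not_eventually.1 d)))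
    exact ⟨_, b.1, le_principal_iff.1 b.2⟩
  obtain ⟨s, hs⟩ := (e.mono fun _ b => (Classical.not_imp.1 b).1).choice
  obtain ⟨s₀, s1, s2⟩ := h.limit a U (t := id) hU (s := fun t c => (K : ℂ)⁻¹ * s t c) (by
    filter_upwards [hs, hU hK] with t b1 b2
    refine ⟨IsSec.const_mul b1.1 _, fun c b3 => ?_⟩
    rw [norm_mul, norm_inv, Complex.norm_real, Real.norm_of_nonneg K0.le, inv_mul_le_iff₀ K0]
    rcases b1.2.1 c b3 with b4 | b4 <;> rw [b4]
    exacts [norm_zero.trans_le (by positivity), b2 c b3])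
  have k : ∀ c ∈ C t₀, ∀ w : T → V M, Tendsto w (𝓝 t₀) (𝓝 c) → (∀ᶠ t in 𝓝 t₀, w t ∈ C t) →
      ((∀ᶠ t in U, s t (w t) = 0) → K * s₀ c = 0) ∧
        ((∀ᶠ t in U, s t (w t) = F t (w t)) → K * s₀ c = F t₀ c) := fun c b w w1 w2 => by
    have f := (s2 c b w (w1.mono_left hU) (hU w2)).const_mul (K : ℂ)
    simp only [mul_inv_cancel_left₀ K1] at f
    exact ⟨fun r => tendsto_nhds_unique f (tendsto_const_nhds.congr' (EventuallyEq.symm r)),
      fun r => tendsto_nhds_unique f ((((hc c).tendsto.comp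
        (tendsto_id.prodMk_nhds w1)).mono_left hU).congr' (EventuallyEq.symm r))⟩
  refine e.exists.elim fun _ b => b fun _ => ⟨_, IsSec.const_mul s1 K, fun c b => ?_,
    fun j b => (k _ (hy j).2.self_of_nhds _ (hy j).1 (hy j).2).2 (hs.mono fun _ r => r.2.2.1 j b),
    fun j b => (k _ (hy j).2.self_of_nhds _ (hy j).1 (hy j).2).1 (hs.mono fun _ r => r.2.2.2 j b)⟩
  obtain ⟨w, w1, w2⟩ := h.exists_approx b
  exact (Ultrafilter.eventually_or.1 ((hs.and (hU w2)).mono fun _ r => r.1.2.1 _ r.2)).imp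
    (k c b w w1 w2).1 (k c b w w1 w2).2

/-- the nodes of the nearby fibres -/
theorem exists_nodes (h : LocFam o C p t₀) : ∃ (n : ℕ) (e : Fin n → T → V M),
    (∀ j, ContinuousAt (e j) t₀ ∧ e j t₀ ∈ C t₀ ∧ IsNode o (C t₀) (e j t₀)) ∧
      ∀ᶠ t in 𝓝 t₀, ∀ c ∈ C t, IsNode o (C t) c → ∃ j, Orb (e j t) c := by
  obtain ⟨n, z, hz⟩ := h.nod.exists_nodes
  choose τ σ a1 a2 a3 a4 using fun j =>
    (h.chart _ (hz.mem j)).resolve_left fun b => b.not_isNode h (hz.prop j)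
  refine ⟨n, fun j t => σ j (p t, 0), fun j => ⟨(a4 j).an.continuousAt.comp_of_eq
    (h.cont.self_of_nhds.prodMk continuousAt_const) rfl, (congrArg (fun c => c ∈ C t₀ ∧
      IsNode o (C t₀) c) (a1 j)).mpr ⟨hz.mem j, hz.prop j⟩⟩,
    h.compact (p := fun q => IsNode o (C q.1) q.2 → ∃ j, Orb (σ j (p q.1, 0)) q.2)
      (fun c hc => ?_) (h.eventually.mono fun t b s hs c _ d e => (d (b.nod.isNode_orb e
        ⟨s, hs, rfl⟩)).imp fun j f => f.trans (Orb.symm ⟨s, hs, rfl⟩))⟩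
  have k := (continuousAt_fst (p := (t₀, c))).eventually h.eventually
  rcases h.chart c hc with b | ⟨_, b⟩
  · filter_upwards [k, b.eventually h] with q d e f r using ((e f).not_isNode d r).elim
  · obtain ⟨j, s, hs, rfl⟩ := hz.ex c hc (b.isNode h)
    rw [← a1 j] at k ⊢
    filter_upwards [k, NdAt.eventually ((a4 j).smul h.cone hs) (a2 j) (a3 j) h] with q d e f r
    obtain ⟨-, ⟨s', e⟩, -⟩ := (e f).resolve_left fun e => e.not_isNode d r
    exact ⟨j, Orb.trans ⟨s, hs, rfl⟩ (Orb.of_smul (d.nod.ne_zero _ f) e)⟩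

/-- forms that vanish at the nodes -/
theorem exists_form (h : LocFam o C p t₀) [Finite β] {y : β → V M}
    (hy : ∀ k, y k ∈ C t₀ ∧ ¬IsNode o (C t₀) (y k)) : ∃ (a : ι → ℕ) (F : T → V M → ℂ),
      (∀ t, F t ∈ Pol M a) ∧ (∀ c, ContinuousAt (fun q : T × V M => F q.1 q.2) (t₀, c)) ∧
      (∀ k, F t₀ (y k) ≠ 0) ∧ ∀ᶠ t in 𝓝 t₀, ∀ c ∈ C t, IsNode o (C t) c → F t c = 0 := by
  obtain ⟨n, e, a1, a2⟩ := exists_nodes h
  have ne := fun j => h.nod.ne_zero _ (a1 j).2.1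
  choose G G1 G2 using fun j => exists_forall_ne
    (Pol M (1 • 1) ⊓ LinearMap.ker (LinearMap.proj (e j t₀))) (finite_range y) fun _ ⟨k, b⟩ =>
      let ⟨f, d, r, s⟩ := exists_van (z := fun j => e j t₀) ne (h.nod.ne_zero _ (hy k).1) {j}
        (fun _ d r => (hy k).2 (h.nod.isNode_orb (a1 _).2.2 r)) (n := 1) (by simp)
      ⟨f, ⟨d, r j (Finset.mem_singleton_self j)⟩, b ▸ s⟩
  choose H H1 _ H2 using fun j => exists_van (z := fun j => e j t₀) ne (ne j) ∅ (by simp)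
    (n := 1) (by simp)
  have b := fun j t => sub_mem (Submodule.smul_mem _ (H j (e j t)) (G1 j).1)
    (Submodule.smul_mem _ (G j (e j t)) (H1 j))
  refine ⟨_, _, fun t => Pol.prod Finset.univ fun j _ => b j t, fun c => ?_, fun k => ?_,
    a2.mono fun t d c r s => ?_⟩
  · simp only [Finset.prod_apply]
    exact tendsto_finsetProd _ fun j _ => ContinuousAt.sub
      (((Pol.cont (H1 j)).continuousAt.comp ((a1 j).1.comp continuousAt_fst)).mul
        ((Pol.cont (G1 j).1).continuousAt.comp continuousAt_snd))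
      (((Pol.cont (G1 j).1).continuousAt.comp ((a1 j).1.comp continuousAt_fst)).mul
        ((Pol.cont (H1 j)).continuousAt.comp continuousAt_snd))
  · simp only [Finset.prod_apply]
    exact Finset.prod_ne_zero_iff.2 fun j _ => by
      simpa [show G j (e j t₀) = 0 from (G1 j).2, H2 j] using G2 j _ ⟨k, rfl⟩
  · obtain ⟨j, s, -, rfl⟩ := d c r s
    rw [Finset.prod_apply]
    exact Finset.prod_eq_zero (Finset.mem_univ j) (by rw [Pol.hom (b j t)]; simp [mul_comm])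

end fam

variable {X : Type} [TopologicalSpace X] [T2Space X] [CompactSpace X] {R : RS X}
  {C : Set (V M)} {N : Finset (X × X)} {A : ι → LB R} {π : X → V M} {U : Set X} {F : V M → ℂ}
  {z : β → X} {y : β → V M}

theorem bad_of (h : Par o C N A π) (hF : F ∈ Pol M a) (hU : IsClopen U)
    (hN : ∀ n ∈ N, (n.1 ∈ U ↔ n.2 ∈ U) ∨ F (π n.1) = 0) (hy : ∀ k, Orb (π (z k)) (y k)) :
    Bad o C a F y (z ⁻¹' U) := by
  classical
  obtain ⟨μ, rfl⟩ := mem_Pol.1 hF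
  obtain ⟨f, b, d⟩ := h.exists_isSecZ (s := U.piecewise (fun x => val μ (π x)) 0)
    ⟨LB.piecewise_mem hU (fun x _ => (val_mem h.sec μ).1 x) fun _ _ => LB.sec_zero, fun n hn =>
      (hN n hn).elim (fun e => if_congr e ((val_mem h.sec μ).2 n hn) rfl) fun e =>
        (ite_eq_right_iff.2 fun _ => e).trans (ite_eq_right_iff.2 fun _ =>
          (congrArg _ (node_eq h.sec hn)).symm.trans e).symm⟩
  have b := isSecZ_iff.1 b
  have k : ∀ x c, Orb (π x) c → (x ∈ U → f c = val μ c) ∧ (x ∉ U → f c = 0) := by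
    rintro x _ ⟨t, ht, rfl⟩
    rw [b.hom t ht _ (h.mem x), d, Dict.val_smul]
    exact ⟨fun e => by rw [piecewise_eq_of_mem _ _ _ e],
      fun e => by rw [piecewise_eq_of_notMem _ _ _ e, Pi.zero_apply, mul_zero]⟩
  refine ⟨f, b, fun c hc => ?_, fun j => (k _ _ (hy j)).1, fun j => (k _ _ (hy j)).2⟩
  obtain ⟨x, e⟩ := (h.img c).1 hc
  exact (em' (x ∈ U)).imp (k x c e).2 (k x c e).1

theorem of_bad (h : Par o C N A π) (hF : F ∈ Pol M a) (hy : ∀ k, Orb (π (z k)) (y k))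
    (h0 : ∀ k, F (y k) ≠ 0) {S : Set β} (hb : Bad o C a F y S) : ∃ U, IsClopen U ∧
      (∀ k, z k ∈ U ↔ k ∈ S) ∧ ((∀ c, F c ≠ 0) → ∀ n ∈ N, n.1 ∈ U ↔ n.2 ∈ U) := by
  obtain ⟨μ, rfl⟩ := mem_Pol.1 hF
  obtain ⟨s, s1, s2, s3, s4⟩ := hb
  have b := h.mem_of_isSecZ (isSecZ_iff.2 s1)
  have k : ∀ x, val μ (π x) ≠ 0 → (x ∈ Gen (fun x => s (π x)) ↔ s (π x) ≠ 0) := fun x e =>
    ⟨fun d r => (b.1 x).not_mem_gen.2 ((((b.1 x).sub ((val_mem h.sec μ).1 x)).ev_ne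
      (sub_ne_zero.2 fun f => e (f.symm.trans r))).mono fun w f =>
        (s2 _ (h.mem w)).resolve_right (sub_ne_zero.1 f)) d, (b.1 x).mem_gen⟩
  refine ⟨_, isClopen_gen b.1, fun j => ?_, fun e n hn => by
    rw [k _ (e _), k _ (e _), node_eq h.sec hn]⟩
  rw [k _ (mt ((Pol.hm hF).orb (h.mem _) (hy j)).2 (h0 j)), Ne,
    ← s1.hm.orb (h.mem _) (hy j)]
  exact ⟨fun e => by_contra fun d => e (s4 j d), fun e d => h0 j ((s3 j e).symm.trans d)⟩

open Classical in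
/-- the degree is the number of zeros -/
theorem exists_count [DecidableEq ι] [Fintype β] (h : Par o C N A π) {i : ι} (hy : Spt o C y)
    (ht : Triv o C (Pi.single i 1) y 1 F) : ∃ z : β → X,
      (∀ k, Sm N (z k) ∧ Orb (π (z k)) (y k)) ∧
        ∀ U, IsClopen U → degOn (A i) U = ∑ k, if z k ∈ U then 1 else 0 := by
  obtain ⟨w, w1, w2⟩ := h.exists_pt hy
  obtain ⟨s, s1, s2, s3⟩ := h.exists_sec w1 w2 ht.toMer
  refine ⟨w, w2, fun U hU => ?_⟩
  simpa [degOn_div, bz_single, degOn_prod, degOn_pt hU, sub_eq_zero] using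
    degOn_of_ne (U := U) (fun x _ => s1.1 x) fun x _ => (h.triv_iff w1 w2 ht.toMer s2 s3).1 ht x

theorem clopen_ext (h : ∀ U, IsClopen U → U.Nonempty → ∃ k, z k ∈ U) {U' : Set X}
    (hU : IsClopen U) (hU' : IsClopen U') (e : ∀ k, z k ∈ U ↔ z k ∈ U') : U = U' :=
  Subset.antisymm (fun x b => by_contra fun d =>
      let ⟨k, r⟩ := h _ (hU.diff hU') ⟨x, b, d⟩; r.2 ((e k).1 r.1))
    fun x b => by_contra fun d => let ⟨k, r⟩ := h _ (hU'.diff hU) ⟨x, b, d⟩; r.2 ((e k).2 r.1)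

variable {T P : Type*} [TopologicalSpace T] [NormedAddCommGroup P] [NormedSpace ℂ P]
  [FiniteDimensional ℂ P] {C : T → Set (V M)} {p : T → P} {t₀ : T}

open Classical in
/-- moving points that count the degree of the factor `i` -/
theorem exists_pts [DecidableEq ι] (h : LocFam o C p t₀) [Finite β] {q : β → T → V M}
    (hq : ∀ n, ContinuousAt (q n) t₀ ∧ q n t₀ ∈ C t₀) (i : ι) :
    ∃ (n : ℕ) (y : Fin n → P → V M), (∀ k, AnalyticAt ℂ (y k) (p t₀)) ∧ ∀ᶠ t in 𝓝 t₀,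
      (∀ k, y k (p t) ∈ C t ∧ ∀ n, ¬Orb (y k (p t)) (q n t)) ∧ ∃ F, Spt o (C t) (y · (p t)) ∧
        Triv o (C t) (Pi.single i 1) (y · (p t)) 1 F := by
  have k : ∀ c ∈ C t₀, ∃ μ ∈ (⊤ : Submodule ℂ (Tens M (Pi.single i 1))), val μ c ≠ 0 :=
    fun c hc => by
      obtain ⟨ζ, b⟩ := exists_lin_one (h.nod.ne_zero c hc)
      obtain ⟨μ, d⟩ := mem_Pol.1 (Pol.lin i (ζ i))
      exact ⟨μ, trivial, by simp [d, b]⟩
  obtain ⟨l, -, l1, l2⟩ := h.nod.exists_simp ⊤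
    (fun c hc b => let ⟨μ, d, e⟩ := k c hc; (e (b μ d)).elim) fun n => k _ (hq n).2
  have hl : IsSec o (C t₀) _ (val l) := Pol.isSec (Base.val_mem l)
  obtain ⟨n, z, hz⟩ := (nzd_of_simp h.nod hl l1).exists_reps h.nod hl
  have hs := fun k => l1 _ (hz.mem k) (hz.prop k)
  obtain ⟨τ, a1, rfl, a3, a4⟩ := h.zeros' (lam := fun _ => l) analyticAt_const hz hs
  refine ⟨n, fun k p => τ k (p, 0), fun k => (a1.chart k).an.comp (f := fun p => (p, (0 : ℂ)))
    (analyticAt_id.prod analyticAt_const), ?_⟩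
  filter_upwards [h.eventually, a1.eventually h, a4, a3.eventually_triv h a1
    (Triv.of_simp h.nod hl hz hs).2, eventually_all.2 fun n =>
      ((Pol.cont (Base.val_mem l)).continuousAt.comp (hq n).1).eventually_ne (l2 n)] with t b1 b2 b3
      b4 b5
  exact ⟨fun k => ⟨b3.mem k, fun n e => b5 n (((Pol.hm (Base.val_mem l)).orb (b3.mem k) e).2
    (b3.prop k))⟩, _, b2.spt b1, b4.cast (cast_single i) rfl⟩

end Vale.Agent.P269.SpecP
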