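import Vale.Agent.P269.Spl.Geo2
import Vale.Agent.P269.Base.Usc
import Vale.Agent.P269.Map.Hol
import Vale.Agent.P269.Prop.Bd
import Vale.Agent.P269.Pt.LC
import Vale.Agent.P269.Spl.SpecA
import Vale.Agent.P269.Spl.DictA
import Vale.Agent.P269.Spl.DictP

/-!
# Specialisation of components
-/

set_option linter.unusedSectionVars false

namespace Vale.Agent.P269

open Set Function Topology Filter Holo Base Cv

variable {S Λ Λ₀ R J K ι ν κ ε : Type} [Fintype S] [Fintype Λ] [Fintype Λ₀] [Fintype R] [Fintype J]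
  [Fintype K] [Fintype ι] [DecidableEq ι] [Fintype ν] [Fintype κ] [Fintype ε]

namespace SpecP

variable {M : ι → ℕ} {o : ι} {g : ℤ} {m : ι → ℤ} {T P : Type*} [TopologicalSpace T]
  [NormedAddCommGroup P] [NormedSpace ℂ P] [FiniteDimensional ℂ P] {C : T → Set (V M)} {p : T → P}
  {t₀ : T}

theorem spec (h : LocFam o C p t₀) (hC : ∀ t, IsCurve o g m (C t)) {c₀ : AC ν κ}
    {A₀ : ι → LB c₀.R} {π₀ : c₀.X → V M} (h₀ : Par o (C t₀) c₀.N A₀ π₀)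
    {q : Ch.Mk ν κ → T → V M} (hq : ∀ n, ContinuousAt (q n) t₀ ∧ ∀ᶠ t in 𝓝 t₀, q n t ∈ C t)
    (hp : ∀ n, Base.Orb (π₀ (c₀.p n)) (q n t₀)) {Z : Set c₀.X} (hZ : Z.Finite) :
    ∃ (β : Type) (_ : Fintype β) (y : β → P → V M) (z₀ : β → c₀.X),
      (∀ k, AnalyticAt ℂ (y k) (p t₀) ∧ (∀ n, z₀ k ≠ c₀.p n) ∧ Sm c₀.N (z₀ k) ∧ z₀ k ∉ Z ∧
        Base.Orb (π₀ (z₀ k)) (y k (p t₀))) ∧ (∀ U, IsClopen U → U.Nonempty → ∃ k, z₀ k ∈ U) ∧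
      ∀ᶠ t in 𝓝 t₀, ∀ (c : AC ν κ) (A : ι → LB c.R) (π : c.X → V M), Par o (C t) c.N A π →
        (∀ n, Base.Orb (π (c.p n)) (q n t)) → ∃ z : β → c.X,
          (∀ k, (∀ n, z k ≠ c.p n) ∧ Sm c.N (z k) ∧ Base.Orb (π (z k)) (y k (p t))) ∧
          (∀ U, IsClopen U → ∃ U₀, IsClopen U₀ ∧ (∀ k, z k ∈ U ↔ z₀ k ∈ U₀) ∧
            (∀ n, c.p n ∈ U ↔ c₀.p n ∈ U₀) ∧ (∀ i, degOn (A i) U = degOn (A₀ i) U₀) ∧
            (U.Nonempty → U₀.Nonempty) ∧ (c.Sat U → c₀.Sat U₀)) ∧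
          ∀ U₀, c₀.Sat U₀ → ∃ U, c.Sat U ∧ ∀ k, z k ∈ U ↔ z₀ k ∈ U₀ := by
  classical
  have := hZ.to_subtype
  choose n y y1 y2 using exists_pts h (β := Ch.Mk ν κ ⊕ Z) (q := Sum.elim q fun z _ => π₀ z)
    (Sum.rec (fun n => ⟨(hq n).1, (hq n).2.self_of_nhds⟩) fun z => ⟨continuousAt_const, h₀.mem _⟩)
  have y2 := eventually_all.2 y2
  have cnt : ∀ᶠ t in 𝓝 t₀, ∀ (c : AC ν κ) (A : ι → LB c.R) (π : c.X → V M), Par o (C t) c.N A π →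
      ∃ z : (Σ i, Fin (n i)) → c.X, (∀ k, Sm c.N (z k) ∧ Base.Orb (π (z k)) (y k.1 k.2 (p t))) ∧
        (∀ i U, IsClopen U → degOn (A i) U = ∑ k, if z ⟨i, k⟩ ∈ U then 1 else 0) ∧
        ∀ U, IsClopen U → U.Nonempty → ∃ k, z k ∈ U := y2.mono fun t a c A π H => by
    choose z z1 z2 using fun i => (a i).2.elim fun _ b => exists_count H b.1 b.2
    refine ⟨fun k => z k.1 k.2, fun k => z1 k.1 k.2, z2, fun U b d => by_contra fun e => ?_⟩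
    simpa [z2 o U b, fun k => not_exists.1 e ⟨o, k⟩] using H.ge_one U b d
  obtain ⟨z₀, z1, z2, z3⟩ := cnt.self_of_nhds c₀ A₀ π₀ h₀
  let Y : (Σ i, Fin (n i)) ⊕ Ch.Mk ν κ → T → V M := Sum.elim (fun k t => y k.1 k.2 (p t)) q
  have Y1 : ∀ k, ContinuousAt (Y k) t₀ ∧ ∀ᶠ t in 𝓝 t₀, Y k t ∈ C t := Sum.rec
    (fun k => ⟨(y1 _ _).continuousAt.comp h.cont.self_of_nhds, y2.mono fun _ a => ((a _).1 _).1⟩) hq
  have Y2 : ∀ k, Sm c₀.N (Sum.elim z₀ c₀.p k) ∧ Base.Orb (π₀ (Sum.elim z₀ c₀.p k)) (Y k t₀) :=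
    Sum.rec z1 fun n => ⟨c₀.sm n, hp n⟩
  obtain ⟨a, F, F1, F2, F3, F4⟩ := exists_form h (y := (Y · t₀)) fun k =>
    ⟨(Y1 k).2.self_of_nhds, let ⟨_, b, e⟩ := (Y2 k).2; fun d => (h₀.isNode_iff b).1 (e ▸ d) (Y2 k).1⟩
  refine ⟨_, inferInstance, fun k => y k.1 k.2, z₀, fun k => ⟨y1 _ _, fun n e =>
    ((y2.self_of_nhds _).1 k.2).2 (.inl n) ((z1 k).2.symm.trans (e ▸ hp n)), (z1 k).1, fun e =>
    ((y2.self_of_nhds _).1 k.2).2 (.inr ⟨_, e⟩) (z1 k).2.symm, (z1 k).2⟩, z3, ?_⟩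
  filter_upwards [y2, cnt, F4, lim h F1 F2 Y1, lim h (F := fun _ => 1) (fun _ => Pol.one)
    (fun _ => continuousAt_const) Y1, LC.same h hC h₀ (fun n => (hq n).1) hp] with t t1 t2 t3 t4 t5
    t6 c A π H hp'
  obtain ⟨z, w1, w2, w3⟩ := t2 c A π H
  have W : ∀ k, Base.Orb (π (Sum.elim z c.p k)) (Y k t) := Sum.rec (fun k => (w1 k).2) hp'
  have sat : ∀ U : {U // c.Sat U}, ∃ U₀ : {U // c₀.Sat U}, ∀ k, z k ∈ U.1 ↔ z₀ k ∈ U₀.1 := fun U =>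
    let ⟨U₀, b, d, e⟩ := of_bad h₀ Pol.one (fun k => (Y2 k).2) (fun _ => one_ne_zero)
      (t5 _ (bad_of H Pol.one U.2.1 (fun n hn => .inl ((LC.sat_iff.1 U.2).2 n hn)) W))
    ⟨⟨U₀, LC.sat_iff.2 ⟨b, e fun _ => one_ne_zero⟩⟩, fun k => (d (.inl k)).symm⟩
  refine ⟨z, fun k => ⟨fun n e => ((t1 _).1 k.2).2 (.inl n) ((w1 k).2.symm.trans (e ▸ hp' n)),
    w1 k⟩, fun U hU => ?_, fun U₀ b => ?_⟩
  · obtain ⟨U₀, b, d, -⟩ := of_bad h₀ (F1 _) (fun k => (Y2 k).2) F3 (t4 _ (bad_of H (F1 t) hU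
      (fun n hn => .inr (t3 _ (H.mem _) ⟨_, _, H.isCross hn⟩)) W))
    have e : ∀ k, z k ∈ U ↔ z₀ k ∈ U₀ := fun k => (d (.inl k)).symm
    refine ⟨U₀, b, e, fun n => (d (.inr n)).symm, fun i => by simp only [w2 i U hU, z2 i U₀ b, e],
      fun f => let ⟨k, r⟩ := w3 U hU f; ⟨_, (e k).1 r⟩, fun f => ?_⟩
    obtain ⟨U', r⟩ := sat ⟨U, f⟩
    exact clopen_ext z3 U'.2.1 b (fun k => (r k).symm.trans (e k)) ▸ U'.2
  · choose Φ hΦ using sat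
    obtain ⟨σ, -⟩ := t6 c A π H hp'
    obtain ⟨U, e⟩ := (Finite.injective_iff_surjective_of_equiv σ.symm.toEquiv).1
      (fun U U' e => Subtype.ext (clopen_ext w3 U.2.1 U'.2.1 fun k => by
        rw [hΦ, hΦ, e]) : Injective Φ) ⟨U₀, b⟩
    exact ⟨U, U.2, fun k => by rw [hΦ, e]⟩

variable {ch : Ch ι J} {ℓ : R → ι → ℤ} {A A' : Set J} {x x₀ : ch.WF ν κ Λ} {m m₀ : AM Λ R J ν κ}
  {B : ι → LB m.R} {B₀ : ι → LB m₀.R} {π : m.X → V ch.M} {π₀ : m₀.X → V ch.M} {u s u₀ s₀}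

theorem deg_eq (hk : ch.k ≠ 0) (h : Ch.RepD ℓ A x m B π u s) (h' : Ch.RepD ℓ A' x₀ m₀ B₀ π₀ u₀ s₀)
    {U U₀} (e : ∀ o, degOn (B o) U = degOn (B₀ o) U₀) :
    degOn m.ω U = degOn m₀.ω U₀ ∧ ∀ r, degOn (m.L r) U = degOn (m₀.L r) U₀ :=
  ⟨mul_left_cancel₀ (Nat.cast_ne_zero.2 hk) (by simp only [← degOn_pow, ← h.crep.eqv.degOn,
    ← h'.crep.eqv.degOn, degOn_bz, e]), fun r => by
      simp only [← (h.L r).degOn, ← (h'.L r).degOn, degOn_bz, e]⟩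

theorem ev_ne (h : Ch.RepD ℓ A x₀ m₀ B₀ π₀ u₀ s₀) {j : J} (hj : j ∈ A)
    {y : ch.W (Ch.Mk ν κ) → V ch.M} (hy : ContinuousAt y x₀.2) {z₀ : m₀.X}
    (e : Base.Orb (π₀ z₀) (y x₀.2)) (h0 : m₀.y j z₀ ≠ 0) : ∀ᶠ x in 𝓝 x₀,
      ∀ (m : AM Λ R J ν κ) (B π u s), Ch.RepD ℓ A x m B π u s → ∀ z, Base.Orb (π z) (y x.2) →
        m.y j z ≠ 0 := by
  have k : ∀ {x : ch.WF ν κ Λ} {m : AM Λ R J ν κ} {B π u s}, Ch.RepD ℓ A x m B π u s → ∀ z,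
      Base.Orb (π z) (y x.2) → y x.2 ∈ Ch.crv x.2 ∧ (Ch.fld x.2 (y x.2) j ≠ 0 ↔ m.y j z ≠ 0) :=
    fun H z ⟨t, a, b⟩ => ⟨H.mem_crv.2 ⟨z, t, a, b⟩, by
      rw [b, H.cr.fld_smul (H.ind j hj) z a]
      exact mul_ne_zero_iff_left (Finset.prod_ne_zero_iff.2 fun i _ => zpow_ne_zero _ (a i))⟩
  obtain ⟨Φ, a, b⟩ := Ch.exists_fldU h.cr.mem.1 (h.cr.par.ne_zero _ (k h z₀ e).1) j
  have d : Tendsto (fun x : ch.WF ν κ Λ => (x.2, y x.2)) (𝓝 x₀) (𝓝 (x₀.2, y x₀.2)) :=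
    continuousAt_snd.prodMk (hy.comp continuousAt_snd)
  filter_upwards [d.eventually b, d.eventually (a.continuousAt.eventually_ne
    (b.self_of_nhds (k h z₀ e).1 (h.exists_val hj (k h z₀ e).1) ▸ (k h z₀ e).2.2 h0))]
    with x f r m B π u s H z w
  exact (k H z w).2.1 (f (k H z w).1 (H.exists_val hj (k H z w).1) ▸ r)

theorem pos_of [DecidableEq R] {θ : R → ℤ} {k : ℕ} (h : m₀.Pos θ k)
    (e : ∀ U, IsClopen U → U.Nonempty → ∃ U₀, IsClopen U₀ ∧ U₀.Nonempty ∧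
      degOn m.ω U = degOn m₀.ω U₀ ∧ ∀ r, degOn (m.L r) U = degOn (m₀.L r) U₀) : m.Pos θ k := by
  obtain ⟨h1, h2, N, h3, h4⟩ := h
  refine ⟨fun U a b => ?_, fun U a b => ?_, N, h3, fun o => ⟨fun U a b => ?_, fun U a b => ?_⟩⟩
  all_goals obtain ⟨U₀, d, f, r, w⟩ := e U a b
  · simpa only [degOn_mul, degOn_bz, r, w] using h1 U₀ d f
  · simpa only [degOn_bz, w] using h2 U₀ d f
  all_goals
    have h5 := (h4 o).1 U₀ d f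
    have h6 := (h4 o).2 U₀ d f
    cases o <;> simp only [stdA, Option.elim, degOn_one, degOn_div, degOn_pow, degOn_mul, degOn_bz,
      r, w] at h5 h6 ⊢ <;> assumption

end SpecP

namespace Ch

variable {ch : Ch ι J} {F : Fam S Λ R J K} {ℓ : R → ι → ℤ} {i : ι} {b c : J} {A : Set J}
  {x₀ : ch.WF ν κ Λ} {m₀ : AM Λ R J ν κ} {B₀ : ι → LB m₀.R} {π₀ : m₀.X → V ch.M} {u₀ s₀}

/-- **specialisation**: unions of components of nearby curves specialise to unions of components -/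
theorem RepD.exists_spec (hc : ch.Cuts) (h : RepD ℓ A x₀ m₀ B₀ π₀ u₀ s₀) {Z : Set m₀.X}
    (hZ : Z.Finite) :
    ∃ (r : ℕ) (y : Fin r → ch.W (Mk ν κ) → V ch.M) (z₀ : Fin r → m₀.X),
      (∀ k, AnalyticAt ℂ (y k) x₀.2 ∧ m₀.Um (z₀ k) ∧ Sm m₀.N (z₀ k) ∧ z₀ k ∉ Z ∧
        Base.Orb (π₀ (z₀ k)) (y k x₀.2)) ∧ (∀ z, ∃ k, z₀ k ∈ connectedComponent z) ∧
      ∀ᶠ x in 𝓝 x₀, ∀ (A' : Set J) (m : AM Λ R J ν κ) (B π u s), RepD ℓ A' x m B π u s →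
        ∃ z : Fin r → m.X, (∀ k, m.Um (z k) ∧ Sm m.N (z k) ∧ Base.Orb (π (z k)) (y k x.2)) ∧
          (∀ U, IsClopen U → ∃ U₀, IsClopen U₀ ∧ (∀ k, z k ∈ U ↔ z₀ k ∈ U₀) ∧
            (∀ n, m.p n ∈ U ↔ m₀.p n ∈ U₀) ∧ (∀ o, degOn (B o) U = degOn (B₀ o) U₀) ∧
            (U.Nonempty → U₀.Nonempty) ∧ (m.Sat U → m₀.Sat U₀)) ∧
          ∀ U₀, m₀.Sat U₀ → ∃ U, m.Sat U ∧ ∀ k, z k ∈ U ↔ z₀ k ∈ U₀ := by
  obtain ⟨β, _, y, z₀, a1, a2, a3⟩ := SpecP.spec (hc.locFam ⟨x₀.2, h.cr.mem⟩) (fun y => y.2.2.2.1)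
    h.cr.par (q := fun n y => y.1.p n) (fun n => ⟨(W.an_p analyticAt_id n).continuousAt.comp
      continuous_subtype_val.continuousAt, .of_forall fun y => (y.2.2.2.2.1 n).1⟩) h.cr.mark hZ
  let e := (Fintype.equivFin β).symm
  refine ⟨_, fun k => y (e k), fun k => z₀ (e k), fun k => a1 _, fun z => ?_,
    (continuousAt_snd.eventually (ev_sub' a3)).mono fun x b A' m B π u s H => ?_⟩
  · obtain ⟨k, b⟩ := a2 _ (exists_comp (R := m₀.R) z).1 connectedComponent_nonempty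
    exact ⟨e.symm k, by simpa only [e.apply_symm_apply] using b⟩
  · obtain ⟨z, b1, b2, b3⟩ := b H.cr.mem m.toAC B π H.cr.par H.cr.mark
    exact ⟨fun k => z (e k), fun k => b1 _, fun U hU => (b2 U hU).imp fun U₀ d =>
      ⟨d.1, fun k => d.2.1 _, d.2.2⟩, fun U₀ d => (b3 U₀ d).imp fun U f => ⟨f.1, fun k => f.2 _⟩⟩

/-- the type of the part on which `b` does not vanish is locally constant where there are no ghosts -/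
theorem Dg.eventually_sd (hc : ch.Dg F.toWt ℓ i b c) (hb : b ∈ A) (hc' : c ∈ A)
    (hx : x₀.2 ∈ ch.base _) (h : Rep ℓ A x₀ m₀) (nb : m₀.Nb (F.w b) b c)
    (ng : ∀ z, ¬∀ᶠ y in 𝓝 z, m₀.y b y = 0 ∧ m₀.y c y = 0) {a d T} (hs : m₀.Sd b a d T) :
    ∀ᶠ x in 𝓝 x₀, x.2 ∈ ch.base _ → ∀ m, Rep ℓ A x m → m.Nb (F.w b) b c →
      m.Sd b a d T ∧ ∀ z, ¬∀ᶠ y in 𝓝 z, m.y b y = 0 ∧ m.y c y = 0 := by
  obtain ⟨B₀, π₀, u₀, s₀, h⟩ := h.exists_data hx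
  have f := fun {L : LB m₀.R} {s} (a : s ∈ L.Γ) =>
    finite_zeros_on (isClopen_gen a) (fun x _ => a x) Subset.rfl
  obtain ⟨r, y, z₀, a1, a2, a3⟩ := h.exists_spec ⟨hc.a_ne, none, hc.cut⟩
    (Z := {z | m₀.y b z = 0 ∧ m₀.y c z = 0}) (((f nb.b_mem.1).union (f nb.c_mem.1)).subset
      fun z e => by_contra fun k => ng z (((nb.b_mem.1 z).not_mem_gen.1 fun w =>
        k (.inl ⟨w, e.1⟩)).and ((nb.c_mem.1 z).not_mem_gen.1 fun w => k (.inr ⟨w, e.2⟩))))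
  have a4 : ∀ U, IsClopen U → U.Nonempty → ∃ k, z₀ k ∈ U := fun U e ⟨z, w⟩ =>
    (a2 z).imp fun k v => e.connectedComponent_subset w v
  have k : ∀ j ∈ A, ∀ᶠ x in 𝓝 x₀, ∀ k, m₀.y j (z₀ k) ≠ 0 → ∀ (m : AM Λ R J ν κ) (B π u s),
      RepD ℓ A x m B π u s → ∀ z, Base.Orb (π z) (y k x.2) → m.y j z ≠ 0 := fun j e =>
    eventually_all.2 fun k => eventually_imp_distrib_left.2
      (SpecP.ev_ne h e (a1 k).1.continuousAt (a1 k).2.2.2.2)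
  filter_upwards [a3, k b hb, k c hc'] with x b1 b2 b3 hx m H nb'
  obtain ⟨B, π, u, s, H⟩ := H.exists_data hx
  obtain ⟨z, c1, c2, -⟩ := b1 A m B π u s H
  have c3 : ∀ k, (m₀.y b (z₀ k) ≠ 0 ∧ m.y b (z k) ≠ 0) ∨ m₀.y c (z₀ k) ≠ 0 ∧ m.y c (z k) ≠ 0 :=
    fun k => (not_and_or.1 (a1 k).2.2.2.1).imp (fun e => ⟨e, b2 k e m B π u s H _ (c1 k).2.2⟩)
      fun e => ⟨e, b3 k e m B π u s H _ (c1 k).2.2⟩
  refine ⟨?_, fun w e => ?_⟩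
  · obtain ⟨U₀, d1, d2, d3, d4, -⟩ := c2 _ nb'.clopen
    obtain rfl := SpecP.clopen_ext a4 d1 nb.clopen fun k => (d2 k).symm.trans ((c3 k).elim
      (fun e => iff_of_true (AM.mem_sb e.2) (AM.mem_sb e.1))
      fun e => iff_of_false (mt nb'.eq_zero.1 e.2) (mt nb.eq_zero.1 e.1))
    have d := SpecP.deg_eq hc.k_ne H h d4
    exact ⟨d.1.trans hs.1, fun r => (d.2 r).trans (hs.2.1 r), fun n => (d3 n).trans (hs.2.2 n)⟩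
  · obtain ⟨U₀, d1, d2, -, -, d3, -⟩ :=
      c2 _ ((isClopen_gen nb'.b_mem.1).union (isClopen_gen nb'.c_mem.1)).compl
    obtain ⟨k, v⟩ := a4 U₀ d1 (d3 ⟨w, fun v => v.elim ((nb'.b_mem.1 w).not_mem_gen.2
      (e.mono fun _ => And.left)) ((nb'.c_mem.1 w).not_mem_gen.2 (e.mono fun _ => And.right))⟩)
    exact (d2 k).2 v ((c3 k).imp (fun e => (nb'.b_mem.1 _).mem_gen e.2)
      fun e => (nb'.c_mem.1 _).mem_gen e.2)

end Ch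

/-- positivity is an open condition -/
theorem Fam.exists_pos [DecidableEq R] {F : Fam S Λ R J K} {k D : ℕ} (hF : F.Inv) (hk : F.Big k)
    (hD : F.BigD k D) (g : ℤ) (d : R → ℤ) : ∃ O : Set ((F.sch ν κ k D g d).WF ν κ Λ), IsOpen O ∧
      Holo.Inv (Ch.actF F.toWt) O ∧ Ch.solF _ ν κ F ⊆ O ∧
      ∀ x ∈ O, x.2 ∈ Ch.base _ _ → ∀ A m, Ch.Rep ℓs A x m → m.Pos F.θ k := by
  refine ⟨interior {x | x.2 ∈ Ch.base _ _ → ∀ A m, Ch.Rep ℓs A x m → m.Pos F.θ k},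
    isOpen_interior, fun s x hx => mem_interior_iff_mem_nhds.2 ?_,
    fun x hx => mem_interior_iff_mem_nhds.2 ?_, fun x hx => interior_subset hx⟩
  · refine ((Ch.continuous_actF s⁻¹.isUnit).continuousAt.eventually (mem_interior_iff_mem_nhds.1
      (by rwa [← Ch.actF_mul, s.inv_mul, Ch.actF_one]))).mono fun y a b A m e => ?_
    exact a (Cv.act_mem_base b (Ch.isUnit_dupF s⁻¹.isUnit)) A (m.scl F.toWt _)
      (e.actF b s⁻¹.isUnit)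
  · obtain ⟨m₀, h⟩ := (chart_lat hD).exists_rep_sol hx
    have hp := AM.Sol.pos hk ((h.mem_solF hx.1.2.1 hF chart_wd').1 hx) (rep_stable hD h hx.1.2.1)
    obtain ⟨B₀, π₀, u₀, s₀, h⟩ := h.exists_data hx.1.2.1
    obtain ⟨r, y, z₀, -, -, a⟩ := h.exists_spec (chart_cuts hD) finite_empty
    refine a.mono fun x b e A m H => ?_
    obtain ⟨B, π, u, s, H⟩ := H.exists_data e
    obtain ⟨z, -, c, -⟩ := b A m B π u s H
    refine SpecP.pos_of hp fun U v w => ?_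
    obtain ⟨U₀, d1, -, -, d2, d3, -⟩ := c U v
    exact ⟨U₀, d1, d3 w, SpecP.deg_eq (by have := hk.two_le; change k ≠ 0; omega) H h d2⟩

end Vale.Agent.P269
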