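import Vale.Agent.P269.Spl.Dim
import Vale.Agent.P269.Holo.PB
import Vale.Agent.P269.Glu.Defs

/-!
# Gluing on the level of the smooth spaces: sections and quotients
-/

namespace Vale.Agent.P269.GB

open Set Function Topology Filter Holo Module

variable {A W W' : Type} [NormedRing A] [NormedAlgebra ℂ A] [NormedAddCommGroup W]
  [NormedSpace ℂ W] [NormedAddCommGroup W'] [NormedSpace ℂ W']
  [FiniteDimensional ℂ A] [FiniteDimensional ℂ W] [FiniteDimensional ℂ W']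
  {act : A → W → W} {Z : Set W} {T : Set W'} {f : W → W'} {z : W} {m : ℕ}

/-- Near `z` the fibres of `f` on `Z` are orbits of elements close to `1`. -/
def Fib (act : A → W → W) (Z : Set W) (f : W → W') (z : W) : Prop :=
  ∀ O ∈ 𝓝 (1 : A), ∀ᶠ p : W × W in 𝓝 (z, z), p.1 ∈ Z → p.2 ∈ Z → f p.1 = f p.2 →
    ∃ a ∈ O, IsUnit a ∧ act a p.1 = p.2

omit [FiniteDimensional ℂ W] [NormedSpace ℂ W] [NormedAddCommGroup W'] [NormedSpace ℂ W']
  [FiniteDimensional ℂ W'] in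
theorem Fib.units (fib : Fib act Z f z) {O : Set Aˣ} (hO : O ∈ 𝓝 1) :
    ∀ᶠ p : W × W in 𝓝 (z, z), p.1 ∈ Z → p.2 ∈ Z → f p.1 = f p.2 → ∃ g ∈ O, act g p.1 = p.2 :=
  have := FiniteDimensional.complete ℂ A
  (fib _ (Units.isOpenEmbedding_val.isOpenMap.image_mem_nhds hO)).mono fun _ hp h1 h2 h3 =>
    let ⟨_, ⟨g, h4, h5⟩, _, h6⟩ := hp h1 h2 h3
    ⟨g, h4, h5 ▸ h6⟩

omit [FiniteDimensional ℂ W'] in
/-- a local section from a dimension count -/
theorem exists_sec [IsAct act Z] (hZ : MfdAt Z (finrank ℂ A + m) z) (hT : MfdAt T m (f z))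
    (hf : AnalyticAt ℂ f z) (maps : ∀ᶠ y in 𝓝 z, y ∈ Z → f y ∈ T) (free : Fre act z)
    (fib : Fib act Z f z) : ∃ s : W' → W, AnalyticAt ℂ s (f z) ∧ s (f z) = z ∧
      ∀ᶠ x in 𝓝 (f z), x ∈ T → s x ∈ Z ∧ f (s x) = x := by
  classical
  have := FiniteDimensional.complete ℂ A
  have := FiniteDimensional.complete ℂ W
  let x : Sp act Z := Sp.of act z hZ.mem
  have hm : IsMfd Sp.val (finrank ℂ A + m) x := hZ.2
  let F : Sp act Z → T := fun y => if h : f y.val ∈ T then ⟨_, h⟩ else ⟨f z, hT.mem⟩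
  have hv : Tendsto Sp.val (𝓝 x) (𝓝 z) := Sp.continuous_val.tendsto x
  have hF : ∀ᶠ y in 𝓝 x, (F y).1 = f y.val := (hv.eventually maps).mono fun y hy =>
    congrArg Subtype.val (dif_pos (hy y.val_mem))
  have h0 : F x = ⟨f z, hT.mem⟩ := Subtype.ext hF.self_of_nhds
  have hol : HolAt Sp.val (fun y => (F y).1) x := ⟨f, hf, hF⟩
  obtain ⟨σ, hσ⟩ := exists_lsec (ι₂ := Subtype.val) (f := F) isExp_expU hm
    (h0 ▸ hT.2) (Sp.holAct x) (.of_forall (Sp.free_iff.1 free))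
    (IsInducing.subtypeVal.continuousAt_iff.2 (hol.cont Sp.continuous_val.continuousAt)) hol
    fun O hO => by
      filter_upwards [(hv.prodMap hv).eventually (nhds_prod_eq (x := z) (y := z) ▸ fib.units hO),
        tendsto_fst.eventually hF, tendsto_snd.eventually hF] with p h1 h2 h3 e
      obtain ⟨g, h4, h5⟩ := h1 p.1.val_mem p.2.val_mem
        (h2.symm.trans ((congrArg Subtype.val e).trans h3))
      exact ⟨g, h4, Sp.ext h5⟩
  obtain ⟨Φ, h1, h2⟩ := hσ.hol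
  have h3 := (h2.and (hσ.inv.and (hσ.tendsto.eventually hF))).mono
    (q := fun t : T => Φ t.1 ∈ Z ∧ f (Φ t.1) = t.1) fun t ht =>
      ⟨ht.1 ▸ (σ t).val_mem, (congrArg f ht.1.symm).trans
        (ht.2.2.symm.trans (congrArg Subtype.val ht.2.1))⟩
  have h4 := h2.self_of_nhds.symm.trans (congrArg Sp.val hσ.eq)
  rw [h0] at h1 h3 h4
  exact ⟨Φ, h1, h4, (ev_sub (p := fun t => Φ t ∈ Z ∧ f (Φ t) = t) hT.mem).1 h3⟩

/-- the base of a bundle is a manifold -/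
theorem mfd_push [IsAct act Z] (hZ : MfdAt Z (finrank ℂ A + m) z) (hf : AnalyticAt ℂ f z)
    (maps : ∀ᶠ y in 𝓝 z, y ∈ Z → f y ∈ T) (inv : ∀ a, IsUnit a → ∀ y ∈ Z, f (act a y) = f y)
    (free : Fre act z) (fib : Fib act Z f z) {s : W' → W} (hs : HolOn T s (f z)) (s0 : s (f z) = z)
    (sec : ∀ᶠ x in 𝓝 (f z), x ∈ T → s x ∈ Z ∧ f (s x) = x) : MfdAt T m (f z) := by
  have := FiniteDimensional.complete ℂ A
  have := FiniteDimensional.complete ℂ W
  have := FiniteDimensional.complete ℂ W'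
  let x : Sp act Z := Sp.of act z hZ.mem
  have hm : IsMfd Sp.val (finrank ℂ A + m) x := hZ.2
  obtain ⟨φ, h0, hφ⟩ := hm.exists_slK isExp_expU (Sp.holAct x)
    (Sp.inf_injective (.of_forall (Sp.free_iff.1 free))) rfl
  obtain ⟨w, w1, -, w3, w4, -⟩ := hφ.exists_inv isExp_expU
  have e0 : (φ 0).val = z := congrArg Sp.val h0
  have hT := maps.self_of_nhds hZ.mem
  have a1 := hφ.an isExp_expU
  have t1 : Tendsto (fun y => (φ y).val) (𝓝 0) (𝓝 z) := e0 ▸ a1.continuousAt.tendsto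
  have m1 : ∀ᶠ y in 𝓝 0, f (φ y).val ∈ T := (t1.eventually maps).mono fun y hy => hy (φ y).val_mem
  have t2 : Tendsto (fun y => f (φ y).val) (𝓝 0) (𝓝 (f z)) := hf.continuousAt.tendsto.comp t1
  have t3 : Tendsto s (𝓝 (f z) ⊓ 𝓟 T) (𝓝 z) := (hs.tendsto hT).mono_right (by rw [s0])
  have w5 : ∀ᶠ p in 𝓝 ((1 : Aˣ), (0 : Fin m → ℂ)), (w (p.1 • φ p.2).val).2 = p.2 := by
    rw [← isExp_expU.map_nhds_prod]
    exact w3.mono fun p hp => congrArg Prod.snd hp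
  rw [nhds_prod_eq] at w5
  obtain ⟨O, hO, Q, hQ, w6⟩ := mem_prod_iff.1 w5
  rw [e0] at w1
  rw [h0] at w4
  have w7 := (ev_sub (p := fun y => y ∈ Z ∧ f (φ (w y).2).val = f y) hZ.mem).1
    (w4.mono fun y hy => ⟨y.val_mem, (inv _ (expU (w y.val).1).isUnit _ (Sp.val_mem _)).symm.trans
      (congrArg (fun u => f (Sp.val u)) hy)⟩)
  have h1 := (MfdAt.univ (0 : Fin m → ℂ)).iso' (S' := T) (F := fun y => f (φ y).val)
    (G := fun t => (w (s t)).2) (.of_an (hf.comp_of_eq a1 e0))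
    (e0 ▸ hs.comp_an (G := fun u => (w u).2) hT (s0.symm ▸ analyticAt_snd.comp w1)) ?_ ?_
  · rwa [finrank_fin_fun, e0] at h1
  · filter_upwards [(t1.prodMk_nhds (t3.comp (tendsto_inf.2 ⟨t2, tendsto_principal.2 m1⟩))).eventually
      (fib.units hO), m1, t2.eventually sec, hQ] with y b1 b2 b3 b4 _
    obtain ⟨g, b5, b6⟩ := b1 (φ y).val_mem (b3 b2).1 (b3 b2).2.symm
    exact ⟨b2, (congrArg (fun u => (w u).2) b6).symm.trans (w6 (a := (g, y)) ⟨b5, b4⟩)⟩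
  · rw [e0]
    filter_upwards [eventually_inf_principal.1 (t3.eventually w7), sec] with t b1 b2 ht
    exact ⟨trivial, (b1 ht (b2 ht).1).2.trans (b2 ht).2⟩

end Vale.Agent.P269.GB
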