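import Vale.Agent.P269.Spl.GBd

/-!
# Gluing on the level of the smooth spaces: lifting fields
-/

set_option linter.unusedSectionVars false

namespace Vale.Agent.P269

open Set Function Topology Filter Holo Base Cv

variable {S Λ R J K ι ν ν' κ ε : Type} [Fintype S] [Fintype Λ] [Fintype R] [Fintype J] [Fintype K]
  [Fintype ι] [DecidableEq ι] [Fintype ν] [Fintype ν'] [Fintype κ] [Fintype ε]

namespace Ch

variable {ch : Ch ι J} {n : Nm ι J} {x : ch.W (Mk ν κ)} {w : ch.Lb n (Mk ν (κ ⊕ ε))} {j : J}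

theorem lf1_setX (X : (ch.re n).Fld) : lf1 x (w.setX X) j = lf1 x w j := rfl

theorem Gl.lf1_spec (hc : ch.Cuts) (h : Gl x w) (hs : Sc x j) : ∀ z ∈ gr w.1, ∀ μ,
    z.2 (some j) (lf1 x w j μ) = fld x (apV w.2.1 z.1) j * val μ z.1 := by
  obtain ⟨c, A, π, u, ξ, ξ', a⟩ := h.exists_gd
  obtain ⟨s, b⟩ := a.cr.exists_ind_iff.2 hs
  obtain ⟨X, hX⟩ := a.cr'.exists_field (j := j) (hc.ne _)
    (AC.mem_H0_glue.1 (a.cr.ind_mem b)).1
  refine Classical.epsilon_spec (p := fun X : Tens n.M (ch.b j) →L[ℂ] (ch.re n).E (some j) =>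
    ∀ z ∈ gr w.1, ∀ μ, z.2 (some j) (X μ) = fld x (apV w.2.1 z.1) j * val μ z.1)
    ⟨X, fun z hz μ => ?_⟩
  obtain ⟨y, t, ht, rfl⟩ := a.cr'.mem_gr.1 hz
  change (chr (ch.a (some j)) t • u y (some j)) (X μ) =
    fld x (apV w.2.1 (t • π y)) j * val μ (t • π y)
  rw [apV_smul, a.cr.fld_smul b y ht, Base.val_smul, _root_.smul_apply, hX, chr_wd ht, smul_eq_mul]
  ring

theorem Gl.mt_sc (hc : ch.Cuts) (h : Gl x w) (hs : Sc x j) (e : w.1.X j = lf1 x w j) :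
    Mt x w j ∧ Sc w.1 j := by
  refine ⟨fun μ => ?_, fun y _ => ⟨fld x (apV w.2.1 y) j, fun u hu μ =>
    (congrArg (fun X => u (some j) (X μ)) e).trans (h.lf1_spec hc hs (y, u) hu μ)⟩⟩
  obtain ⟨c, A, π, u, ξ, ξ', a⟩ := h.exists_gd
  refine a.cr'.u_ext fun y => ?_
  rw [e, h.lf1_spec hc hs _ (a.cr'.gr y)]
  exact val_fld (hs _ (a.cr.par.mem y)) _ (a.cr.gr y) μ

theorem Gl.val_apV (h : Gl x w) (hm : Mt x w j) {c : V n.M} (hc : c ∈ crv w.1) {v : ℂ}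
    (hv : Val w.1 j c v) : Val x j (apV w.2.1 c) v := fun u' hu' μ => by
  obtain ⟨u, hu⟩ := mem_crv.1 hc
  rw [gr_unique hu' (h.lpt_mem hu) (h.mem.1 _)]
  exact (congrArg (u (some j)) (hm μ)).trans (hv u hu _)

theorem Gl.eq_lf1 (hc : ch.Cuts) (h : Gl x w) (hm : Mt x w j) (hs : Sc w.1 j) :
    Sc x j ∧ w.1.X j = lf1 x w j := by
  have h1 : Sc x j := fun y hy => by
    obtain ⟨c, b, rfl⟩ := h.crv_eq.subset hy
    exact (hs c b).imp fun _ => h.val_apV hm b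
  obtain ⟨c, A, π, u, ξ, ξ', a⟩ := h.exists_gd
  refine ⟨h1, ContinuousLinearMap.ext fun μ => a.cr'.u_ext fun y => ?_⟩
  obtain ⟨v, hv⟩ := hs _ (a.cr'.par.mem y)
  rw [h.lf1_spec hc h1 _ (a.cr'.gr y),
    Cv.fld_eq (a.cr.par.mem y) (h.val_apV hm (a.cr'.par.mem y) hv)]
  exact hv _ (a.cr'.gr y) μ

theorem Gl.holOn_lf1 (hc : ch.Cuts) (h : Gl x w) (hs : Sc x j) :
    HolOn {q : ch.W (Mk ν κ) × ch.Lb n (Mk ν (κ ⊕ ε)) | Gl q.1 q.2 ∧ Sc q.1 j}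
      (fun q => lf1 q.1 q.2 j) (x, w) := by
  let T := {q : ch.W (Mk ν κ) × ch.Lb n (Mk ν (κ ⊕ ε)) | Gl q.1 q.2 ∧ Sc q.1 j}
  have h0 : (x, w) ∈ T := ⟨h, hs⟩
  obtain ⟨l, hl⟩ := hc.cut
  have a2 : HolAt (Subtype.val : T → _) (fun t => t.1.2) ⟨_, h0⟩ := HolAt.self.snd'
  have a1 : HolAt (Subtype.val : T → _) (fun t => t.1.2.1) ⟨_, h0⟩ := HolAt.fst' a2
  have a3 : HolAt (Subtype.val : T → _) (fun t => t.1.2.2.1) ⟨_, h0⟩ := (HolAt.snd' a2).fst'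
  have hb : ∀ᶠ t : T in 𝓝 ⟨_, h0⟩, t.1.2.1 ∈ (ch.re n).base _ := .of_forall fun t => t.2.1.mem'
  refine (holOn_iff h0).2 (HolAt.of_apply fun μ => holAt_E (ch := ch.re n) (p := fun _ => True)
    (locFam_of_hol (ch := ch.re n) hl (.of_forall fun _ => continuousAt_subtype_val) a1 hb) a1 hb
    (hc.ne _) (fun c b => (h.mem'.2.2.1.nod.frequently_not_node (β := Empty) nofun b).mono
      fun _ e => ⟨trivial, e.2⟩) fun y y1 _ y2 => ?_)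
  have a4 : HolAt (Subtype.val : T → _) (fun t => apV t.1.2.2.1 (y t.1)) ⟨_, h0⟩ :=
    HolAt.pi fun i => (a3.proj i).apply ((HolAt.of_an y1).proj i)
  have y3 : ∀ᶠ t : T in 𝓝 ⟨_, h0⟩, apV t.1.2.2.1 (y t.1) ∈ crv t.1.1 :=
    y2.mono fun t b => t.2.1.crv_eq.superset ⟨_, b, rfl⟩
  obtain ⟨Φ, k1, k2⟩ := exists_an_fld h.mem.1 (crv_ne y3.self_of_nhds) j
  have a5 := HolAt.self.fst'.prod a4
  refine ⟨_, (a5.comp_an k1).smul ((HolAt.of_an y1).comp_an (analyticAt_val μ _)), ?_⟩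
  filter_upwards [(a5.cont continuousAt_subtype_val).eventually k2, y3] with t b1 b2 u hu
  exact (t.2.1.lf1_spec hc t.2.2 _ hu μ).trans (congrArg (· * _) (b1 b2 (t.2.2 _ b2)))

end Ch

end Vale.Agent.P269
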