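import Vale.Agent.P269.Spl.Ver

/-!
# Gluing on the level of the smooth spaces: the locus where the nodes persist
-/

set_option linter.unusedSectionVars false

namespace Vale.Agent.P269

open Set Function Topology Filter Holo Base Cv

variable {S Λ R J K ι ν ν' κ ε : Type} [Fintype S] [Fintype Λ] [Fintype R] [Fintype J] [Fintype K]
  [Fintype ι] [DecidableEq ι] [Fintype ν] [Fintype ν'] [Fintype κ] [Fintype ε]

namespace Ch

variable {ch : Ch ι J}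

theorem Num₀.mfd_bm (h : Num₀ ch) {x : ch.WF ν κ Λ} (hx : x ∈ ch.baseF ν κ univ) :
    ∃ N : ℕ, (N : ℤ) + Fintype.card κ = Fintype.card Λ + ch.dimB (Mk ν κ) ∧
      MfdAt (ch.baseF ν κ univ) N x := by
  obtain ⟨l, hl⟩ := h.cut
  obtain ⟨N, h1, h2⟩ := h.mfdAt hx.2.1
  obtain ⟨n, h3, h4⟩ := mfd_baseF hl h.χ_ne hx (MfdAt.univ x.1) h2
  rw [Module.finrank_fintype_fun_eq_card] at h3
  exact ⟨n, by rw [← h1]; exact_mod_cast h3, h4⟩

/-- given smoothing parameters of distinct nodes are independent along arcs in `bm` -/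
theorem Num₀.exists_arc_bm (h : Num₀ ch) {x : ch.W (Mk ν κ)} (hx : x ∈ ch.bm ν κ)
    {σ : ε → ch.W (Mk ν κ) × (ℂ × ℂ) → V ch.M} {τ : ε → ch.W (Mk ν κ) → ℂ}
    (hσ : ∀ e, Chart ch.o (fun y : ch.bm ν κ => crv y.1) Subtype.val ⟨x, hx⟩ (σ e)
      fun y => {z | z.1 * z.2 = τ e y})
    (hτ : ∀ e, AnalyticAt ℂ (τ e) x ∧ τ e x = 0)
    (hi : ∀ e e', Base.Orb (σ e (x, 0)) (σ e' (x, 0)) → e = e') (t : ε → ℂ) :
    ∃ γ, Arc (ch.bm ν κ) x γ ∧ ∀ e, deriv (fun s => τ e (γ s)) 0 = t e := by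
  obtain ⟨l, hl⟩ := h.cut
  have c0 : ContinuousAt (fun y : ch.bm ν κ => (⟨y.1, y.2.1⟩ : ch.base _)) ⟨x, hx⟩ :=
    (continuous_subtype_val.subtype_mk _).continuousAt
  have hf : LocFam ch.o (fun y : ch.bm ν κ => crv y.1) Subtype.val ⟨x, hx⟩ :=
    LocFam.comp (u := fun y : ch.bm ν κ => (⟨y.1, y.2.1⟩ : ch.base _)) (k := id) (locFam_base hl _) c0
      (.of_forall fun _ => continuous_subtype_val.continuousAt) analyticAt_id
      (.of_forall fun _ => rfl)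
  obtain ⟨τ', k1, k2⟩ := h.exists_tau_res hx.1 (n₀ := fun q => .inr (q, false))
    (n₁ := fun q => .inr (q, true)) (fun _ _ e => by simpa using e) (by simp) hx.2
    (c := fun e => σ e (x, 0)) (fun e => ⟨_, _, (hσ e).isCross (hτ e).2 (crv_ne
      ((hσ e).mem0.self_of_nhds ((mul_zero _).trans (hτ e).2.symm)) _)⟩) hi
  choose a a0 a1 a2 using fun e => NdAt.deriv_arc ⟨_, rfl, (hτ e).1, (hτ e).2, hσ e⟩
    (NdAt.comp (u := fun y : ch.bm ν κ => (⟨y.1, y.2.1⟩ : ch.base _)) (t' := ⟨x, hx⟩)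
      (π' := Subtype.val) (k := id) (k1 e) c0 analyticAt_id (.of_forall fun _ => rfl)) hf
  obtain ⟨γ, m1, -, m2⟩ := k2 fun e => t e / a e
  obtain ⟨u, u0, u1, u2, u3⟩ := Arc.exists_lift (S := ch.bm ν κ) m1 hx
  refine ⟨γ, m1, fun e => ?_⟩
  have := a2 e u u u0 u0 u1 u1 u2 u2 (.of_forall fun _ => rfl)
  rwa [EventuallyEq.deriv_eq (u3.mono fun s b => congrArg (τ e) b),
    EventuallyEq.deriv_eq (u3.mono fun s b => congrArg (τ' e ∘ id) b), comp_id, m2 e,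
    mul_div_cancel₀ _ (a0 e)] at this

theorem Num₀.mfd_nodes (h : Num₀ ch) {x : ch.WF ν κ Λ} (hx : x.2 ∈ ch.bm ν κ)
    {σ : ε → ch.W (Mk ν κ) × (ℂ × ℂ) → V ch.M} {τ : ε → ch.W (Mk ν κ) → ℂ}
    (hσ : ∀ e, Chart ch.o (fun y : ch.bm ν κ => crv y.1) Subtype.val ⟨x.2, hx⟩ (σ e)
      fun y => {z | z.1 * z.2 = τ e y})
    (hτ : ∀ e, AnalyticAt ℂ (τ e) x.2 ∧ τ e x.2 = 0)
    (hi : ∀ e e', Base.Orb (σ e (x.2, 0)) (σ e' (x.2, 0)) → e = e') :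
    ∃ N : ℕ, (N : ℤ) + Fintype.card κ + Fintype.card ε = Fintype.card Λ + ch.dimB (Mk ν κ) ∧
      MfdAt {y : ch.WF ν κ Λ | y.2 ∈ ch.bm ν κ ∧ ∀ e, τ e y.2 = 0} N x := by
  have m : ∀ y : ch.WF ν κ Λ, y ∈ ch.baseF ν κ univ ↔ y.2 ∈ ch.bm ν κ := fun y =>
    mem_baseF.trans (and_iff_right trivial)
  obtain ⟨N, h1, h2⟩ := h.mfd_bm ((m x).2 hx)
  obtain ⟨n, h3, h4⟩ := h2.sub' (Z := {y : ch.WF ν κ Λ | y.2 ∈ ch.bm ν κ ∧ ∀ e, τ e y.2 = 0})
    (f := fun y e => τ e y.2) (.of_an (AnalyticAt.pi fun e =>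
      (hτ e).1.comp (f := Prod.snd) analyticAt_snd)) (funext fun e => (hτ e).2)
    (fun t _ => Submodule.subset_span (by
      obtain ⟨γ, k1, k2⟩ := h.exists_arc_bm hx hσ hτ hi t
      refine ⟨fun s => (x.1, γ s), ⟨analyticAt_const.prod k1.an, Prod.ext rfl k1.zero,
        k1.mem.mono fun s b => (m _).2 b⟩, HasDerivAt.deriv (hasDerivAt_pi.2 fun e => ?_)⟩
      rw [← k2 e]
      exact ((hτ e).1.comp_of_eq k1.an k1.zero).differentiableAt.hasDerivAt))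
    (.of_forall fun y => and_congr (m y).symm funext_iff.symm)
  rw [Module.finrank_fintype_fun_eq_card] at h3
  exact ⟨n, by rw [← h1, ← h3]; push_cast; ring, h4⟩

end Ch

end Vale.Agent.P269
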