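import Vale.Agent.P269.Spl.GBd

/-!
# Gluing on the level of the smooth spaces: uniqueness of labels
-/

set_option linter.unusedSectionVars false

namespace Vale.Agent.P269

open Set Function Topology Filter Holo Base Cv

variable {S Λ R J K ι ν ν' κ ε : Type} [Fintype S] [Fintype Λ] [Fintype R] [Fintype J] [Fintype K]
  [Fintype ι] [DecidableEq ι] [Fintype ν] [Fintype ν'] [Fintype κ] [Fintype ε]

namespace GBu

variable {X X' : Type} [TopologicalSpace X] [TopologicalSpace X'] {Q : RS X} {Q' : RS X'}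
  {A : ι → LB Q} {A' : ι → LB Q'} {M M' : ι → ℕ}

theorem fac_iso {f : X → X'} (hf : LIso Q Q' f) {π : X → V M} {π' : X' → V M} {c : X → ι → ℂ}
    (e : ∀ y, π' (f y) = c y • π y) (h0 : ∀ y i, c y i ≠ 0)
    (hc : ∀ i, (fun y => c y i) ∈ (hf.pb (A' i) / A i).Γ) (y : X) :
    Nrm.Fac (br A' π' (f y)) (br A π y) := by
  have a := fun i => hc i y
  have b : ∀ i, (hf.pb (A' i) / A i).loc (fun y => c y i) y 0 ≠ 0 := fun i => by
    rw [LB.loc_zero]; exact h0 y i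
  refine ⟨fun t => (fun i => (hf.pb (A' i) / A i).loc (fun y => c y i) y t)⁻¹, _,
    analyticAt_pi_iff.2 fun i => AnalyticAt.inv (a i) (b i), hf.hol y, fun i => inv_ne_zero (b i),
    by simp only [Q.i_zero, Q'.zero], hf.ne y, ?_⟩
  filter_upwards [br_of_eq (A := A) (A' := A') hf e y,
    eventually_all.2 fun i => (a i).continuousAt.eventually_ne (b i)] with t d k
  exact (Dict.inv_smul k _).symm.trans (congrArg _ d.symm)

theorem fac_apV [T2Space X] [CompactSpace X] {π : X → V M} {y : X} {δ : ℂ → V M} (φ : HV M M') (h : Nrm.Fac (br A π y) δ) :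
    Nrm.Fac (br A (fun y => apV φ (π y)) y) fun t => apV φ (δ t) :=
  let ⟨s, ψ, a1, a2, a3, a4, a5, a6⟩ := h
  ⟨s, ψ, a1, a2, a3, a4, a5, a6.mono fun t e => by
    beta_reduce
    rw [e, apV_smul]
    exact congrArg _ (br_lin y _).symm⟩

end GBu

namespace Ch

variable {ch : Ch ι J} {n : Nm ι J} {x : ch.W (Mk ν κ)} {w w' : ch.Lb n (Mk ν (κ ⊕ ε))}
  {γ : ε → Bool → ℂ → V ch.M}

theorem GD.fac {c A π u ξ ξ'} (h : GD x w c A π u ξ ξ') (b : Brs w γ) (e : ε) (q : Bool) :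
    Nrm.Fac (br A (fun y => apV w.2.1 (π y)) (c.p (nq e q))) (γ e q) := by
  obtain ⟨δ, b1, b2, b3⟩ := b e q
  obtain ⟨y, k⟩ := h.cr'.par.dc_fac b1
  obtain ⟨t, -, d⟩ := (dc_orb k).symm
  obtain rfl := h.cr'.orb_mark.1 ⟨t, b2 ▸ d⟩
  exact (GBu.fac_apV _ k).trans b3

theorem Lk.xi {c : AC ν (κ ⊕ ε)} {A π u ξ} (h : Lk x w)
    (a : Cr (ch := ch.re n) (R := c.R) c.N A w.1 π u c.p ξ) (y : c.X) (μ) :
    u y none (w.2.2 none (x.Ξ μ)) = ξ y * wsec A (fun y => apV w.2.1 (π y)) c.N c.P μ y :=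
  (congrArg (u y none) (h.Ξ μ)).trans ((a.Xi y _).trans
    (congrArg _ (wsec_apV _ a.par.sec _ μ y).symm))

theorem Mt.ind {X : Type} {π : X → V n.M} {u : X → ∀ l, (ch.re n).E l →L[ℂ] ℂ} {j : J} {s : X → ℂ}
    (h : Mt x w j) (a : Ind w.1 π u j s) :
    Ind x (fun y => apV w.2.1 (π y)) (fun y l => u y l ∘L w.2.2 l) j s := fun y μ =>
  (congrArg (u y _) (h μ)).trans (a y _)

/-- **P3**: two labels of the same point with the same branches lie in the same orbit -/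
theorem Gl.exists_unit (ok : GOk ch n) (h : Gl x w) (h' : Gl x w') (b : Brs w γ) (b' : Brs w' γ) :
    ∃ a : (ch.re n).A ε, IsUnit a ∧ (Ch.actHL a w).setX w'.1.X = w' ∧ ∀ j, Mt x w j → Mt x w' j →
      Sc w.1 j → Sc w'.1 j → (Ch.actHL a w).1.X j = w'.1.X j := by
  obtain ⟨c, A, π, u, ξ, ξ₁, a⟩ := h.exists_gd
  obtain ⟨c', A', π', u', ξ', ξ₁', a'⟩ := h'.exists_gd
  obtain ⟨f, t, hf, jn, e, t0, tm⟩ := a.cr.par.exists_iso a'.cr.par
  have mk : ∀ k, apV w.2.1 (π (c.p (inc k))) = x.p k := fun k => by rw [a.mark, h.mark]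
  have hq : ∀ k q, f (c.p (nq k q)) = c'.p (nq k q) := fun k q => a'.cr.par.dc_uniq
    ((GBu.fac_iso hf e t0 (fun i => (tm i).1) _).trans (a.fac b k q)) (a'.fac b' k q)
  have hi : ∀ k, f (c.p (inc k)) = c'.p (inc k) := fun k =>
    a'.cr.orb_mark.1 ⟨t _, (e _).trans (congrArg _ (mk k))⟩
  have hp : ∀ k, f (c.p k) = c'.p k := by
    rintro (k | ⟨k | k, q⟩)
    exacts [hi (.inl k), hi (.inr (k, q)), hq k q]
  have jn' : ∀ y z, Jn c.N y z ↔ Jn c'.N (f y) (f z) := fun y z => by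
    rw [AC.jn_iff_glue, AC.jn_iff_glue, jn]
    simp only [← hp, ne_eq, f.apply_eq_iff_eq]
  obtain ⟨ω, ω1, -, ω0, -, ω2⟩ := AC.exists_omega hf jn' hp
  obtain ⟨π₂, u₂, ξ₂, a₂, e₂⟩ : ∃ π₂ u₂ ξ₂, Cr (ch := ch.re n) c.N A w'.1 π₂ u₂ c.p ξ₂ ∧
      ∀ y, apV w'.2.1 (π₂ y) = apV w.2.1 (π y) :=
    ⟨_, _, _, a'.cr'.comp hf c.nd jn' hp (c := fun y => (t y)⁻¹) (fun i => inv_div (hf.pb _) (A i) ▸
      H0.inv_mem (AC.mem_H0_glue.1 (tm i)).1 (t0 · i)) (fun y i => inv_ne_zero (t0 y i)) ω1 ω0 ω2,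
      fun y => by rw [apV_smul, e, Dict.inv_smul (t0 y)]⟩
  have eu : ∀ y, (fun l => u₂ y l ∘L w'.2.2 l) = fun l => u y l ∘L w.2.2 l := fun y =>
    a.cr.u_eq (e₂ y ▸ h'.toLk.gr (a₂.gr y) (e₂ y ▸ a.cr.par.ne y))
  have eu' : ∀ y l v, u₂ y l (w'.2.2 l v) = u y l (w.2.2 l v) := fun y l v =>
    congrArg (· v) (congrFun (eu y) l)
  obtain rfl : ξ₂ = ξ₁ := funext fun y => LB.Sec.eq_of_ev (a₂.xi.1 y) (a.cr'.xi.1 y)
    ((Xi.ev_sm c.N c.P y).mono fun z hz => by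
      obtain ⟨μ, k⟩ := exists_wedge_ne (a.cr.par.ne z) (a.cr.par.imm z)
      have d : wsec A (fun y => apV w.2.1 (π y)) c.N c.P μ z ≠ 0 := by
        rwa [wsec, if_pos hz, one_pow, one_mul]
      refine mul_right_cancel₀ d ?_
      rw [← h.toLk.xi a.cr', ← eu', h'.toLk.xi a₂, funext e₂])
  obtain ⟨s, hs, s1, s2, sQ, sp, sΞ⟩ := a.cr'.exists_unit a₂ ok.cuts'.ne (ok.tight'.eq h.mem')
  have eφ : ∀ i v, w'.2.1 i (s.1 i v) = w.2.1 i v := fun i v => funext fun k =>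
    sub_eq_zero.1 (congrArg (· v) (a.cr'.full.eq_zero (i := i) (by
      exact_mod_cast (a.cr'.par.finrank_one a.cr'.cur i).trans (ok.tight'.eq h.mem' i).symm)
      (l := .proj k ∘L w'.2.1 i ∘L s.1 i - .proj k ∘L w.2.1 i) fun y => sub_eq_zero.2 (by
        change w'.2.1 i (s.1 i (π y i)) k = _
        rw [s1]
        exact congrFun (congrFun (e₂ y) i) k)))
  have ep : ∀ k, apV w'.2.1 (w'.1.p k) = s.2.2 k • apV w.2.1 (w.1.p k) := fun k => funext fun i => by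
    rw [sp]
    exact (map_smul _ _ _).trans (congrArg _ (eφ i _))
  have ne : ∀ k i, apV w.2.1 (w.1.p k) i ≠ 0 := fun k => a.mark k ▸ a.cr.par.ne (c.p k)
  have s3 : ∀ k, s.2.2 (inc k) = 1 := fun k => Dict.smul_cancel (ne _)
    (by rw [← ep, ← h'.mark, ← h.mark, one_smul])
  have s4 : ∀ k, s.2.2 (nq k false) = s.2.2 (nq k true) := fun k => Dict.smul_cancel (ne _)
    (by rw [← ep, h'.node, ep, h.node])
  have es : dup (ιH ν κ (s.1, s.2.1, fun k => s.2.2 (nq k false))) = s := by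
    refine Prod.ext rfl (Prod.ext rfl (funext ?_))
    rintro (k | ⟨k | k, _ | _⟩)
    exacts [(s3 (.inl k)).symm, (s3 (.inr (k, _))).symm, (s3 (.inr (k, _))).symm, rfl, s4 k]
  obtain ⟨u1, u2, u3⟩ := Cv.isUnit_iff.1 hs
  refine ⟨(s.1, s.2.1, fun k => s.2.2 (nq k false)), Cv.isUnit_iff.2 ⟨u1, u2, fun k => u3 _⟩,
    Prod.ext ?_ (Prod.ext (funext fun i => ContinuousLinearMap.ext fun v => ?_)
      (funext fun l => ContinuousLinearMap.ext fun v => a₂.u_ext fun y => ?_)),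
    fun j m m' k k' => ?_⟩
  · change Ch.setX (Ch.act _ w.1) _ = _
    rw [es, Ch.setX, ← sQ, ← sp, ← sΞ]
    rfl
  · exact (eφ i _).symm.trans (congrArg _ (ap_inv (u1 i) v))
  · exact (s2 y l _).trans (eu' y l v).symm
  · obtain ⟨σ, i⟩ := a.cr'.exists_ind_iff.2 k
    obtain ⟨σ', i'⟩ := a₂.exists_ind_iff.2 k'
    have i₂ := m'.ind i'
    rw [funext e₂, funext eu] at i₂
    obtain rfl := a.cr.ind_unique (m.ind i) i₂
    change (Ch.act _ w.1).X j = _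
    rw [es]
    refine (a₂.X_ext i' fun y μ => (s2 y _ _).trans ((i y _).trans ?_)).symm
    rw [← funext (s1 y)]
    rfl

end Ch

end Vale.Agent.P269
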