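import Vale.Agent.P269.Spl.GBd
import Vale.Agent.P269.Spl.Ver

/-! # Gluing on the level of the smooth spaces: the labelled branches are locally constant -/

set_option linter.unusedSectionVars false

namespace Vale.Agent.P269

open Set Function Topology Filter Holo Base Cv

variable {S Λ R J K ι ν ν' κ ε : Type} [Fintype S] [Fintype Λ] [Fintype R] [Fintype J] [Fintype K]
  [Fintype ι] [DecidableEq ι] [Fintype ν] [Fintype ν'] [Fintype κ] [Fintype ε]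

namespace GBx

variable {M M' : ι → ℕ} {o : ι} {C : Set (V M)} {γ δ β : ℂ → V M}

theorem fac_apV (φ : HV M M') (h : Nrm.Fac γ δ) :
    Nrm.Fac (fun t => apV φ (γ t)) fun t => apV φ (δ t) :=
  let ⟨s, ψ, a1, a2, a3, a4, a5, a6⟩ := h
  ⟨s, ψ, a1, a2, a3, a4, a5, a6.mono fun _ e => (congrArg _ e).trans (apV_smul _ _ _)⟩

/-- The point and the tangent line of an analytic family of discs vary continuously. -/
theorem cont_J {P : Type*} [NormedAddCommGroup P] [NormedSpace ℂ P] {F : P × ℂ → V M} {p : P}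
    (hC : IsNodal o C) (h : AnalyticAt ℂ F (p, 0)) (hi : IsBranch o C fun t => F (p, t)) :
    ContinuousAt (fun q => Nrm.J o (fun t => F (q, t)) 0) p := by
  have a : ContinuousAt (fun q => F (q, 0)) p :=
    h.continuousAt.comp (f := fun q => (q, 0)) (tendsto_inl p 0)
  have b : ContinuousAt (fun q => deriv (fun t => F (q, t)) 0) p :=
    (Ch.an_deriv_snd h).continuousAt.comp (f := fun q => (q, 0)) (tendsto_inl p 0)
  refine ((Nrm.continuousAt_P (Nrm.ne_of_branch hC hi)).comp (f := fun q => F (q, 0)) a).prodMk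
    ((Nrm.continuousAt_pr (Nrm.wd_ne hi.imm)).comp
      (f := fun q => Nrm.wd (F (q, 0) o) (deriv (fun t => F (q, t)) 0 o)) ?_)
  have k : ∀ {f : P → V M}, ContinuousAt f p → ∀ j, ContinuousAt (fun q => f q o j) p :=
    fun h => continuousAt_pi.1 (continuousAt_pi.1 h o)
  exact continuousAt_pi.2 fun j => ((k a _).mul (k b _)).sub ((k a _).mul (k b _))

/-- A branch through a node is tangent to one of the two given branches. -/
theorem J_or (hC : IsNodal o C) {c : V M} (a : IsCross o C c γ δ) (b : IsBranch o C β)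
    (e : Nrm.P c = Nrm.P (β 0)) : Nrm.J o β 0 = Nrm.J o γ 0 ∨ Nrm.J o β 0 = Nrm.J o δ 0 := by
  obtain ⟨γ₁, γ₂, l⟩ := Nrm.exists_loc hC (a.2.2.1 ▸ a.1.mem.self_of_nhds : c ∈ C)
  have n := Nrm.ne_of_isCross a
  rcases l.J_eq hC a.1 (by rw [a.2.2.1]) with ⟨-, h1⟩ | ⟨-, h1⟩ <;>
    rcases l.J_eq hC a.2.1 (by rw [a.2.2.2.1]) with ⟨-, h2⟩ | ⟨-, h2⟩ <;>
    rcases l.J_eq hC b e with ⟨-, h3⟩ | ⟨-, h3⟩ <;>
    simp only [h1, h2, h3, ne_eq, not_true, true_or, or_true] at n ⊢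

/-- The two axes of a node chart, in either order. -/
theorem cross {T P : Type*} [TopologicalSpace T] [NormedAddCommGroup P] [NormedSpace ℂ P]
    {C : T → Set (V M)} {π : T → P} {t₀ : T} {σ : P × (ℂ × ℂ) → V M} {τ : P → ℂ}
    (h : Chart o C π t₀ σ fun p => {z | z.1 * z.2 = τ p}) (hf : LocFam o C π t₀)
    (hτ : τ (π t₀) = 0) (b : Bool) : IsCross o (C t₀) (σ (π t₀, 0))
      (fun t => σ (π t₀, cond b (0, t) (t, 0))) fun t => σ (π t₀, cond (!b) (0, t) (t, 0)) := by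
  have hne := hf.ne_zero.self_of_nhds _ (h.mem0.self_of_nhds (by simp [hτ])) o
  cases b
  exacts [h.isCross hτ hne, (h.swap_node hf.cont.self_of_nhds).isCross hτ hne]

end GBx

namespace Ch

variable {ch : Ch ι J} {n : Nm ι J} {x : ch.W (Mk ν κ)} {w : ch.Lb n (Mk ν (κ ⊕ ε))}

theorem Gl.isBranch (h : Gl x w) {δ : ℂ → V n.M} (hδ : IsBranch ch.o (crv w.1) δ) :
    IsBranch ch.o (crv x) fun t => apV w.2.1 (δ t) := by
  obtain ⟨c, A, π, u, ξ, ξ', a⟩ := h.exists_gd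
  obtain ⟨y, k⟩ := a.cr'.par.dc_fac hδ
  refine dc_branch h.mem.2.2.1.isNodal (a.cr.par.isBranch y) ?_
  rw [show br A (fun y => apV w.2.1 (π y)) y = fun t => apV w.2.1 (br A π y t) from
    funext (br_lin y)]
  exact GBx.fac_apV _ k

theorem Gl.isNode2 (h : Gl x w) (e : ε) (b : Bool) :
    IsNode ch.o (crv x) (apV w.2.1 (w.1.p (nq e b))) := by
  cases b
  exacts [h.isNode e, h.node e ▸ h.isNode e]

theorem Gl.ev_brs (hc : ch.Cuts) (h : Gl x w) (hx : x ∈ ch.bm ν κ)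
    {σ : ε → ch.W (Mk ν κ) × (ℂ × ℂ) → V ch.M} {τ : ε → ch.W (Mk ν κ) → ℂ}
    (hσ : ∀ e, Chart ch.o (fun y : ch.bm ν κ => crv y.1) Subtype.val ⟨x, hx⟩ (σ e)
      fun y => {z | z.1 * z.2 = τ e y})
    (hτ : ∀ e, AnalyticAt ℂ (τ e) x ∧ τ e x = 0) (b : Brs w (axs fun e z => σ e (x, z))) :
    ∀ᶠ q : ch.W (Mk ν κ) × ch.Lb n (Mk ν (κ ⊕ ε)) in 𝓝 (x, w), Gl q.1 q.2 → q.1 ∈ ch.bm ν κ →
      (∀ e, τ e q.1 = 0) ∧ Brs q.2 (axs fun e z => σ e (q.1, z)) := by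
  have hf := locFam_bm hc ⟨x, hx⟩
  have hf' := Cuts.locFam (ch := ch.re n) ⟨hc.ne, hc.cut⟩ ⟨w.1, h.mem'⟩
  have hC := h.mem.2.2.1.isNodal
  have hC' := h.mem'.2.2.1.isNodal
  obtain ⟨ς, p1, p2⟩ := exists_pts hf' .self (.of_forall fun t => t.2)
  suffices H : ∀ e c, ∀ᶠ q : ch.W (Mk ν κ) × ch.Lb n (Mk ν (κ ⊕ ε)) in 𝓝 (x, w), Gl q.1 q.2 →
      q.1 ∈ ch.bm ν κ → τ e q.1 = 0 ∧ ∃ δ, IsBranch ch.o (crv q.2.1) δ ∧
        δ 0 = q.2.1.p (nq e c) ∧ Nrm.Fac (fun t => apV q.2.2.1 (δ t))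
          (axs (fun e z => σ e (q.1, z)) e c) from
    (eventually_all.2 fun e => eventually_all.2 (H e)).mono fun q a g m =>
      ⟨fun e => (a e true g m).1, fun e c => (a e c g m).2⟩
  intro e c
  obtain ⟨δ, d1, d2, d3⟩ := b e c
  let Q := ch.W (Mk ν κ) × ch.Lb n (Mk ν (κ ⊕ ε))
  let D : Q × ℂ → V ch.M := fun r => apV r.1.2.2.1 (ς (nq e c) (r.1.2.1, r.2))
  let G : Q × ℂ → V ch.M := fun r => σ e (r.1.1, cond (!c) (0, r.2) (r.2, 0))
  have w1 : AnalyticAt ℂ (fun r : Q × ℂ => r.1.2.1) ((x, w), 0) :=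
    analyticAt_fst.comp (analyticAt_snd.comp analyticAt_fst)
  have w2 : AnalyticAt ℂ (fun r : Q × ℂ => r.1.2.2.1) ((x, w), 0) :=
    analyticAt_fst.comp (analyticAt_snd.comp (analyticAt_snd.comp analyticAt_fst))
  have a1 : AnalyticAt ℂ D ((x, w), 0) := analyticAt_pi_iff.2 fun i =>
    an_apply (analyticAt_pi_iff.1 w2 i) (analyticAt_pi_iff.1
      ((p1.chart (nq e c)).an.comp_of_eq (w1.prod analyticAt_snd) rfl) i)
  have a2 : AnalyticAt ℂ G ((x, w), 0) := by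
    refine (hσ e).an.comp_of_eq ((analyticAt_fst.comp analyticAt_fst).prod ?_) (by cases c <;> rfl)
    cases c
    exacts [analyticAt_const.prod analyticAt_snd, analyticAt_snd.prod analyticAt_const]
  have e1 : ∀ᶠ y in 𝓝 w.1, y ∈ (ch.re n).base _ →
      IsBranch ch.o (crv y) (fun t => ς (nq e c) (y, t)) ∧ ς (nq e c) (y, 0) = y.p (nq e c) := by
    filter_upwards [Base.ev_sub' (((tendsto_inl _ (0 : ℂ)).eventually
      ((p1.chart (nq e c)).isBranch hf')).and p2)] with y k m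
    exact ⟨by simpa only [zero_add] using (k m).1, congrFun (k m).2 _⟩
  obtain ⟨b1, b2⟩ := e1.self_of_nhds h.mem'
  have b3 : Nrm.Fac (fun t => D ((x, w), t)) (axs (fun e z => σ e (x, z)) e c) :=
    (GBx.fac_apV _ (Nrm.fac_of_J hC' b1 d1 (Nrm.eq_of_not_node hC' b1
      (b2 ▸ (h.mem'.2.2.2.1 _).2) ⟨δ, d1, rfl⟩ (by rw [b2, ← d2]; rfl)).symm)).trans d3
  have b4 := GBx.cross (hσ e) hf (hτ e).2 c
  have b5 := h.isBranch b1
  have e2 : ∀ᶠ q : Q in 𝓝 (x, w),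
      Nrm.J ch.o (fun t => D (q, t)) 0 ≠ Nrm.J ch.o (fun t => G (q, t)) 0 :=
    (((GBx.cont_J hC a1 b5).prodMk (GBx.cont_J hC a2 b4.2.1)).eventually
      (isClosed_diagonal.isOpen_compl.mem_nhds fun k =>
        Nrm.ne_of_isCross b4 ((b3.J_eq b5.holo).trans k)) :)
  obtain ⟨s, φ, -, -, s1, s2, -, s3⟩ := b3
  have s4 : s 0 • D ((x, w), 0) = σ e (x, 0) := by
    rw [← b4.2.2.1]
    exact ((s3.self_of_nhds).trans (by rw [s2])).symm
  have t1 : Tendsto (fun q : Q => (q.1, s 0 • D (q, 0))) (𝓝 (x, w)) (𝓝 (x, σ e (x, 0))) :=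
    s4 ▸ continuousAt_fst.prodMk (continuousAt_pi.2 fun i => (continuousAt_pi.1
      (a1.continuousAt.comp (f := fun q => (q, 0)) (tendsto_inl _ 0)) i).const_smul (s 0 i))
  filter_upwards [e2, (w1.continuousAt.comp (f := fun q => (q, 0)) (tendsto_inl _ 0)).eventually e1,
    t1.eventually (Base.ev_sub (NdAt.eventually (hσ e) (hτ e).1 (hτ e).2 hf)),
    continuousAt_fst.eventually (Base.ev_sub' ((hσ e).eventually_node (hτ e).2 hf))]
    with q k1 k2 k3 k4 g m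
  obtain ⟨k5, k6⟩ := k2 g.mem'
  have k7 := g.isBranch k5
  have hq := g.mem.2.2.1
  have k8 : s 0 • D (q, 0) ∈ crv q.1 := hq.cone _ s1 _ k7.mem.self_of_nhds
  obtain ⟨k9, ⟨r, k10⟩, -⟩ := (k3 m k8).resolve_left fun k => k.not_isNode (locFam_bm hc ⟨q.1, m⟩)
    (hq.nod.isNode_orb (g.isNode2 e c) ⟨s 0, s1, congrArg (s 0 • apV q.2.2.1 ·) k6⟩)
  have k11 := GBx.cross (k4 m) (locFam_bm hc ⟨q.1, m⟩) k9 c
  refine ⟨k9, _, k5, k6, Nrm.fac_of_J hq.isNodal k7 k11.1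
    ((GBx.J_or hq.isNodal k11 k7 ?_).resolve_right k1)⟩
  exact (Nrm.P_smul (ne_of_smul_ne (k10 ▸ crv_ne k8 :)) _).symm.trans
    ((congrArg Nrm.P k10.symm).trans (Nrm.P_smul s1 _))

end Ch

end Vale.Agent.P269
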