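import Vale.Agent.P269.Spl.GBk
import Vale.Agent.P269.Spl.GBl

/-!
# Gluing on the level of the smooth spaces: the normalisation map is smooth
-/

set_option linter.unusedSectionVars false

namespace Vale.Agent.P269

open Set Function Topology Filter Holo Base Cv

variable {S Λ R J K ι ν ν' κ ε : Type} [Fintype S] [Fintype Λ] [Fintype R] [Fintype J] [Fintype K]
  [Fintype ι] [DecidableEq ι] [Fintype ν] [Fintype ν'] [Fintype κ] [Fintype ε]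

theorem GB.transport {W W' B B' : Type} [NormedAddCommGroup W] [NormedSpace ℂ W]
    [NormedAddCommGroup W'] [NormedSpace ℂ W'] [NormedAddCommGroup B] [NormedSpace ℂ B]
    [NormedAddCommGroup B'] [NormedSpace ℂ B'] (e : B' ≃L[ℂ] B) {Z : Set W} {T : Set W'}
    {f : W → W'} {z : W} {Ψ : W' × B → W} {Θ : W → B} (h1 : AnalyticAt ℂ Θ z)
    (h2 : AnalyticAt ℂ Ψ (f z, Θ z)) (h3 : ∀ᶠ y in 𝓝 z, y ∈ Z → Ψ (f y, Θ y) = y)
    (h4 : ∀ᶠ q in 𝓝 (f z, Θ z), q.1 ∈ T → Ψ q ∈ Z ∧ f (Ψ q) = q.1 ∧ Θ (Ψ q) = q.2) :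
    ∃ (Ψ : W' × B' → W) (Θ : W → B'), AnalyticAt ℂ Θ z ∧ AnalyticAt ℂ Ψ (f z, Θ z) ∧
      (∀ᶠ y in 𝓝 z, y ∈ Z → Ψ (f y, Θ y) = y) ∧
      ∀ᶠ q in 𝓝 (f z, Θ z), q.1 ∈ T → Ψ q ∈ Z ∧ f (Ψ q) = q.1 ∧ Θ (Ψ q) = q.2 := by
  have k1 : AnalyticAt ℂ (fun q : W' × B' => (q.1, e q.2)) (f z, e.symm (Θ z)) :=
    analyticAt_fst.prod ((e.analyticAt _).comp analyticAt_snd)
  have k2 : (f z, e (e.symm (Θ z))) = (f z, Θ z) := by rw [e.apply_symm_apply]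
  exact ⟨fun q => Ψ (q.1, e q.2), fun y => e.symm (Θ y), (e.symm.analyticAt _).comp h1,
    h2.comp_of_eq k1 k2, by simpa only [e.apply_symm_apply] using h3,
    ((k2 ▸ k1.continuousAt.tendsto :).eventually h4).mono fun q a b =>
      ⟨(a b).1, (a b).2.1, e.symm_apply_eq.2 (a b).2.2⟩⟩

theorem GB.isUnit_of_inj {E : Type} [NormedAddCommGroup E] [NormedSpace ℂ E]
    [FiniteDimensional ℂ E] {T : E →L[ℂ] E} (h : Injective T) : IsUnit T :=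
  have := FiniteDimensional.complete ℂ E
  ContinuousLinearMap.isUnit_iff_bijective.2 (bijective_of_injective _ h rfl)

namespace Ch

variable {ch : Ch ι J} {n : Nm ι J} {F : Fam S Λ R J K} {T : Set ((ch.re n).WF ν (κ ⊕ ε) Λ)}
  {z₀ : ch.WG n ν κ ε Λ} {N : ℕ}

namespace GBs

variable {x : ch.W (Mk ν κ)} {w : ch.Lb n (Mk ν (κ ⊕ ε))} {A : Set J}

/-- The differences of the two branches. -/
noncomputable def dd (y : ch.W (Mk ν (κ ⊕ ε))) (i : ι) : (ε → ℂ) →L[ℂ] Fin (ch.M i) → ℂ :=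
  LinearMap.toContinuousLinearMap
    (Fintype.linearCombination ℂ fun e => y.p (nq e false) i - y.p (nq e true) i)

theorem an_dd (y : ch.W (Mk ν (κ ⊕ ε))) (i : ι) : AnalyticAt ℂ (fun y => dd y i) y :=
  analyticAt_of_apply fun t => Finset.analyticAt_fun_sum (f := fun e (y : ch.W (Mk ν (κ ⊕ ε))) =>
    t e • (y.p (nq e false) i - y.p (nq e true) i)) _ fun _ _ => analyticAt_const.fun_smul
      ((analyticAt_pi_iff.1 (W.an_p analyticAt_id _) i).fun_sub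
        (analyticAt_pi_iff.1 (W.an_p analyticAt_id _) i))

theorem comp_dd {y : ch.W (Mk ν (κ ⊕ ε))} {M : ι → ℕ} {φ : HV ch.M M} : (∀ i, φ i ∘L dd y i = 0) ↔
    ∀ e, apV φ (y.p (nq e false)) = apV φ (y.p (nq e true)) := by
  classical
  refine ⟨fun h e => funext fun i => sub_eq_zero.1 (((map_sub (φ i) _ _).symm.trans
    (congrArg (φ i) ?_)).trans (congrArg (· (Pi.single e 1)) (h i))),
    fun h i => ContinuousLinearMap.ext fun t => (map_sum (φ i) _ _).trans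
      (Finset.sum_eq_zero fun e _ => ?_)⟩
  · exact ((Fintype.linearCombination_apply_single ℂ
      (fun e => y.p (nq e false) i - y.p (nq e true) i) e 1).trans (one_smul _ _)).symm
  · rw [map_smul, map_sub]
    exact (congrArg _ (sub_eq_zero.2 (congrFun (h e) i))).trans (smul_zero _)

theorem exists_k (ok : GOk ch n) (h : Gl x w) :
    ∃ (σ : HV ch.M n.M) (k : (ch.re n).W (Mk ν (κ ⊕ ε)) → HV n.M ch.M),
      (∀ i, w.2.1 i ∘L σ i = 1) ∧ (∀ i, AnalyticAt ℂ (fun y => k y i) w.1) ∧ ∀ᶠ y in 𝓝 w.1,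
        (∀ i, k y i ∘L σ i = 1) ∧ (∀ i, k y i ∘L dd y i = 0) ∧
          ∀ φ : HV n.M ch.M, (∀ i, φ i ∘L dd y i = 0) → ∀ i, (φ i ∘L σ i) ∘L k y i = φ i := by
  choose σ k h1 h2 h3 using fun i => GB.cok (h.surj i) (an_dd w.1 i)
    (fun v a => (h.ker_iff ok).1 a) (by simpa using h.M_add ok i)
  exact ⟨σ, fun y i => k i y, h1, h2, (eventually_all.2 h3).mono fun y a =>
    ⟨fun i => (a i).1, fun i => (a i).2.1, fun φ b i => ((a i).2.2 _ (b i)).symm⟩⟩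

theorem exists_agr {y₀ : ch.W (Mk ν (κ ⊕ ε))} (hy : y₀ ∈ ch.base _) :
    ∃ Δ : ∀ l, ch.W (Mk ν (κ ⊕ ε)) → ch.E l →L[ℂ] ε → ℂ, (∀ l, AnalyticAt ℂ (Δ l) y₀) ∧
      ∀ᶠ y in 𝓝 y₀, y ∈ ch.base _ → ∀ l v, Δ l y v = 0 ↔ Agr y l v := by
  choose U h1 h2 using fun a => exists_an_ev hy.1 (y₀.p a)
  have h3 : ∀ a, AnalyticAt ℂ (fun y : ch.W (Mk ν (κ ⊕ ε)) => (y, y.p a)) y₀ := fun a =>
    analyticAt_id.prod (W.an_p analyticAt_id a)
  have h4 : ∀ a l v, AnalyticAt ℂ (fun y => U a (y, y.p a) l v) y₀ := fun a l v => an_apply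
    ((analyticAt_pi_iff.1 (h1 a) l).comp_of_eq (h3 a) rfl) analyticAt_const
  refine ⟨fun l y => .pi fun e => U (nq e false) (y, y.p (nq e false)) l -
    U (nq e true) (y, y.p (nq e true)) l, fun l => analyticAt_of_apply fun v =>
      AnalyticAt.pi fun e => (h4 _ l v).fun_sub (h4 _ l v), ?_⟩
  filter_upwards [eventually_all.2 fun a => (h3 a).continuousAt.tendsto.eventually (h2 a)]
    with y a b l v
  refine ⟨fun c e u u' k k' => ?_, fun c => funext fun e => ?_⟩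
  · rw [a _ u k, a _ u' k']
    exact sub_eq_zero.1 (congrFun c e)
  · obtain ⟨u, k⟩ := mem_crv.1 (b.2.2.2.1 (nq e false)).1
    obtain ⟨u', k'⟩ := mem_crv.1 (b.2.2.2.1 (nq e true)).1
    exact sub_eq_zero.2 (a _ u k ▸ a _ u' k' ▸ c e u u' k k')

theorem exists_kk (ok : GOk ch n) (h : Gl x w) :
    ∃ (lam : ∀ l, (ch.re n).E l →L[ℂ] ch.E l)
      (k : (ch.re n).W (Mk ν (κ ⊕ ε)) → ∀ l, ch.E l →L[ℂ] (ch.re n).E l),
      (∀ l, lam l ∘L w.2.2 l = 1) ∧ (∀ l, AnalyticAt ℂ (fun y => k y l) w.1) ∧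
        ∀ᶠ y in 𝓝 w.1, y ∈ (ch.re n).base _ → (∀ l, lam l ∘L k y l = 1) ∧
          (∀ l v, Agr y l (k y l v)) ∧ ∀ l (r : ch.E l →L[ℂ] (ch.re n).E l),
            (∀ v, Agr y l (r v)) → k y l ∘L (lam l ∘L r) = r := by
  obtain ⟨Δ, h1, h2⟩ := exists_agr h.mem'
  choose lam k h3 h4 h5 using fun l => GB.ker (h.inj l) (h1 l)
    (fun v a => (h.agr_iff ok.cuts).1 ((h2.self_of_nhds h.mem' l v).1 a))
    (by simpa using h.h_add ok l)
  refine ⟨lam, fun y l => k l y, h3, h4, ?_⟩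
  filter_upwards [h2, eventually_all.2 h5] with y a b c
  exact ⟨fun l => (b l).1, fun l v => (a c l _).1 (congrArg (· v) (b l).2.1), fun l r d =>
    ((b l).2.2 r (ContinuousLinearMap.ext fun v => (a c l _).2 (d v))).symm⟩

open Classical in
/-- The glued point from the label; the fields in `A` are free. -/
noncomputable def gp (A : Set J) (ρ : ∀ l, (ch.re n).E l →L[ℂ] ch.E l)
    (w : ch.Lb n (Mk ν (κ ⊕ ε))) (X : ch.Fld) : ch.W (Mk ν κ) :=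
  W.mk' (fun l => ρ l ∘L w.1.Q l ∘L P269.pbT w.2.1 _) (fun a => apV w.2.1 (w.1.p (inc a)))
    (ρ none ∘L w.1.Ξ ∘L P269.pbT w.2.1 _)
    fun j => if j ∈ A then X j else ρ (some j) ∘L w.1.X j ∘L P269.pbT w.2.1 _

theorem an_gp {P : Type} [NormedAddCommGroup P] [NormedSpace ℂ P] {q : P}
    {ρ : P → ∀ l, (ch.re n).E l →L[ℂ] ch.E l} {w : P → ch.Lb n (Mk ν (κ ⊕ ε))} {X : P → ch.Fld}
    (h1 : ∀ l, AnalyticAt ℂ (fun y => ρ y l) q) (h2 : AnalyticAt ℂ w q)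
    (h3 : ∀ j, AnalyticAt ℂ (fun y => X y j) q) :
    AnalyticAt ℂ (fun y => gp A (ρ y) (w y) (X y)) q := by
  obtain ⟨k1, k2, -⟩ := Lb.an_iff.1 h2
  have k3 := fun {σ : Type} [Fintype σ] (τ : σ → ι) => GlA.an_pbT (AnalyticAt.pi k2) τ
  refine W.an_iff.2 ⟨fun l => an_comp (h1 l) (an_comp (W.an_Q k1 l) (k3 _)), fun a =>
    AnalyticAt.pi fun i => an_apply (k2 i) (analyticAt_pi_iff.1 (W.an_p k1 _) i),
    an_comp (h1 _) (an_comp (W.an_Ξ k1) (k3 _)), fun j => ?_⟩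
  by_cases a : j ∈ A
  · exact (h3 j).congr (.of_forall fun y => (if_pos a).symm)
  · exact (an_comp (h1 _) (an_comp (W.an_X k1 j) (k3 _))).congr
      (.of_forall fun y => (if_neg a).symm)

open Classical in
theorem gp_eq (h : Gl x w) (hm : ∀ j ∉ A, Mt x w j) {ρ : ∀ l, (ch.re n).E l →L[ℂ] ch.E l}
    (hρ : ∀ l v, ρ l (w.2.2 l v) = v) (X : ch.Fld) :
    gp A ρ w X = setX x fun j => if j ∈ A then X j else x.X j :=
  W.ext (fun l => ContinuousLinearMap.ext fun μ => (congrArg (ρ l) (h.Q l μ).symm).trans (hρ l _))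
    (fun a => (h.mark a).symm)
    (ContinuousLinearMap.ext fun μ => (congrArg (ρ none) (h.Ξ μ).symm).trans (hρ _ _))
    fun j => ite_congr rfl (fun _ => rfl) fun a => ContinuousLinearMap.ext fun μ =>
      (congrArg (ρ _) (hm j a μ).symm).trans (hρ _ _)

theorem q_congr {m : ℕ} {q : ch.Fld →L[ℂ] Fin m → ℂ} {i : (Fin m → ℂ) →L[ℂ] ch.Fld}
    (q1 : ∀ b, q (i b) = b) (q2 : ∀ b, ∀ j ∉ A, i b j = 0) (q3 : ∀ X, ∀ j ∈ A, i (q X) j = X j)
    {X X' : ch.Fld} (h : ∀ j ∈ A, X j = X' j) : q X = q X' :=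
  (q1 _).symm.trans ((congrArg q (funext fun j => by
    by_cases a : j ∈ A
    · rw [q3 _ j a, q3 _ j a, h j a]
    · rw [q2 _ j a, q2 _ j a])).trans (q1 _))

/-- The fields of a point. -/
noncomputable def prX : ch.W ν →L[ℂ] ch.Fld := .pi W.XL

/-- The point with only fields. -/
noncomputable def inX : ch.Fld →L[ℂ] ch.W ν := (ContinuousLinearMap.inr ℂ _ _).comp
  ((ContinuousLinearMap.inr ℂ _ _).comp (ContinuousLinearMap.inr ℂ _ _))

/-- The point of a label. -/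
noncomputable def prL : ch.Lb n ν' →L[ℂ] (ch.re n).W ν' := ContinuousLinearMap.fst ℂ _ _

/-- The label with zero maps. -/
noncomputable def inL : (ch.re n).W ν' →L[ℂ] ch.Lb n ν' := ContinuousLinearMap.inl ℂ _ _

theorem finrank_par (m : ℕ) : Module.finrank ℂ (HV ch.M ch.M × ch.Frm × (Fin m → ℂ)) =
    ∑ i, ch.M i * ch.M i + ∑ l, ch.h l * ch.h l + m := by
  simp [Module.finrank_prod, Module.finrank_pi_fintype, finrank_clm, add_assoc]

end GBs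

open GBs

theorem an_μG (z : ch.WG n ν κ ε Λ) : AnalyticAt ℂ μG z := analyticAt_μG z

theorem Zb.exists_param (ok : GOk ch n) (hz : z₀ ∈ Zb F T) :
    ∃ (Ψ : (ch.re n).WF ν (κ ⊕ ε) Λ × (Fin (ch.fG F.mov) → ℂ) → ch.WG n ν κ ε Λ)
      (Θ : ch.WG n ν κ ε Λ → Fin (ch.fG F.mov) → ℂ), AnalyticAt ℂ Θ z₀ ∧
      AnalyticAt ℂ Ψ (μG z₀, Θ z₀) ∧ (∀ᶠ y in 𝓝 z₀, y ∈ Zb F T → Ψ (μG y, Θ y) = y) ∧
      ∀ᶠ q in 𝓝 (μG z₀, Θ z₀), q.1 ∈ μG '' Zb F T →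
        Ψ q ∈ Zb F T ∧ μG (Ψ q) = q.1 ∧ Θ (Ψ q) = q.2 := by
  classical
  obtain ⟨q, i, q1, q2, q3⟩ := ch.exists_fa F.mov
  obtain ⟨σ, k, s1, s2, s3⟩ := exists_k ok hz.1
  obtain ⟨lam, kk, l1, l2, l3⟩ := exists_kk ok hz.1
  let B := HV ch.M ch.M × ch.Frm × (Fin (ch.fm F.mov) → ℂ)
  let lb : (ch.re n).WF ν (κ ⊕ ε) Λ × B → ch.Lb n (Mk ν (κ ⊕ ε)) := fun y =>
    (y.1.2, fun i => y.2.1 i ∘L k y.1.2 i, fun l => kk y.1.2 l ∘L y.2.2.1 l)
  let Θ : ch.WG n ν κ ε Λ → B := fun z =>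
    (fun i => z.2.2.1 i ∘L σ i, fun l => lam l ∘L z.2.2.2 l, q z.1.2.X)
  have a1 : ∀ {y}, AnalyticAt ℂ (fun y : (ch.re n).WF ν (κ ⊕ ε) Λ × B => y.1.2) y :=
    analyticAt_snd.comp analyticAt_fst
  have a2 : ∀ i {y}, AnalyticAt ℂ (fun y : (ch.re n).WF ν (κ ⊕ ε) Λ × B => y.2.1 i) y := fun i _ =>
    analyticAt_pi_iff.1 (analyticAt_fst.comp analyticAt_snd) i
  have a3 : ∀ l {y}, AnalyticAt ℂ (fun y : (ch.re n).WF ν (κ ⊕ ε) Λ × B => y.2.2.1 l) y :=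
    fun l _ => analyticAt_pi_iff.1 (analyticAt_fst.comp (analyticAt_snd.comp analyticAt_snd)) l
  refine GB.transport (B := B) (.ofFinrankEq ((Module.finrank_fin_fun ℂ).trans
    (finrank_par _).symm)) (Θ := Θ) (Ψ := fun y => ((y.1.1,
      gp F.mov (fun l => Ring.inverse (y.2.2.1 l) ∘L lam l) (lb y) (i y.2.2.2)), lb y)) ?_ ?_ ?_ ?_
  · obtain ⟨-, b2, b3⟩ := Lb.an_iff.1 (analyticAt_snd (𝕜 := ℂ) (p := z₀))
    exact (AnalyticAt.pi fun i => an_comp (b2 i) analyticAt_const).prod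
      ((AnalyticAt.pi fun l => an_comp analyticAt_const (b3 l)).prod (((q ∘L prX).analyticAt _).comp
        (analyticAt_snd.comp analyticAt_fst)))
  · have b : AnalyticAt ℂ lb (μG z₀, Θ z₀) := Lb.an_iff.2 ⟨a1, fun i => an_comp (a2 i)
      ((s2 i).comp_of_eq a1 rfl), fun l => an_comp ((l2 l).comp_of_eq a1 rfl) (a3 l)⟩
    exact ((analyticAt_fst.comp analyticAt_fst).prod (an_gp (fun l => an_comp
      (GlA.an_inv (a3 l) (l1 l ▸ isUnit_one :)) analyticAt_const) b (analyticAt_pi_iff.1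
        ((i.analyticAt _).comp (analyticAt_snd.comp (analyticAt_snd.comp analyticAt_snd)))))).prod b
  · have b := (Lb.an_iff.1 (analyticAt_snd (𝕜 := ℂ) (p := z₀))).1.continuousAt.tendsto
    filter_upwards [b.eventually s3, b.eventually l3] with y c1 c2 hy
    have e := fun l => (c2 hy.1.mem').2.2 l _ fun v => (hy.1.agr_iff ok.cuts).2 ⟨v, rfl⟩
    have e' : lb (μG y, Θ y) = y.2 :=
      Prod.ext rfl (Prod.ext (funext (c1.2.2 _ ((comp_dd (ch := ch.re n)).2 hy.1.node))) (funext e))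
    refine Prod.ext (Prod.ext rfl ?_) e'
    have u : ∀ l, IsUnit (lam l ∘L y.2.2.2 l) := fun l => GB.isUnit_of_inj (.of_comp
      (f := kk y.2.1 l) ((congrArg (fun r : _ →L[ℂ] _ => Injective r) (e l)).mpr (hy.1.inj l)))
    exact ((congrArg (gp F.mov _ · _) e').trans (gp_eq hy.1 hy.2.2
      (ρ := fun l => Ring.inverse (lam l ∘L y.2.2.2 l) ∘L lam l) (fun l => inv_ap (u l)) _)).trans
        (congrArg (setX y.1.2) (funext fun j => ite_eq_right_iff.2 (q3 _ j)))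
  · have u : ∀ {E : Type} [NormedAddCommGroup E] [NormedSpace ℂ E] [FiniteDimensional ℂ E]
        {f : (ch.re n).WF ν (κ ⊕ ε) Λ × B → E →L[ℂ] E} {y}, AnalyticAt ℂ f y → f y = 1 →
        ∀ᶠ y in 𝓝 y, Bijective (f y) := fun a b =>
      eventually_bijective a.continuousAt (b ▸ bijective_id)
    filter_upwards [a1.continuousAt.tendsto.eventually s3, a1.continuousAt.tendsto.eventually l3,
      eventually_all.2 fun i => u (a2 i) (s1 i), eventually_all.2 fun l => u (a3 l) (l1 l)]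
      with y c1 c2 c3 c4
    rintro ⟨z, hz, e⟩
    have e1 : y.1.2 = z.2.1 := (congrArg Prod.snd e).symm
    replace c2 := c2 (e1 ▸ hz.1.mem')
    have d : ∀ l v, lam l (kk y.1.2 l v) = v := fun l v => congrArg (· v) (c2.1 l)
    obtain ⟨x, b1, b2⟩ := hz.1.change ok (w' := lb y) e1
      (fun i => (c3 i).2.comp (RightInverse.surjective (g := σ i)
        fun v => congrArg (· v) (c1.1 i)))
      (e1 ▸ (comp_dd (ch := ch.re n)).1 fun i => (ContinuousLinearMap.comp_assoc _ _ _).trans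
        ((congrArg _ (c1.2.1 i)).trans (ContinuousLinearMap.comp_zero _)))
      (fun l => (LeftInverse.injective (d l)).comp (c4 l).1) fun l v => e1 ▸ c2.2.1 l _
    have e2 := gp_eq b1 (fun j a => b2 j (hz.2.2 j a))
      (ρ := fun l => Ring.inverse (y.2.2.1 l) ∘L lam l) (fun l v => (congrArg _ (d l _)).trans
        (inv_ap (GB.isUnit_of_inj (c4 l).1) v)) (i y.2.2.2)
    refine ⟨⟨e2 ▸ b1.setX _ y.1.2.X, (e ▸ hz.2.1 : y.1 ∈ T), fun j a => ?_⟩, rfl,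
      Prod.ext (funext fun i => ?_) (Prod.ext (funext fun l => ContinuousLinearMap.ext fun v =>
        d l _) ((q_congr q1 q2 q3 fun j a => if_pos a).trans (q1 _)))⟩
    · exact (b2 j (hz.2.2 j a)).congr ((congrArg (W.X · j) e2).trans (if_neg a)) rfl rfl
    · exact (ContinuousLinearMap.comp_assoc _ _ _).trans (congrArg (y.2.1 i ∘L ·) (c1.1 i))

theorem dimLt_Zb (ok : GOk ch n) (h : DimLt N T) : DimLt (N + ch.fG F.mov) (Zb F T) :=
  Module.finrank_fin_fun ℂ (n := ch.fG F.mov) ▸ GB.dimLt_lift (f := μG) (fun _ a => a.2.1)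
    (fun z hz => let ⟨Ψ, Θ, a, b, c, _⟩ := Zb.exists_param ok hz
      ⟨Ψ, Θ, (an_μG z).continuousAt, a.continuousAt, b, c⟩) h

theorem GBs.smoAt (ok : GOk ch n) (hz : z₀ ∈ Zb F T)
    (hs : ∀ᶠ y in 𝓝 (μG z₀), y ∈ T → y ∈ μG '' Zb F T) :
    ∃ (Ψ : _ × (Fin (ch.fG F.mov) → ℂ) → _) (Θ : _ → Fin (ch.fG F.mov) → ℂ),
      SmoAt (Zb F T) T μG Ψ Θ z₀ :=
  let ⟨Ψ, Θ, a, b, c, d⟩ := Zb.exists_param ok hz
  ⟨Ψ, Θ, .of_an (an_μG _), .of_an a, b, c, (d.and (continuousAt_fst.tendsto.eventually hs)).mono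
    fun _ k e => k.1 (k.2 e)⟩

theorem mfd_Zb (ok : GOk ch n) (hz : z₀ ∈ Zb F T)
    (hs : ∀ᶠ y in 𝓝 (μG z₀), y ∈ T → y ∈ μG '' Zb F T) (h : MfdAt T N (μG z₀)) :
    MfdAt (Zb F T) (N + ch.fG F.mov) z₀ :=
  let ⟨_, _, a⟩ := smoAt ok hz hs
  Module.finrank_fin_fun ℂ (n := ch.fG F.mov) ▸ GB.mfd_lift a hz (fun _ a => a.2.1) h

theorem smo_Zb (ok : GOk ch n) (hs : ∀ z ∈ Zb F T, ∀ᶠ y in 𝓝 (μG z), y ∈ T → y ∈ μG '' Zb F T) :
    Smo (Zb F T) T μG (ch.fG F.mov) := ⟨fun _ a => a.2.1, fun z hz => smoAt ok hz (hs z hz)⟩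

theorem GBs.exists_slice (hT : Stb F.mov T) :
    ∃ (q : ch.WG n ν κ ε Λ →L[ℂ] Fin ((ch.re n).fm F.mov) → ℂ)
      (j : (Fin ((ch.re n).fm F.mov) → ℂ) →L[ℂ] ch.WG n ν κ ε Λ), (∀ b, q (j b) = b) ∧
      (∀ y ∈ Zb F T, ∀ b, y + j b ∈ Zb F T) ∧ Zf F T = {y | y ∈ Zb F T ∧ q y = 0} := by
  obtain ⟨q, i, q1, q2, q3⟩ := (ch.re n).exists_fa F.mov
  refine ⟨q ∘L prX ∘L prL ∘L .snd ℂ _ _, .inr ℂ _ _ ∘L inL ∘L inX ∘L i, q1, fun y hy c => ?_,
    Set.ext fun y => and_congr_right fun _ => ⟨fun h => (q_congr q1 q2 q3 h).trans (map_zero q),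
      fun h j k => (q3 _ j k).symm.trans (congrFun ((congrArg i h).trans (map_zero i)) j)⟩⟩
  have e : y + (0, inL (inX (i c))) = (y.1, y.2.setX (y.2.1.X + i c)) := Prod.ext (add_zero _) (Prod.ext
    (W.ext (fun _ => add_zero _) (fun _ => add_zero _) (add_zero _) fun _ => rfl) (add_zero _))
  have e' : ∀ j ∉ F.mov, (y.2.1.X + i c) j = y.2.1.X j := fun j k =>
    (congrArg _ (q2 c j k)).trans (add_zero _)
  exact (congrArg (· ∈ Zb F T) e).mpr ⟨hy.1.setX y.1.2.X _, hT _ hy.2.1 _ e',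
    fun j k => (hy.2.2 j k).congr rfl (e' j k) rfl⟩

theorem dimLt_Zf (hT : Stb F.mov T) (h : DimLt (N + (ch.re n).fm F.mov) (Zb F T)) :
    DimLt N (Zf F T) :=
  let ⟨q, j, a, b, c⟩ := exists_slice hT
  c ▸ GB.dimLt_slice ((Module.finrank_fin_fun ℂ).symm ▸ h) q j a b

theorem mfd_Zf (hT : Stb F.mov T) (hz : z₀ ∈ Zf F T) (h : MfdAt (Zb F T) N z₀) :
    ∃ N₁, N₁ + (ch.re n).fm F.mov = N ∧ MfdAt (Zf F T) N₁ z₀ := by
  obtain ⟨q, j, a, b, c⟩ := exists_slice hT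
  simpa only [c, Module.finrank_fin_fun] using GB.mfd_slice h q j a b (c ▸ hz :).2

end Ch

end Vale.Agent.P269
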