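import Vale.Agent.P269.Spl.GBp
import Vale.Agent.P269.Spl.GBu
import Vale.Agent.P269.Spl.GBs
import Vale.Agent.P269.Spl.GBr
import Vale.Agent.P269.Spl.GBx
import Vale.Agent.P269.Spl.GBh
import Vale.Agent.P269.Spl.GBn
import Vale.Agent.P269.Spl.GBg

/-!
# Gluing on the level of the smooth spaces: the labelled space over the glued points
-/

set_option linter.unusedSectionVars false

namespace Vale.Agent.P269

open Set Function Topology Filter Holo Base Cv Module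

variable {S Λ R J K ι ν κ ε : Type} [Fintype S] [Fintype Λ] [Fintype R] [Fintype J] [Fintype K]
  [Fintype ι] [DecidableEq ι] [Fintype ν] [Fintype κ] [Fintype ε]

namespace Ch

variable {ch : Ch ι J} {n : Nm ι J} {W : Wt S Λ R J} {F : Fam S Λ R J K} {ℓ : R → ι → ℤ}
  {T : Set ((ch.re n).WF ν (κ ⊕ ε) Λ)} {z : ch.WG n ν κ ε Λ} {N N' : ℕ}

theorem finrank_H (A : Set J) : finrank ℂ ((ch.re n).AF ν (κ ⊕ ε) S) + ch.fG A =
    finrank ℂ (ch.AF ν κ S) + finrank ℂ ((ch.re n).A ε) + ch.fm A := by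
  rw [finrank_AF, finrank_AF, finrank_A, fG, Fintype.card_sum]
  ring

theorem Gl.freH (ok : GOk ch n) (h : Gl z.1.2 z.2) : Fre (actH : (ch.re n).A ε → _) z :=
  fun _ ha e => h.freeH ok ha (congrArg Prod.snd e)

theorem isActH_Zf (hT : Ivt (actF F.toWt) T) : IsAct (actH : (ch.re n).A ε → _) (Zf F T) :=
  isActH_univ.mono (subset_univ _) (ivtH_Zf hT)

/-- the dimension of the set of glued points -/
theorem dimLt_fst (ok : GOk ch n) (hi : Ivt (actF F.toWt) T) (hs : Stb F.mov T)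
    (hN : N' + ch.fG F.mov ≤ finrank ℂ ((ch.re n).A ε) + N + (ch.re n).fm F.mov)
    (h : DimLt N' T) : DimLt N (Prod.fst '' Zf F T) := by
  have := isActH_Zf hi
  refine DimLt.image_inv (act := (actH : (ch.re n).A ε → _)) (S := Zf F T)
    (dimLt_Zf hs ((dimLt_Zb ok h).le hN)) Subset.rfl (ivtH_Zf hi) (fun x hx => ?_)
    (fun _ _ => contDiffAt_fst) fun _ _ _ _ => rfl
  refine @Finite.of_subsingleton _ ⟨fun a b => Subtype.ext ?_⟩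
  exact (Sp.free_iff.1 (hx.1.1.freH ok) _ a.2).trans (Sp.free_iff.1 (hx.1.1.freH ok) _ b.2).symm

theorem mem_bm {x : ch.WF ν κ Λ} : x ∈ ch.baseF ν κ univ ↔ x.2 ∈ ch.bm ν κ :=
  mem_baseF.trans (and_iff_right trivial)

variable (ch n ν κ ε) in
/-- The residues match on the glued curve if they match on the normalised curve. -/
def BmG : Prop := ∀ (x : ch.W (Mk ν κ)) (w : ch.Lb n (Mk ν (κ ⊕ ε))), Gl x w →
  w.1 ∈ (ch.re n).bm ν (κ ⊕ ε) → x ∈ ch.bm ν κ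

theorem Lat.bmG (hl : ch.Lat W ℓ) : BmG ν κ ε ch n := fun x _ a b =>
  mem_bm.1 (Gl.mem_baseF (x := ((0 : Λ → ℂ), x)) hl a (mem_bm.2 b))

theorem GN.bmG (hn : ch.GN n ε) : BmG ν κ ε ch n := fun x _ a b =>
  (mem_bm (x := ((0 : Empty → ℂ), x))).1 ((a.baseF_iff hn).2 (mem_bm.2 b))

theorem GN.gOk (hn : ch.GN n ε) : GOk ch n := ⟨hn.cuts, hn.tight.1, hn.tight'.1⟩

variable {σ : ε → ch.W (Mk ν κ) × (ℂ × ℂ) → V ch.M} {τ : ε → ch.W (Mk ν κ) → ℂ}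

variable (σ τ) in
/-- Charts at the labelled nodes. -/
structure NdC (z : ch.WG n ν κ ε Λ) : Prop where
  gl : Gl z.1.2 z.2
  bm : z.1.2 ∈ ch.bm ν κ
  chart : ∀ e, Chart ch.o (fun y : ch.bm ν κ => crv y.1) Subtype.val ⟨z.1.2, bm⟩ (σ e)
    fun y => {v | v.1 * v.2 = τ e y}
  an : ∀ e, AnalyticAt ℂ (τ e) z.1.2 ∧ τ e z.1.2 = 0
  brs : Brs z.2 (axs fun e v => σ e (z.1.2, v))

theorem NdC.ev (ok : GOk ch n) (hl : BmG ν κ ε ch n) (h : NdC σ τ z) : ∀ᶠ y in 𝓝 z, Gl y.1.2 y.2 →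
    μG y ∈ (ch.re n).baseF ν (κ ⊕ ε) univ → (y.1.2 ∈ ch.bm ν κ ∧ ∀ e, τ e y.1.2 = 0) ∧
      Brs y.2 (axs fun e v => σ e (y.1.2, v)) := by
  have c : ContinuousAt (fun y : ch.WG n ν κ ε Λ => (y.1.2, y.2)) z := by fun_prop
  filter_upwards [c.eventually (h.gl.ev_brs ok.cuts h.bm h.chart h.an h.brs)] with y a b d
  have e := hl _ _ b (mem_bm.1 d)
  exact ⟨⟨e, (a b e).1⟩, (a b e).2⟩

/-- near a point the fibres of the projection are orbits -/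
theorem NdC.fib (ok : GOk ch n) (hl : BmG ν κ ε ch n) (h : NdC σ τ z)
    (hT : ∀ y ∈ T, y ∈ (ch.re n).baseF ν (κ ⊕ ε) univ ∧ ∀ j ∉ F.mov, Sc y.2 j) :
    GB.Fib (actH : (ch.re n).A ε → _) (Zf F T) Prod.fst z := by
  intro O hO
  have c : ContinuousAt (fun p : ch.WG n ν κ ε Λ × ch.WG n ν κ ε Λ => (p.1.2, p.2.2)) (z, z) := by
    fun_prop
  filter_upwards [continuousAt_fst.eventually (h.ev ok hl),
    continuousAt_snd.eventually (h.ev ok hl), c.eventually (h.gl.rig ok hO)] with p a b d h1 h2 e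
  obtain ⟨⟨x, w⟩, x', w'⟩ := p
  obtain rfl : x = x' := e
  obtain ⟨s, hs, k1, k2⟩ := h1.1.1.exists_unit ok h2.1.1 (a h1.1.1 (hT _ h1.1.2.1).1).2
    (b h2.1.1 (hT _ h2.1.2.1).1).2
  have k : actHL s w = w' := by
    refine (congrArg (actHL s w).setX (funext fun j => ?_ : (actHL s w).1.X = w'.1.X)).trans k1
    by_cases hj : j ∈ F.mov
    · refine Eq.trans ?_ (h2.2 j hj).symm
      change _ ∘L w.1.X j ∘L _ = 0
      rw [show w.1.X j = 0 from h1.2 j hj, ContinuousLinearMap.zero_comp,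
        ContinuousLinearMap.comp_zero]
    · exact k2 j (h1.1.2.2 j hj) (h2.1.2.2 j hj) ((hT _ h1.1.2.1).2 j hj) ((hT _ h2.1.2.1).2 j hj)
  exact ⟨s, d h1.1.1.mem' s hs k, hs, congrArg (Prod.mk x) k⟩

/-- **the holomorphic section of the labelled space** over the locus where the nodes persist -/
theorem NdC.exists_sec (ok : GOk ch n) (h0 : Num₀ ch) (h0' : Num₀ (ch.re n))
    (hl : BmG ν κ ε ch n) (F : Fam S Λ R J K) (h : NdC σ τ z) (hX : ∀ j, z.2.1.X j = 0)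
    (hb : μG z ∈ (ch.re n).baseF ν (κ ⊕ ε) univ)
    (hi : ∀ e e', Base.Orb (σ e (z.1.2, 0)) (σ e' (z.1.2, 0)) → e = e')
    (hs : ∀ᶠ y in 𝓝 (μG z), y ∈ (ch.re n).baseF ν (κ ⊕ ε) univ →
      ∃ z' : ch.WG n ν κ ε Λ, μG z' = y ∧ Gl z'.1.2 z'.2) :
    ∃ s : ch.WF ν κ Λ → ch.Lb n (Mk ν (κ ⊕ ε)), AnalyticAt ℂ s z.1 ∧ s z.1 = z.2 ∧
      ∀ᶠ x in 𝓝 z.1, x.2 ∈ ch.bm ν κ → (∀ e, τ e x.2 = 0) →
        Gl x.2 (s x) ∧ μL x (s x) ∈ (ch.re n).baseF ν (κ ⊕ ε) univ := by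
  let F' : Fam S Λ R J K := { F with mov := univ }
  let T := (ch.re n).baseF ν (κ ⊕ ε) (univ : Set (Λ → ℂ))
  have hz : z ∈ Zf F' T := ⟨⟨h.gl, hb, fun j a => (a trivial).elim⟩, fun j _ => hX j⟩
  have := isActH_Zf (F := F') (T := T) fun a ha x hx => IsAct.mem (act := actF F'.toWt) a ha x hx
  obtain ⟨N₁, a1, a2⟩ := h0'.mfd_bm hb
  obtain ⟨N₂, b1, b2⟩ := mfd_Zf (fun _ a _ _ => a) hz (mfd_Zb ok hz.1 (hs.mono fun y a b =>
    let ⟨z', d, e⟩ := a b; ⟨z', ⟨e, d ▸ b, fun j a => (a trivial).elim⟩, d⟩) a2)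
  obtain ⟨N₃, d1, d2⟩ := h0.mfd_nodes h.bm h.chart h.an hi
  have e : N₂ = finrank ℂ ((ch.re n).A ε) + N₃ := by
    have f : ∀ c : Ch ι J, c.fm univ = ∑ j, finrank ℂ (Tens c.M (c.b j)) * c.h (some j) :=
      fun c => Finset.sum_congr (by simp) fun _ _ => rfl
    have g := h.gl.g_eq
    rw [dimB, finrank_A, ← f] at a1 d1
    rw [fG, show F'.mov = univ from rfl] at b1
    rw [finrank_A]
    simp only [Mk, Fintype.card_sum, Fintype.card_prod, Fintype.card_bool] at a1 d1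
    zify at b1 ⊢
    push_cast at a1 d1
    linear_combination b1 + a1 - d1 - (Fintype.card ι + 2) * g
  obtain ⟨s, s1, s2, s3⟩ := GB.exists_sec (act := (actH : (ch.re n).A ε → _)) (f := Prod.fst)
    (Z := Zf F' T) (e ▸ b2) d2 analyticAt_fst
    ((h.ev ok hl).mono fun y a b => (a b.1.1 b.1.2.1).1) (h.gl.freH ok)
    (h.fib ok hl fun y a => ⟨a, fun j a => (a trivial).elim⟩)
  refine ⟨fun x => (s x).2, analyticAt_snd.comp s1, congrArg Prod.snd s2,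
    s3.mono fun x a b d => ?_⟩
  obtain ⟨f, g⟩ := a ⟨b, d⟩
  exact ⟨(congrArg (fun y => Gl y.2 (s x).2) g).mp f.1.1,
    (congrArg (fun y => μL y (s x).2 ∈ _) g).mp f.1.2.1⟩

/-- The family without conditions. -/
noncomputable def famU (J : Type) : Fam Empty Empty Empty J Empty :=
  ⟨⟨0, 0, 0⟩, 0, 0, 0, 0, univ, univ, univ, univ, ∅⟩

theorem Lb.an_setX (q : ch.Lb n (Mk ν κ) × (ch.re n).Fld) :
    AnalyticAt ℂ (fun q : ch.Lb n (Mk ν κ) × (ch.re n).Fld => q.1.setX q.2) q :=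
  have a : AnalyticAt ℂ (fun q : ch.Lb n (Mk ν κ) × (ch.re n).Fld => q.1.1) q :=
    analyticAt_fst.comp analyticAt_fst
  ((W.an_iff (x := fun q : ch.Lb n (Mk ν κ) × (ch.re n).Fld => Ch.setX q.1.1 q.2)).2
    ⟨(W.an_Q a :), (W.an_p a :), (W.an_Ξ a :), analyticAt_pi_iff.1 analyticAt_snd⟩).prod
    (analyticAt_snd.comp analyticAt_fst)

/-- **the holomorphic section through a label** -/
theorem Gl.exists_secB (hn : ch.GN n ε) {x : ch.W (Mk ν κ)} {w : ch.Lb n (Mk ν (κ ⊕ ε))}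
    (h : Gl x w) (hx : x ∈ ch.bm ν κ)
    (hs : ∀ᶠ y in 𝓝 w.1, y ∈ (ch.re n).bm ν (κ ⊕ ε) →
      ∃ (x' : ch.W (Mk ν κ)) (w' : ch.Lb n (Mk ν (κ ⊕ ε))), Gl x' w' ∧ w'.1 = y)
    (hσ : ∀ e, Chart ch.o (fun y : ch.bm ν κ => crv y.1) Subtype.val ⟨x, hx⟩ (σ e)
      fun y => {v | v.1 * v.2 = τ e y})
    (hτ : ∀ e, AnalyticAt ℂ (τ e) x ∧ τ e x = 0) (b : Brs w (axs fun e v => σ e (x, v)))
    (hi : ∀ e e', Base.Orb (σ e (x, 0)) (σ e' (x, 0)) → e = e') :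
    ∃ s : ch.W (Mk ν κ) → ch.Lb n (Mk ν (κ ⊕ ε)), AnalyticAt ℂ s x ∧ s x = w ∧
      ∀ᶠ y in 𝓝 x, y ∈ ch.bm ν κ → (∀ e, τ e y = 0) → Gl y (s y) ∧
        (s y).1 ∈ (ch.re n).bm ν (κ ⊕ ε) ∧ Brs (s y) (axs fun e v => σ e (y, v)) := by
  have h' : NdC σ τ ((((0 : Empty → ℂ), x), w.setX 0) : ch.WG n ν κ ε Empty) :=
    ⟨h.setX x.X 0, hx, hσ, hτ, b⟩
  have a := (Ch.Lb.an_setX (n := n) (w.setX 0, w.1.X))
  have c₀ : AnalyticAt ℂ (fun y : (ch.re n).WF ν (κ ⊕ ε) Empty => y.2) (0, (w.setX 0).1) :=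
    analyticAt_snd
  have c : ContinuousAt (fun y : (ch.re n).WF ν (κ ⊕ ε) Empty => Ch.setX y.2 w.1.X)
      (0, (w.setX 0).1) :=
    ((W.an_iff (x := fun y : (ch.re n).WF ν (κ ⊕ ε) Empty => Ch.setX y.2 w.1.X)).2
      ⟨(W.an_Q c₀ :), (W.an_p c₀ :), (W.an_Ξ c₀ :), fun _ => analyticAt_const⟩).continuousAt
  obtain ⟨s, s1, s2, s3⟩ := h'.exists_sec hn.gOk hn.num hn.num' hn.bmG (famU J) (fun _ => rfl)
    ((h'.gl.baseF_iff hn).1 (mem_bm.2 hx)) hi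
    ((c.eventually hs).mono fun y a b =>
      let ⟨x', w', d, e⟩ := a (mem_bm.1 b :)
      ⟨((y.1, x'), w'.setX y.2.X), Prod.ext rfl (congrArg (Ch.setX · y.2.X) e :),
        d.setX x'.X _⟩)
  have i : AnalyticAt ℂ (fun y : ch.W (Mk ν κ) => ((0, y) : ch.WF ν κ Empty)) x := by fun_prop
  have t := s1.comp_of_eq i rfl
  have ev := ((i.prod t).continuousAt.tendsto.mono_right
    (congrArg (fun v => 𝓝 (_, v)) s2).le).eventually (h'.ev hn.gOk hn.bmG)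
  refine ⟨fun y => (s (0, y)).setX w.1.X,
    a.comp_of_eq (t.prod analyticAt_const) (Prod.ext s2 rfl),
    (congrArg (Lb.setX · w.1.X) s2 :), ?_⟩
  filter_upwards [i.continuousAt.eventually s3, ev] with y a b d e
  exact ⟨(a d e).1.setX y.X _, (mem_bm.1 (a d e).2 :), (b (a d e).1 (a d e).2).2⟩

open Classical in
/-- The label with the lifted base fields and without movable fields. -/
noncomputable def lfB (A : Set J) (x : ch.W (Mk ν κ)) (w : ch.Lb n (Mk ν (κ ⊕ ε))) :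
    ch.Lb n (Mk ν (κ ⊕ ε)) := w.setX fun j => if j ∈ A then 0 else lf1 x w j

theorem Gl.lfB (hc : ch.Cuts) {x : ch.W (Mk ν κ)} {w : ch.Lb n (Mk ν (κ ⊕ ε))} (h : Gl x w)
    {A : Set J} (hs : ∀ j ∉ A, Sc x j) : Gl x (lfB A x w) ∧ (∀ j ∈ A, (lfB A x w).1.X j = 0) ∧
      ∀ j ∉ A, Mt x (lfB A x w) j ∧ Sc (lfB A x w).1 j :=
  have a : Gl x (Ch.lfB A x w) := h.setX x.X _
  ⟨a, fun _ b => if_pos b, fun j b => a.mt_sc hc (hs j b) (if_neg b)⟩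

theorem holOn_lfB (hc : ch.Cuts) {L : Set (ch.WF ν κ Λ)} {x : ch.WF ν κ Λ} (hx : x ∈ L)
    {s : ch.WF ν κ Λ → ch.Lb n (Mk ν (κ ⊕ ε))} (hs : AnalyticAt ℂ s x) {A : Set J}
    (h : ∀ᶠ y in 𝓝 x, y ∈ L → Gl y.2 (s y) ∧ ∀ j ∉ A, Sc y.2 j) :
    HolOn L (fun y => ((y, lfB A y.2 (s y)) : ch.WG n ν κ ε Λ)) x := by
  classical
  have a : HolOn L (fun y j => if j ∈ A then 0 else lf1 y.2 (s y) j : _ → (ch.re n).Fld) x := by
    refine .pi fun j => ?_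
    split_ifs with b
    · exact .of_an analyticAt_const
    · have d := h.self_of_nhds hx
      exact (d.1.holOn_lf1 hc (d.2 j b)).comp (F := fun y : ch.WF ν κ Λ => (y.2, s y))
        (.of_an (analyticAt_snd.prod hs)) hx (h.mono fun y e f => ⟨(e f).1, (e f).2 j b⟩)
  exact (HolOn.of_an analyticAt_id).prod
    (((HolOn.of_an hs).prod a).comp_an hx (Lb.an_setX _) :)

variable {P : AM Λ R J ν (κ ⊕ ε) → Prop}

variable (ch n ℓ) in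
/-- Near `y` the represented maps can be glued. -/
def Glu (y : (ch.re n).WF ν (κ ⊕ ε) Λ) : Prop :=
  ∀ᶠ y' in 𝓝 y, ∀ (A : Set J) (m : AM Λ R J ν (κ ⊕ ε)) (B π u s), RepD ℓ A y' m B π u s →
    (∀ j ∈ A, m.Mt (m.y j)) → ∀ s' : ν ⊕ κ → ι → ℂ, (∀ a i, s' a i ≠ 0) →
      ∃ (x : ch.WF ν κ Λ) (B' π' u' : _), RepD ℓ A x m.glue B' π' u' s'

theorem Glu.base {y : (ch.re n).WF ν (κ ⊕ ε) Λ} (h : Glu ch n ℓ y) (hl : ch.Lat W ℓ)
    (ht : ch.Tight) : ∀ᶠ y' in 𝓝 y, y' ∈ (ch.re n).baseF ν (κ ⊕ ε) univ →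
      ∃ z : ch.WG n ν κ ε Λ, μG z = y' ∧ Gl z.1.2 z.2 := by
  refine Eventually.mono h fun y' a b => ?_
  obtain ⟨m, r⟩ := hl.re.exists_rep (A := ∅) b fun _ => False.elim
  obtain ⟨B, π, u, s, r⟩ := r.exists_data b.2.1
  obtain ⟨x, B', π', u', r'⟩ := a _ m B π u s r (fun _ => False.elim) _ fun a => r.ne (a.map id .inl)
  obtain ⟨w, d, e, -⟩ := r'.exists_gl hl ht r fun _ => rfl
  exact ⟨(x, w), d, e⟩

theorem Glu.adm {y : (ch.re n).WF ν (κ ⊕ ε) Λ} (h : Glu ch n ℓ y) (hF : F.Inv)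
    (hl : ch.Lat F.toWt ℓ) (ht : ch.Tight) (hT : T ⊆ (ch.re n).adm ν (κ ⊕ ε) F) :
    ∀ᶠ y' in 𝓝 y, y' ∈ T → y' ∈ μG '' Zb F T := by
  refine Eventually.mono h fun y' a b => ?_
  obtain ⟨m, r⟩ := hl.re.exists_rep_adm (hT b)
  obtain ⟨B, π, u, s, r⟩ := r.exists_data (hT b).1.2.1
  obtain ⟨x, B', π', u', r'⟩ := a _ m B π u s r
    ((r.mem_adm hF hl.wd Subset.rfl).1 (hT b)).2.2.2 _ fun a => r.ne (a.map id .inl)
  obtain ⟨w, d, e, f, -⟩ := r'.exists_gl hl ht r fun _ => rfl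
  exact ⟨(x, w), ⟨e, (congrArg (· ∈ T) d).mpr b, f⟩, d⟩

/-- the glued locus is a manifold -/
theorem NdC.mfd (ok : GOk ch n) (h0 : Num₀ ch) (h0' : Num₀ (ch.re n)) (hF : F.Inv)
    (hl : ch.Lat F.toWt ℓ) (hP : AM.IvtA F.toWt F.movᶜ P) (h : NdC σ τ z)
    (hz : z ∈ Zf F ((ch.re n).locP F ℓ P))
    (hi : ∀ e e', Base.Orb (σ e (z.1.2, 0)) (σ e' (z.1.2, 0)) → e = e')
    (g : Glu ch n ℓ (μG z)) (g' : Glu ch n ℓ (μL z.1 (z.2.setX 0)))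
    (loc : ∀ᶠ x in 𝓝 z.1, x ∈ ch.locP F ℓ (AM.Ct P) →
      ∀ (m : AM Λ R J ν κ) (B π u s) (v : ε × Bool → m.X) (h : m.Nds v),
        RepD ℓ F.movᶜ x m B π u s → Axes B π v (fun e z => σ e (x.2, z)) → P (m.cut h))
    (loc' : ∀ᶠ x in 𝓝 z.1, x ∈ ch.locP F ℓ (AM.Ct P) → ∀ e, τ e x.2 = 0)
    (hM : MfdAt ((ch.re n).locP F ℓ P) N' (μG z))
    (hN : N' + ch.fG F.mov = finrank ℂ ((ch.re n).A ε) + N + (ch.re n).fm F.mov) :
    MfdAt (ch.locP F ℓ (AM.Ct P)) N z.1 := by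
  have hi' : Ivt (actF F.toWt) ((ch.re n).locP F ℓ P) := fun a ha x hx => actF_mem_locP hF hP hx ha
  have := isActH_Zf hi'
  have hT : ∀ y ∈ (ch.re n).locP F ℓ P, y ∈ (ch.re n).baseF ν (κ ⊕ ε) univ ∧ ∀ j ∉ F.mov,
      Sc y.2 j := fun y a => ⟨⟨trivial, a.1.1.2⟩, a.1.2.1⟩
  obtain ⟨N₁, a1, a2⟩ := mfd_Zf (stb_locP hF) hz
    (mfd_Zb ok hz.1 (g.adm hF hl ok.tight fun _ a => a.1) hM)
  obtain rfl : N₁ = finrank ℂ ((ch.re n).A ε) + N := by omega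
  have h' : NdC σ τ ((z.1, z.2.setX 0) : ch.WG n ν κ ε Λ) :=
    ⟨h.gl.setX z.1.2.X 0, h.bm, h.chart, h.an, h.brs⟩
  obtain ⟨s, s1, s2, s3⟩ := h'.exists_sec ok h0 h0' hl.bmG F (fun _ => rfl) (hT _ hz.1.2.1).1 hi
    (g'.base hl ok.tight)
  have x0 := Zb.mem_locP hF hl hP hz.1
  have ev := (tendsto_id.prodMk_nhds (s1.continuousAt.tendsto.trans
    (congrArg _ s2).le)).eventually (h'.ev ok hl.bmG)
  have k : ∀ᶠ x in 𝓝 z.1, x ∈ ch.locP F ℓ (AM.Ct P) → Gl x.2 (s x) ∧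
      μL x (s x) ∈ (ch.re n).baseF ν (κ ⊕ ε) univ := by
    filter_upwards [s3, loc'] with x a b d using a (mem_bm.1 ⟨trivial, d.1.1.2⟩) (b d)
  refine GB.mfd_push (act := (actH : (ch.re n).A ε → _)) (f := Prod.fst) a2 analyticAt_fst
    (.of_forall fun y a => Zb.mem_locP hF hl hP a.1) (fun _ _ _ _ => rfl) (h.gl.freH ok)
    (h.fib ok hl.bmG hT) (holOn_lfB ok.cuts x0 s1 (A := F.mov)
      (k.mono fun x a b => ⟨(a b).1, b.1.2.1⟩)) (Prod.ext rfl ?_) ?_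
  · change lfB F.mov z.1.2 (s z.1) = z.2
    rw [show s z.1 = _ from s2]
    refine congrArg z.2.setX (funext fun j => ?_ : _ = z.2.1.X)
    split_ifs with a
    exacts [(hz.2 j a).symm,
      (h.gl.eq_lf1 ok.cuts (hz.1.2.2 j a) ((hT _ hz.1.2.1).2 j a)).2.symm]
  · filter_upwards [k, ev, loc] with x a b d e
    obtain ⟨f1, f2, f3⟩ := (a e).1.lfB ok.cuts (A := F.mov) e.1.2.1
    exact ⟨⟨⟨f1, f1.mem_locP hF hl hP f3 e.1 (a e).2 (b (a e).1 (a e).2).2 (d e),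
      fun j a => (f3 j a).1⟩, f2⟩, rfl⟩

end Ch

end Vale.Agent.P269
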