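import Vale.Agent.P269.Mono.Small

/-!
# Cancellation of vector space factors in the Hausdorff dimension
-/

namespace Vale.Agent.P269.Mono

open Set Topology Filter MeasureTheory Metric Module
open scoped ENNReal NNReal

/-- Eilenberg's inequality for null sets, with a real exponent -/
theorem ae_slice_real {X : Type} [MetricSpace X] [MeasurableSpace X] [BorelSpace X] {A : Set X}
    {m : ℝ} (hm : 0 ≤ m) (h : μH[m + 1] A = 0) {f : X → ℝ} (hf : LipschitzWith 1 f) :
    ∀ᵐ r, μH[m] (A ∩ f ⁻¹' {r}) = 0 := by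
  have hp : ∀ N : ℕ, (0 : ℝ≥0∞) < 2⁻¹ ^ N := fun N => ENNReal.pow_pos (by simp) N
  have ex : ∀ N : ℕ, ∃ t : ℕ → Set X, A ⊆ ⋃ n, t n ∧ (∀ n, ediam (t n) ≤ 2⁻¹ ^ N) ∧
      ∑' n, ⨆ _ : (t n).Nonempty, ediam (t n) ^ (m + 1) < 2⁻¹ ^ N := fun N => by
    rw [Measure.hausdorffMeasure_apply] at h
    simp only [ENNReal.iSup_eq_zero] at h
    have h1 := (h _ (hp N)).trans_lt (hp N)
    simpa only [iInf_lt_iff, exists_prop] using h1
  choose t h1 h2 h3 using ex
  let g : ℕ → ℕ → ℝ → ℝ≥0∞ := fun N n =>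
    (closure (f '' t N n)).indicator fun _ => ediam (t N n) ^ m
  have hg : ∀ N n, Measurable (g N n) := fun N n =>
    measurable_const.indicator isClosed_closure.measurableSet
  have h4 : ∀ N n, ∫⁻ r, g N n r ≤ ⨆ _ : (t N n).Nonempty, ediam (t N n) ^ (m + 1) := by
    intro N n
    rw [lintegral_indicator_const isClosed_closure.measurableSet]
    rcases (t N n).eq_empty_or_nonempty with e | e
    · simp [e]
    · rw [iSup_pos e, ENNReal.rpow_add_of_nonneg _ _ hm zero_le_one, ENNReal.rpow_one]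
      refine mul_le_mul_right ((Real.volume_le_diam _).trans ?_) _
      rw [ediam_closure]
      simpa using hf.ediam_image_le (t N n)
  have h5 : ∫⁻ r, ∑' N, ∑' n, g N n r ≠ ∞ := by
    rw [lintegral_tsum fun N => (Measurable.tsum (hg N)).aemeasurable]
    refine ne_top_of_le_ne_top (b := ∑' N : ℕ, 2⁻¹ ^ N) (by simp) (ENNReal.tsum_le_tsum fun N => ?_)
    rw [lintegral_tsum fun n => (hg N n).aemeasurable]
    exact (ENNReal.tsum_le_tsum (h4 N)).trans (h3 N).le
  filter_upwards [ae_lt_top (Measurable.tsum fun N => Measurable.tsum (hg N)) h5]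
    with r hr
  have h6 := ENNReal.tendsto_atTop_zero_of_tsum_ne_top hr.ne
  refine le_antisymm ((Measure.hausdorffMeasure_le_liminf_tsum (ι := fun N => {n // r ∈ f '' t N n})
    m _ (l := atTop) (fun N => 2⁻¹ ^ N)
    (ENNReal.tendsto_pow_atTop_nhds_zero_of_lt_one (by simp)) (fun N n => t N n)
    (Eventually.of_forall fun N n => h2 N n) (Eventually.of_forall fun N x hx => ?_)).trans ?_)
    zero_le
  · obtain ⟨n, hn⟩ := mem_iUnion.1 (h1 N hx.1)
    exact mem_iUnion.2 ⟨⟨n, x, hn, hx.2⟩, hn⟩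
  · rw [← h6.liminf_eq]
    refine liminf_le_liminf (Eventually.of_forall fun N => ?_)
    refine le_trans (ENNReal.tsum_le_tsum fun n => ?_)
      (ENNReal.tsum_comp_le_tsum_of_injective Subtype.val_injective fun n => g N n r)
    exact (indicator_of_mem (subset_closure n.2) fun _ => ediam (t N n) ^ m).ge

theorem dimH_le_of_prod_real {X : Type} [MetricSpace X] [SecondCountableTopology X] {A : Set X}
    {k : ℕ} (h : dimH (A ×ˢ (univ : Set ℝ)) ≤ ((k + 1 : ℕ) : ℝ≥0∞)) : dimH A ≤ k := by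
  borelize X
  refine dimH_le fun d hd => le_of_not_gt fun hk => ?_
  have h1 : dimH (A ×ˢ (univ : Set ℝ)) < ((d + 1 : ℝ≥0) : ℝ≥0∞) := by
    refine h.trans_lt ?_
    push_cast
    exact ENNReal.add_lt_add_right ENNReal.one_ne_top hk
  have h2 := hausdorffMeasure_of_dimH_lt h1
  rw [NNReal.coe_add, NNReal.coe_one] at h2
  obtain ⟨r, hr⟩ := (ae_slice_real d.coe_nonneg h2 (f := Prod.snd) LipschitzWith.prod_snd).exists
  have h3 : Isometry fun x : X => (x, r) := Isometry.of_dist_eq fun x y => by simp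
  have h4 : (A ×ˢ (univ : Set ℝ)) ∩ Prod.snd ⁻¹' {r} = (fun x : X => (x, r)) '' A := by
    ext ⟨x, s⟩
    simp only [mem_inter_iff, mem_prod, mem_univ, and_true, mem_preimage, mem_singleton_iff,
      mem_image, Prod.mk.injEq]
    exact ⟨fun e => ⟨x, e.1, rfl, e.2.symm⟩, fun ⟨y, e1, e2, e3⟩ => ⟨e2 ▸ e1, e3.symm⟩⟩
  rw [h4, h3.hausdorffMeasure_image (Or.inl d.coe_nonneg), hd] at hr
  exact ENNReal.top_ne_zero hr

variable {M N : Type} [NormedAddCommGroup M] [NormedSpace ℝ M] [NormedAddCommGroup N]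
  [NormedSpace ℝ N] [FiniteDimensional ℝ M]

theorem Small.of_prod_real {k : ℕ} {S : Set M} (h : Small (k + 1) (S ×ˢ (univ : Set ℝ))) :
    Small k S := fun F _ _ _ => by
  apply dimH_le_of_prod_real
  let e : ((M × F) × ℝ) ≃L[ℝ] ((M × ℝ) × F) :=
    (ContinuousLinearEquiv.prodAssoc ℝ M F ℝ).trans
      (((ContinuousLinearEquiv.refl ℝ M).prodCongr (ContinuousLinearEquiv.prodComm ℝ F ℝ)).trans
        (ContinuousLinearEquiv.prodAssoc ℝ M ℝ F).symm)
  have h1 : (S ×ˢ (univ : Set F)) ×ˢ (univ : Set ℝ) =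
      e ⁻¹' ((S ×ˢ (univ : Set ℝ)) ×ˢ (univ : Set F)) := by
    ext x
    simp [e]
  rw [h1, ContinuousLinearEquiv.dimH_preimage]
  refine (h F).trans (le_of_eq ?_)
  rw [add_right_comm]

theorem Small.of_prod_univ (m : ℕ) : ∀ {N : Type} [NormedAddCommGroup N] [NormedSpace ℝ N]
    [FiniteDimensional ℝ N], finrank ℝ N = m → ∀ {k : ℕ} {S : Set M},
      Small (k + m) (S ×ˢ (univ : Set N)) → Small k S := by
  induction m with
  | zero =>
    intro N _ _ _ _ k S h
    have := h.image (f := Prod.fst) fun _ _ => contDiffAt_fst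
    rwa [fst_image_prod _ univ_nonempty] at this
  | succ m ih =>
    intro N _ _ _ hN k S h
    let e : N ≃L[ℝ] ((Fin m → ℝ) × ℝ) :=
      ContinuousLinearEquiv.ofFinrankEq (by rw [finrank_prod, finrank_fin_fun, finrank_self, hN])
    have h1 := h.image (f := fun p => ((p.1, (e p.2).1), (e p.2).2)) fun _ _ => by fun_prop
    refine ih (N := Fin m → ℝ) (finrank_fin_fun ℝ) (Small.of_prod_real (h1.mono ?_))
    rintro ⟨⟨x, u⟩, r⟩ hx
    exact ⟨(x, e.symm (u, r)), ⟨hx.1.1, trivial⟩, by simp⟩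

variable [FiniteDimensional ℝ N]

theorem Small.prod_univ_of_open {k : ℕ} {S : Set M} {U : Set N} (hU : IsOpen U) (hne : U.Nonempty)
    (h : Small k (S ×ˢ U)) : Small k (S ×ˢ (univ : Set N)) := by
  obtain ⟨u, hu⟩ := hne
  refine (Small.iUnion fun n : ℕ => h.image (f := fun p => (p.1, ((n : ℝ) + 1) • (p.2 - u)))
    fun _ _ => by fun_prop).mono ?_
  rintro ⟨x, y⟩ hx
  have h1 : Tendsto (fun n : ℕ => u + (1 / ((n : ℝ) + 1)) • y) atTop (𝓝 u) := by
    simpa using ((tendsto_one_div_add_atTop_nhds_zero_nat (𝕜 := ℝ)).smul_const y).const_add u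
  obtain ⟨n, hn⟩ := (h1.eventually (hU.mem_nhds hu)).exists
  refine mem_iUnion.2 ⟨n, (x, u + (1 / ((n : ℝ) + 1)) • y), ⟨hx.1, hn⟩, ?_⟩
  have : (n : ℝ) + 1 ≠ 0 := by positivity
  simp [smul_smul, mul_inv_cancel₀ this]

/-- cancellation of an open factor -/
theorem Small.of_prod {k : ℕ} {S : Set M} {U : Set N} (hU : IsOpen U) (hne : U.Nonempty)
    (h : Small (k + finrank ℝ N) (S ×ˢ U)) : Small k S :=
  Small.of_prod_univ _ rfl (h.prod_univ_of_open hU hne)

end Vale.Agent.P269.Mono
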