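import Vale.Agent.P269.Holo.Act

/-!
# Affine slices at points with finite stabiliser
-/

namespace Vale.Agent.P269.Holo

open Set Function Topology Filter Module

/-- the restriction of a local homeomorphism to a pair of subspaces -/
theorem LH.of_restrict {P P' T T' : Type*} [TopologicalSpace P] [TopologicalSpace P']
    [TopologicalSpace T] [TopologicalSpace T'] {e : P → P'} {i : T → T'} {f : P → T} {g : T' → P'}
    {p : P} (he : IsEmbedding e) (hi : Continuous i) (hf : Continuous f)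
    (hg : ∀ᶠ y in 𝓝 (i (f p)), ContinuousAt g y) (hl : ∀ᶠ q in 𝓝 p, g (i (f q)) = e q)
    (hr : ∀ᶠ y in 𝓝 (f p), ∃ q, e q = g (i y) ∧ f q = y) : LH f p := by
  classical
  let G : T → P := fun y => if h : ∃ q, e q = g (i y) then h.choose else p
  have h1 : ∀ y q, e q = g (i y) → G y = q := fun y q h => by
    have h' : ∃ q, e q = g (i y) := ⟨q, h⟩
    exact (dif_pos h').trans (he.injective (h'.choose_spec.trans h.symm))
  refine LH.of_inv G (Eventually.of_forall fun _ => hf.continuousAt) ?_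
    (hl.mono fun q hq => h1 _ _ hq.symm) (hr.mono fun y ⟨q, h2, h3⟩ => by rw [h1 y q h2, h3])
  filter_upwards [hi.continuousAt.eventually hg, hr.eventually_nhds] with y h2 h3
  rw [he.isInducing.continuousAt_iff]
  refine (h2.comp hi.continuousAt).congr (h3.mono fun z ⟨q, h4, _⟩ => ?_)
  change g (i z) = e (G z)
  rw [h1 z q h4, h4]

variable {A W : Type} [NormedRing A] [NormedAlgebra ℂ A] [NormedAddCommGroup W] [NormedSpace ℂ W]
  [FiniteDimensional ℂ A] [FiniteDimensional ℂ W] {act : A → W → W} {S : Set W} [IsAct act S]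

/-- An affine subspace complementary to the orbit is a slice of any invariant set. -/
theorem Sp.exists_aff (x : Sp act S) (hs : Finite (MulAction.stabilizer Aˣ x)) :
    ∃ (m : ℕ) (j : (Fin m → ℂ) →L[ℂ] W) (g : W → A × (Fin m → ℂ)), Injective j ∧
      AnalyticAt ℂ g x.val ∧ g x.val = (1, 0) ∧
      (∀ᶠ p in 𝓝 ((1 : A), (0 : Fin m → ℂ)),
        x.val + j p.2 ∈ S → g (act p.1 (x.val + j p.2)) = p) ∧
      ∀ᶠ y in 𝓝 x.val, y ∈ S →
        IsUnit (g y).1 ∧ x.val + j (g y).2 ∈ S ∧ act (g y).1 (x.val + j (g y).2) = y := by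
  have := FiniteDimensional.complete ℂ A
  have := FiniteDimensional.complete ℂ W
  have hl := Sp.inf_injective_of_finite hs
  rw [Sp.inf_eq] at hl
  set l := fderiv ℂ (fun a => act a x.val) 1 with hl'
  obtain ⟨m, hm⟩ := Nat.exists_eq_add_of_le
    (LinearMap.finrank_le_finrank_of_injective (f := (l : A →ₗ[ℂ] W)) hl)
  obtain ⟨j, hj⟩ := exists_compl_range l hl hm.symm
  have han := IsAct.an (act := act) 1 isUnit_one _ x.val_mem
  have h1 := IsAct.one (act := act) _ x.val_mem
  let e : (A × (Fin m → ℂ)) ≃L[ℂ] W :=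
    (LinearEquiv.ofBijective (l.coprod j : A × (Fin m → ℂ) →ₗ[ℂ] W) hj).toContinuousLinearEquiv
  have he : ∀ p, e p = l p.1 + j p.2 := fun _ => rfl
  have ha : AnalyticAt ℂ (fun p : A × (Fin m → ℂ) => x.val + j p.2) (1, 0) :=
    analyticAt_const.add ((j.analyticAt _).comp analyticAt_snd)
  let Ψ : A × (Fin m → ℂ) → W := fun p =>
    act p.1 (x.val + j p.2) - act 1 (x.val + j p.2) + (x.val + j p.2)
  have hΨ : AnalyticAt ℂ Ψ (1, 0) :=
    ((han.comp_of_eq (analyticAt_fst.prod ha) (by simp)).sub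
      (han.comp_of_eq (analyticAt_const.prod ha) (by simp))).add ha
  have hΨ0 : Ψ (1, 0) = x.val := by simp [Ψ]
  have hΨS : ∀ p : A × (Fin m → ℂ), x.val + j p.2 ∈ S → Ψ p = act p.1 (x.val + j p.2) :=
    fun p hp => by simp only [Ψ, IsAct.one (act := act) _ hp, sub_add_cancel]
  have hd : fderiv ℂ Ψ (1, 0) = l.coprod j := by
    refine ContinuousLinearMap.ext fun p => ?_
    have e1 : (fun a => Ψ (a, 0)) = fun a => act a x.val := funext fun a => by simp [Ψ, h1]
    have e2 : (fun v => Ψ (1, v)) = fun v => x.val + j v := funext fun v => by simp [Ψ]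
    rw [show p = (p.1, p.2) from rfl, fderiv_prod_apply hΨ, e1, e2, fderiv_const_add, j.fderiv]
    rfl
  obtain ⟨-, g, hg, hg0, hgl, -⟩ := ift hΨ (hd ▸ hj)
  rw [hΨ0] at hg hg0
  have hgl' : ∀ᶠ p in 𝓝 ((1 : A), (0 : Fin m → ℂ)),
      x.val + j p.2 ∈ S → g (act p.1 (x.val + j p.2)) = p :=
    hgl.mono fun p hp hS => by rw [← hΨS p hS, hp]
  refine ⟨m, j, g, fun u v h => congrArg Prod.snd (hj.1 (a₁ := (0, u)) (a₂ := (0, v))
    (by simp [h])), hg, hg0, hgl', ?_⟩
  have hb : AnalyticAt ℂ (fun p : A × W => e.symm (act p.1 p.2 - x.val)) (1, x.val) :=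
    (e.symm.analyticAt _).comp (han.sub analyticAt_const)
  let Θ : A × W → A × W := fun p => ((e.symm (act p.1 p.2 - x.val)).1, p.2)
  have hΘ : AnalyticAt ℂ Θ (1, x.val) := (analyticAt_fst.comp hb).prod analyticAt_snd
  have hΘ0 : Θ (1, x.val) = (0, x.val) := by simp [Θ, h1]
  have hΘd : Injective (fderiv ℂ Θ (1, x.val)) := by
    rw [injective_iff_map_eq_zero]
    rintro ⟨a, w⟩ h
    have h2 : HasFDerivAt (fun p : A × W => act p.1 p.2)
        (fderiv ℂ (fun p : A × W => act p.1 p.2) (1, x.val)) (1, x.val) :=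
      han.differentiableAt.hasFDerivAt
    have h3 : HasFDerivAt Θ _ (1, x.val) :=
      (e.symm.hasFDerivAt.comp _ (h2.sub_const x.val)).fst.prodMk hasFDerivAt_snd
    rw [h3.fderiv] at h
    obtain rfl : w = 0 := congrArg Prod.snd h
    have h4 : (e.symm (fderiv ℂ (fun p : A × W => act p.1 p.2) (1, x.val) (a, 0))).1 = 0 :=
      congrArg Prod.fst h
    rw [fderiv_prod_apply han, map_zero, add_zero, ← hl',
      show l a = e (a, 0) by rw [he, map_zero, add_zero], e.symm_apply_apply] at h4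
    exact Prod.ext h4 rfl
  obtain ⟨-, θ, hθ, hθ0, -, hθr⟩ := ift hΘ (bijective_of_injective _ hΘd rfl)
  rw [hΘ0] at hθ hθ0 hθr
  have t1 : Tendsto (fun y => θ (0, y)) (𝓝 x.val) (𝓝 (1, x.val)) :=
    hθ0 ▸ hθ.continuousAt.tendsto.comp (tendsto_inr 0 x.val)
  have t2 : Tendsto (fun y => (θ (0, y)).1) (𝓝 x.val) (𝓝 1) := continuousAt_fst.tendsto.comp t1
  have t3 : Tendsto (fun y => Ring.inverse (θ (0, y)).1) (𝓝 x.val) (𝓝 1) := by
    have := (NormedRing.inverse_continuousAt (1 : Aˣ)).tendsto.comp t2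
    simpa [Function.comp_def] using this
  have t4 : Tendsto (fun y => (e.symm (act (θ (0, y)).1 y - x.val)).2) (𝓝 x.val) (𝓝 0) := by
    have := continuousAt_snd.tendsto.comp (hb.continuousAt.tendsto.comp (t2.prodMk_nhds tendsto_id))
    simpa [Function.comp_def, h1] using this
  filter_upwards [(tendsto_inr 0 x.val).eventually hθr, t2.eventually (Units.nhds (1 : Aˣ)),
    (t3.prodMk_nhds t4).eventually hgl'] with y e1 e2 e3 hy
  have e4 : (θ (0, y)).2 = y := congrArg Prod.snd e1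
  have e5 : (e.symm (act (θ (0, y)).1 y - x.val)).1 = 0 := by
    have := congrArg Prod.fst e1
    simp only [Θ, e4] at this
    exact this
  have e6 : x.val + j (e.symm (act (θ (0, y)).1 y - x.val)).2 = act (θ (0, y)).1 y := by
    have := e.apply_symm_apply (act (θ (0, y)).1 y - x.val)
    rw [he, e5, map_zero, zero_add] at this
    rw [this, add_sub_cancel]
  have e7 : IsUnit (Ring.inverse (θ (0, y)).1) := isUnit_ringInverse.2 e2
  have e8 : act (Ring.inverse (θ (0, y)).1) (act (θ (0, y)).1 y) = y := by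
    rw [← IsAct.mul (act := act) _ _ e7 e2 _ hy, Ring.inverse_mul_cancel _ e2,
      IsAct.one (act := act) _ hy]
  have e9 := IsAct.mem (act := act) _ e2 _ hy
  simp only [e6, e8] at e3
  rw [e3 e9]
  exact ⟨e7, e6.symm ▸ e9, by simp only [e6, e8]⟩

end Vale.Agent.P269.Holo
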