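import Vale.Agent.P269.Spl.Defs
import Vale.Agent.P269.Spl.Dim0
import Vale.Agent.P269.Spl.Dim1

/-!
# Sets of small dimension
-/

namespace Vale.Agent.P269

open P291Z Set Function Topology Filter Holo Module

set_option linter.unusedSectionVars false

variable {A W W' : Type} [NormedRing A] [NormedAlgebra ℂ A] [NormedAddCommGroup W] [NormedSpace ℂ W]
  [NormedAddCommGroup W'] [NormedSpace ℂ W'] [FiniteDimensional ℂ A] [FiniteDimensional ℂ W]
  [FiniteDimensional ℂ W'] {n d : ℕ} {B B' S M : Set W} {act : A → W → W}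

theorem dimLt_succ : DimLt (n + 1) B ↔ Mono.Small (2 * n) B :=
  ⟨fun h => Mono.Small.of_prod (N := ℂ) isOpen_univ univ_nonempty
      (by rwa [Complex.finrank_real_complex]),
    fun h => by
      have := h.prod (N := ℂ)
      rwa [Complex.finrank_real_complex] at this⟩

theorem dimLt_empty (n : ℕ) : DimLt n (∅ : Set W) := by
  rw [DimLt, empty_prod]
  exact Mono.small_empty _

theorem dimLt_zero : DimLt 0 B ↔ B = ∅ := by
  refine ⟨fun h => eq_empty_of_forall_notMem fun x hx => ?_, fun h => h ▸ dimLt_empty 0⟩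
  have h1 := (Mono.Small.image h (f := Prod.snd) fun _ _ => contDiffAt_snd).dense
    (by rw [Complex.finrank_real_complex]; norm_num)
  rw [snd_image_prod ⟨x, hx⟩, compl_univ] at h1
  exact not_nonempty_empty h1.nonempty

theorem dimLt_finrank (B : Set W) : DimLt (finrank ℂ W + 1) B :=
  dimLt_succ.2 (Mono.finrank_real W ▸ Mono.small_finrank B)

namespace DimLt

theorem mono (h : DimLt n B') (e : B ⊆ B') : DimLt n B :=
  Mono.Small.mono h (prod_mono e Subset.rfl)

theorem le (h : DimLt n B) (e : n ≤ d) : DimLt d B := Mono.Small.le h (by omega)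

theorem iUnion {ι : Sort*} [Countable ι] {B : ι → Set W} (h : ∀ i, DimLt n (B i)) :
    DimLt n (⋃ i, B i) := by
  rw [DimLt, iUnion_prod_const]
  exact Mono.Small.iUnion h

theorem biUnion {ι : Type*} {s : Set ι} (hs : s.Countable) {B : ι → Set W}
    (h : ∀ i ∈ s, DimLt n (B i)) : DimLt n (⋃ i ∈ s, B i) := by
  have := hs.to_subtype
  rw [biUnion_eq_iUnion]
  exact DimLt.iUnion fun i : s => h i.1 i.2

theorem union (h : DimLt n B) (h' : DimLt n B') : DimLt n (B ∪ B') := by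
  rw [DimLt, union_prod]
  exact Mono.Small.union h h'

/-- smallness of an image is local on the source -/
theorem of_locally_image {T : Type} [TopologicalSpace T] [SecondCountableTopology T] {B : Set T}
    {f : T → W} (h : ∀ t ∈ B, ∃ O ∈ 𝓝 t, DimLt n (f '' (B ∩ O))) : DimLt n (f '' B) := by
  choose! O hO hs using h
  obtain ⟨s, hsT, hc, hcov⟩ := TopologicalSpace.countable_cover_nhdsWithin
    (f := fun y => B ∩ O y) (s := B) fun y hy => inter_mem_nhdsWithin B (hO y hy)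
  refine (DimLt.biUnion hc fun y hy => hs y (hsT hy)).mono ?_
  rintro _ ⟨y, hy, rfl⟩
  obtain ⟨z, hz, hyz⟩ := mem_iUnion₂.1 (hcov hy)
  exact mem_iUnion₂.2 ⟨z, hz, y, hyz, rfl⟩

theorem of_locally (h : ∀ x ∈ B, ∃ U ∈ 𝓝 x, DimLt n (B ∩ U)) : DimLt n B := by
  have := FiniteDimensional.proper ℂ W
  have := of_locally_image (n := n) (B := B) (f := id) (by simpa using h)
  simpa using this

theorem image (h : DimLt n B) {f : W → W'} (hf : ∀ x ∈ B, ContDiffAt ℝ 1 f x) :
    DimLt n (f '' B) := by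
  have := Mono.Small.image h (f := Prod.map f (id : ℂ → ℂ)) fun x hx =>
    (hf x.1 hx.1).prodMap' contDiffAt_id
  rwa [prodMap_image_prod, image_id] at this

theorem image_an (h : DimLt n B) {f : W → W'} (hf : ∀ x ∈ B, AnalyticAt ℂ f x) :
    DimLt n (f '' B) :=
  have := FiniteDimensional.complete ℂ W'
  h.image fun x hx => (hf x hx).contDiffAt.restrict_scalars ℝ

/-- the image under a map, restricted to the points where it is analytic -/
theorem image_an' (h : DimLt n B) (f : W → W') : DimLt n (f '' (B ∩ {x | AnalyticAt ℂ f x})) :=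
  (h.mono inter_subset_left).image_an fun _ hx => hx.2

theorem image_hol {T : Type} [TopologicalSpace T] [SecondCountableTopology T] {ι : T → W}
    {f : T → W'} {B : Set T} (h : DimLt n (ι '' B))
    (hf : ∀ t ∈ B, ContinuousAt ι t ∧ HolAt ι f t) : DimLt n (f '' B) := by
  have := FiniteDimensional.complete ℂ W'
  refine of_locally_image fun t ht => ?_
  obtain ⟨h1, Φ, h2, h3⟩ := hf t ht
  refine ⟨_, (h1.eventually h2.eventually_analyticAt).and h3, (h.image_an' Φ).mono ?_⟩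
  rintro _ ⟨s, hs, rfl⟩
  exact ⟨ι s, ⟨⟨s, hs.1, rfl⟩, hs.2.1⟩, hs.2.2.symm⟩

theorem prod (h : DimLt n B) : DimLt (n + finrank ℂ W') (B ×ˢ (univ : Set W')) := by
  have h1 := (Mono.Small.prod h (N := W')).image (f := fun p => ((p.1.1, p.2), p.1.2))
    fun _ _ => by fun_prop
  rw [Mono.finrank_real, ← mul_add] at h1
  exact h1.mono fun p hp => ⟨((p.1.1, p.2), p.1.2), ⟨⟨hp.1.1, trivial⟩, trivial⟩, rfl⟩

theorem of_prod {U : Set W'} (hU : IsOpen U) (hne : U.Nonempty)
    (h : DimLt (n + finrank ℂ W') (B ×ˢ U)) : DimLt n B := by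
  have h1 := Mono.Small.image h (f := fun p => ((p.1.1, p.2), p.1.2)) fun _ _ => by fun_prop
  rw [mul_add, ← Mono.finrank_real] at h1
  exact Mono.Small.of_prod hU hne (h1.mono fun p hp =>
    ⟨((p.1.1, p.2), p.1.2), ⟨⟨hp.1.1, hp.2⟩, trivial⟩, rfl⟩)

theorem of_mfd {T : Type} [TopologicalSpace T] [SecondCountableTopology T] {ι : T → W}
    (h : ∀ t, IsMfd ι n t) : DimLt (n + 1) (range ι) := by
  have := FiniteDimensional.complete ℂ W
  rw [← image_univ]
  refine of_locally_image fun t _ => ?_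
  obtain ⟨ψ, h1, rfl⟩ := h t
  have h2 := (dimLt_finrank (univ : Set (Fin n → ℂ))).image_an' fun z => ι (ψ z)
  rw [finrank_fin_fun] at h2
  refine ⟨ψ '' {z | AnalyticAt ℂ (fun z => ι (ψ z)) z},
    h1.lh.map_nhds ▸ image_mem_map h1.an.eventually_analyticAt, h2.mono ?_⟩
  rintro _ ⟨_, ⟨-, z, hz, rfl⟩, rfl⟩
  exact ⟨z, ⟨trivial, hz⟩, rfl⟩

theorem of_mfd' (h : ∀ x : M, IsMfd (Subtype.val : M → W) n x) : DimLt (n + 1) M := by
  have := FiniteDimensional.proper ℂ W
  simpa using of_mfd h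

theorem interior_eq (h : DimLt (finrank ℂ W) B) : interior B = ∅ := by
  refine eq_empty_of_forall_notMem fun x hx => ?_
  obtain ⟨y, h1, h2⟩ := Mono.Small.exists_notMem h (x := (x, 0)) (O := B ×ˢ univ)
    (by rw [finrank_prod, Mono.finrank_real, Complex.finrank_real_complex]; omega)
    (prod_mem_nhds (mem_interior_iff_mem_nhds.1 hx) univ_mem)
  exact h2 h1

theorem not_mem_nhds (h : DimLt (finrank ℂ W) B) (x : W) : B ∉ 𝓝 x := fun e =>
  (h.interior_eq ▸ mem_interior_iff_mem_nhds.2 e : x ∈ (∅ : Set W))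

/-- small sets are nowhere dense in manifolds -/
theorem dense (h : DimLt n B) (hM : ∀ x : M, IsMfd (Subtype.val : M → W) n x) :
    M ⊆ closure (M \ B) := fun x hx => by
  obtain ⟨ψ, ⟨h1, h2, w, h3, h4⟩, h0⟩ := hM ⟨x, hx⟩
  have h5 := h.image_an' w
  have h6 : (ψ 0).1 = x := congrArg Subtype.val h0
  rw [mem_closure_iff_nhds]
  intro V hV
  by_contra e
  refine (h5.le (finrank_fin_fun ℂ).ge).not_mem_nhds 0 ?_
  filter_upwards [h4, h2.continuousAt.eventually h3.eventually_analyticAt,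
    h2.continuousAt.eventually (h6.symm ▸ hV)] with z a b c
  exact ⟨_, ⟨by_contra fun e' => e ⟨_, c, (ψ z).2, e'⟩, b⟩, a⟩

theorem cd_self (h : DimLt d B) : Orb.CD (2 * d - 2) B := by
  cases d with
  | zero => exact dimLt_zero.1 h ▸ Orb.cd_empty
  | succ d => exact (dimLt_succ.1 h).cd.le (by push_cast; omega)

variable [IsAct act S]

theorem sweep (h : DimLt n B) (hB : B ⊆ S) :
    DimLt (finrank ℂ A + n) {y | ∃ a, IsUnit a ∧ ∃ x ∈ B, y = act a x} := by
  refine (((h.prod (W' := A)).image_an' fun p => act p.2 p.1).le (add_comm _ _).le).mono ?_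
  rintro _ ⟨a, ha, x, hx, rfl⟩
  exact ⟨(x, a), ⟨⟨hx, trivial⟩, (IsAct.an a ha x (hB hx)).comp_of_eq
    (analyticAt_snd.prod analyticAt_fst) rfl⟩, rfl⟩

/-- the trace of an invariant set on an affine slice -/
theorem slice (h : DimLt (finrank ℂ A + n) B) (hB : B ⊆ S) (hi : Ivt act B) {x : W} {j : W' →L[ℂ] W}
    {g : W → A × W'} (hx : x ∈ S) (hg : AnalyticAt ℂ g x)
    (hl : ∀ᶠ p in 𝓝 ((1 : A), (0 : W')), x + j p.2 ∈ S → g (act p.1 (x + j p.2)) = p) :
    ∃ V ∈ 𝓝 (0 : W'), DimLt n (V ∩ {v | x + j v ∈ B}) := by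
  have := FiniteDimensional.complete ℂ A
  have := FiniteDimensional.complete ℂ W'
  have h1 : ContinuousAt (fun p : A × W' => act p.1 (x + j p.2)) (1, 0) :=
    (IsAct.an (act := act) 1 isUnit_one x hx).continuousAt.comp_of_eq
      (f := fun p : A × W' => (p.1, x + j p.2)) (by fun_prop) (by simp)
  have h2 : ∀ᶠ p in 𝓝 ((1 : A), (0 : W')), AnalyticAt ℂ g (act p.1 (x + j p.2)) :=
    h1.eventually (by simpa [IsAct.one (act := act) x hx] using hg.eventually_analyticAt)
  have h3 : ∀ᶠ p in 𝓝 ((1 : A), (0 : W')), IsUnit p.1 :=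
    continuousAt_fst.eventually (Units.nhds (1 : Aˣ))
  obtain ⟨U, V, hU, h4, hV, h5, h6⟩ := mem_nhds_prod_iff'.1 (hl.and (h2.and h3))
  refine ⟨V, hV.mem_nhds h5, of_prod hU ⟨1, h4⟩ ?_⟩
  refine ((((h.image_an' g).image (f := fun p => (p.2, p.1)) fun _ _ => by fun_prop).le
    (add_comm _ _).le).mono ?_)
  rintro ⟨v, a⟩ ⟨hv, ha⟩
  obtain ⟨e1, e2, e3⟩ := h6 (mk_mem_prod ha hv.1)
  exact ⟨(a, v), ⟨_, ⟨hi a e3 _ hv.2, e2⟩, e1 (hB hv.2)⟩, rfl⟩

/-- invariant maps lower the dimension -/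
theorem image_inv (h : DimLt (finrank ℂ A + n) B) (hB : B ⊆ S) (hi : Ivt act B)
    (hs : ∀ x : Sp act S, x.val ∈ B → Finite (MulAction.stabilizer Aˣ x)) {f : W → W'}
    (hf : ∀ x ∈ B, ContDiffAt ℝ 1 f x) (e : ∀ a, IsUnit a → ∀ x ∈ B, f (act a x) = f x) :
    DimLt n (f '' B) := by
  have := FiniteDimensional.proper ℂ W
  refine of_locally_image fun x hx => ?_
  obtain ⟨m, j, g, -, h1, h2, h3, h4⟩ := (Sp.of act x (hB hx)).exists_aff (hs _ hx)
  simp only [Sp.val_of] at h1 h2 h3 h4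
  obtain ⟨V, h5, h6⟩ := h.slice hB hi (hB hx) h1 h3
  have h7 : ∀ᶠ y in 𝓝 x, (g y).2 ∈ V :=
    (continuousAt_snd.comp h1.continuousAt).eventually (by simpa [h2] using h5)
  refine ⟨_, h4.and h7, (h6.image (f := fun v => f (x + j v)) fun v hv =>
    (hf _ hv.2).comp v (contDiffAt_const.add (j.restrictScalars ℝ).contDiff.contDiffAt)).mono ?_⟩
  rintro _ ⟨y, ⟨hy, h8, h9⟩, rfl⟩
  obtain ⟨e1, e2, e3⟩ := h8 (hB hy)
  have e4 : x + j (g y).2 ∈ B := by
    have := hi _ (isUnit_ringInverse.2 e1) _ hy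
    rwa [← e3, ← IsAct.mul (act := act) _ _ (e3.symm ▸ isUnit_ringInverse.2 e1) e1 _ e2, e3,
      Ring.inverse_mul_cancel _ e1, IsAct.one (act := act) _ e2] at this
  exact ⟨_, ⟨h9, e4⟩, (e _ e1 _ e4).symm.trans (congrArg f e3)⟩

theorem mem_part (hi : Ivt act (S ∩ B)) {x : Sp act S} : x.mk ∈ Quo.part act S B ↔ x.val ∈ B := by
  obtain ⟨g, hg⟩ := x.exists_smul_out
  have h1 : (Quo.out x.mk).1 = (g • x).val := congrArg Sp.val hg.symm
  change (Quo.out x.mk).1 ∈ B ↔ _
  rw [h1]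
  refine ⟨fun h => ?_, fun h => (hi _ g.isUnit _ ⟨x.val_mem, h⟩).2⟩
  have := (hi _ g⁻¹.isUnit _ ⟨(g • x).val_mem, h⟩).2
  rwa [← Sp.val_smul g⁻¹ (g • x), inv_smul_smul] at this

/-- the dimension of the orbit space -/
theorem cd (ho : Orb.Orb Aˣ (Sp act S)) (hi : Ivt act (S ∩ B)) (h : DimLt (finrank ℂ A + d) (S ∩ B)) :
    Orb.CD (2 * d - 2) (Quo.part act S B) := by
  have := FiniteDimensional.complete ℂ A
  have := FiniteDimensional.proper ℂ W
  have := ho.nice
  have := ho.proper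
  have := Orb.isQuo_sp.nice ho
  refine Orb.CD.of_locally fun z _ => ?_
  obtain ⟨x, rfl⟩ := Sp.surjective_mk z
  obtain ⟨m, j, g, h0, h1, h2, h3, h4⟩ := x.exists_aff (ho.finite_stabilizer x)
  obtain ⟨V, h5, h6⟩ := h.slice inter_subset_left hi x.val_mem h1 h3
  have hS := Orb.Dim.lc_range (Sp.isEmbedding_val (act := act) (S := S))
  rw [Sp.range_val] at hS
  let T : Set (Fin m → ℂ) := (fun v => x.val + j v) ⁻¹' S
  have : Nice (Fin m → ℂ) := ⟨inferInstance, inferInstance, inferInstance⟩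
  have : Nice T := Nice.of_isLocallyClosed (hS.preimage (by fun_prop))
  let φ : T → Sp act S := fun v => Sp.of act _ v.2
  let s₀ : T := ⟨0, by simpa [T] using x.val_mem⟩
  have hφ : Continuous φ := Sp.isEmbedding_val.continuous_iff.2
    (by change Continuous fun v : T => x.val + j v; fun_prop)
  have e0 : φ s₀ = x := Sp.ext (by simp [φ, s₀])
  have he : IsEmbedding (Prod.map Units.val Subtype.val : Aˣ × T → A × (Fin m → ℂ)) :=
    Units.isOpenEmbedding_val.isEmbedding.prodMap IsEmbedding.subtypeVal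
  have h7 : LH (fun p : Aˣ × T => p.1 • φ p.2) (1, s₀) := by
    refine LH.of_restrict (g := g) he Sp.continuous_val (by fun_prop) ?_ ?_ ?_
    · rw [one_smul, e0]
      exact h1.eventually_analyticAt.mono fun y hy => hy.continuousAt
    · exact (he.continuous.continuousAt.eventually h3).mono fun q hq => hq q.2.2
    · rw [one_smul, e0]
      filter_upwards [Sp.continuous_val.continuousAt.eventually h4] with y hy
      obtain ⟨⟨a, e1⟩, e2, e3⟩ := hy y.val_mem
      exact ⟨(a, ⟨_, e2⟩), Prod.ext e1 rfl, Sp.ext (by rw [← e1] at e3; exact e3)⟩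
  obtain ⟨hf, U, a, c, h8, h9, h10, h11⟩ := Orb.exists_ts h7
    (continuous_subtype_val.continuousAt.preimage_mem_nhds h5)
  have := Fintype.ofFinite (MulAction.stabilizer Aˣ (φ s₀))
  have := Orb.Dim.nice_open h8
  have h12 := h11.isUC Orb.isQuo_sp
  refine ⟨_, h12.isOpen_range.mem_nhds ⟨⟨s₀, h9⟩, congrArg Sp.mk e0⟩, h12.cd inter_subset_right
    ((h6.cd_self.preimage (IsEmbedding.subtypeVal.comp IsEmbedding.subtypeVal)).mono
      fun u hu => ⟨h10 u.2, u.1.2, (mem_part hi).1 hu.1⟩)⟩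

end DimLt

end Vale.Agent.P269
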