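import Vale.Agent.P269.Spl.Ty2
import Vale.Agent.P269.Kit.Glue
import Vale.Agent.P269.LG.Alg

/-!
# The algebra of the degeneration formula
-/

set_option linter.unusedSectionVars false

namespace Vale.Agent.P269

open P291Z Set Function Topology Filter Fock

variable {R ν κ α V : Type} [Fintype R] [Fintype ν] [Fintype κ] [Fintype α] [AddCommGroup V]
  [Module ℂ V] {p : Fock.Par ℂ V} {D : Deg.Dv}

theorem exists_sid (s : α → Bool) : ∃ (a₁ a₂ : ℕ) (φ : Fin a₁ ⊕ Fin a₂ ≃ α), Sid φ s :=
  ⟨_, _, (Equiv.sumCongr (Fintype.equivFin {a // s a = false}).symm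
    (Fintype.equivFin {a // ¬s a = false}).symm).trans (Equiv.sumCompl _),
    fun _ => Subtype.property (p := fun a => s a = false) _,
    fun _ => Bool.of_not_eq_false (Subtype.property (p := fun a => ¬s a = false) _)⟩

theorem LG.Enum.exists_perm {β : Type} {L : List (α × β)} (h : LG.Enum L) {a₁ a₂ : ℕ}
    (φ : Fin a₁ ⊕ Fin a₂ ≃ α) : ∃ (v₁ : Fin a₁ → β) (v₂ : Fin a₂ → β),
      L.Perm ((List.ofFn fun i => (φ (.inl i), v₁ i)) ++ List.ofFn fun i => (φ (.inr i), v₂ i)) := by
  have a : ∀ n, ∃ b, (n, b) ∈ L := fun n => by simpa using h.2 n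
  choose v hv using a
  refine ⟨fun i => v (φ (.inl i)), fun i => v (φ (.inr i)),
    (List.perm_ext_iff_of_nodup (h.1.of_map _) ?_).2 fun x => ⟨fun b => ?_, fun b => ?_⟩⟩
  · simp only [List.nodup_append, List.nodup_ofFn, List.mem_ofFn]
    refine ⟨fun i j e => Sum.inl_injective (φ.injective (congrArg Prod.fst e)),
      fun i j e => Sum.inr_injective (φ.injective (congrArg Prod.fst e)), ?_⟩
    rintro _ ⟨i, rfl⟩ _ ⟨j, rfl⟩ e
    exact Sum.inl_ne_inr (φ.injective (congrArg Prod.fst e))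
  · rw [List.inj_on_of_nodup_map h.1 b (hv x.1) rfl]
    obtain ⟨i | i, e⟩ := φ.surjective x.1 <;> simp only [← e, List.mem_append, List.mem_ofFn]
    exacts [.inl ⟨i, rfl⟩, .inr ⟨i, rfl⟩]
  · simp only [List.mem_append, List.mem_ofFn] at b
    obtain ⟨i, rfl⟩ | ⟨i, rfl⟩ := b <;> exact hv _

namespace SplA

variable {A β γ : Type} [Semiring A]

theorem ofFn_sum : ∀ {n : ℕ} (f : Fin n → Bool → A), (List.ofFn fun i => f i false + f i true).prod =
    ∑ s : Fin n → Bool, (List.ofFn fun i => f i (s i)).prod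
  | 0, f => by simp
  | n + 1, f => by
    rw [List.ofFn_succ, List.prod_cons, ofFn_sum fun i => f i.succ,
      ← (Fin.consEquiv fun _ => Bool).sum_comp, Fintype.sum_prod_type, Fintype.sum_bool, add_mul,
      add_comm, Finset.mul_sum, Finset.mul_sum]
    simp [List.ofFn_succ, Fin.consEquiv]

variable [DecidableEq ν] [DecidableEq κ]

theorem one {L : List (ν × β)} (h : LG.Enum L) (a : ν × β → Bool → A) :
    (L.map fun x => a x false + a x true).prod =
      ∑ s : ν → Bool, (L.map fun x => a x (s x.1)).prod := by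
  obtain ⟨φ, e⟩ := h.exists_equiv'
  generalize (L.map Prod.snd).get = v at e
  generalize (L.map Prod.snd).length = n at φ v e
  subst e
  simp only [List.map_ofFn]
  exact (ofFn_sum fun i => a (φ i, v i)).trans
    (Fintype.sum_equiv (φ.symm.arrowCongr (.refl _)) _ _ fun _ => rfl).symm

theorem two {L₁ : List (ν × β)} {L₂ : List (κ × γ)} (h₁ : LG.Enum L₁) (h₂ : LG.Enum L₂)
    (a : ν × β → Bool → A) (b : κ × γ → Bool → A) :
    (L₁.map fun x => a x false + a x true).prod * (L₂.map fun x => b x false + b x true).prod =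
      ∑ s : ν ⊕ κ → Bool, (L₁.map fun x => a x (s (.inl x.1))).prod *
        (L₂.map fun x => b x (s (.inr x.1))).prod := by
  rw [one h₁, one h₂, Finset.sum_mul_sum, ← Fintype.sum_prod_type']
  exact (Fintype.sum_equiv (Equiv.sumArrowEquivProdArrow ν κ Bool) _ _ fun _ => rfl).symm

theorem diag {W : Type} [AddCommGroup W] [Module ℂ W] {q : Fock.Par ℂ W} (L : List β) (f : β → W) :
    Fock.map _ (Deg.isEv_diag q) (L.map fun x => ι q (f x)).prod = (L.map fun x =>
      ι (q.prod q) (sid false (f x)) + ι (q.prod q) (sid true (f x))).prod := by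
  rw [map_list_prod, List.map_map]
  exact congrArg _ (List.map_congr_left fun x _ => (map_ι _ _ _).trans
    ((congrArg _ (Prod.fst_add_snd (f x, f x)).symm).trans (map_add _ _ _)))

end SplA

section diag

variable [DecidableEq ν] [DecidableEq κ] {L₁ : List (ν × ℕ × V)} {L₂ : List (κ × ℕ × ℕ)}

theorem diag_monT (h₁ : LG.Enum L₁) (h₂ : LG.Enum L₂) :
    Fock.map _ (Deg.isEv_diag (Deg.pT p)) (monT p (L₁.map Prod.snd) (L₂.map Prod.snd)) =
      ∑ s, monS p s L₁ L₂ := by
  rw [monT, map_mul, List.map_map, List.map_map]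
  exact (congrArg₂ _ (SplA.diag L₁ _) (SplA.diag L₂ _)).trans (SplA.two h₁ h₂
    (fun x b => ι _ (sid b (Finsupp.single x.2.1 x.2.2, 0)))
    fun x b => ι _ (sid b (0, Finsupp.single x.2 1)))

theorem diag_two {n : ν} {m : ℕ} {a : V} (a' : V) (h₁ : LG.Enum ((n, m, a) :: L₁))
    (h₂ : LG.Enum L₂) :
    (ι _ ((Finsupp.single m a, 0), 0) - ι _ (0, (Finsupp.single m a', 0))) *
        Fock.map _ (Deg.isEv_diag (Deg.pT p)) (monT p (L₁.map Prod.snd) (L₂.map Prod.snd)) =
      ∑ s : ν ⊕ κ → Bool, bif s (.inl n) then -monS p s ((n, m, a') :: L₁) L₂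
        else monS p s ((n, m, a) :: L₁) L₂ := by
  let q := (Deg.pT p).prod (Deg.pT p)
  have := SplA.two (A := Fock.S q) (L₁ := (n, fun b => bif b then
      -ι q (sid true (Finsupp.single m a', 0)) else ι q (sid false (Finsupp.single m a, 0))) ::
      L₁.map fun x => (x.1, fun b => ι q (sid b (Finsupp.single x.2.1 x.2.2, 0))))
    (h₁.congr (by simp [Function.comp_def])) h₂ (fun x => x.2)
    fun x b => ι q (sid b (0, Finsupp.single x.2 1))
  simp only [List.map_cons, List.prod_cons, List.map_map, Function.comp_def] at this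
  rw [monT, map_mul, List.map_map, List.map_map, ← mul_assoc, sub_eq_add_neg]
  refine (congrArg₂ _ (congrArg _ (SplA.diag L₁ _)) (SplA.diag L₂ _)).trans
    (this.trans (Finset.sum_congr rfl fun s _ => ?_))
  cases h : s (.inl n) <;> simp only [monS, List.map_cons, List.prod_cons, h, cond, neg_mul, q]

end diag

theorem monT_zero {Z : Fock.S (Deg.pT p) →ₗ[ℂ] ℂ} (h : ∀ l, Z (monT p l []) = 0)
    (x : Fock.S (p.fs ℕ)) : Z (Fock.map _ (Deg.isEv_inl _ (Fock.Par.triv ℂ Deg.NN)) x) = 0 := by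
  refine LinearMap.congr_fun (LG.ext_mon (Z := Z ∘ₗ (Fock.map _ (Deg.isEv_inl _
    (Fock.Par.triv ℂ Deg.NN))).toLinearMap) (Z' := 0)
    (G := range fun q : ℕ × V => Finsupp.single q.1 q.2) (eq_top_iff.2 fun v _ => ?_)
    fun n L _ e => ?_) x
  · induction v using Finsupp.induction_linear with
    | zero => exact zero_mem _
    | add a b ha hb => exact add_mem (ha trivial) (hb trivial)
    | single m a => exact Submodule.subset_span ⟨(m, a), rfl⟩
  · obtain ⟨l, e⟩ := LG.exists_map_eq (fun q : ℕ × V => Finsupp.single q.1 q.2) (L.map Prod.snd)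
      fun y hy => by
        obtain ⟨z, a, rfl⟩ := List.mem_map.1 hy
        exact (e z a).imp fun _ => Eq.symm
    refine .trans (congrArg Z ?_) (h l)
    simp [LG.mon_eq, e, monT, map_list_prod, Function.comp_def]

end Vale.Agent.P269
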