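import Vale.Agent.P269.Spl.Ty2
import Vale.Agent.P269.Kit.Glue
import Vale.Agent.P269.Bas.Ok

/-!
# The algebra of the degeneration formula
-/

set_option linter.unusedSectionVars false

namespace Vale.Agent.P269

open P291Z Set Function Topology Filter Fock

variable {R ν κ α V : Type} [Fintype R] [Fintype ν] [Fintype κ] [Fintype α] [AddCommGroup V]
  [Module ℂ V] {p : Fock.Par ℂ V} {D : Deg.Dv}

theorem STy.tm_neg (τ : STy R α) (F G : Deg.Ser (R → ℤ) (Deg.pR p D)) (β j x) :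
    τ.tm F G β j (-x) = -τ.tm F G β j x := by
  rw [STy.tm, STy.tm, map_neg, neg_mul, map_neg, mul_neg]

theorem AlgB.gam_eq (l e : ℕ) : Deg.Gam D p p l e =
    (l.factorial : ℂ)⁻¹ • ∑ μ ∈ ctc l e, (List.ofFn fun i => Deg.gam D p p (μ i)).prod := rfl

theorem AlgB.ctc_eq_empty {l e : ℕ} (h : e < l) : ctc l e = ∅ :=
  Finset.filter_eq_empty_iff.2 fun μ _ k => by
    have := Finset.card_nsmul_le_sum Finset.univ (fun i => μ i + 1) 1 fun _ _ => Nat.le_add_left _ _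
    rw [k, Finset.card_univ, Fintype.card_fin, smul_eq_mul, mul_one] at this
    omega

section glue

variable {g : Deg.Grd (R → ℤ)} {F G : Deg.Ser (R → ℤ) (Deg.pR p D)} (hF : F.Ok g) (hG : G.Ok g)
  (hf : ∀ n, {β | g.deg β = n ∧ G β ≠ 0}.Finite) (β : R → ℤ) (j : ℤ)
include hF hG hf

theorem AlgB.fin (x : Fock.S ((Deg.pT p).prod (Deg.pT p))) :
    (support fun q : (R → ℤ) × ℤ × ℕ => Deg.tp (F (β - q.1) (j - q.2.1 - q.2.2)) (G q.1 q.2.1)
      (Fock.map _ (Deg.isEv_ins D p p) x * Deg.Gam D p p q.2.2 (g.ξ q.1).toNat)).Finite := by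
  have a : {b | g.deg b ≤ g.deg β ∧ G b ≠ 0}.Finite :=
    ((finite_Icc 0 (g.deg β)).biUnion fun m _ => hf m).subset fun b hb =>
      mem_biUnion (x := g.deg b) ⟨hG.pos b hb.2, hb.1⟩ ⟨rfl, hb.2⟩
  refine (a.biUnion fun b _ => (finite_Iic (g.ξ b).toNat).biUnion fun l _ =>
    (Deg.InB.tp_fin (hF.low (β - b)) (hG.low b) (j - l)
      (Fock.map _ (Deg.isEv_ins D p p) x * Deg.Gam D p p l (g.ξ b).toNat)).image
        fun i => (b, i, l)).subset ?_
  rintro ⟨b, i, l⟩ h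
  rw [mem_support] at h
  simp only at h
  have h1 : F (β - b) ≠ 0 := fun h0 => h (Deg.InB.tp_zero (Or.inl (by rw [h0]; rfl)) _)
  have h2 : G b ≠ 0 := fun h0 => h (Deg.InB.tp_zero (Or.inr (by rw [h0]; rfl)) _)
  have h3 := hF.pos _ h1
  rw [map_sub] at h3
  refine mem_biUnion (x := b) ⟨by omega, h2⟩ (mem_biUnion (x := l) ?_ ⟨i, ?_, rfl⟩)
  · by_contra hn
    exact h (by
      rw [AlgB.gam_eq, AlgB.ctc_eq_empty (by simpa using hn), Finset.sum_empty, smul_zero, mul_zero,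
        map_zero])
  · rwa [mem_support, sub_right_comm]

theorem exists_glue_lin : ∃ L : Fock.S ((Deg.pT p).prod (Deg.pT p)) →ₗ[ℂ] ℂ,
    ∀ x, Deg.glue g F G β j x = L x :=
  ⟨{ toFun := Deg.glue g F G β j
     map_add' := fun x y => by
      rw [Deg.glue, Deg.glue, Deg.glue,
        ← finsum_add_distrib (AlgB.fin hF hG hf β j x) (AlgB.fin hF hG hf β j y)]
      simp only [map_add, add_mul]
     map_smul' := fun c x => by
      rw [RingHom.id_apply, Deg.glue, Deg.glue, smul_finsum' c (AlgB.fin hF hG hf β j x)]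
      simp only [map_smul, smul_mul_assoc] }, fun _ => rfl⟩

/-- the gluing formula as a sum over types -/
theorem glue_eq_sum [DecidableEq α] {i : R} (hξ : ∀ d, g.ξ d = d i)
    (x : (α → Bool) → Fock.S ((Deg.pT p).prod (Deg.pT p))) : ∀ᶠ A in atTop,
    Deg.glue g F G β j (∑ s, x s) = ∑ τ ∈ STy.set i A, τ.tm F G β j (x τ.s) := by
  filter_upwards [eventually_ge_atTop (AlgB.fin hF hG hf β j (∑ s, x s)).toFinset] with A hA
  rw [Deg.glue, finsum_eq_sum_of_support_subset _ (s := A) fun q hq =>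
    hA ((Finite.mem_toFinset _).2 hq), STy.set, Finset.sum_sigma]
  refine Finset.sum_congr rfl fun q _ => ?_
  rw [Finset.sum_product, AlgB.gam_eq, hξ, mul_smul_comm, map_smul, Finset.mul_sum, map_sum,
    Finset.smul_sum]
  refine Finset.sum_congr rfl fun μ _ => ?_
  rw [map_sum, Finset.sum_mul, map_sum, Finset.smul_sum]
  rfl

end glue

theorem Fam.serR_ok {S Λ J K : Type} [Fintype S] [Fintype Λ] [Fintype J] [Fintype K] [DecidableEq R]
    {F : Fam S Λ R J K} {δ : J → ℕ} {k : ℕ} {e : F.Ex} {A A' : Set _} {i : V →ₗ[ℂ] H (F.X A)}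
    {i' : D.H →ₗ[ℂ] H (F.X A')} {g : Deg.Grd (R → ℤ)} (h1 : St.Spec) (h2 : St.Supp) (h3 : St.Par)
    (h : F.Nice δ) (hc : F.Cp) (hk : F.Big k) (he : F.ExOk k e) (hA : F.cone ⊆ A)
    (hA' : F.dvs δ ⊆ A') (hi : IsEv p (parH _) i) (hi' : IsEv D.p (parH _) i') (hg : F.Grd g) :
    (F.serR k e p i δ D i').Ok g ∧
      ∀ n, {β | g.deg β = n ∧ F.serR k e p i δ D i' β ≠ 0}.Finite := by
  have sp := (h1 F _ k e p i h hc hk he hA hi).2 D i' hA' hi'
  have ne : ∀ β, F.serR k e p i δ D i' β ≠ 0 →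
      ∃ j l₁ l₂ l₃, F.cor k e δ A A' β j l₁ l₂ l₃ ≠ 0 := fun β h => by
    by_contra hc
    refine h (funext fun j => monR_ext fun l₁ l₂ l₃ => ?_)
    rw [sp]
    exact by_contra fun h0 => hc ⟨j, _, l₂, _, h0⟩
  refine ⟨⟨fun β j x => ?_, fun β x => ?_, fun β h0 => ?_⟩, fun n =>
    (Fam.cor_fin (e := e) (A := A) (A' := A') h2 h hk hg n).subset fun β h => ⟨h.1, ne β h.2⟩⟩
  · refine LinearMap.congr_fun (monR_ext
      (Z := F.serR k e p i δ D i' β j ∘ₗ (Fock.par _).toLinearMap)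
      (Z' := F.serR k e p i δ D i' β j) fun l₁ l₂ l₃ => ?_) x
    rw [LinearMap.comp_apply, AlgHom.toLinearMap_apply, par_monR, sp, sp, map_map_ev hi,
      map_map_ev hi']
    exact h3 F _ k e hA hA' h hc hk he β j _ l₂ _
  · refine low_of_span (F.serR k e p i δ D i' β) ?_ (mem_span_monR D x)
    rintro _ ⟨l, rfl⟩
    simp only [sp]
    exact Fam.cor_low h2 h hk β _ _ _
  · obtain ⟨j, l₁, l₂, l₃, h0⟩ := ne β h0
    exact Fam.cor_pos h2 h hk hg h0

end Vale.Agent.P269
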