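import Vale.Agent.P269.Spl.Ty2
import Vale.Agent.P269.Kit.Glue
import Vale.Agent.P269.LG.Alg

/-!
# The algebra of the degeneration formula: sorting the insertions
-/

set_option linter.unusedSectionVars false

namespace Vale.Agent.P269

open P291Z Set Function Topology Filter Fock

variable {R ν κ α V : Type} [Fintype R] [Fintype ν] [Fintype κ] [Fintype α] [AddCommGroup V]
  [Module ℂ V] {p : Fock.Par ℂ V} {D : Deg.Dv}

namespace AlgC

theorem exists_perm {β : Type} {L : List (α × β)} (h : LG.Enum L) {a₁ a₂ : ℕ}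
    (φ : Fin a₁ ⊕ Fin a₂ ≃ α) : ∃ (v₁ : Fin a₁ → β) (v₂ : Fin a₂ → β),
      L.Perm ((List.ofFn fun i => (φ (.inl i), v₁ i)) ++ List.ofFn fun i => (φ (.inr i), v₂ i)) := by
  have e : ∀ n, ∃ b, (n, b) ∈ L := fun n => by
    obtain ⟨x, hx, rfl⟩ := List.mem_map.1 (h.2 n)
    exact ⟨x.2, hx⟩
  choose v hv using e
  have k : ∀ x ∈ L, x = (x.1, v x.1) := fun x hx => List.inj_on_of_nodup_map h.1 hx (hv _) rfl
  refine ⟨fun i => v (φ (.inl i)), fun i => v (φ (.inr i)),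
    (List.perm_ext_iff_of_nodup (h.1.of_map _) ?_).2 fun x => ⟨fun hx => ?_, fun hx => ?_⟩⟩
  · refine List.nodup_append.2 ⟨List.nodup_ofFn.2 fun i j e => ?_,
      List.nodup_ofFn.2 fun i j e => ?_, fun a ha b hb e => ?_⟩
    · exact Sum.inl_injective (φ.injective (congrArg Prod.fst e))
    · exact Sum.inr_injective (φ.injective (congrArg Prod.fst e))
    · obtain ⟨i, rfl⟩ := (List.mem_ofFn' _ _).1 ha
      obtain ⟨j, rfl⟩ := (List.mem_ofFn' _ _).1 hb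
      exact Sum.inl_ne_inr (φ.injective (congrArg Prod.fst e))
  · rw [k x hx]
    obtain ⟨i | i, e⟩ := φ.surjective x.1
    · exact List.mem_append_left _ ((List.mem_ofFn' _ _).2 ⟨i, by rw [← e]⟩)
    · exact List.mem_append_right _ ((List.mem_ofFn' _ _).2 ⟨i, by rw [← e]⟩)
  · rcases List.mem_append.1 hx with hx | hx <;> obtain ⟨i, rfl⟩ := (List.mem_ofFn' _ _).1 hx <;>
      exact hv _

theorem flatMap_perm {β γ : Type} (l : List β) (a b : β → γ) :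
    (l.map b ++ l.map a).Perm (l.flatMap fun e => [a e, b e]) := by
  induction l with
  | nil => exact .nil
  | cons x l ih =>
    exact ((List.perm_middle.cons _).trans (List.Perm.swap _ _ _)).trans ((ih.cons _).cons _)

theorem prod_flatMap {β γ A : Type} [Monoid A] (l : List β) (a b : β → γ) (F : γ → A) :
    ((l.flatMap fun e => [a e, b e]).map F).prod = (l.map fun e => F (a e) * F (b e)).prod := by
  induction l with
  | nil => rfl
  | cons x l ih =>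
    rw [List.flatMap_cons, List.map_append, List.prod_append, ih]
    simp

theorem srt_perm {V' : Type} [Zero V'] {r a₁ a₂ : ℕ} {φ : Fin a₁ ⊕ Fin a₂ ≃ ν}
    {L : List (ν × ℕ × V)} {v₁ : Fin a₁ → ℕ × V} {v₂ : Fin a₂ → ℕ × V}
    (h : L.Perm ((List.ofFn fun i => (φ (.inl i), v₁ i)) ++ List.ofFn fun i => (φ (.inr i), v₂ i)))
    (x y : Fin r → V') : (srt φ v₁ v₂ y x).Perm (uns L x y) := by
  refine List.Perm.trans ?_ ((h.map _).symm.append (flatMap_perm _ _ _))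
  rw [List.map_append, List.map_ofFn, List.map_ofFn, ← List.ofFn_eq_map, ← List.ofFn_eq_map, srt,
    List.append_assoc, List.append_assoc]
  exact (List.perm_append_comm_assoc _ _ _).append_left _

/-- the symmetry of the Casimir element -/
theorem cas_symm {H ι N : Type} [AddCommGroup H] [Module ℂ H] [AddCommGroup N] [Module ℂ N]
    [Fintype ι] {q : Fock.Par ℂ H} (fr : Frame q ι) (B : H →ₗ[ℂ] H →ₗ[ℂ] N) :
    ∑ a, B (fr.e a) (fr.f a) = ∑ a, B (q.σ (fr.f a)) (fr.e a) := by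
  have e : ∀ a, B (fr.e a) (fr.f a) = ∑ b, fr.η (fr.f b) (fr.f a) • B (fr.e a) (fr.e b) := fun a => by
    conv_lhs => rw [← fr.left (fr.f a)]
    simp only [map_sum, map_smul]
  rw [Finset.sum_congr rfl fun a _ => e a, Finset.sum_comm]
  refine Finset.sum_congr rfl fun b _ => ?_
  conv_rhs => rw [← fr.left (q.σ (fr.f b))]
  simp only [map_sum, map_smul, LinearMap.sum_apply, LinearMap.smul_apply]
  exact Finset.sum_congr rfl fun a _ => by rw [fr.η_σ, ← fr.η_symm]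

theorem hom_of {H : Type} [AddCommGroup H] [Module ℂ H] {q : Fock.Par ℂ H} {v : H} {n : ℕ}
    (h : q.σ v = (-1 : ℂ) ^ n • v) : q.σ v = v ∨ q.σ v = -v := by
  rcases neg_one_pow_eq_or ℂ n with e | e <;> rw [e] at h
  · exact .inl (h.trans (one_smul _ _))
  · exact .inr (h.trans (neg_one_smul _ _))

theorem gam_eq (m : ℕ) : Deg.gam D p p m = ((m : ℂ) + 1) • ∑ a,
    ι _ (0, (0, Finsupp.single m (D.fr.e a))) * ι _ ((0, Finsupp.single m (D.fr.f a)), 0) := by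
  refine congrArg _ ((cas_symm D.fr ((LinearMap.mul ℂ _).compl₁₂
    (ι ((Deg.pR p D).prod (Deg.pR p D)) ∘ₗ .inl ℂ _ _ ∘ₗ .inr ℂ _ _ ∘ₗ Finsupp.lsingle m)
    (ι _ ∘ₗ .inr ℂ _ _ ∘ₗ .inr ℂ _ _ ∘ₗ Finsupp.lsingle m))).trans
    (Finset.sum_congr rfl fun a _ => ?_))
  change ι ((Deg.pR p D).prod (Deg.pR p D)) ((0, Finsupp.single m (D.p.σ (D.fr.f a))), 0) *
    ι ((Deg.pR p D).prod (Deg.pR p D)) (0, (0, Finsupp.single m (D.fr.e a))) = _
  rcases Nat.even_or_odd (D.fr.π a) with h | h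
  · rw [D.fr.hf, h.neg_one_pow, one_smul]
    exact (ι_comm_ev (by simp [D.fr.he, h.neg_one_pow]) _).symm
  · rw [ι_comm_od (w := (0, (0, Finsupp.single m (D.fr.e a))))
      (by simp [D.fr.he, h.neg_one_pow]), par_ι]
    simp [Prod.mk_zero_zero]

theorem prod_gam {r : ℕ} (μ : Fin r → ℕ) : (List.ofFn fun e => Deg.gam D p p (μ e)).prod =
    ((∏ x, (μ x + 1) : ℕ) : ℂ) • ∑ t : Fin r → D.ι, (List.ofFn fun e =>
      ι _ (0, (0, Finsupp.single (μ e) (D.fr.e (t e)))) *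
        ι _ ((0, Finsupp.single (μ e) (D.fr.f (t e))), 0)).prod := by
  simp only [gam_eq, ← MultilinearMap.mkPiAlgebraFin_apply (R := ℂ)]
  rw [MultilinearMap.map_smul_univ, MultilinearMap.map_sum]
  simp

/-- the inclusion of a side -/
noncomputable def sdL (M : Type) [AddCommGroup M] [Module ℂ M] (b : Bool) : M →ₗ[ℂ] M × M :=
  bif b then .inr ℂ M M else .inl ℂ M M

variable (D) in
/-- the insertions on the two parts -/
noncomputable def g {r : ℕ} (s : ν → Bool) (μ : Fin r → ℕ) : (ν × ℕ) ⊕ Fin r × Bool →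
    V × D.H →ₗ[ℂ] ((VV V × Deg.NN) × VV D.H) × (VV V × Deg.NN) × VV D.H
  | .inl x => sdL _ (s x.1) ∘ₗ .inl ℂ _ _ ∘ₗ .inl ℂ _ _ ∘ₗ Finsupp.lsingle x.2 ∘ₗ .fst ℂ _ _
  | .inr x => sdL _ (!x.2) ∘ₗ .inr ℂ _ _ ∘ₗ Finsupp.lsingle (μ x.1) ∘ₗ .snd ℂ _ _

theorem isEv_g {r : ℕ} (s : ν → Bool) (μ : Fin r → ℕ) (x) :
    IsEv (p.prod D.p) ((Deg.pR p D).prod (Deg.pR p D)) (g D s μ x) := fun v => by
  rcases x with x | ⟨e, _ | _⟩
  · rcases h : s x.1 <;> simp [g, sdL, h, Fock.Par.triv]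
  all_goals simp [g, sdL]

variable (p D) in
/-- the product of the insertions -/
noncomputable def pr {r : ℕ} (s : ν → Bool) (μ : Fin r → ℕ)
    (L : List (((ν × ℕ) ⊕ Fin r × Bool) × V × D.H)) : Fock.S ((Deg.pR p D).prod (Deg.pR p D)) :=
  (L.map fun x => (ι ((Deg.pR p D).prod (Deg.pR p D)) ∘ₗ g D s μ x.1) x.2).prod

theorem sw_pr {r : ℕ} (s : ν → Bool) (μ : Fin r → ℕ)
    (I : Fock.S ((Deg.pR p D).prod (Deg.pR p D)) →ₗ[ℂ] ℂ) (u) :
    LG.SW (p.prod D.p) fun L => I (u * pr p D s μ L) :=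
  LG.SW.of_sc (fun x => ι ((Deg.pR p D).prod (Deg.pR p D)) ∘ₗ g D s μ x)
    (fun _ _ _ _ h => (sc_ι _).ev _ _ (by rw [isEv_g (p := p), h]))
    (fun _ _ _ _ h h' => (sc_ι _).od _ _ (by rw [isEv_g (p := p), h, map_neg])
      (by rw [isEv_g (p := p), h', map_neg])) I u

theorem pr_uns {r : ℕ} (s : ν → Bool) (μ : Fin r → ℕ) (L : List (ν × ℕ × V)) (x y : Fin r → D.H) :
    pr p D s μ (uns L x y) = Fock.map _ (Deg.isEv_ins D p p)
      (L.map fun x => ι _ (sid (s x.1) (Finsupp.single x.2.1 x.2.2, 0))).prod *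
      (List.ofFn fun e => ι _ (0, (0, Finsupp.single (μ e) (x e))) *
        ι _ ((0, Finsupp.single (μ e) (y e)), 0)).prod := by
  rw [pr, uns, List.map_append, List.prod_append, prod_flatMap, ← List.ofFn_eq_map, map_list_prod,
    List.map_map, List.map_map]
  refine congrArg₂ (· * ·) (congrArg _ (List.map_congr_left fun z _ => ?_)) rfl
  rcases h : s z.1 <;> simp [g, sdL, sid, h, Prod.mk_zero_zero]

theorem pr_srt {r a₁ a₂ : ℕ} {s : ν → Bool} (μ : Fin r → ℕ) {φ : Fin a₁ ⊕ Fin a₂ ≃ ν} (hφ : Sid φ s)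
    (v₁ : Fin a₁ → ℕ × V) (v₂ : Fin a₂ → ℕ × V) (h₁ h₂ : Fin r → D.H) :
    pr p D s μ (srt φ v₁ v₂ h₁ h₂) =
      Deg.InB.L _ _ (monR p D (.ofFn v₁) [] (.ofFn fun e => (μ e, h₁ e))) *
        Deg.InB.R _ _ (monR p D (.ofFn v₂) [] (.ofFn fun e => (μ e, h₂ e))) := by
  simp [pr, srt, monR, monT, map_list_prod, List.map_ofFn, comp_def, g, sdL, hφ.1, hφ.2, mul_assoc]

theorem monR_eq (l₁ : List (ℕ × V)) (l₂ : List (ℕ × ℕ)) (l₃ : List (ℕ × D.H)) :
    monR p D l₁ l₂ l₃ = monR p D [] l₂ [] * monR p D l₁ [] l₃ ∧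
      Fock.par _ (monR p D [] l₂ []) = monR p D [] l₂ [] := by
  have e : Fock.par _ (monR p D [] l₂ []) = monR p D [] l₂ [] := by
    simp [monR, monT, map_list_prod, List.map_map, comp_def, Fock.Par.triv]
  refine ⟨?_, e⟩
  have := comm_ev e (monR p D l₁ [] [])
  simp only [monR, monT, List.map_nil, List.prod_nil, mul_one, one_mul, map_mul] at this ⊢
  rw [← this, mul_assoc]

theorem nod_eq {b₁ b₂ : ℕ} {s : κ → Bool} {ψ : Fin b₁ ⊕ Fin b₂ ≃ κ} (hψ : Sid ψ s)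
    {L₂ : List (κ × ℕ × ℕ)} {n₁ : Fin b₁ → ℕ × ℕ} {n₂ : Fin b₂ → ℕ × ℕ}
    (h₂ : L₂.Perm ((List.ofFn fun i => (ψ (.inl i), n₁ i)) ++ List.ofFn fun i => (ψ (.inr i), n₂ i))) :
    Fock.map _ (Deg.isEv_ins D p p)
      (L₂.map fun x => ι _ (sid (s x.1) (0, Finsupp.single x.2 1))).prod =
      Deg.InB.L _ _ (monR p D [] (.ofFn n₁) []) * Deg.InB.R _ _ (monR p D [] (.ofFn n₂) []) := by
  rw [(h₂.map _).prod_eq' (List.pairwise_map.2 (List.pairwise_of_forall fun x y => ι_comm_ev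
    (by rcases s x.1 <;> simp [sid, Fock.Par.triv]) _))]
  simp [monR, monT, map_list_prod, List.map_ofFn, comp_def, sid, hψ.1, hψ.2, Prod.mk_zero_zero]

end AlgC

/-- **sorting the insertions** -/
theorem shuffle {E N : Type} [Fintype N] {l : Filter E} {r a₁ a₂ b₁ b₂ : ℕ} {s : ν ⊕ κ → Bool}
    (μ : Fin r → ℕ) {φ : Fin a₁ ⊕ Fin a₂ ≃ ν} {ψ : Fin b₁ ⊕ Fin b₂ ≃ κ}
    (hφ : Sid φ fun n => s (.inl n)) (hψ : Sid ψ fun q => s (.inr q)) {L₁ : List (ν × ℕ × V)}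
    (h₁ : LG.Enum L₁) {L₂ : List (κ × ℕ × ℕ)} {n₁ : Fin b₁ → ℕ × ℕ} {n₂ : Fin b₂ → ℕ × ℕ}
    (h₂ : L₂.Perm ((List.ofFn fun i => (ψ (.inl i), n₁ i)) ++ List.ofFn fun i => (ψ (.inr i), n₂ i)))
    (FL FR : N → Fock.S (Deg.pR p D) →ₗ[ℂ] ℂ)
    {W : E → List (((ν × ℕ) ⊕ Fin r × Bool) × V × D.H) → ℂ}
    (hW : ∀ᶠ e in l, LG.SW (p.prod D.p) (W e))
    (h : ∀ v₁ v₂ h₁ h₂, ∀ᶠ e in l, W e (srt φ v₁ v₂ h₁ h₂) =
      ∑ q, FL q (monR p D (.ofFn v₁) (.ofFn n₁) (.ofFn fun e => (μ e, h₁ e))) *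
        FR q (monR p D (.ofFn v₂) (.ofFn n₂) (.ofFn fun e => (μ e, h₂ e)))) :
    ∀ᶠ e in l, ((∏ x, (μ x + 1) : ℕ) : ℂ) *
        ∑ t : Fin r → D.ι, W e (uns L₁ (D.fr.e ∘ t) (D.fr.f ∘ t)) =
      ∑ q, Deg.tp (FL q) (FR q) (Fock.map _ (Deg.isEv_ins D p p) (monS p s L₁ L₂) *
        (List.ofFn fun e => Deg.gam D p p (μ e)).prod) := by
  obtain ⟨I, hI⟩ : ∃ I : _ →ₗ[ℂ] ℂ, ∀ z, I z = ∑ q, Deg.tp (FL q) (FR q) z :=
    ⟨∑ q, Deg.tp (FL q) (FR q), fun z => LinearMap.sum_apply _ _ _⟩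
  obtain ⟨u, hu⟩ : ∃ u, u = Deg.InB.L _ _ (monR p D [] (.ofFn n₁) []) *
    Deg.InB.R _ _ (monR p D [] (.ofFn n₂) []) := ⟨_, rfl⟩
  have hu' : Fock.par _ u = u := by
    rw [hu, map_mul, par_map, par_map, (AlgC.monR_eq [] _ []).2, (AlgC.monR_eq [] _ []).2]
  have sw := AlgC.sw_pr (p := p) (fun n => s (.inl n)) μ I u
  have key : ∀ (x y : Fin r → D.H), (∀ e, D.p.σ (x e) = x e ∨ D.p.σ (x e) = -x e) →
      (∀ e, D.p.σ (y e) = y e ∨ D.p.σ (y e) = -y e) → ∀ L' L : List (ν × ℕ × V),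
      LG.Enum (L ++ L') → (∀ z ∈ L, p.σ z.2.2 = z.2.2 ∨ p.σ z.2.2 = -z.2.2) → ∀ᶠ e in l,
      W e (uns (L ++ L') x y) = I (u * AlgC.pr p D (fun n => s (.inl n)) μ (uns (L ++ L') x y)) := by
    intro x y hx hy L'
    induction L' with
    | nil =>
      intro L hL hh
      rw [List.append_nil] at hL ⊢
      obtain ⟨v₁, v₂, e⟩ := AlgC.exists_perm hL φ
      have e' := AlgC.srt_perm e x y
      filter_upwards [hW, h v₁ v₂ y x] with a k₁ k₂
      refine k₁.perm sw e' (fun z hz => ?_) ?_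
      · rcases List.mem_append.1 (e'.subset hz) with hz | hz
        · obtain ⟨w, hw, rfl⟩ := List.mem_map.1 hz
          exact (hh w hw).imp (fun k => by simp [k]) fun k => by simp [k]
        · obtain ⟨b, -, hz⟩ := List.mem_flatMap.1 hz
          rcases List.mem_pair.1 hz with rfl | rfl
          · exact (hx b).imp (fun k => by simp [k]) fun k => by simp [k]
          · exact (hy b).imp (fun k => by simp [k]) fun k => by simp [k]
      · rw [k₂, hI, AlgC.pr_srt μ hφ, hu, mul_assoc, ← mul_assoc (Deg.InB.R _ _ _),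
          comm_ev (y := Deg.InB.R _ _ _) (by rw [par_map, (AlgC.monR_eq [] _ []).2]), mul_assoc,
          ← mul_assoc, ← map_mul, ← map_mul, ← (AlgC.monR_eq _ _ _).1, ← (AlgC.monR_eq _ _ _).1]
        exact Finset.sum_congr rfl fun q _ => (Deg.InB.tp_ap _ _ _ _).symm
    | cons z L' ih =>
      intro L hL hh
      obtain ⟨n, m, v⟩ := z
      have k : ∀ w, p.σ w = w ∨ p.σ w = -w → _ := fun w hw => ih (L ++ [(n, m, w)])
        (hL.congr (by simp)) fun z hz => by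
          rcases List.mem_append.1 hz with hz | hz
          · exact hh z hz
          · rw [List.mem_singleton.1 hz]; exact hw
      have e : ∀ w, uns (L ++ [(n, m, w)] ++ L') x y =
          (L.map fun z => (.inl (z.1, z.2.1), z.2.2, 0)) ++ (.inl (n, m), w, 0) :: uns L' x y :=
        fun w => by simp [uns]
      filter_upwards [hW, k _ (.inl (p.σ_ev v)), k _ (.inr (p.σ_od v))] with a k₁ k₂ k₃
      rw [e] at k₂ k₃
      rw [List.append_cons, e, show (v, (0 : D.H)) = (p.ev v, 0) + (p.od v, 0) by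
        rw [Prod.mk_add_mk, p.ev_add_od, add_zero], k₁.add, k₂, k₃]
      exact (sw.add _ _ _ _ _).symm
  filter_upwards [eventually_all.2 fun t : Fin r → D.ι => key (D.fr.e ∘ t) (D.fr.f ∘ t)
    (fun e => AlgC.hom_of (D.fr.he _)) (fun e => AlgC.hom_of (D.fr.hf _)) L₁ [] h₁ (by simp)]
    with a ha
  rw [← hI, AlgC.prod_gam, mul_smul_comm, map_smul, monS, map_mul (Fock.map _ _),
    AlgC.nod_eq hψ h₂, ← hu, ← comm_ev hu']
  refine congrArg _ ?_
  rw [Finset.mul_sum, map_sum]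
  refine Finset.sum_congr rfl fun t _ => (ha t).trans ?_
  rw [List.nil_append, AlgC.pr_uns, mul_assoc]
  rfl

end Vale.Agent.P269
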