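import Vale.Agent.P269.Spl.Geo2
import Vale.Agent.P269.Base.NdU
import Vale.Agent.P269.Map.Hol

/-!
# Forgetting a factor of the chart
-/

set_option linter.unusedSectionVars false

namespace Vale.Agent.P269.Base

open Set Function Topology Filter Holo

variable {ι ι' : Type} [Fintype ι] [Fintype ι'] [DecidableEq ι] [DecidableEq ι'] {M : ι' → ℕ}
  {r : ι → ι'} {o : ι} {T P E : Type*} [TopologicalSpace T] [NormedAddCommGroup P] [NormedSpace ℂ P]
  [FiniteDimensional ℂ P] [NormedAddCommGroup E] [NormedSpace ℂ E] {C : T → Set (V M)} {π : T → P}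
  {t₀ : T} {σ : P × E → V M} {X : P → Set E}

theorem Orb.prj {c c' : V M} (e : Orb c c') : Orb (rV r c) (rV r c') :=
  let ⟨t, a, d⟩ := e
  ⟨fun j => t (r j), fun _ => a _, d ▸ rfl⟩

theorem an_rV {Y : Type*} [NormedAddCommGroup Y] [NormedSpace ℂ Y] {f : Y → V M} {y : Y}
    (h : AnalyticAt ℂ f y) : AnalyticAt ℂ (fun z => rV r (f z)) y :=
  ((rV (M := M) r).analyticAt _).comp h

theorem fderiv_rV {Y : Type*} [NormedAddCommGroup Y] [NormedSpace ℂ Y] {f : Y → V M} {y : Y}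
    (h : AnalyticAt ℂ f y) (e : Y) : fderiv ℂ (fun z => rV r (f z)) y e = rV r (fderiv ℂ f y e) :=
  congrArg (· e) ((rV (M := M) r).hasFDerivAt.comp y h.differentiableAt.hasFDerivAt).fderiv

/-- a property of the points of the curves over the points near `y` -/
theorem LocFam.ev_prj {o' : ι'} (h : LocFam o' C π t₀) {y : V fun i => M (r i)} (hy : ∀ i, y i ≠ 0)
    {p : T → V M → Prop} (hp : ∀ c ∈ C t₀, Orb y (rV r c) →
      ∃ c', Orb c' c ∧ ∀ᶠ q : T × V M in 𝓝 (t₀, c'), q.2 ∈ C q.1 → p q.1 q.2)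
    (hinv : ∀ t c c', Orb c c' → p t c → p t c') :
    ∀ᶠ q : T × V fun i => M (r i) in 𝓝 (t₀, y), ∀ c ∈ C q.1, rV r c = q.2 → p q.1 c := by
  have hf := h.comp (u := Prod.fst) (t' := (t₀, y)) (π' := fun q => π q.1) (k := id)
    continuousAt_fst ((continuousAt_fst.eventually h.cont).mono fun q a => a.comp continuousAt_fst)
    analyticAt_id (.of_forall fun _ => rfl)
  refine (hf.compact' (p := fun q => Orb q.1.2 (rV r q.2) → p q.1.1 q.2) (fun c k1 => ?_)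
    (.of_forall fun t c c' k1 k2 k3 => hinv _ _ _ k1 (k2 (k3.trans k1.prj.symm)))).mono
      fun q k1 c k2 k3 => k1 c k2 (k3 ▸ .refl _)
  by_cases k2 : Orb y (rV r c)
  · obtain ⟨c', k3, k4⟩ := hp c k1 k2
    exact ⟨c', k3, ((tendsto_pm (continuousAt_fst (p := (t₀, y))) _).eventually k4).mono
      fun q k5 k6 _ => k5 k6⟩
  · refine ⟨c, .refl _, (ev_not_orb (a := y) (b := rV r c) ?_ ?_ hy
      (fun i => h.ne_zero.self_of_nhds c k1 _) k2).mono fun q k3 _ k4 => absurd k4 k3⟩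
    exacts [ContinuousAt.tendsto (by fun_prop), ContinuousAt.tendsto (by fun_prop)]

theorem Chart.prj (h : Chart (r o) C π t₀ σ X) (hf : LocFam (r o) C π t₀)
    (h0 : σ (π t₀, 0) ∈ C t₀)
    (hi : ∀ c ∈ C t₀, ∀ c' ∈ C t₀, Orb (rV r c) (rV r c') → Orb c c') :
    Chart o (fun t => rV r '' C t) π t₀ (fun q => rV r (σ q)) X := by
  have hne := hf.ne_zero.self_of_nhds _ h0
  refine ⟨an_rV h.an, fun e s he => h.imm e s (by rwa [fderiv_rV h.an0] at he),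
    h.mem.mono fun q a d => ⟨_, a d, rfl⟩, fun U hU => ?_⟩
  refine (hf.ev_prj (p := fun t c => ∃ s : ι' → ℂ, ∃ z ∈ U, z ∈ X (π t) ∧ c = s • σ (π t, z))
    (fun i => hne _) (fun c k1 k2 => ⟨_, hi _ h0 c k1 k2, h.sub U hU⟩) ?_).mono ?_
  · rintro t c _ ⟨s, -, rfl⟩ ⟨s', z, k1, k2, rfl⟩
    exact ⟨s * s', z, k1, k2, smul_smul _ _ _⟩
  · rintro q k1 ⟨c, k2, k3⟩
    obtain ⟨s, z, k4, k5, rfl⟩ := k1 c k2 k3
    exact ⟨_, z, k4, k5, k3.symm.trans (rV_smul _ _)⟩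

/-- **projection of a family** -/
theorem LocFam.prj (h : LocFam (r o) C π t₀) (hr : Injective r)
    (hi : ∀ c ∈ C t₀, ∀ c' ∈ C t₀, Orb (rV r c) (rV r c') → Orb c c') :
    LocFam o (fun t => rV r '' C t) π t₀ := by
  have hc : ∀ᶠ t in 𝓝 t₀, ∀ s : ι → ℂ, (∀ i, s i ≠ 0) → ∀ c ∈ rV r '' C t, s • c ∈ rV r '' C t :=
    h.cone.mono (by
      rintro t a s hs _ ⟨c, d, rfl⟩
      obtain ⟨s, e, rfl⟩ := P269.exists_ext hr hs
      exact ⟨_, a s e c d, rfl⟩)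
  refine ⟨h.cont, h.ne_zero.mono ?_, hc, fun y k1 k2 => ?_, ?_⟩
  · rintro t a _ ⟨c, d, rfl⟩ i
    exact a c d _
  · refine (h.ev_prj (p := fun _ _ => False) k1 (fun c k3 k4 => ?_) fun _ _ _ _ => id).mono
      fun q k3 ⟨c, k4, k5⟩ => k3 c k4 k5
    obtain ⟨s, k5, rfl⟩ := k4.symm
    exact (k2 (hc.self_of_nhds s k5 _ ⟨c, k3, rfl⟩)).elim
  · rintro _ ⟨c, a, rfl⟩
    rcases h.chart c a with ⟨σ, rfl, d⟩ | ⟨τ, σ, rfl, d1, d2, d⟩
    exacts [.inl ⟨_, rfl, d.prj h a hi⟩, .inr ⟨τ, _, rfl, d1, d2, d.prj h a hi⟩]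

theorem Chart.exists_lam [FiniteDimensional ℂ E] (a : Chart (r o) C π t₀ σ X)
    (h : LocFam (r o) C π t₀) (hr : Injective r)
    (hi : ∀ c ∈ C t₀, ∀ c' ∈ C t₀, Orb (rV r c) (rV r c') → Orb c c') {c : V M} (hc : c ∈ C t₀)
    (e : σ (π t₀, 0) = c) : ∃ Λ : P × V (fun i => M (r i)) → V M, AnalyticAt ℂ Λ (π t₀, rV r c) ∧
      Λ (π t₀, rV r c) = c ∧ (∀ q, rV r (Λ q) = q.2) ∧
      ∀ᶠ q : T × V fun i => M (r i) in 𝓝 (t₀, rV r c), q.2 ∈ rV r '' C q.1 →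
        Λ (π q.1, q.2) ∈ C q.1 := by
  have hπ := h.cont.self_of_nhds
  subst e
  obtain ⟨ρ, k1, k2, -, k3⟩ := (a.prj h hc hi).exists_mem_iff hπ
    (fun i => h.ne_zero.self_of_nhds _ hc _) (h.prj hr hi).cone
  obtain ⟨S, hS⟩ := exists_rightInv (rV_surj (M := M) hr)
  obtain ⟨S', hS'⟩ := exists_rightInv (l := (.pi fun i => .proj (r i) : (ι' → ℂ) →L[ℂ] ι → ℂ))
    fun v => (exists_dep (E := fun _ => ℂ) hr v).imp fun _ => funext
  let Λ : P × V (fun i => M (r i)) → V M := fun q => (1 + S' ((ρ q).1 - 1)) • σ (q.1, (ρ q).2)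
  have k4 : AnalyticAt ℂ (fun q => 1 + S' ((ρ q).1 - 1)) (π t₀, rV r (σ (π t₀, 0))) :=
    analyticAt_const.add ((S'.analyticAt _).comp ((analyticAt_fst.comp k1).sub analyticAt_const))
  have k5 : AnalyticAt ℂ Λ (π t₀, rV r (σ (π t₀, 0))) := an_smul k4 (a.an.comp_of_eq
    (analyticAt_fst.prod (analyticAt_snd.comp k1)) (by rw [k2]))
  have k6 : ∀ q, rV r (Λ q) = (ρ q).1 • rV r (σ (q.1, (ρ q).2)) := fun q => by
    rw [rV_smul]
    congr 1
    exact funext fun i => (congrArg (1 + ·) (congrFun (hS' _) i)).trans (add_sub_cancel _ _)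
  have k7 : Tendsto (fun q : T × V fun i => M (r i) => (q.1, (ρ (π q.1, q.2)).2))
      (𝓝 (t₀, rV r (σ (π t₀, 0)))) (𝓝 (t₀, 0)) := continuousAt_fst.tendsto.prodMk_nhds
    ((k2 ▸ k1.continuousAt.tendsto :).comp (tendsto_pm hπ _)).snd_nhds
  have k8 := k4.continuousAt.tendsto.comp (tendsto_pm hπ _)
  simp only [k2, sub_self, map_zero, add_zero] at k8
  refine ⟨fun q => Λ q + S (q.2 - rV r (Λ q)), k5.add ((S.analyticAt _).comp
    (analyticAt_snd.sub (an_rV k5))), by simp [Λ, k2],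
    fun q => by rw [map_add, hS, add_sub_cancel], ?_⟩
  filter_upwards [k3, k7.eventually a.mem, k8.eventually (eventually_all.2 fun i =>
    (continuous_apply i).continuousAt.eventually_ne one_ne_zero),
    continuousAt_fst.eventually h.cone] with q e1 e2 e3 e4 e5
  rw [k6, ← (e1.1 e5).2, sub_self, map_zero, add_zero]
  exact e4 _ e3 _ (e2 (e1.1 e5).1)

/-- **lifting of points of the projected family** -/
theorem LocFam.exists_lam (h : LocFam (r o) C π t₀) (hr : Injective r)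
    (hi : ∀ c ∈ C t₀, ∀ c' ∈ C t₀, Orb (rV r c) (rV r c') → Orb c c') {c : V M}
    (hc : c ∈ C t₀) : ∃ Λ : P × V (fun i => M (r i)) → V M, AnalyticAt ℂ Λ (π t₀, rV r c) ∧
      Λ (π t₀, rV r c) = c ∧ (∀ q, rV r (Λ q) = q.2) ∧
      ∀ᶠ q : T × V fun i => M (r i) in 𝓝 (t₀, rV r c), q.2 ∈ rV r '' C q.1 →
        Λ (π q.1, q.2) ∈ C q.1 :=
  (h.chart c hc).elim (fun ⟨_, e, d⟩ => d.exists_lam h hr hi hc e)
    fun ⟨_, _, e, _, _, d⟩ => d.exists_lam h hr hi hc e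

/-- **lifting of charts** -/
theorem Chart.exists_lift {σ : P × E → V fun i => M (r i)}
    (h' : Chart o (fun t => rV r '' C t) π t₀ σ X) (h : LocFam (r o) C π t₀) (hr : Injective r)
    (hi : ∀ᶠ t in 𝓝 t₀, ∀ c ∈ C t, ∀ c' ∈ C t, Orb (rV r c) (rV r c') → Orb c c') {c : V M}
    (hc : c ∈ C t₀) (e : σ (π t₀, 0) = rV r c) : ∃ σ' : P × E → V M,
      Chart (r o) C π t₀ σ' X ∧ σ' (π t₀, 0) = c ∧ ∀ q, rV r (σ' q) = σ q := by
  have hπ := h.cont.self_of_nhds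
  obtain ⟨Λ, k1, k2, k3, k4⟩ := h.exists_lam hr hi.self_of_nhds hc
  rw [← e] at k1 k2 k4
  have k5 : AnalyticAt ℂ (fun q => Λ (q.1, σ q)) (π t₀, 0) :=
    k1.comp_of_eq (analyticAt_fst.prod h'.an) rfl
  have k6 : ∀ᶠ q : T × E in 𝓝 (t₀, 0), q.2 ∈ X (π q.1) → Λ (π q.1, σ (π q.1, q.2)) ∈ C q.1 := by
    filter_upwards [h'.mem, (continuousAt_fst.tendsto.prodMk_nhds (h'.tendsto hπ)).eventually k4]
      with q e1 e2 e3 using e2 (e1 e3)
  refine ⟨_, ⟨k5, fun v s hv => h'.imm v s ?_, k6, fun U hU => ?_⟩, k2, fun q => k3 _⟩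
  · have := fderiv_rV (r := r) (f := fun z => Λ (π t₀, σ (π t₀, z)))
      (k5.comp_of_eq (analyticAt_const.prod analyticAt_id) rfl) v
    simp only [k3] at this
    exact (congrFun this o).trans (hv.trans (congrArg (s • ·) (congrFun (k3 _) o)))
  · rw [nhds_prod_eq] at k6
    obtain ⟨A, hA, B, hB, k7⟩ := eventually_prod_iff.1 k6
    have k8 : Tendsto (fun q : T × V M => (q.1, rV r q.2)) (𝓝 (t₀, c)) (𝓝 (t₀, σ (π t₀, 0))) :=
      e ▸ ContinuousAt.tendsto (by fun_prop)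
    simp only [k2]
    filter_upwards [k8.eventually (h'.sub _ (inter_mem hU hB)), continuousAt_fst.eventually hA,
      continuousAt_fst.eventually hi, continuousAt_fst.eventually h.ne_zero] with q e1 e2 e3 e4 e5
    obtain ⟨s, z, e6, e7, e8⟩ := e1 ⟨_, e5, rfl⟩
    obtain ⟨s', -, e9⟩ := e3 _ (k7 e2 e6.2 e7) _ e5
      (.of_smul (fun i => e4 _ e5 _) (by rw [k3]; exact e8))
    exact ⟨s', z, e6.1, e7, e9⟩

end Vale.Agent.P269.Base

namespace Vale.Agent.P269.Ch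

open Set Function Topology Filter Holo Base Cv

variable {J ι ν ν' κ ε : Type} [Fintype J] [Fintype ι] [DecidableEq ι] [Fintype ν] [Fintype ν']
  [Fintype κ] [Fintype ε] {ch : Ch ι J} {i : ι} {b c : J} {h : ch.o ≠ i}

theorem DgC.num₀ (hc : ch.DgC i b c) (hm : ch.m ch.o ≠ 1) : ch.Num₀ :=
  ⟨hc.a_ne, ⟨none, hc.cut⟩, hc.k_ne, hm, hc.tight, hc.chi⟩

theorem flat_χ (j : {j // j ≠ i}) : (ch.flat h).χ j = ch.χ j.1 := by
  simp [Ch.χ, Subtype.ext_iff]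

theorem prod_flat {β : Type} [CommMonoid β] {f : ι → β} (hf : f i = 1) :
    ∏ j : {j // j ≠ i}, f j.1 = ∏ j, f j :=
  Fintype.prod_of_injective Subtype.val Subtype.val_injective _ _
    (fun j e => by rw [show j = i from by_contra fun k => e ⟨⟨j, k⟩, rfl⟩, hf]) fun _ => rfl

theorem DgC.cuts (hc : ch.DgC i b c) : ch.Cuts := ⟨hc.a_ne, none, hc.cut⟩

theorem DgC.cuts_flat (hc : ch.DgC i b c) : (ch.flat h).Cuts :=
  ⟨fun _ e => by simpa [show ch.a none ch.o = 0 from congrFun e ⟨ch.o, h⟩] using hc.cut ch.o,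
    none, fun j => hc.cut j.1⟩

theorem DgC.num₀_flat (hc : ch.DgC i b c) (hm : ch.m ch.o ≠ 1) : (ch.flat h).Num₀ := by
  refine ⟨hc.cuts_flat.ne, hc.cuts_flat.cut, hc.k_ne, hm, fun j => hc.tight j.1, ?_⟩
  simp only [flat_χ]
  rw [sum_sup (f := ch.χ) Subtype.val_injective fun j e => by
    rw [show j = i from by_contra fun k => e ⟨⟨j, k⟩, rfl⟩, hc.chi0]]
  exact hc.chi

theorem DgC.li (hc : ch.DgC i b c) :
    LinearIndependent ℤ fun o : Option Unit => o.elim ch.χ fun _ => ch.wd b := by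
  refine Fintype.linearIndependent_iff.2 fun g hg => ?_
  simp only [Fintype.sum_option, Finset.univ_unique, Finset.sum_singleton, Option.elim] at hg
  have h1 : g (some ()) = 0 := by
    simpa [hc.chi0, hc.wb, hc.ne.symm] using congrFun hg i
  rintro (_ | _)
  · rw [h1, zero_smul, add_zero] at hg
    exact (smul_eq_zero.1 hg).resolve_right fun e => hc.chi (by simp [e])
  · exact h1

theorem DgC.prod_χ (hc : ch.DgC i b c) (t : ι → ℂ) :
    ∏ j, t j.1 ^ (ch.flat h).χ j = ∏ j, t j ^ ch.χ j := by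
  simp only [flat_χ]
  exact prod_flat (f := fun j => t j ^ ch.χ j) (by rw [hc.chi0, zpow_zero])

theorem DgC.bz_χ (hc : ch.DgC i b c) {X : Type} [TopologicalSpace X] {R : RS X} (A : ι → LB R) :
    bz (fun j : {j // j ≠ i} => A j.1) (ch.flat h).χ = bz A ch.χ := by
  simp only [bz, flat_χ]
  exact prod_flat (f := fun j => A j ^ ch.χ j) (by rw [hc.chi0, zpow_zero])

theorem pj_smul (t : ι → ℂ) (c : V ch.M) :
    pj i (t • c) = (fun j : {j // j ≠ i} => t j.1) • pj i c := rfl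

section

variable {X : Type} [TopologicalSpace X] [T2Space X] [CompactSpace X] {R : RS X}
  {N : Finset (X × X)} {A : ι → LB R} {x : ch.W ν'} {π : X → V ch.M} {u : X → ∀ l, ch.E l →L[ℂ] ℂ}
  {p : ν' → X} {ξ : X → ℂ}

open Classical in
/-- the value of the trivialisation at an ordinary point -/
theorem _root_.Vale.Agent.P269.Cv.Cr.leadAt_iff (k : Cr N A x π u p ξ) {y : X}
    (hy : Sm N y ∧ y ∉ Finset.univ.image p) {t : ι → ℂ} (ht : ∀ i, t i ≠ 0) {a s : ℂ} (ha : a ≠ 0)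
    {v : V ch.M} (hv : v ch.o = s • π y ch.o + (t ch.o * a) • deriv (br A π y) 0 ch.o) {ρ : ℂ} :
    LeadAt x (t • π y) v ρ ↔ ρ = (∏ i, t i ^ ch.χ i) * ξ y / a ^ ch.k := by
  have e : ∀ μ, wedge μ (t • π y) v = chr ch.bω t * (t ch.o * (t ch.o * a)) ^ ch.k *
      wedge μ (π y) (deriv (br A π y) 0) := fun μ => wedge_smul μ _ _ _ _ hv
  have d : LeadAt x (t • π y) v ((∏ i, t i ^ ch.χ i) * ξ y / a ^ ch.k) := fun w hw μ => by
    rw [gr_unique hw (gr_smul (k.gr y) ht) (k.mem.1 _), _root_.smul_apply, k.leadAt hy _ (k.gr y), e,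
      chr_χ _ ht, smul_eq_mul]
    simp only [mul_pow]
    field_simp
  refine ⟨fun q => ?_, fun q => q ▸ d⟩
  obtain ⟨μ, hμ⟩ := exists_wedge_ne (k.par.ne y) (k.par.imm y)
  refine mul_right_cancel₀ (b := wedge μ (t • π y) v) ?_
    ((q _ (gr_smul (k.gr y) ht) μ).symm.trans (d _ (gr_smul (k.gr y) ht) μ))
  rw [e]
  exact mul_ne_zero (mul_ne_zero (chr_ne_zero ht)
    (pow_ne_zero _ (mul_ne_zero (ht _) (mul_ne_zero (ht _) ha)))) hμ

theorem _root_.Vale.Agent.P269.Cv.Cr.rsd_eq (k : Cr N A x π u p ξ) {n : ν'} {t : ι → ℂ}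
    (e : x.p n = t • π (p n)) : rsd x n = (∏ i, t i ^ ch.χ i) * ξ (p n) :=
  let ⟨_, a, d⟩ := k.exists_branch n
  (k.lead_mark a (d.trans e)).1 ((lead_iff_rsd k.mem a d).2 rfl)

end

section prj

variable {x : ch.W ν'} {y y' : (ch.flat h).W ν'}

theorem Prj.mem (H : Prj x y) : x ∈ ch.base ν' ∧ y ∈ (ch.flat h).base ν' :=
  let ⟨_, _, _, _, _, _, _, _, _, _, _, _, _, a, d⟩ := H
  ⟨a.mem, d.mem⟩

theorem Prj.crv (H : Prj x y) : crv y = pj i '' crv x := by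
  obtain ⟨-, X, _, _, _, R, N, A, π, u, p, ξ, u', a, d⟩ := H
  refine Set.ext fun c => (d.par.img c).trans ⟨?_, ?_⟩
  · rintro ⟨z, t, e, rfl⟩
    obtain ⟨s, f, rfl⟩ := exists_ext Subtype.val_injective e
    exact ⟨_, a.par.smul_mem z f, rfl⟩
  · rintro ⟨c, e, rfl⟩
    obtain ⟨z, t, f, rfl⟩ := (a.par.img c).1 e
    exact ⟨z, _, fun j => f j.1, rfl⟩

theorem Prj.mem_crv (H : Prj x y) {c : V ch.M} (hc : c ∈ Ch.crv x) : pj i c ∈ Ch.crv y :=
  H.crv ▸ ⟨c, hc, rfl⟩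

theorem Prj.orb (H : Prj x y) {c c' : V ch.M} (hc : c ∈ Ch.crv x) (hc' : c' ∈ Ch.crv x)
    (e : Base.Orb (pj i c) (pj i c')) : Base.Orb c c' := by
  obtain ⟨-, X, _, _, _, R, N, A, π, u, p, ξ, u', a, d⟩ := H
  obtain ⟨z, t, f, rfl⟩ := (a.par.img c).1 hc
  obtain ⟨z', t', f', rfl⟩ := (a.par.img c').1 hc'
  obtain ⟨s, -, e⟩ := e
  rw [pj_smul, pj_smul, smul_smul] at e
  rw [a.par.π_eq (d.par.fibre (fun j => f' j.1) e)]
  exact (Orb.symm ⟨t, f, rfl⟩).trans ⟨t', f', rfl⟩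

theorem Prj.isNode (H : Prj x y) {c : V ch.M} (hc : c ∈ Ch.crv x) :
    IsNode (ch.flat h).o (Ch.crv y) (pj i c) ↔ IsNode ch.o (Ch.crv x) c := by
  obtain ⟨-, X, _, _, _, R, N, A, π, u, p, ξ, u', a, d⟩ := H
  obtain ⟨z, t, f, rfl⟩ := (a.par.img c).1 hc
  rw [a.par.isNode_iff f, pj_smul]
  exact d.par.isNode_iff fun j => f j.1

theorem Prj.leadAt (hc : ch.DgC i b c) (H : Prj x y) {γ : ℂ → V ch.M}
    (hγ : IsBranch ch.o (Ch.crv x) γ) (hs : ¬Spc x (γ 0)) {ρ : ℂ} :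
    LeadAt y (pj i (γ 0)) (pj i (deriv γ 0)) ρ ↔ LeadAt x (γ 0) (deriv γ 0) ρ := by
  obtain ⟨-, X, _, _, _, R, N, A, π, u, p, ξ, u', a, d⟩ := H
  obtain ⟨z, t, s, r, ht, hr, hz, e0, e1, k⟩ := a.exists_leadAt hγ hs
  rw [k, e0, pj_smul, ← hc.prod_χ (h := h)]
  refine d.leadAt_iff hz (fun j => ht j.1) hr (s := s ch.o) ?_
  rw [br_rV, deriv_rV (an_br a.par.sec z)]
  exact e1 ch.o

theorem Prj.rsd (hc : ch.DgC i b c) (H : Prj x y) (n : ν') : rsd y n = rsd x n := by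
  obtain ⟨e, X, _, _, _, R, N, A, π, u, p, ξ, u', a, d⟩ := H
  obtain ⟨t, -, f⟩ := a.mark n
  rw [a.rsd_eq f, d.rsd_eq (t := fun j => t j.1) (by rw [e, f]; rfl), hc.prod_χ]

/-- every presentation projects -/
theorem Prj.cr (hc : ch.DgC i b c) (H : Prj x y) {X : Type} [TopologicalSpace X] [T2Space X]
    [CompactSpace X] {R : RS X} {N : Finset (X × X)} {A : ι → LB R} {π : X → V ch.M} {u} {p : ν' → X}
    {ξ : X → ℂ} (hx : Cr N A x π u p ξ) :
    ∃ u', Cr N (fun j => A j.1) y (fun z => pj i (π z)) u' p ξ := by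
  classical
  have a := (Par.res (σ := Subtype.val) (o := (ch.flat h).o) hx.par hx.cur Subtype.val_injective).1
  rw [← H.crv] at a
  obtain ⟨u', p', ξ', d⟩ := a.exists_cr H.mem.2
  obtain rfl : p = p' := funext fun n => d.orb_mark.1
    (let ⟨s, _, e⟩ := (hx.mark n).symm.prj (r := Subtype.val); ⟨s, H.1 n ▸ e⟩)
  refine ⟨u', (funext (eq_of_gen (hc.bz_χ (h := h) A ▸ d.xi.1) hx.xi.1 N
    (Finset.univ.image p) fun z hz => ?_) : ξ' = ξ) ▸ d⟩
  have e : ¬Spc x (br A π z 0) := fun k => (hx.spc_iff z (t := 1) fun _ => one_ne_zero).1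
    (by rwa [one_smul, ← br_zero (A := A) (π := π)]) hz
  have f := (H.leadAt hc (hx.par.isBranch z) e (ρ := ξ' z)).1 (by
    rw [br_zero, ← deriv_rV (an_br hx.par.sec z)]
    exact d.leadAt hz)
  rw [br_zero, ← one_smul (ι → ℂ) (π z)] at f
  simpa using (hx.leadAt_iff hz (fun _ => one_ne_zero) one_ne_zero (s := 0) (by simp)).1 f

/-- the projection is unique up to the frame -/
theorem Prj.unique (hc : ch.DgC i b c) (H : Prj x y) (H' : Prj x y') :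
    ∃ g, IsUnit ((1, g, 1) : (ch.flat h).A ν') ∧ y' = act (1, g, 1) y := by
  obtain ⟨X, _, _, _, R, N, A, π, u, p, ξ, k⟩ := exists_cr H.mem.1
  obtain ⟨v, a⟩ := H.cr hc k
  obtain ⟨v', a'⟩ := H'.cr hc k
  choose T hT using fun l => exists_lift (u := fun z => v' z l) (v := fun z => v z l)
    fun w => a'.u_surj (hc.cuts_flat.ne l) (a.u_mem l w)
  refine ⟨T, isUnit_iff.2 ⟨fun _ => isUnit_one, fun l => isUnit_of_inj fun w e => a.u_inj fun z => by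
    rw [← hT, e, map_zero], fun _ _ => one_ne_zero⟩, W.ext (fun l => ContinuousLinearMap.ext fun μ =>
      a'.u_ext fun z => ?_) (fun n => ?_) (ContinuousLinearMap.ext fun μ => a'.u_ext fun z => ?_)
      fun j => j.elim⟩
  · exact (a'.u_Q z l μ).trans ((hT l z _).trans (a.u_Q z l μ)).symm
  · exact (H'.1 n).trans ((H.1 n).symm.trans (funext fun _ => (one_smul ℂ _).symm))
  · exact (a'.Xi z μ).trans ((hT none z _).trans (a.Xi z μ)).symm

theorem isCurve_pj (hx : x ∈ ch.base ν') :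
    IsCurve (ch.flat h).o ch.g (ch.flat h).m (pj i '' crv x) :=
  let ⟨_, _, _, _, _, _, _, _, p⟩ := hx.2.2.1.isNodal.exists_par
  (Par.res (σ := Subtype.val) (o := (ch.flat h).o) p hx.2.2.1 Subtype.val_injective).2

theorem DgC.h_flat (hc : ch.DgC i b c) (hx : x ∈ ch.base ν') (l : Option Empty) :
    ((ch.flat h).h l : ℤ) = dg (ch.flat h).m ((ch.flat h).a l) + 1 - ch.g := by
  have := (isCurve_pj (h := h) hx).finrank_Hs ((hc.cuts_flat (h := h)).ne l)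
  exact Int.toNat_of_nonneg (le_of_le_of_eq (Nat.cast_nonneg _) this)

/-- projections with given Hilbert points -/
theorem exists_prj_of (hc : ch.DgC i b c) (hx : x ∈ ch.base ν')
    {Q : ∀ l, Tens (ch.flat h).M ((ch.flat h).a l) →L[ℂ] (ch.flat h).E l} (hQ : ∀ l, Surjective (Q l))
    (hk : ∀ l μ, Q l μ = 0 ↔ ∀ c ∈ pj i '' crv x, val μ c = 0) :
    ∃ Ξ, Prj x (W.mk' Q (fun n => pj i (x.p n)) Ξ fun j => j.elim) := by
  classical
  obtain ⟨X, _, _, _, R, N, A, π, u, p, ξ, k⟩ := exists_cr hx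
  obtain ⟨a, d⟩ := Par.res (σ := Subtype.val) (o := (ch.flat h).o) k.par k.cur Subtype.val_injective
  have e : ∀ Ξ, crv (W.mk' Q (fun n => pj i (x.p n)) Ξ fun j => j.elim) = pj i '' crv x := fun _ =>
    crv_eq a d hk (l := none) (fun j => (hc.cut j.1).trans' (by norm_num))
      ((hc.cut _).trans' (by norm_num))
  have f := hc.bz_χ (h := h) A ▸ k.xi
  obtain ⟨Ξ, hΞ⟩ := Par.exists_Xi (ch := ch.flat h) ((e 0).symm ▸ a) k.sm_image
    (fun s hs => mem_PP.1 (a.le_PP d (hc.cuts_flat.ne none) hs)) f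
  choose u' hu using fun z => mem_crv.1 (((e Ξ).symm ▸ a :).mem z)
  exact ⟨Ξ, fun _ => rfl, X, _, ‹_›, ‹_›, R, N, A, π, u, p, ξ, u', k, .of ((e Ξ).symm ▸ a) hQ
    (fun l μ q => (hk l μ).2 (a.val_eq_zero.2 q)) ((e Ξ).symm ▸ d) hu k.sm k.inj
    (fun n => (k.mark n).prj) f k.ne fun z => hΞ z _ (hu z)⟩

theorem exists_prj₀ (hc : ch.DgC i b c) (hx : x ∈ ch.base ν') : ∃ y : (ch.flat h).W ν', Prj x y := by
  obtain ⟨X, _, _, _, R, N, A, π, p⟩ := (isCurve_pj (h := h) hx).isNodal.exists_par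
  choose Q a d using fun l => exists_Q p (isCurve_pj hx) (hc.cuts_flat.ne l) (hc.h_flat hx l)
  exact ⟨_, (exists_prj_of hc hx a d).choose_spec⟩

theorem DgC.orb (hc : ch.DgC i b c) (hx : x ∈ ch.base ν') : ∀ c ∈ crv x, ∀ c' ∈ crv x,
    Base.Orb (pj i c) (pj i c') → Base.Orb c c' := fun _ a _ d =>
  (exists_prj₀ (h := hc.ne) hc hx).choose_spec.orb a d

/-- holomorphic tangent vectors and values of the trivialisation near an ordinary point -/
theorem exists_an_leadAt (hc : ch.Cuts) (hx : x ∈ ch.base ν') {c : V ch.M} (a : c ∈ crv x)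
    (d : ¬Spc x c) : ∃ (v : ch.W ν' × V ch.M → V ch.M) (Φ : ch.W ν' × V ch.M → ℂ),
      AnalyticAt ℂ v (x, c) ∧ AnalyticAt ℂ Φ (x, c) ∧ ∀ᶠ q in 𝓝 (x, c), q.1 ∈ ch.base ν' →
        q.2 ∈ crv q.1 → ∃ γ, IsBranch ch.o (crv q.1) γ ∧ γ 0 = q.2 ∧ deriv γ 0 = v q ∧
          ¬Spc q.1 (γ 0) ∧ LeadAt q.1 (γ 0) (deriv γ 0) (Φ q) := by
  have h1 := hc.locFam ⟨x, hx⟩
  obtain ⟨v, v1, v2⟩ := (h1.smAt a fun e => d (.inl e)).exists_tangent h1
  obtain ⟨γ, g1, g2, g3⟩ := v2.self_of_nhds a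
  obtain ⟨Φ, p1, p2⟩ := exists_leadU hx.1 (crv_ne a) (v := v (x, c)) (by
    have := g1.imm
    rwa [g2, g3] at this)
  have h2 : AnalyticAt ℂ (fun q : ch.W ν' × V ch.M => (q.1, q.2, v q)) (x, c) :=
    analyticAt_fst.prod (analyticAt_snd.prod v1)
  refine ⟨v, fun q => Φ (q.1, q.2, v q), v1, p1.comp_of_eq h2 rfl, ?_⟩
  filter_upwards [Base.ev_sub v2, h2.continuousAt.tendsto.eventually p2,
    eventually_not_spc hc hx a d] with q e1 e2 e3 e4 e5
  obtain ⟨γ, g1, g2, g3⟩ := e1 e4 e5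
  have e6 : ¬Spc q.1 (γ 0) := g2 ▸ e3 e4 e5
  obtain ⟨ρ, -, e7⟩ := exists_leadAt e4 g1 e6
  exact ⟨γ, g1, g2, g3, e6, e2 e5 ρ (by rwa [g2, g3] at e7) ▸ e7⟩

theorem DgC.locFam_pj (hc : ch.DgC i b c) (x : ch.base ν') :
    LocFam (ch.flat h).o (fun y : ch.base ν' => pj i '' crv y.1) Subtype.val x :=
  LocFam.prj (r := Subtype.val) (o := (ch.flat h).o) (hc.cuts.locFam x) Subtype.val_injective
    (hc.orb x.2)

theorem exists_prj (hc : ch.DgC i b c) (hx : x ∈ ch.base ν') :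
    ∃ pr : ch.W ν' → (ch.flat h).W ν', AnalyticAt ℂ pr x ∧
      ∀ᶠ x' in 𝓝 x, x' ∈ ch.base ν' → Prj x' (pr x') := by
  classical
  obtain ⟨y₀, H⟩ := exists_prj₀ (h := h) hc hx
  obtain ⟨y, h1, h2⟩ := (hc.locFam_pj (h := h) ⟨x, hx⟩).exists_ev' (isCurve_pj hx)
    (hc.cuts_flat.ne none) (hc.h_flat hx none) (p := Off y₀.p)
    fun _ a => (isCurve_pj hx).nod.frequently_not_node _ a
  choose z h3 h4 using h2.self_of_nhds.1
  choose Λ h5 h6 h7 h8 using fun k => LocFam.exists_lam (r := Subtype.val) (o := (ch.flat h).o)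
    (hc.cuts.locFam ⟨x, hx⟩) Subtype.val_injective (hc.orb hx) (h3 k)
  choose v Φ h9 h10 h11 using fun k => exists_an_leadAt hc.cuts hx (h3 k) (by
    rintro (e | ⟨n, s, e⟩)
    · exact (h1 k).2.1 (h4 k ▸ H.crv ▸ (H.isNode (h3 k)).2 e)
    · exact (h1 k).2.2 n (h4 k ▸ H.1 n ▸ (Orb.of_smul (crv_ne (h3 k)) e).prj))
  have k1 : ∀ k, AnalyticAt ℂ (fun w => (w, y k w)) x := fun k => analyticAt_id.prod (h1 k).1
  have k2 : ∀ k, AnalyticAt ℂ (fun w => (w, Λ k (w, y k w))) x := fun k =>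
    analyticAt_id.prod ((h5 k).comp_of_eq (k1 k) (congrArg _ (h4 k).symm))
  have k3 : ∀ k, (x, Λ k (x, y k x)) = (x, z k) := fun k => by rw [← h6 k, h4]
  let Q : ch.W ν' → ∀ l, Tens (ch.flat h).M ((ch.flat h).a l) →L[ℂ] (ch.flat h).E l :=
    fun w _ => Base.evP _ fun k => y k w
  let Ξ : ch.W ν' → Tn (ch.flat h).M (ch.flat h).slot →L[ℂ] (ch.flat h).E none := fun w =>
    .pi fun k => Φ k (w, Λ k (w, y k w)) • wedgeL (y k w) (pj i (v k (w, Λ k (w, y k w))))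
  have k4 : ∀ w μ k, Ξ w μ k = Φ k (w, Λ k (w, y k w)) *
      wedge μ (y k w) (pj i (v k (w, Λ k (w, y k w)))) := fun w μ k =>
    congrArg (_ * ·) (wedgeL_apply _ _ _)
  refine ⟨fun w => W.mk' (Q w) (fun n => pj i (w.p n)) (Ξ w) fun j => j.elim, W.an_iff.2
    ⟨fun l => (analyticAt_evP _).comp (f := fun q k => y k q) (AnalyticAt.pi fun k => (h1 k).1),
      fun n => an_rV (W.an_p analyticAt_id n), analyticAt_of_apply fun μ => AnalyticAt.pi fun k =>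
        (((h10 k).comp_of_eq (k2 k) (k3 k)).mul (an_wedge (ch := ch.flat h) analyticAt_const
          (h1 k).1 (an_rV (r := Subtype.val) ((h9 k).comp_of_eq (k2 k) (k3 k))))).congr
        (.of_forall fun w => (k4 w μ k).symm), fun j => j.elim⟩, ?_⟩
  filter_upwards [ev_sub' h2, eventually_all.2 fun k => (k3 k ▸ (k2 k).continuousAt.tendsto :).eventually
    (h11 k), eventually_all.2 fun k => (k1 k).continuousAt.tendsto.eventually
      (h4 k ▸ Base.ev_sub (h8 k) :)] with w e1 e2 e3 e4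
  obtain ⟨f1, f2, f3⟩ := e1 e4
  obtain ⟨Ξ', H'⟩ := exists_prj_of (Q := Q w) hc e4 (fun _ => f2) fun l μ =>
    ⟨fun a => f3 _ (Pol.isSec (val_mem μ)) (congrFun a), fun a => funext fun k => a _ (f1 k)⟩
  refine (ContinuousLinearMap.ext fun μ => funext fun k => ?_ : Ξ' = Ξ w) ▸ H'
  obtain ⟨γ, g1, g2, g3, g4, g5⟩ := e2 k e4 (e3 k e4 (f1 k))
  have := (H'.leadAt hc g1 g4).2 g5 (fun _ => .proj k) (by
    rw [g2, h7]
    exact ⟨(isCurve_pj (h := h) e4).ne_zero _ (f1 k), fun _ _ => rfl⟩) μ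
  rw [g2, g3, h7] at this
  exact this.trans (k4 w μ k).symm

end prj

end Vale.Agent.P269.Ch
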