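import Vale.Agent.P269.Base.Usc
import Vale.Agent.P269.Base.Cut

/-!
# Montel theorems with local bounds and with weights
-/

set_option linter.unusedSectionVars false

namespace Vale.Agent.P269.Base

open Set Function Topology Filter Metric Asymptotics Usc

variable {ι : Type} [Fintype ι] {M : ι → ℕ} {T P E : Type*} [TopologicalSpace T]
  [NormedAddCommGroup P] [NormedSpace ℂ P] [NormedAddCommGroup E] [NormedSpace ℂ E]
  [FiniteDimensional ℂ P] [FiniteDimensional ℂ E] {o : ι} {C : T → Set (V M)} {π : T → P} {t₀ : T}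
  {α : Type*} {a : ι → ℕ} {c : V M}

theorem Chart.inter {σ : P × E → V M} {X : P → Set E} (h : Chart o C π t₀ σ X)
    (hπ : ContinuousAt π t₀) {W : Set (V M)} (hW : W ∈ 𝓝 (σ (π t₀, 0))) :
    Chart o (fun t => C t ∩ W) π t₀ σ X :=
  ⟨h.an, h.imm, (h.mem.and ((h.tendsto hπ).eventually hW)).mono fun _ b d => ⟨b.1 d, b.2⟩,
    fun U hU => (h.sub U hU).mono fun _ b d => b d.1⟩

theorem IsSec.mono {C C' : Set (V M)} {f : V M → ℂ} (h : IsSec o C a f) (e : C' ⊆ C) :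
    IsSec o C' a f :=
  ⟨h.cont.mono e, fun t ht c hc => h.hom t ht c (e hc),
    fun γ hγ => h.holo γ ⟨hγ.holo, hγ.mem.mono fun _ b => e b, hγ.imm⟩⟩

/-- extension of a homogeneous function given in a chart -/
theorem Chart.ext {σ : P × E → V M} {X : P → Set E} (h : Chart o C π t₀ σ X)
    (hf : LocFam o C π t₀) (h0 : σ (π t₀, 0) ∈ C t₀) {D : Set (V M)} (hD : D ⊆ C t₀)
    {f : V M → ℂ} (hom : ∀ y ∈ D, ∀ r : ι → ℂ, (∀ i, r i ≠ 0) → r • y ∈ D ∧ f (r • y) = chr a r * f y)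
    {G : E → ℂ} (hG : AnalyticAt ℂ G 0)
    (e : ∀ᶠ z in 𝓝 0, z ∈ X (π t₀) → σ (π t₀, z) ∈ D → f (σ (π t₀, z)) = G z) :
    ∃ q, AnalyticAt ℂ q (σ (π t₀, 0)) ∧ ∀ᶠ y in 𝓝 (σ (π t₀, 0)), y ∈ D → f y = q y := by
  have hne := hf.ne_zero.self_of_nhds _ h0
  obtain ⟨ρ, h1, h2, -, h3⟩ := h.exists_mem_iff hf.cont.self_of_nhds hne hf.cone
  have h4 : AnalyticAt ℂ (fun y => ρ (π t₀, y)) (σ (π t₀, 0)) :=
    h1.comp_of_eq (analyticAt_const.prod analyticAt_id) rfl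
  have h5 := analyticAt_snd.comp h4
  refine ⟨fun y => chr a (ρ (π t₀, y)).1 * G (ρ (π t₀, y)).2, ((analyticAt_chr _).comp
    (analyticAt_fst.comp h4)).mul (hG.comp_of_eq h5 (congrArg Prod.snd h2)), ?_⟩
  filter_upwards [(Holo.tendsto_inr t₀ _).eventually h3,
    (h5.continuousAt.tendsto.mono_right (congrArg (fun w => 𝓝 w.2) h2).le).eventually e,
    eventually_ne hne] with y k1 k2 k3 k4
  obtain ⟨k5, k6⟩ := k1.1 (hD k4)
  have k7 := ne_of_smul_ne (k6 ▸ k3 :)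
  have k8 := (hom y k4 _ fun i => inv_ne_zero (k7 i)).1
  change (ρ (π t₀, y)).1⁻¹ • y ∈ D at k8
  rw [congrArg ((ρ (π t₀, y)).1⁻¹ • ·) k6, inv_smul_smul' k7] at k8
  exact (congrArg f k6).trans ((hom _ k8 _ k7).2.trans (congrArg _ (k2 k5 k8)))

/-- extension of a section from a dense subset -/
theorem Nod.exists_sec {C D : Set (V M)} (hD : ∀ c ∈ C, ∃ᶠ y in 𝓝 c, y ∈ D)
    (hC : Nod o C) {f : V M → ℂ}
    (hom : ∀ y ∈ D, ∀ r : ι → ℂ, (∀ i, r i ≠ 0) → r • y ∈ D ∧ f (r • y) = chr a r * f y)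
    (loc : ∀ c ∈ C, ∃ c', Orb c' c ∧ ∃ q, AnalyticAt ℂ q c' ∧ ∀ᶠ y in 𝓝 c', y ∈ D → f y = q y) :
    ∃ F, IsSec o C a F ∧ ∀ y ∈ C, y ∈ D → F y = f y := by
  have k : ∀ (r : ι → ℂ) (c : V M), AnalyticAt ℂ (fun y : V M => r • y) c := fun r c =>
    an_smul analyticAt_const analyticAt_id
  have h1 : ∀ c ∈ C, ∃ q, AnalyticAt ℂ q c ∧ ∀ᶠ y in 𝓝 c, y ∈ D → f y = q y := fun c hc => by
    obtain ⟨c', ⟨r, hr, rfl⟩, q, b, d⟩ := loc c hc
    have e := inv_smul_smul' hr c'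
    refine ⟨fun y => chr a r * q (r⁻¹ • y), analyticAt_const.mul (b.comp_of_eq (k _ _) e),
      (((k r⁻¹ _).continuousAt.tendsto.mono_right (congrArg 𝓝 e).le).eventually d).mono
        fun y g hy => ?_⟩
    have g' := (hom y hy r⁻¹ fun i => inv_ne_zero (hr i)).1
    exact (congrArg f (smul_inv_smul' hr y).symm).trans
      ((hom _ g' r hr).2.trans (congrArg _ (g g')))
  choose! q h1 h2 using h1
  refine ⟨fun c => q c c, isSec_of_hol (fun r hr c hc => ?_) fun c hc => ⟨q c, h1 c hc, ?_⟩,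
    fun y hy b => ((h2 y hy).self_of_nhds b).symm⟩
  · have b := hC.cone r hr c hc
    refine tendsto_nhds_unique_of_frequently_eq ((h1 _ b).comp (k r c)).continuousAt
      ((h1 c hc).continuousAt.tendsto.const_mul _) (((hD c hc).and_eventually
        ((h2 c hc).and ((k r c).continuousAt.eventually (h2 _ b)))).mono fun y g => ?_)
    exact (g.2.2 (hom y g.1 r hr).1).symm.trans ((hom y g.1 r hr).2.trans (congrArg _ (g.2.1 g.1)))
  · refine eventually_nhdsWithin_iff.2 ?_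
    filter_upwards [(h1 c hc).eventually_analyticAt, (h2 c hc).eventually_nhds] with y b d hy
    exact tendsto_nhds_unique_of_frequently_eq (h1 y hy).continuousAt b.continuousAt
      (((hD y hy).and_eventually (d.and (h2 y hy))).mono fun _ g =>
        (g.2.2 g.1).symm.trans (g.2.1 g.1))

/-- Montel on necks -/
theorem neck_montel (U : Ultrafilter α) {φ : α → ℂ × ℂ → ℂ} {τ : α → ℂ} (hτ : Tendsto τ U (𝓝 0))
    {B : ℝ} (hφ : ∀ᶠ q : α × (ℂ × ℂ) in U ×ˢ 𝓝 0, AnalyticAt ℂ (φ q.1) q.2 ∧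
      (q.2.1 * q.2.2 = τ q.1 → ‖φ q.1 q.2‖ ≤ B)) :
    ∃ G, AnalyticAt ℂ G 0 ∧ ∀ᶠ z' in 𝓝 0, ∀ z : α → ℂ × ℂ, Tendsto z U (𝓝 z') →
      (∀ᶠ n in U, (z n).1 * (z n).2 = τ n) → Tendsto (fun n => φ n (z n)) U (𝓝 (G z')) := by
  obtain ⟨pa, ha, pb, hb, hφ⟩ := eventually_prod_iff.1 hφ
  obtain ⟨r, hr, h5⟩ := nhds_basis_closedBall.eventually_iff.1 hb
  have h0 : ∀ z : ℂ × ℂ, ‖z‖ ≤ r → pb z := fun z hz => h5 (mem_closedBall_zero_iff.2 hz)
  have h1 : ∀ᶠ n in U, ∃ ab : (ℂ → ℂ) × (ℂ → ℂ), DifferentiableOn ℂ ab.1 (ball 0 r) ∧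
      DifferentiableOn ℂ ab.2 (ball 0 r) ∧
      (∀ u, ‖u‖ ≤ r / 2 → ‖ab.1 u‖ ≤ 2 * B ∧ ‖ab.2 u‖ ≤ 2 * B) ∧
      ∀ z : ℂ × ℂ, z.1 * z.2 = τ n → ‖z‖ < r → φ n z = ab.1 z.1 + ab.2 z.2 := by
    filter_upwards [ha, hτ.norm.eventually_lt_const
      (show ‖(0 : ℂ)‖ < (r / 2) ^ 2 by rw [norm_zero]; positivity)] with n b1 b3
    obtain ⟨f, g, hfg⟩ := laurent_split (φ := φ n) (B := B) hr b3
      (fun u u1 u2 u3 => by
        obtain ⟨n1, n2, -⟩ := neck hr u2 u3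
        exact (hφ b1 (h0 (u, τ n / u) (max_le u1 n1))).1.comp (f := fun x => (x, τ n / x))
          (analyticAt_id.prod (an_shift (f := fun x => τ n / x) n2)))
      (fun u u1 u2 u3 => by
        obtain ⟨n1, n2, -⟩ := neck hr u2 u3
        exact (hφ b1 (h0 (τ n / u, u) (max_le n1 u1))).1.comp (f := fun x => (τ n / x, x))
          ((an_shift (f := fun x => τ n / x) n2).prod analyticAt_id))
      fun z z1 z2 => (hφ b1 (h0 z z2)).2 z1
    exact ⟨(f, g), hfg⟩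
  obtain ⟨ab, h1⟩ := h1.choice
  have hr2 : ball (0 : ℂ) (r / 2) ⊆ ball 0 r := ball_subset_ball (half_le_self hr.le)
  obtain ⟨f, f1, f2⟩ := montel_lim U (f := fun n => (ab n).1) (B := 2 * B) (half_pos hr)
    (h1.mono fun n hn => ⟨hn.1.mono hr2, fun z hz => (hn.2.2.1 z (mem_ball_zero_iff.1 hz).le).1⟩)
  obtain ⟨g, g1, g2⟩ := montel_lim U (f := fun n => (ab n).2) (B := 2 * B) (half_pos hr)
    (h1.mono fun n hn => ⟨hn.2.1.mono hr2, fun z hz => (hn.2.2.1 z (mem_ball_zero_iff.1 hz).le).2⟩)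
  refine ⟨fun z => f z.1 + g z.2,
    (f1.comp_of_eq analyticAt_fst rfl).add (g1.comp_of_eq analyticAt_snd rfl), ?_⟩
  filter_upwards [ball_mem_nhds _ (half_pos hr)] with z' hz' z hz hzX
  have h2 := mem_ball_zero_iff.1 hz'
  refine ((f2 z'.1 (mem_ball_zero_iff.2 ((norm_fst_le _).trans_lt h2)) _
    ((continuous_fst.tendsto _).comp hz)).add
    (g2 z'.2 (mem_ball_zero_iff.2 ((norm_snd_le _).trans_lt h2)) _
      ((continuous_snd.tendsto _).comp hz))).congr' ?_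
  filter_upwards [h1, hzX, hz.norm.eventually_lt_const (h2.trans (half_lt_self hr))] with n b1 b2 b3
  exact (b1.2.2.2 _ b2 b3).symm

/-- Points of the curves `C (x n)` near `c`. -/
noncomputable def FlM (C : T → Set (V M)) (U : Filter α) (x : α → T) (c : V M) : Filter (α × V M) :=
  U ×ˢ 𝓝 c ⊓ 𝓟 {q | q.2 ∈ C (x q.1)}

theorem ev_flM {U : Filter α} {x : α → T} {p : α × V M → Prop} :
    (∀ᶠ q in FlM C U x c, p q) ↔ ∀ᶠ q in U ×ˢ 𝓝 c, q.2 ∈ C (x q.1) → p q :=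
  eventually_inf_principal

theorem flM_le {U : Filter α} {x : α → T} : FlM C U x c ≤ U ×ˢ 𝓝 c := inf_le_left

variable (h : LocFam o C π t₀) {U : Ultrafilter α} {x : α → T} (hx : Tendsto x U (𝓝 t₀))
  {s : α → V M → ℂ}
include h hx

theorem LocFam.lim_unique (hc : c ∈ C t₀) {w w' : ℂ} (h1 : Lim C U x s c w)
    (h2 : Lim C U x s c w') : w = w' :=
  let ⟨y, y1, y2⟩ := h.exists_approx hc
  tendsto_nhds_unique (h1 (fun n => y (x n)) (y1.comp hx) (hx.eventually y2))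
    (h2 _ (y1.comp hx) (hx.eventually y2))

theorem LocFam.lim_smul {w : ℂ} (h1 : Lim C U x s c w) {r : ι → ℂ} (hr : ∀ i, r i ≠ 0)
    (hs : ∀ n y, s n (r • y) = chr a r * s n y) : Lim C U x s (r • c) (chr a r * w) :=
  fun y y1 y2 => ((h1 (fun n => r⁻¹ • y n) (inv_smul_smul' hr c ▸ y1.const_smul r⁻¹)
    ((y2.and (hx.eventually h.cone)).mono fun _ b =>
      b.2 _ (fun i => inv_ne_zero (hr i)) _ b.1)).const_mul _).congr fun n => by
        rw [← hs, smul_inv_smul' hr]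

theorem LocFam.tendsto_flM {r : ι → ℂ} (hr : ∀ i, r i ≠ 0) :
    Tendsto (fun q : α × V M => (q.1, r • q.2)) (FlM C U x c) (FlM C U x (r • c)) :=
  tendsto_inf.2 ⟨(tendsto_fst.prodMk (tendsto_snd.const_smul r)).mono_left flM_le,
    tendsto_principal.2 (ev_flM.2 ((tendsto_fst.eventually (hx.eventually h.cone)).mono
      fun _ b => b r hr _))⟩

/-- Montel with a local bound -/
theorem LocFam.loc_lim (hc : c ∈ C t₀) (hs : ∀ n, s n ∈ Pol M a)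
    (hb : (fun q => s q.1 q.2) =O[FlM C U x c] fun _ => (1 : ℝ)) :
    ∃ Φ : V M → ℂ, AnalyticAt ℂ Φ c ∧ ∀ᶠ c' in 𝓝 c, Lim C U x s c' (Φ c') := by
  have hne := h.ne_zero.self_of_nhds c hc
  have hπ := h.cont.self_of_nhds
  obtain ⟨B, hB, hb⟩ := hb.exists_pos
  obtain ⟨pa, ha, pb, hW, hb⟩ := eventually_prod_iff.1 (ev_flM.1 hb.bound)
  have h0 : 0 < ∏ i, ‖c i‖ ^ a i :=
    Finset.prod_pos fun i _ => pow_pos (norm_pos_iff.2 (hne i)) _
  obtain ⟨β, h1, h2⟩ := exists_between h0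
  have h3 := hW.and ((by fun_prop : Continuous fun y : V M => ∏ i, ‖y i‖ ^ a i).continuousAt
    |>.eventually_const_lt h2)
  have h4 : ((β / B : ℝ) : ℂ) ≠ 0 := Complex.ofReal_ne_zero.2 (div_pos h1 hB).ne'
  have h5 : ∀ᶠ n in U, IsSec o (C (x n) ∩ {y | pb y ∧ β < ∏ i, ‖y i‖ ^ a i}) a
      (fun y => ((β / B : ℝ) : ℂ) * s n y) ∧ ∀ y ∈ C (x n) ∩ {y | pb y ∧ β < ∏ i, ‖y i‖ ^ a i},
        ‖((β / B : ℝ) : ℂ) * s n y‖ ≤ ∏ i, ‖y i‖ ^ a i :=
    ha.mono fun n b => ⟨IsSec.const_mul (Pol.isSec (hs n)) _, fun y hy => by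
      have := hb b hy.2.1 hy.1
      rw [norm_one, mul_one] at this
      rw [norm_mul, Complex.norm_real, Real.norm_of_nonneg (div_pos h1 hB).le]
      exact (mul_le_mul_of_nonneg_left this (div_pos h1 hB).le).trans
        ((div_mul_cancel₀ _ hB.ne').trans_le hy.2.2.le)⟩
  obtain ⟨Φ, h6, h7⟩ := (h.chart c hc).elim (fun ⟨σ, e, k⟩ => lim_sm
    (C := fun t => C t ∩ {y | pb y ∧ β < ∏ i, ‖y i‖ ^ a i}) ⟨σ, e, k.inter hπ (e ▸ h3)⟩ hπ hne U hx h5)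
      fun ⟨τ, σ, e, k1, k2, k⟩ => lim_nd ⟨σ, e, k1, k2, k.inter hπ (e ▸ h3)⟩ hπ hne U hx h5
  refine ⟨fun y => ((β / B : ℝ) : ℂ)⁻¹ * Φ y, analyticAt_const.mul h6, ?_⟩
  filter_upwards [h7, h3.eventually_nhds] with c' b d y y1 y2
  exact ((b y y1 ((y2.and (y1.eventually d)).mono fun _ g => g)).const_mul _).congr fun n =>
    inv_mul_cancel_left₀ h4 _

/-- normalisation with respect to local weights -/
theorem LocFam.normalise {Z : Type*} {c : Z → V M} (hc : ∀ j, c j ∈ C t₀)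
    (cov : ∀ y ∈ C t₀, ∃ j, Orb (c j) y) (S₀ : Finset Z) {g : Z → α → V M → ℂ} {p : Z → V M → Prop}
    (hp : ∀ j, ∀ᶠ y in 𝓝 (c j), p j y) (hg : ∀ j, ∀ᶠ q in U ×ˢ 𝓝 (c j), ContinuousAt (g j q.1) q.2 ∧
      (q.2 ∈ C (x q.1) → s q.1 q.2 ≠ 0 → g j q.1 q.2 ≠ 0))
    (hs : ∀ᶠ n in U, ∃ y ∈ C (x n), ∀ r : ι → ℂ, (∀ i, r i ≠ 0) → s n (r • y) ≠ 0) :
    ∃ lam : α → ℂ, (∀ y ∈ C t₀, ∃ (j : Z) (r : ι → ℂ), (∀ i, r i ≠ 0) ∧ p j (r • y) ∧
        ∀ᶠ q in FlM C U x (r • y), ‖lam q.1 * g j q.1 q.2‖ ≤ 1) ∧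
      (∀ j ∈ S₀, ∀ᶠ q in FlM C U x (c j), ‖lam q.1 * g j q.1 q.2‖ ≤ 1) ∧
      ∃ j, ∃ y₀ ∈ C t₀, p j y₀ ∧ ∃ y : α → V M, Tendsto y U (𝓝 y₀) ∧ (∀ᶠ n in U, y n ∈ C (x n)) ∧
        ¬Tendsto (fun n => lam n * g j n (y n)) U (𝓝 0) := by
  classical
  have hne := h.ne_zero.self_of_nhds
  have h1 : ∀ j, ∃ W ∈ 𝓝 (c j), IsCompact W ∧ (∀ y ∈ W, p j y ∧ ∀ i, y i ≠ 0) ∧ ∀ᶠ n in U,
      ∀ y ∈ W, ContinuousAt (g j n) y ∧ (y ∈ C (x n) → s n y ≠ 0 → g j n y ≠ 0) := fun j => by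
    obtain ⟨pa, ha, pb, hb, k⟩ := eventually_prod_iff.1 (hg j)
    obtain ⟨W, k1, k2, k3⟩ := local_compact_nhds (hb.and ((hp j).and (eventually_ne (hne _ (hc j)))))
    exact ⟨W, k1, k3, fun y hy => (k2 hy).2, ha.mono fun n b y hy => k b (k2 hy).1⟩
  choose W w1 w2 w3 w4 using h1
  let O : Z → Set (V M) := fun j => {y | ∃ r : ι → ℂ, (∀ i, r i ≠ 0) ∧ r • y ∈ interior (W j)}
  have o1 : ∀ j, IsOpen (O j) := fun j => isOpen_iff_mem_nhds.2 fun y ⟨r, b, d⟩ =>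
    ((continuous_const_smul r).continuousAt.eventually (isOpen_interior.mem_nhds d)).mono
      fun _ e => ⟨r, b, e⟩
  have o2 : ∀ j y y', Orb y y' → y' ∈ O j → y ∈ O j := fun j y _ ⟨r', b', e⟩ ⟨r, b, d⟩ =>
    ⟨r * r', fun i => mul_ne_zero (b i) (b' i), by rwa [mul_smul, ← e]⟩
  obtain ⟨S₁, hS⟩ := h.nod.isCompact.elim_finite_subcover O o1 fun y hy =>
    (cov y hy.1).elim fun j b => mem_iUnion.2 ⟨j, o2 j _ _ b.symm
      ⟨1, fun _ => one_ne_zero, (one_smul (ι → ℂ) (c j)).symm ▸ mem_interior_iff_mem_nhds.2 (w1 j)⟩⟩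
  have o3 : ∀ y ∈ C t₀, ∃ j ∈ S₁ ∪ S₀, y ∈ O j := fun y hy => by
    obtain ⟨y', b, d⟩ := exists_orb_sphere (hne y hy)
    obtain ⟨j, e, f⟩ := mem_iUnion₂.1 (hS ⟨h.nod.orb hy b, d⟩)
    exact ⟨j, Finset.mem_union_left _ e, o2 j _ _ b f⟩
  have o4 := hx.eventually (h.compact (p := fun q => ∃ j ∈ S₁ ∪ S₀, q.2 ∈ O j)
    (fun y hy => (o3 y hy).elim fun j b => (continuousAt_snd.eventually
      ((o1 j).mem_nhds b.2)).mono fun _ d _ => ⟨j, b.1, d⟩)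
    (.of_forall fun t r hr y _ b => b.imp fun j d => ⟨d.1, o2 j _ _ ⟨r, hr, rfl⟩ d.2⟩))
  have h2 : ∀ᶠ n in U, ∃ l : ℂ, (∀ j ∈ S₁ ∪ S₀, ∀ y ∈ W j, y ∈ C (x n) → ‖l * g j n y‖ ≤ 1) ∧
      ∃ j ∈ S₁ ∪ S₀, ∃ y, y ∈ W j ∧ y ∈ C (x n) ∧ 1 / 2 < ‖l * g j n y‖ := by
    filter_upwards [o4, hs, (eventually_all_finset (S₁ ∪ S₀)).2 fun j _ => w4 j,
      hx.eventually h.cone] with n b1 ⟨y, hy, b2⟩ b3 b4
    let A : Set ℝ := ⋃ j ∈ S₁ ∪ S₀, (fun y => ‖g j n y‖) '' (W j ∩ C (x n))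
    have a1 : BddAbove A := (Finset.finite_toSet _).bddAbove_biUnion.2 fun j hj =>
      ((w2 j).bddAbove_image (continuousOn_of_forall_continuousAt fun y hy =>
        (b3 j hj y hy).1).norm).mono (image_mono inter_subset_left)
    have a2 : ∀ j ∈ S₁ ∪ S₀, ∀ y ∈ W j, y ∈ C (x n) → ‖g j n y‖ ≤ sSup A := fun j hj y b d =>
      le_csSup a1 (mem_biUnion hj ⟨y, ⟨b, d⟩, rfl⟩)
    obtain ⟨j, hj, r, hr, b5⟩ := b1 y hy
    have b6 := interior_subset b5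
    have a3 : 0 < sSup A := (norm_pos_iff.2 ((b3 j hj _ b6).2 (b4 r hr y hy) (b2 r hr))).trans_le
      (a2 j hj _ b6 (b4 r hr y hy))
    obtain ⟨_, a4, a5⟩ := exists_lt_of_lt_csSup (s := A)
      ⟨_, mem_biUnion hj ⟨_, ⟨b6, b4 r hr y hy⟩, rfl⟩⟩ (half_lt_self a3)
    obtain ⟨j', hj', y', a6, rfl⟩ := mem_iUnion₂.1 a4
    have a7 : ∀ w : ℂ, ‖((sSup A : ℝ) : ℂ)⁻¹ * w‖ = ‖w‖ / sSup A := fun w => by
      rw [norm_mul, norm_inv, Complex.norm_real, Real.norm_of_nonneg a3.le, div_eq_inv_mul]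
    refine ⟨((sSup A : ℝ) : ℂ)⁻¹, fun j hj y b d => (a7 _).trans_le ((div_le_one a3).2 (a2 j hj y b d)),
      j', hj', y', a6.1, a6.2, ?_⟩
    rw [a7, lt_div_iff₀ a3, one_div_mul_eq_div]
    exact a5
  obtain ⟨lam, h2⟩ := h2.choice
  have h3 : ∀ j ∈ S₁ ∪ S₀, ∀ y, W j ∈ 𝓝 y → ∀ᶠ q in FlM C U x y, ‖lam q.1 * g j q.1 q.2‖ ≤ 1 :=
    fun j hj y b => ev_flM.2 ((h2.prod_mk b).mono fun q d => d.1.1 j hj _ d.2)
  refine ⟨lam, fun y hy => ?_, fun j hj => h3 j (Finset.mem_union_right _ hj) _ (w1 j), ?_⟩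
  · obtain ⟨j, hj, r, hr, b⟩ := o3 y hy
    exact ⟨j, r, hr, (w3 j _ (interior_subset b)).1, h3 j hj _ (mem_interior_iff_mem_nhds.1 b)⟩
  · obtain ⟨j, -, b⟩ := (Ultrafilter.eventually_exists_mem_iff (Finset.finite_toSet _)).1
      (h2.mono fun n d => d.2)
    obtain ⟨y, b⟩ := b.choice
    obtain ⟨y₀, d, e⟩ := (w2 j).ultrafilter_le_nhds' (U.map y) (b.mono fun n d => d.1)
    have e' : Tendsto y U (𝓝 y₀) := e
    refine ⟨j, y₀, by_contra fun k => ?_, (w3 j _ d).1, y, e', b.mono fun n d => d.2.1, fun k => ?_⟩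
    · obtain ⟨n, b1, b2⟩ := (((hx.prodMk_nhds e').eventually (h.usc _ (w3 j _ d).2 k)).and b).exists
      exact b1 b2.2.1
    · obtain ⟨n, b1, b2⟩ := ((k.norm.eventually_lt_const
        (show ‖(0 : ℂ)‖ < 1 / 2 by rw [norm_zero]; exact one_half_pos)).and b).exists
      exact b1.not_gt b2.2.2

/-- **twisted Montel**: weight `1` on `SB`, `t` on `SC` and `z ^ u` on the necks -/
theorem LocFam.twisted {ε : Type} [Fintype ε] {σ : ε → P × (ℂ × ℂ) → V M} {τ : ε → P → ℂ}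
    (hσ : ∀ e, Chart o C π t₀ (σ e) fun p => {z | z.1 * z.2 = τ e p}) (τ0 : ∀ e, τ e (π t₀) = 0)
    (hτ : ∀ e, Tendsto (fun n => τ e (π (x n))) U (𝓝 0)) {SB SC : Set (V M)}
    (hB : ∀ y ∈ SB, y ∈ C t₀ ∧ (∀ᶠ y' in 𝓝 y, y' ∈ C t₀ → y' ∈ SB) ∧ ∀ y', Orb y y' → y' ∈ SB)
    (hC : ∀ y ∈ SC, y ∈ C t₀ ∧ (∀ᶠ y' in 𝓝 y, y' ∈ C t₀ → y' ∈ SC) ∧ ∀ y', Orb y y' → y' ∈ SC)
    (dj : ∀ y ∈ SB, y ∉ SC) (cov : ∀ y ∈ C t₀, y ∈ SB ∨ y ∈ SC ∨ ∃ e, Orb (σ e (π t₀, 0)) y)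
    (nd : ∀ e, ∀ᶠ z : ℂ × ℂ in 𝓝 0, z.1 * z.2 = 0 →
      (σ e (π t₀, z) ∈ SB ↔ z.1 ≠ 0) ∧ (σ e (π t₀, z) ∈ SC ↔ z.2 ≠ 0))
    (hs : ∀ n, s n ∈ Pol M a) (h0 : ∀ᶠ n in U, ∃ y ∈ C (x n), s n y ≠ 0) {u : ε → ℕ} {t : α → ℂ}
    {cf : α → ε → ℂ} {A : ε → ℂ} (hA : ∀ e, A e ≠ 0) (hcf : Tendsto cf U (𝓝 A))
    (ht : ∀ᶠ n in U, t n ≠ 0 ∧ ∀ e, cf n e * τ e (π (x n)) ^ u e = t n) (hu : ∀ e, u e ≠ 0) :
    ∃ lam : α → ℂ, (∀ y ∈ SB, ∃ Φ, AnalyticAt ℂ Φ y ∧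
        ∀ᶠ y' in 𝓝 y, Lim C U x (fun n y => lam n * s n y) y' (Φ y')) ∧
      (∀ y ∈ SC, ∃ Φ, AnalyticAt ℂ Φ y ∧
        ∀ᶠ y' in 𝓝 y, Lim C U x (fun n y => lam n * t n * s n y) y' (Φ y')) ∧
      (∀ e, ∃ G : ℂ × ℂ → ℂ, AnalyticAt ℂ G 0 ∧ ∀ᶠ z in 𝓝 0, z.1 * z.2 = 0 →
        (z.1 ≠ 0 → Lim C U x (fun n y => lam n * s n y) (σ e (π t₀, z)) (G z / z.1 ^ u e)) ∧
        (z.2 ≠ 0 → Lim C U x (fun n y => lam n * t n * s n y) (σ e (π t₀, z))
          (A e * z.2 ^ u e * G z))) ∧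
      ¬((∀ y ∈ SB, Lim C U x (fun n y => lam n * s n y) y 0) ∧
        ∀ y ∈ SC, Lim C U x (fun n y => lam n * t n * s n y) y 0) := by
  classical
  have hne := h.ne_zero.self_of_nhds
  have hπ := h.cont.self_of_nhds
  have hx' := hπ.tendsto.comp hx
  have m0 : ∀ e, σ e (π t₀, 0) ∈ C t₀ := fun e =>
    (hσ e).mem0.self_of_nhds ((zero_mul _).trans (τ0 e).symm)
  choose ρ r1 r2 r3 r4 using fun e => (hσ e).exists_mem_iff hπ (hne _ (m0 e)) h.cone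
  let p : ε → V M → Prop := fun e y => ContinuousAt (ρ e) (π t₀, y) ∧
    (∀ᶠ q : T × V M in 𝓝 (t₀, y), q.2 ∈ C q.1 →
      (ρ e (π q.1, q.2)).2.1 * (ρ e (π q.1, q.2)).2.2 = τ e (π q.1) ∧
        q.2 = (ρ e (π q.1, q.2)).1 • σ e (π q.1, (ρ e (π q.1, q.2)).2)) ∧
    (y ∈ C t₀ → (y ∈ SB ↔ (ρ e (π t₀, y)).2.1 ≠ 0) ∧ (y ∈ SC ↔ (ρ e (π t₀, y)).2.2 ≠ 0))
  have p1 : ∀ e, ∀ᶠ y in 𝓝 (σ e (π t₀, 0)), p e y := fun e => by
    have k := Holo.tendsto_inr (π t₀) (σ e (π t₀, 0))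
    filter_upwards [k.eventually (r1 e).eventually_analyticAt,
      (Holo.tendsto_inr t₀ _).eventually (r4 e).eventually_nhds, ((continuous_snd.tendsto _).comp
        (r2 e ▸ (r1 e).continuousAt.tendsto.comp k :)).eventually (nd e)] with y k1 k2 k3
    refine ⟨k1.continuousAt, k2.mono fun q b d => b.1 d, fun hy => ?_⟩
    obtain ⟨k4, k5⟩ := k2.self_of_nhds.1 hy
    have k6 : Orb _ y := .of_smul (hne y hy) k5
    obtain ⟨k7, k8⟩ := k3 (k4.trans (τ0 e))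
    exact ⟨⟨fun b => k7.1 ((hB _ b).2.2 _ k6.symm), fun b => (hB _ (k7.2 b)).2.2 _ k6⟩,
      fun b => k8.1 ((hC _ b).2.2 _ k6.symm), fun b => (hC _ (k8.2 b)).2.2 _ k6⟩
  have p2 : ∀ e y, p e y → Tendsto (fun q : α × V M => ρ e (π (x q.1), q.2)) (U ×ˢ 𝓝 y)
      (𝓝 (ρ e (π t₀, y))) := fun e y b =>
    b.1.tendsto.comp ((hx'.comp tendsto_fst).prodMk_nhds tendsto_snd)
  have p3 : ∀ e y, p e y → ∀ᶠ q : α × V M in U ×ˢ 𝓝 y, q.2 ∈ C (x q.1) →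
      (ρ e (π (x q.1), q.2)).2.1 * (ρ e (π (x q.1), q.2)).2.2 = τ e (π (x q.1)) ∧
        q.2 = (ρ e (π (x q.1), q.2)).1 • σ e (π (x q.1), (ρ e (π (x q.1), q.2)).2) :=
    fun e y b => ((hx.comp tendsto_fst).prodMk_nhds tendsto_snd).eventually b.2.1
  have t1 : ∀ {n e} {z : ℂ × ℂ}, z.1 * z.2 = τ e (π (x n)) →
      (t n ≠ 0 ∧ ∀ e, cf n e * τ e (π (x n)) ^ u e = t n) → ∀ w : ℂ,
        z.1 ≠ 0 ∧ t n * w = cf n e * z.2 ^ u e * (z.1 ^ u e * w) := fun {n e z} b d w =>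
    ⟨fun k => d.1 (by rw [← d.2 e, ← b, k, zero_mul, zero_pow (hu e), mul_zero]),
      by rw [← d.2 e, ← b]; ring⟩
  obtain ⟨lam, l1, l2, l3⟩ := h.normalise hx (Z := SB ⊕ SC ⊕ ε) (s := s)
    (c := Sum.elim Subtype.val (Sum.elim Subtype.val fun e => σ e (π t₀, 0)))
    (Sum.rec (fun y => (hB _ y.2).1) (Sum.rec (fun y => (hC _ y.2).1) m0))
    (fun y hy => (cov y hy).elim (fun b => ⟨.inl ⟨y, b⟩, .refl _⟩) fun b => b.elim
      (fun b => ⟨.inr (.inl ⟨y, b⟩), .refl _⟩) fun ⟨e, b⟩ => ⟨.inr (.inr e), b⟩)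
    (Finset.univ.image fun e => .inr (.inr e))
    (g := Sum.elim (fun _ => s) (Sum.elim (fun _ n y => t n * s n y)
      fun e n y => (ρ e (π (x n), y)).2.1 ^ u e * s n y))
    (p := Sum.elim (fun _ y => y ∈ C t₀ → y ∈ SB) (Sum.elim (fun _ y => y ∈ C t₀ → y ∈ SC) p))
    (Sum.rec (fun y => (hB _ y.2).2.1) (Sum.rec (fun y => (hC _ y.2).2.1) p1))
    (Sum.rec (fun y => .of_forall fun q => ⟨(Pol.cont (hs _)).continuousAt, fun _ => id⟩)
      (Sum.rec (fun y => (tendsto_fst.eventually ht).mono fun q b =>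
        ⟨(continuous_const.mul (Pol.cont (hs _))).continuousAt, fun _ => mul_ne_zero b.1⟩)
        fun e => by
          filter_upwards [tendsto_fst.eventually ht, p3 e _ (p1 e).self_of_nhds,
            ((hx'.comp tendsto_fst).prodMk_nhds tendsto_snd).eventually
              (r1 e).eventually_analyticAt] with q b1 b2 b3
          exact ⟨(((continuousAt_fst.comp continuousAt_snd).comp (b3.continuousAt.comp
            (f := fun y => (π (x q.1), y)) (continuousAt_const.prodMk continuousAt_id))).pow _).mul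
              (Pol.cont (hs _)).continuousAt,
            fun b => mul_ne_zero (pow_ne_zero _ (t1 (b2 b).1 b1 0).1)⟩))
    (h0.mono fun n ⟨y, b, d⟩ => ⟨y, b, fun r hr => by
      rw [Pol.hom (hs n)]
      exact mul_ne_zero (chr_ne_zero hr) d⟩)
  have o1 : ∀ {F : Filter (α × V M)} {f : α × V M → ℂ}, (∀ᶠ q in F, ‖f q‖ ≤ 1) →
      f =O[F] fun _ => (1 : ℝ) := fun b => .of_bound' (b.mono fun _ d => d.trans_eq norm_one.symm)
  have o2 : ∀ (l : α → ℂ) {y} {r : ι → ℂ}, y ∈ C t₀ → (∀ i, r i ≠ 0) →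
      ((fun q => l q.1 * s q.1 q.2) =O[FlM C U x (r • y)] fun _ => (1 : ℝ)) → ∃ Φ, AnalyticAt ℂ Φ y ∧
        ∀ᶠ y' in 𝓝 y, Lim C U x (fun n y => l n * s n y) y' (Φ y') := fun l y r hy hr b =>
    h.loc_lim hx hy (fun n => Submodule.smul_mem _ (l n) (hs n))
      (((b.comp_tendsto (h.tendsto_flM hx hr)).const_mul_left (chr a r)⁻¹).congr_left fun q => by
        rw [comp_apply, Pol.hom (hs _), mul_left_comm (l _), inv_mul_cancel_left₀ (chr_ne_zero hr)])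
  have hcf' := fun e => tendsto_pi_nhds.1 hcf e
  have c1 : ∀ y ∈ SB, ∃ Φ, AnalyticAt ℂ Φ y ∧
      ∀ᶠ y' in 𝓝 y, Lim C U x (fun n y => lam n * s n y) y' (Φ y') := fun y hy => by
    obtain ⟨j, r, hr, b, d⟩ := l1 y (hB y hy).1
    have k := (hB y hy).2.2 _ ⟨r, hr, rfl⟩
    refine o2 lam (hB y hy).1 hr ?_
    rcases j with j | j | e
    · exact o1 d
    · exact (dj _ k (b (hB _ k).1)).elim
    · have k1 := pow_ne_zero (u e) ((b.2.2 (hB _ k).1).1.1 k)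
      have k2 := ((((continuous_fst.comp continuous_snd).tendsto _).comp (p2 e _ b)).pow
        (u e)).mono_left (flM_le (C := C) (x := x))
      refine (((k2.inv₀ k1).isBigO_one ℝ).mul (o1 d)).congr' ((k2.eventually_ne k1).mono
        fun q k3 => ?_) (.of_forall fun _ => one_mul _)
      exact (congrArg _ (mul_left_comm _ _ _)).trans (inv_mul_cancel_left₀ k3 _)
  have c2 : ∀ y ∈ SC, ∃ Φ, AnalyticAt ℂ Φ y ∧
      ∀ᶠ y' in 𝓝 y, Lim C U x (fun n y => lam n * t n * s n y) y' (Φ y') := fun y hy => by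
    obtain ⟨j, r, hr, b, d⟩ := l1 y (hC y hy).1
    have k := (hC y hy).2.2 _ ⟨r, hr, rfl⟩
    refine o2 (fun n => lam n * t n) (hC y hy).1 hr ?_
    rcases j with j | j | e
    · exact (dj _ (b (hC _ k).1) k).elim
    · exact (o1 d).congr_left fun q => (mul_assoc _ _ _).symm
    · have k2 := (((hcf' e).comp tendsto_fst).mul ((((continuous_snd.comp continuous_snd).tendsto
        _).comp (p2 e _ b)).pow (u e))).mono_left (flM_le (C := C) (x := x))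
      refine ((k2.isBigO_one ℝ).mul (o1 d)).congr' (((ev_flM.2 (p3 e _ b)).and
        (flM_le (tendsto_fst.eventually ht))).mono fun q k3 => ?_) (.of_forall fun _ => one_mul _)
      exact (mul_left_comm _ _ _).trans ((congrArg _ (t1 k3.1.1 k3.2 _).2.symm).trans
        (mul_assoc _ _ _).symm)
  have q1 : Tendsto (fun q : α × (ℂ × ℂ) => (π (x q.1), q.2)) (U ×ˢ 𝓝 0) (𝓝 (π t₀, 0)) :=
    (hx'.comp tendsto_fst).prodMk_nhds tendsto_snd
  choose G g1 g2 using fun e => neck_montel U (hτ e) (B := 1)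
    (φ := fun n z => lam n * (z.1 ^ u e * s n (σ e (π (x n), z)))) (by
      filter_upwards [q1.eventually (hσ e).an.eventually_analyticAt,
        ((hx.comp tendsto_fst).prodMk_nhds tendsto_snd).eventually (hσ e).mem,
        ((hx'.comp tendsto_fst).prodMk_nhds (tendsto_const_nhds.prodMk_nhds tendsto_snd)).eventually
          (r3 e), (tendsto_fst.prodMk ((hσ e).an.continuousAt.tendsto.comp q1)).eventually
            (ev_flM.1 (l2 _ (Finset.mem_image_of_mem _ (Finset.mem_univ e))))] with q b1 b2 b3 b4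
      refine ⟨analyticAt_const.mul ((analyticAt_fst.pow _).mul ((Pol.an (hs _) _).comp
        (b1.comp (f := fun z => (π (x q.1), z)) (analyticAt_const.prod analyticAt_id)))),
        fun b => ?_⟩
      rw [one_smul] at b3
      exact (congrArg (fun w : (ι → ℂ) × ℂ × ℂ => ‖lam q.1 * (w.2.1 ^ u e * _)‖) b3).ge.trans
        (b4 (b2 b)))
  have c3 : ∀ e, ∀ᶠ z in 𝓝 0, z.1 * z.2 = 0 →
      (z.1 ≠ 0 → Lim C U x (fun n y => lam n * s n y) (σ e (π t₀, z)) (G e z / z.1 ^ u e)) ∧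
      (z.2 ≠ 0 → Lim C U x (fun n y => lam n * t n * s n y) (σ e (π t₀, z))
        (A e * z.2 ^ u e * G e z)) := fun e => by
    filter_upwards [g2 e, nd e, (Holo.tendsto_inr (π t₀) _).eventually
      (hσ e).an.eventually_analyticAt, (Holo.tendsto_inr t₀ _).eventually
        (hσ e).mem.eventually_nhds] with z b1 b2 b3 b4 b5
    have k : ∀ {w : α → ℂ × ℂ}, Tendsto w U (𝓝 z) → (∀ n, (w n).1 * (w n).2 = τ e (π (x n))) →
        ∀ {f : α → V M → ℂ} {v}, Lim C U x f (σ e (π t₀, z)) v →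
          Tendsto (fun n => f n (σ e (π (x n), w n))) U (𝓝 v) := fun {w} k1 k2 _ _ k3 =>
      k3 _ (b3.continuousAt.tendsto.comp (hx'.prodMk_nhds k1))
        (((hx.prodMk_nhds k1).eventually b4).mono fun n k4 => k4 (k2 n))
    refine ⟨fun d => ?_, fun d => ?_⟩
    · obtain ⟨Φ, -, k1⟩ := c1 _ ((b2 b5).1.2 d)
      have k2 : Tendsto (fun n => (z.1, τ e (π (x n)) / z.1)) U (𝓝 z) :=
        tendsto_const_nhds.prodMk_nhds (((hτ e).div_const _).mono_right (congrArg 𝓝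
          ((zero_div _).trans ((mul_eq_zero.1 b5).resolve_left d).symm)).le)
      have k3 := fun n => mul_div_cancel₀ (τ e (π (x n))) d
      have k4 := (b1 _ k2 (.of_forall k3)).div_const (z.1 ^ u e)
      simp only [mul_left_comm (lam _), mul_div_cancel_left₀ _ (pow_ne_zero (u e) d)] at k4
      exact tendsto_nhds_unique (k k2 k3 k1.self_of_nhds) k4 ▸ k1.self_of_nhds
    · obtain ⟨Φ, -, k1⟩ := c2 _ ((b2 b5).2.2 d)
      have k2 : Tendsto (fun n => (τ e (π (x n)) / z.2, z.2)) U (𝓝 z) :=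
        (((hτ e).div_const _).mono_right (congrArg 𝓝 ((zero_div _).trans
          ((mul_eq_zero.1 b5).resolve_right d).symm)).le).prodMk_nhds tendsto_const_nhds
      have k3 := fun n => div_mul_cancel₀ (τ e (π (x n))) d
      have k4 := ((hcf' e).mul_const (z.2 ^ u e)).mul (b1 _ k2 (.of_forall k3))
      refine tendsto_nhds_unique (k k2 k3 k1.self_of_nhds) (k4.congr' (ht.mono fun n k5 => ?_)) ▸
        k1.self_of_nhds
      dsimp only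
      rw [mul_assoc (lam n), (t1 (z := (τ e (π (x n)) / z.2, z.2)) (k3 n) k5 _).2, mul_left_comm]
  refine ⟨lam, c1, c2, fun e => ⟨G e, g1 e, c3 e⟩, fun ⟨z1, z2⟩ => ?_⟩
  obtain ⟨j, y₀, hy, b, y, y1, y2, y3⟩ := l3
  refine y3 ?_
  rcases j with j | j | e
  · exact z1 _ (b hy) y y1 y2
  · exact (z2 _ (b hy) y y1 y2).congr fun n => mul_assoc _ _ _
  have k0 : Tendsto (fun n => (n, y n)) U (U ×ˢ 𝓝 y₀) := tendsto_id.prodMk y1
  have k1 := (p2 e _ b).comp k0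
  have k2 := (k0.eventually (p3 e _ b)).mp (y2.mono fun n k k' => k' k)
  have k3 := (continuous_snd.tendsto _).comp k1
  by_cases d1 : (ρ e (π t₀, y₀)).2.1 = 0
  · by_cases d2 : (ρ e (π t₀, y₀)).2.2 = 0
    · have k4 : G e 0 = 0 := by
        have k5 : Tendsto (fun z : ℂ => (z, (0 : ℂ))) (𝓝[≠] 0) (𝓝 0) :=
          (Holo.tendsto_inl 0 0).mono_left nhdsWithin_le_nhds
        refine tendsto_nhds_unique ((g1 e).continuousAt.tendsto.comp k5)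
          (tendsto_const_nhds.congr' ?_)
        filter_upwards [k5.eventually (c3 e), k5.eventually (nd e), self_mem_nhdsWithin]
          with z b1 b2 b3
        have b4 := (b2 (mul_zero _)).1.2 b3
        exact ((div_eq_zero_iff.1 (h.lim_unique hx (hB _ b4).1 ((b1 (mul_zero _)).1 b3)
          (z1 _ b4))).resolve_right (pow_ne_zero _ b3)).symm
      have k5 := ((analyticAt_chr (a := a) _).continuousAt.tendsto.comp
        ((continuous_fst.tendsto _).comp k1)).mul ((g2 e).self_of_nhds _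
          (k3.mono_right (congrArg 𝓝 (Prod.ext d1 d2)).le) (k2.mono fun n k => k.1))
      rw [k4, mul_zero] at k5
      refine k5.congr' (k2.mono fun n k => ?_)
      exact (mul_left_comm _ _ _).trans (congrArg _ ((mul_left_comm _ _ _).trans (congrArg _
        ((Pol.hom (hs n) _ _).symm.trans (congrArg _ k.2.symm)))))
    · have k4 := (hcf' e).mul (((continuous_snd.tendsto _).comp k3).pow (u e))
      have k5 := mul_ne_zero (hA e) (pow_ne_zero (u e) d2)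
      have k6 := (k4.inv₀ k5).mul (z2 _ ((b.2.2 hy).2.2 d2) y y1 y2)
      rw [mul_zero] at k6
      refine k6.congr' ((k2.and (ht.and (k4.eventually_ne k5))).mono fun n k => ?_)
      exact (congrArg _ ((mul_assoc _ _ _).trans ((congrArg _ (t1 k.1.1 k.2.1 _).2).trans
        (mul_left_comm _ _ _)))).trans (inv_mul_cancel_left₀ k.2.2 _)
  · have k6 := (((continuous_fst.tendsto _).comp k3).pow (u e)).mul
      (z1 _ ((b.2.2 hy).1.2 d1) y y1 y2)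
    rw [mul_zero] at k6
    exact k6.congr fun n => mul_left_comm _ _ _

end Vale.Agent.P269.Base
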