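import Vale.Agent.P269.Spl.Geo3
import Vale.Agent.P269.Spl.Ver
import Vale.Agent.P269.Spl.MLA
import Vale.Agent.P269.Clos.EtaA

/-!
# The twisted Montel theorem
-/

set_option linter.unusedSectionVars false

namespace Vale.Agent.P269.Ch

open Set Function Topology Filter Holo Base Cv

variable {J ι ν κ ε α : Type} [Fintype J] [Fintype ι] [DecidableEq ι] [Fintype ν] [Fintype κ]
  [Fintype ε] {ch : Ch ι J} {i : ι} {h : ch.o ≠ i} {n : ℕ} {b c : J}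

namespace ML

variable {x : ch.W ν} {x' : (ch.flat h).W ν} {j : J} {y : V ch.M}

theorem hol (hx : x ∈ ch.base ν) (hj : Sc x j) (hy : y ∈ crv x) :
    ∃ Φ, AnalyticAt ℂ Φ y ∧ ∀ᶠ y' in 𝓝 y, y' ∈ crv x → fld x y' j = Φ y' := by
  obtain ⟨Φ, h1, h2⟩ := exists_an_fld hx.1 (crv_ne hy) j
  exact ⟨fun y => Φ (x, y), h1.comp (f := fun y => (x, y)) (analyticAt_const.prod analyticAt_id),
    ((tendsto_inr x y).eventually h2).mono fun y' a d => a d (hj _ d)⟩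

theorem ev_ne (hx : x ∈ ch.base ν) (hj : Sc x j) (hy : y ∈ crv x) (e : fld x y j ≠ 0) :
    ∀ᶠ y' in 𝓝 y, y' ∈ crv x → fld x y' j ≠ 0 := by
  obtain ⟨Φ, h1, h2⟩ := hol hx hj hy
  filter_upwards [h2, h1.continuousAt.eventually_ne (h2.self_of_nhds hy ▸ e :)] with y' a d g
  exact a g ▸ d

theorem orb_ne (hj : Sc x j) (hy : y ∈ crv x) {y' : V ch.M} (e : Base.Orb y y')
    (a : fld x y j ≠ 0) : fld x y' j ≠ 0 := by
  obtain ⟨r, hr, rfl⟩ := e
  rw [fld_smul hy (hj _ hy) hr]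
  exact mul_ne_zero (chz_ne_zero hr) a

variable (i x j) in
/-- the projection of the part of the curve where the field `j` does not vanish -/
def side : Set (V fun j : {j // j ≠ i} => ch.M j.1) := pj i '' {y | y ∈ crv x ∧ fld x y j ≠ 0}

theorem mem_side (P : Prj x x') (hj : Sc x j) (hy : y ∈ crv x) :
    pj i y ∈ side i x j ↔ fld x y j ≠ 0 :=
  ⟨fun ⟨_, a, e⟩ => orb_ne hj a.1 (P.orb a.1 hy (e ▸ .refl _)) a.2, fun a => ⟨y, ⟨hy, a⟩, rfl⟩⟩

theorem side_ok (P : Prj x x') (hj : Sc x j) : ∀ y ∈ side i x j, y ∈ crv x' ∧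
    (∀ᶠ y' in 𝓝 y, y' ∈ crv x' → y' ∈ side i x j) ∧ ∀ y', Base.Orb y y' → y' ∈ side i x j := by
  rintro _ ⟨y, ⟨hy, a⟩, rfl⟩
  refine ⟨P.mem_crv hy, ?_, fun y' e => ?_⟩
  · have k := (P.mem.1.2.2.1.nod.locFam (t₀ := (0 : ℂ)) id (.of_forall fun _ =>
      continuousAt_id)).ev_prj (r := Subtype.val) (crv_ne (P.mem_crv hy))
      (p := fun _ y => y ∈ crv x ∧ fld x y j ≠ 0) (fun y' d e => ⟨y, P.orb hy d e,
        (continuousAt_snd.eventually (ev_ne P.mem.1 hj hy a)).mono fun _ f g => ⟨g, f g⟩⟩)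
      fun _ _ _ e d => ⟨P.mem.1.2.2.1.nod.orb d.1 e, orb_ne hj d.1 e d.2⟩
    refine ((tendsto_inr _ _).eventually k).mono fun y' d e => ?_
    obtain ⟨w, f, g⟩ := P.crv.le e
    exact ⟨w, d w f g, g⟩
  · obtain ⟨w, f, rfl⟩ := P.crv.le (P.mem.2.2.2.1.nod.orb (P.mem_crv hy) e)
    exact ⟨w, ⟨f, orb_ne hj hy (P.orb hy f e) a⟩, rfl⟩

theorem exists_ne (ht : ch.Tight) (hx : x ∈ ch.base ν) {s : (Fin (ch.M i) → ℂ) →L[ℂ] ℂ}
    (hs : s ≠ 0) : ∃ y ∈ crv x, s (y i) ≠ 0 := by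
  by_contra! k
  exact hs (ContinuousLinearMap.coe_injective (LinearMap.ker_eq_top.1 (top_unique
    ((hx.2.2.1.span_top (ht.eq hx i) (p := fun _ => True) fun y hy =>
      haveI := mem_closure_iff_nhdsWithin_neBot.1 (subset_closure hy)
      .of_forall fun _ => trivial).ge.trans
        (Submodule.span_le.2 (forall_mem_image.2 fun y hy => k y hy.1))))))

theorem vz_zero {u : ℕ} (hu : u ≠ 0) {f : ℂ → ℂ} {a : ℂ} (h : Vz u f a) (hf : AnalyticAt ℂ f 0) :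
    f 0 = 0 := (Vz.of_an hf).unique (h.lt (Nat.cast_pos.2 (Nat.pos_of_ne_zero hu)))

theorem chr_one (r : ι → ℂ) : chr (Pi.single i 1) r = r i := by
  rw [chr, Finset.prod_eq_single i (fun _ _ e => by simp [e]) (by simp)]
  simp

theorem chz_one (r : ι → ℂ) : chz (Pi.single i 1) r = r i := by
  rw [chz, Finset.prod_eq_single i (fun _ _ e => by simp [e]) (by simp)]
  simp

theorem fld_b (hc : ch.DgC i b c) (hj : Sc x b) (hy : y ∈ crv x) {r : ι → ℂ} (hr : ∀ i, r i ≠ 0) :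
    fld x (r • y) b = r i / r ch.o * fld x y b := by
  rw [fld_smul hy (hj _ hy) hr, hc.wb, sub_eq_add_neg, chz_add hr, chz_neg, chz_one, chz_one,
    div_eq_mul_inv]

theorem fld_c (hc : ch.DgC i b c) (hj : Sc x c) (hy : y ∈ crv x) {r : ι → ℂ} (hr : ∀ i, r i ≠ 0) :
    fld x (r • y) c = r ch.o / r i * fld x y c := by
  rw [fld_smul hy (hj _ hy) hr, hc.wc, chz_neg, hc.wb, sub_eq_add_neg, chz_add hr, chz_neg, chz_one,
    chz_one, ← div_eq_mul_inv, inv_div]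

theorem lin_ext {m : ℕ} {w : Fin m → Fin m → ℂ} (hw : LinearIndependent ℂ w)
    {μ μ' : (Fin m → ℂ) →L[ℂ] ℂ} (e : ∀ j, μ (w j) = μ' (w j)) : μ = μ' :=
  ContinuousLinearMap.coe_injective (LinearMap.ext_on_range
    (hw.span_eq_top_of_card_eq_finrank' (by simp)) e)

end ML

open ML

variable {x₀ : ch.bm ν κ}
  {Ψ : PV n ε → (ch.flat h).W (Mk ν κ)} {k : _} {σ' : _} {σ : _} {u : ε → ℕ} {a a' : ε → ℂ}
  {U : Ultrafilter α} {v : α → PV n ε} {cf : α → ε → ℂ} {t : α → ℂ}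
  (H : Lm b c x₀ Ψ k σ' σ u a a') (hs : Sqm u (a * a') U v cf t)
include H

theorem Lm.prj0 : Prj x₀.1 (Ψ 0) := H.vs.k0 ▸ H.vs.prj.self_of_nhds x₀.2

/-- the fields near a node -/
theorem Lm.near (e : ε) : ∀ᶠ z : ℂ × ℂ in 𝓝 0, z.1 * z.2 = 0 → σ e (x₀, z) ∈ crv x₀.1 ∧
    pj i (σ e (x₀, z)) = σ' e (0, z) ∧ (fld x₀.1 (σ e (x₀, z)) b ≠ 0 ↔ z.1 ≠ 0) ∧
      (fld x₀.1 (σ e (x₀, z)) c ≠ 0 ↔ z.2 ≠ 0) := by
  have k0 : (k x₀).2 e = 0 := congrArg (·.2 e) H.vs.k0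
  have b0 := vz_zero (H.gd.pos e) (H.gd.vzb e).2 (an_fld H.gd.mem H.gd.scb (H.gd.cross e).1)
  have c0 := vz_zero (H.gd.pos e) (H.gd.vzc e).2 (an_fld H.gd.mem H.gd.scc (H.gd.cross e).2.1)
  filter_upwards [(H.vs.ch₀ e).mem0, (tendsto_inr x₀.1 _).eventually (H.vs.lift e),
    (continuous_fst.tendsto' (0 : ℂ × ℂ) 0 rfl).eventually (eventually_nhdsWithin_iff.1
      ((H.gd.vzb e).2.eventually_ne (H.gd.vzb e).1)),
    (continuous_snd.tendsto' (0 : ℂ × ℂ) 0 rfl).eventually (eventually_nhdsWithin_iff.1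
      ((H.gd.vzc e).2.eventually_ne (H.gd.vzc e).1))] with ⟨z, w⟩ a1 a2 a3 a4 a5
  have a6 := a1 (a5.trans k0.symm)
  have a7 := mul_eq_zero.1 (H.gd.mul _ a6)
  refine ⟨a6, (a2 x₀.2 (a5.trans k0.symm)).trans (congrArg (fun v => σ' e (v, z, w)) H.vs.k0), ?_⟩
  by_cases d : z = 0
  · subst d
    by_cases d' : w = 0
    · subst d'
      exact ⟨iff_of_false (· b0) (· rfl), iff_of_false (· c0) (· rfl)⟩
    · exact ⟨iff_of_false (· (a7.resolve_right (a4 d'))) (· rfl), iff_of_true (a4 d') d'⟩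
  · obtain rfl : w = 0 := (mul_eq_zero.1 a5).resolve_left d
    exact ⟨iff_of_true (a3 d) d, iff_of_false (· (a7.resolve_left (a3 d))) (· rfl)⟩

include hs

/-- **twisted Montel**: sections of `A_o` converge, after normalisation, to a section of `A_i` -/
theorem Lm.montel {s : α → (Fin (ch.M ch.o) → ℂ) →L[ℂ] ℂ} (h0 : ∀ᶠ q in U, s q ≠ 0) :
    ∃ (lam : α → ℂ) (μ : (Fin (ch.M i) → ℂ) →L[ℂ] ℂ), μ ≠ 0 ∧ ∀ y ∈ crv x₀.1,
      ∀ y' : α → V (ch.flat h).M, Tendsto y' U (𝓝 (pj i y)) → (∀ᶠ q in U, y' q ∈ crv (Ψ (v q))) →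
        (fld x₀.1 y b ≠ 0 → Tendsto (fun q => lam q * s q (y' q ⟨ch.o, h⟩)) U
          (𝓝 (μ (y i) / fld x₀.1 y b))) ∧
        (fld x₀.1 y c ≠ 0 → Tendsto (fun q => lam q * t q * s q (y' q ⟨ch.o, h⟩)) U
          (𝓝 (μ (y i) * fld x₀.1 y c))) := by
  classical
  have P := H.prj0
  have hf := H.vs.locFam H.dg
  have g := H.gd
  have mb : ∀ {y}, y ∈ crv x₀.1 → (pj i y ∈ side i x₀.1 b ↔ _) := mem_side P g.scb
  have mc : ∀ {y}, y ∈ crv x₀.1 → (pj i y ∈ side i x₀.1 c ↔ _) := mem_side P g.scc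
  have bc : ∀ {y}, y ∈ crv x₀.1 → fld x₀.1 y c ≠ 0 → fld x₀.1 y b = 0 := fun hy d =>
    (mul_eq_zero.1 (g.mul _ hy)).resolve_right d
  obtain ⟨lam, l1, l2, l3, l4⟩ := hf.twisted hs.v0 (τ := fun e v => v.2 e) H.vs.ch' (fun _ => rfl)
    (fun e => tendsto_pi_nhds.1 ((continuous_snd.tendsto _).comp hs.v0) e)
    (side_ok P g.scb) (side_ok P g.scc) (fun _ ⟨y, d, e⟩ f => d.2 (bc d.1 ((mc d.1).1 (e ▸ f))))
    (fun y' hy' => by
      obtain ⟨y, hy, rfl⟩ := P.crv.le hy'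
      by_cases d : Off (fun e => σ e (x₀, (0, 0))) y
      · exact (g.ne y hy d).imp (mb hy).2 fun f => .inl ((mc hy).2 f)
      · obtain ⟨e, d⟩ := not_forall.1 d
        exact .inr (.inr ⟨e, ((H.near e).self_of_nhds (zero_mul _)).2.1 ▸ (not_not.1 d).prj⟩))
    (fun e => (H.near e).mono fun z d f => (d f).2.1 ▸
      ⟨(mb (d f).1).trans (d f).2.2.1, (mc (d f).1).trans (d f).2.2.2⟩)
    (s := fun q y => s q (y ⟨ch.o, h⟩)) (fun q => Pol.lin (M := (ch.flat h).M) ⟨ch.o, h⟩ (s q))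
    ((h0.and (hs.v0.eventually H.vs.mem)).mono fun q d =>
      exists_ne (ch := ch.flat h) (i := ⟨ch.o, h⟩) (fun j => H.dg.tight j.1) d.2.1 d.1)
    (fun e => mul_ne_zero (g.vzb e).1 (g.vzc e).1) hs.cf0 hs.eq g.pos
  choose! LB l5 using fun y hy => (l1 y hy).elim fun Φ d => Exists.intro (Φ y) d.2.self_of_nhds
  choose! LC l6 using fun y hy => (l2 y hy).elim fun Φ d => Exists.intro (Φ y) d.2.self_of_nhds
  have ub : ∀ {y w}, y ∈ crv x₀.1 → fld x₀.1 y b ≠ 0 → _ → LB (pj i y) = w := fun hy d =>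
    hf.lim_unique hs.v0 (P.mem_crv hy) (l5 _ ((mb hy).2 d))
  have uc : ∀ {y w}, y ∈ crv x₀.1 → fld x₀.1 y c ≠ 0 → _ → LC (pj i y) = w := fun hy d =>
    hf.lim_unique hs.v0 (P.mem_crv hy) (l6 _ ((mc hy).2 d))
  let f : V ch.M → ℂ := fun y =>
    if fld x₀.1 y b = 0 then LC (pj i y) / fld x₀.1 y c else fld x₀.1 y b * LB (pj i y)
  let D : Set (V ch.M) := {y | y ∈ crv x₀.1 ∧ (fld x₀.1 y b ≠ 0 ∨ fld x₀.1 y c ≠ 0)}
  have fb : ∀ {y}, fld x₀.1 y b ≠ 0 → f y = fld x₀.1 y b * LB (pj i y) := fun d => if_neg d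
  have fc : ∀ {y}, y ∈ crv x₀.1 → fld x₀.1 y c ≠ 0 → f y = LC (pj i y) / fld x₀.1 y c :=
    fun hy d => if_pos (bc hy d)
  have sm : ∀ (l : α → ℂ) (r : ι → ℂ) q (y : V (ch.flat h).M),
      l q * s q (((fun j : {j // j ≠ i} => r j.1) • y) ⟨ch.o, h⟩) =
        chr (Pi.single ⟨ch.o, h⟩ 1) (fun j : {j // j ≠ i} => r j.1) * (l q * s q (y ⟨ch.o, h⟩)) :=
    fun l r q y => by rw [ML.chr_one, Pi.smul_apply', map_smul, smul_eq_mul, mul_left_comm]
  have hom : ∀ y ∈ D, ∀ r : ι → ℂ, (∀ i, r i ≠ 0) →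
      r • y ∈ D ∧ f (r • y) = chr (Pi.single i 1) r * f y := fun y ⟨hy, d⟩ r hr => by
    have hy' := crv_smul hy hr
    have e : Base.Orb y (r • y) := ⟨r, hr, rfl⟩
    have h1 := hr i
    have h2 := hr ch.o
    refine ⟨⟨hy', d.imp (orb_ne g.scb hy e) (orb_ne g.scc hy e)⟩, d.elim (fun d => ?_) fun d => ?_⟩
    · rw [fb d, fb (orb_ne g.scb hy e d), ub hy' (orb_ne g.scb hy e d) (hf.lim_smul hs.v0
        (l5 _ ((mb hy).2 d)) (fun j => hr j.1) (sm lam r)), fld_b H.dg g.scb hy hr, ML.chr_one,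
        ML.chr_one]
      field_simp
    · rw [fc hy d, fc hy' (orb_ne g.scc hy e d), uc hy' (orb_ne g.scc hy e d) (hf.lim_smul hs.v0
        (l6 _ ((mc hy).2 d)) (fun j => hr j.1) (sm (fun q => lam q * t q) r)),
        fld_c H.dg g.scc hy hr, ML.chr_one, ML.chr_one]
      field_simp
  have an : ∀ y, AnalyticAt ℂ (pj (ch := ch) i) y := fun y => (pj i).analyticAt y
  have nod := g.mem.2.2.1.nod
  obtain ⟨F, F1, F2⟩ := nod.exists_sec (D := D) (fun y hy => (frequently_nhdsWithin_iff.1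
      (nod.frequently_not_orb (fun e => σ e (x₀, (0, 0))) hy)).mono
        fun y d => ⟨d.2, g.ne _ d.2 d.1⟩) hom fun y hy => by
    by_cases d : Off (fun e => σ e (x₀, (0, 0))) y
    · refine ⟨y, .refl _, (g.ne y hy d).elim (fun d => ?_) fun d => ?_⟩
      · obtain ⟨Φ, h1, h2⟩ := l1 _ ((mb hy).2 d)
        obtain ⟨β, h3, h4⟩ := hol g.mem g.scb hy
        refine ⟨fun y => β y * Φ (pj i y), h3.mul (h1.comp (an y)), ?_⟩
        filter_upwards [(an y).continuousAt.eventually h2, h4, ev_ne g.mem g.scb hy d]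
          with y' h5 h6 h7 h8
        rw [fb (h7 h8.1), ub h8.1 (h7 h8.1) h5, h6 h8.1]
      · obtain ⟨Φ, h1, h2⟩ := l2 _ ((mc hy).2 d)
        obtain ⟨β, h3, h4⟩ := hol g.mem g.scc hy
        refine ⟨fun y => Φ (pj i y) / β y,
          (h1.comp (an y)).div h3 (h4.self_of_nhds hy ▸ d :), ?_⟩
        filter_upwards [(an y).continuousAt.eventually h2, h4, ev_ne g.mem g.scc hy d]
          with y' h5 h6 h7 h8
        rw [fc h8.1 (h7 h8.1), uc h8.1 (h7 h8.1) h5, h6 h8.1]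
    · obtain ⟨e, d⟩ := not_forall.1 d
      obtain ⟨G, h1, h2⟩ := l3 e
      obtain ⟨h3, β, b1, b2, b3⟩ := g.vzb e
      obtain ⟨h4, γ, c1, c2, c3⟩ := g.vzc e
      refine ⟨_, not_not.1 d, (H.vs.ch₀ e).ext (locFam_bm H.dg.cuts x₀)
        ((H.near e).self_of_nhds (zero_mul _)).1 (fun _ d => d.1) hom
        (G := fun z => β z.1 * G (z.1, 0) + a e * a' e * G (0, z.2) / γ z.2 - a e * G 0)
        ((((b1.comp_of_eq analyticAt_fst rfl).mul (h1.comp_of_eq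
          (analyticAt_fst.prod analyticAt_const) rfl)).add ((analyticAt_const.mul (h1.comp_of_eq
            (analyticAt_const.prod analyticAt_snd) rfl)).div (c1.comp_of_eq analyticAt_snd rfl)
              (by exact ne_of_eq_of_ne c2 h4))).sub analyticAt_const) ?_⟩
      filter_upwards [H.near e, h2, (continuous_fst.tendsto' (0 : ℂ × ℂ) 0 rfl).eventually
        (eventually_nhdsWithin_iff.1 b3), (continuous_snd.tendsto' (0 : ℂ × ℂ) 0 rfl).eventually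
          (eventually_nhdsWithin_iff.1 c3)] with ⟨z, w⟩ k1 k2 k3 k4 k5 k6
      have k7 : z * w = 0 := k5.trans (congrArg (·.2 e) H.vs.k0)
      obtain ⟨k8, k9, k10, k11⟩ := k1 k7
      rcases k6.2 with d | d
      · have d' := k10.1 d
        obtain rfl : w = 0 := (mul_eq_zero.1 k7).resolve_left d'
        rw [fb d, ub k8 d (k9 ▸ (k2 k7).1 d'), k3 d', zpow_natCast, c2]
        have := pow_ne_zero (u e) d'
        change _ = β z * G (z, 0) + a e * a' e * G 0 / a' e - a e * G 0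
        field_simp
        ring
      · have d' := k11.1 d
        obtain rfl : z = 0 := (mul_eq_zero.1 k7).resolve_right d'
        rw [fc k8 d, uc k8 d (k9 ▸ (k2 k7).2 d'), k4 d', zpow_natCast, b2]
        change a e * a' e * w ^ u e * G (0, w) / (w ^ u e * γ w) =
          a e * G 0 + a e * a' e * G (0, w) / γ w - a e * G 0
        rw [add_sub_cancel_left, mul_right_comm, mul_comm (w ^ u e),
          mul_div_mul_right _ _ (pow_ne_zero _ d')]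
  obtain ⟨μ', h1⟩ := g.mem.2.2.1.normal _ (single_ne i) F F1
  obtain ⟨μ, h2⟩ := Pol.exists_lin (val_mem μ')
  have h3 : ∀ y ∈ D, μ (y i) = f y := fun y d =>
    (h2 y).symm.trans ((h1 y d.1).symm.trans (F2 y d.1 d))
  have h4 : ∀ y ∈ crv x₀.1, fld x₀.1 y b ≠ 0 → LB (pj i y) = μ (y i) / fld x₀.1 y b :=
    fun y hy d => by rw [h3 y ⟨hy, .inl d⟩, fb d, mul_div_cancel_left₀ _ d]
  have h5 : ∀ y ∈ crv x₀.1, fld x₀.1 y c ≠ 0 → LC (pj i y) = μ (y i) * fld x₀.1 y c :=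
    fun y hy d => by rw [h3 y ⟨hy, .inr d⟩, fc hy d, div_mul_cancel₀ _ d]
  refine ⟨lam, μ, fun e => l4 ⟨forall_mem_image.2 fun y d => ?_, forall_mem_image.2 fun y d => ?_⟩,
    fun y hy y' y1 y2 => ⟨fun d => h4 y hy d ▸ l5 _ ((mb hy).2 d) y' y1 y2,
      fun d => h5 y hy d ▸ l6 _ ((mc hy).2 d) y' y1 y2⟩⟩
  · have := l5 _ ((mb d.1).2 d.2)
    rwa [h4 y d.1 d.2, e, _root_.zero_apply, zero_div] at this
  · have := l6 _ ((mc d.1).2 d.2)
    rwa [h5 y d.1 d.2, e, _root_.zero_apply, zero_mul] at this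

variable {D : ch.Cd ν κ h n ε} (hD : D.Ok b c x₀ Ψ k)
include hD

/-- the limits at the moving points -/
theorem Lm.montel_pts {s : α → (Fin (ch.M ch.o) → ℂ) →L[ℂ] ℂ} {lam : α → ℂ}
    {μ : (Fin (ch.M i) → ℂ) →L[ℂ] ℂ} (hμ : ∀ y ∈ crv x₀.1,
      ∀ y' : α → V (ch.flat h).M, Tendsto y' U (𝓝 (pj i y)) → (∀ᶠ q in U, y' q ∈ crv (Ψ (v q))) →
        (fld x₀.1 y b ≠ 0 → Tendsto (fun q => lam q * s q (y' q ⟨ch.o, h⟩)) U
          (𝓝 (μ (y i) / fld x₀.1 y b))) ∧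
        (fld x₀.1 y c ≠ 0 → Tendsto (fun q => lam q * t q * s q (y' q ⟨ch.o, h⟩)) U
          (𝓝 (μ (y i) * fld x₀.1 y c)))) (j : Fin (ch.M i)) :
    Tendsto (fun q => lam q * ((if D.sd j then 1 else t q) * s q (D.m j (v q) ⟨ch.o, h⟩))) U
      (𝓝 (μ ((D.co b c k x₀).2.1 j))) := by
  obtain ⟨h1, h2⟩ := hD.memz.self_of_nhds x₀.2 j
  rw [H.vs.k0] at h2
  have h3 := hμ _ h1 (fun q => D.m j (v q)) (h2 ▸ (hD.anm j).continuousAt.tendsto.comp hs.v0)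
    ((hs.v0.eventually hD.memm).mono fun q d => d j)
  have h4 := hD.sd j
  simp only [Cd.co, bv, map_smul, smul_eq_mul]
  cases e : D.sd j
  · simp only [e, Bool.false_eq_true, if_false, inv_inv, ← mul_assoc] at h4 ⊢
    exact mul_comm (μ _) _ ▸ h3.2 h4
  · simp only [e, if_true, one_mul, ← div_eq_inv_mul] at h4 ⊢
    exact h3.1 h4

omit H hs in
theorem ML.li_co : LinearIndependent ℂ (D.co b c k x₀).2.1 :=
  hD.li.units_smul fun j => Units.mk0 (bv x₀.1 b c (D.sd j) (D.z j x₀))⁻¹ (inv_ne_zero (by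
    have := hD.sd j
    cases e : D.sd j <;> simpa [e, bv] using this))

theorem Lm.eventually_li (hM : ch.M i = ch.M ch.o) :
    ∀ᶠ q in U, LinearIndependent ℂ fun j => D.m j (v q) ⟨ch.o, h⟩ := by
  by_contra h1
  have h2 : ∀ᶠ q in U, ∃ s : (Fin (ch.M ch.o) → ℂ) →L[ℂ] ℂ, s ≠ 0 ∧
      ∀ j, s (D.m j (v q) ⟨ch.o, h⟩) = 0 :=
    (Ultrafilter.eventually_not.2 h1).mono fun q d => by
      obtain ⟨f, f1, f2⟩ := (Submodule.span ℂ (range fun j =>
        D.m j (v q) ⟨ch.o, h⟩)).exists_le_ker_of_lt_top (lt_top_iff_ne_top.2 fun e => d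
          (linearIndependent_of_top_le_span_of_card_eq_finrank e.ge (by simpa using hM)))
      exact ⟨LinearMap.toContinuousLinearMap f, (map_ne_zero_iff _ (LinearEquiv.injective _)).2 f1,
        fun j => f2 (Submodule.subset_span ⟨j, rfl⟩)⟩
  obtain ⟨s, h2⟩ := h2.choice
  obtain ⟨lam, μ, h3, h4⟩ := H.montel hs (h2.mono fun q d => d.1)
  exact h3 (lin_ext (li_co hD) fun j => tendsto_nhds_unique (H.montel_pts hs hD h4 j)
    (tendsto_const_nhds.congr' (h2.mono fun q d => by simp [d.2 j])))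

/-- convergence of the lifted points -/
theorem Lm.tendsto_lift {L : α → (Fin (ch.M ch.o) → ℂ) →L[ℂ] Fin (ch.M i) → ℂ}
    (hL : ∀ j, Tendsto (fun q => (if D.sd j then 1 else t q) • L q (D.m j (v q) ⟨ch.o, h⟩)) U
      (𝓝 ((D.co b c k x₀).2.1 j))) {y : V ch.M} (hy : y ∈ crv x₀.1) {y' : α → V (ch.flat h).M}
    (h1 : Tendsto y' U (𝓝 (pj i y))) (h2 : ∀ᶠ q in U, y' q ∈ crv (Ψ (v q))) :
    (fld x₀.1 y b ≠ 0 → Tendsto (fun q => L q (y' q ⟨ch.o, h⟩)) U (𝓝 ((fld x₀.1 y b)⁻¹ • y i))) ∧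
      (fld x₀.1 y c ≠ 0 → Tendsto (fun q => t q • L q (y' q ⟨ch.o, h⟩)) U
        (𝓝 (fld x₀.1 y c • y i))) := by
  have key : ∀ l : Fin (ch.M i),
      (fld x₀.1 y b ≠ 0 → Tendsto (fun q => L q (y' q ⟨ch.o, h⟩) l) U
        (𝓝 ((fld x₀.1 y b)⁻¹ * y i l))) ∧ (fld x₀.1 y c ≠ 0 →
          Tendsto (fun q => t q * L q (y' q ⟨ch.o, h⟩) l) U (𝓝 (fld x₀.1 y c * y i l))) := fun l => by
    let θ : (Fin (ch.M i) → ℂ) →L[ℂ] ℂ := .proj l
    have h3 := fun j => tendsto_pi_nhds.1 (hL j) l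
    obtain ⟨j, h4⟩ : ∃ j, (D.co b c k x₀).2.1 j l ≠ 0 := by
      by_contra! k
      exact one_ne_zero (DFunLike.congr_fun (lin_ext (li_co hD) (μ := θ) (μ' := 0) k) 1)
    have h5 := (h3 j).eventually_ne h4
    obtain ⟨lam, μ, h6, h7⟩ := H.montel hs (s := fun q => θ ∘L L q) (h5.mono fun q d e => d
      (mul_eq_zero_of_right _ (DFunLike.congr_fun e _)))
    have h8 := H.montel_pts hs hD h7
    have h9 := ((h8 j).div (h3 j) h4).congr' (h5.mono fun q d => mul_div_cancel_right₀ (lam q) d)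
    generalize μ ((D.co b c k x₀).2.1 j) / (D.co b c k x₀).2.1 j l = r at h9
    obtain rfl : μ = r • θ := lin_ext (li_co hD) fun j =>
      tendsto_nhds_unique (h8 j) (h9.mul (h3 j))
    have h10 : r ≠ 0 := fun e => h6 (ContinuousLinearMap.ext fun w => mul_eq_zero_of_left e _)
    have h11 := h9.eventually_ne h10
    refine ⟨fun d => ?_, fun d => ?_⟩
    · refine (((h9.inv₀ h10).mul ((h7 y hy y' h1 h2).1 d)).congr' (h11.mono fun q e =>
        inv_mul_cancel_left₀ e _)).mono_right (congrArg 𝓝 ?_).le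
      change r⁻¹ * (r * y i l / _) = _
      rw [mul_div_assoc, inv_mul_cancel_left₀ h10, div_eq_inv_mul]
    · refine (((h9.inv₀ h10).mul ((h7 y hy y' h1 h2).2 d)).congr' (h11.mono fun q e =>
        (congrArg _ (mul_assoc _ _ _)).trans (inv_mul_cancel_left₀ e _))).mono_right
          (congrArg 𝓝 ?_).le
      change r⁻¹ * (r * y i l * _) = _
      rw [mul_assoc, inv_mul_cancel_left₀ h10, mul_comm]
  exact ⟨fun d => tendsto_pi_nhds.2 fun l => (key l).1 d,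
    fun d => tendsto_pi_nhds.2 fun l => (key l).2 d⟩

end Vale.Agent.P269.Ch
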