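import Vale.Agent.P269.Base.FMerA
import Vale.Agent.P269.Base.LF
import Vale.Agent.P269.Spl.Norm
import Vale.Agent.P269.Clos.EtaA

/-!
# Hurwitz and neck lemmas
-/

set_option linter.unusedSectionVars false

namespace Vale.Agent.P269.Base

open Set Function Topology Filter Metric Clos

variable {P : Type*} [NormedAddCommGroup P] [NormedSpace ℂ P] [FiniteDimensional ℂ P] {p₀ : P}
  {α : Type*} {l : Filter α}

namespace NeckP

/-- comparison of the orders by the mean value property -/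
theorem ord_le {ρ : ℝ} (hρ : 0 < ρ) {g g' : ℂ → ℂ} {n n' : ℕ}
    (hg : ∀ z : ℂ, ‖z‖ ≤ ρ → AnalyticAt ℂ g z ∧ AnalyticAt ℂ g' z ∧ g' z ≠ 0)
    (h : ∀ z ∈ sphere (0 : ℂ) ρ, ‖z ^ n * g z / (z ^ n' * g' z) - 1‖ ≤ 1 / 4) : n ≤ n' := by
  by_contra hn
  obtain ⟨k, rfl⟩ := Nat.exists_eq_add_of_lt (not_le.1 hn)
  have a := norm_cau_le hρ (f := fun z => z ^ (k + 1) * g z / g' z - 1) (w := 0) (fun z hz => by
    have b := h z hz
    rwa [add_assoc, pow_add, mul_assoc, mul_div_mul_left _ _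
      (pow_ne_zero _ (ne_of_mem_sphere hz hρ.ne'))] at b) (by rw [norm_zero]; positivity)
  replace a := (congrArg norm (mean_disc hρ fun z hz => (((analyticAt_id.pow _).mul
    (hg z hz).1).div (hg z hz).2.1 (hg z hz).2.2).sub analyticAt_const)).ge.trans a
  norm_num at a

theorem near_one {X : Type*} [TopologicalSpace X] {x : X} {a b : X → ℂ} (ha : ContinuousAt a x)
    (hb : ContinuousAt b x) (e : a x = b x) (h0 : b x ≠ 0) :
    ∀ᶠ y in 𝓝 x, ‖a y / b y - 1‖ ≤ 1 / 4 :=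
  (((ha.div hb h0).sub continuousAt_const).norm.eventually_lt continuousAt_const
    (by simp [e, div_self h0])).mono fun _ => le_of_lt

theorem slice {E : Type*} [NormedAddCommGroup E] [NormedSpace ℂ E] {f : P × E → ℂ} {p : P}
    {κ : ℂ → E} {z : ℂ} (hκ : AnalyticAt ℂ κ z) (h : AnalyticAt ℂ f (p, κ z)) :
    AnalyticAt ℂ (fun w => f (p, κ w)) z :=
  h.comp (f := fun w => (p, κ w)) (analyticAt_const.prod hκ)

theorem an_neck (τ : ℂ) {z : ℂ} (hz : z ≠ 0) : AnalyticAt ℂ (fun w : ℂ => (w, τ / w)) z :=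
  analyticAt_id.prod (analyticAt_const.div analyticAt_id hz)

theorem an_ax (z : ℂ) : AnalyticAt ℂ (fun w : ℂ => (w, (0 : ℂ))) z :=
  analyticAt_id.prod analyticAt_const

theorem cont_neck {τ : P → ℂ} (hτ : ContinuousAt τ p₀) (h0 : τ p₀ = 0) {y : ℂ} (hy : y ≠ 0) :
    Tendsto (fun q : P × ℂ => (q.1, (q.2, τ q.1 / q.2))) (𝓝 (p₀, y)) (𝓝 (p₀, (y, 0))) := by
  have : ContinuousAt (fun q : P × ℂ => (q.1, (q.2, τ q.1 / q.2))) (p₀, y) :=
    continuousAt_fst.prodMk (continuousAt_snd.prodMk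
      ((hτ.comp (f := Prod.fst) (x := (p₀, y)) continuousAt_fst).div continuousAt_snd hy))
  simpa [ContinuousAt, h0] using this

/-- the means over the outer circle of the neck -/
theorem lim_cau {f : P × (ℂ × ℂ) → ℂ} {τ : P → ℂ} (hf : AnalyticAt ℂ f (p₀, 0))
    (hτ : ContinuousAt τ p₀) (h0 : τ p₀ = 0) {u : ℕ} {a : ℂ} (ha : a ≠ 0)
    (h : Vz u (fun z => f (p₀, (z, 0))) a) (s : ℤ) : ∀ᶠ r : ℝ in 𝓝[>] 0,
      Tendsto (fun p => cau r (fun z => (f (p, (z, τ p / z)) / z ^ u) ^ s) 0) (𝓝 p₀)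
        (𝓝 (a ^ s)) := by
  obtain ⟨g, g1, rfl, g3⟩ := h
  have c0 : ContinuousAt (fun z : ℂ => (p₀, (z, (0 : ℂ)))) 0 := by fun_prop
  obtain ⟨r₀, hr₀, E⟩ := Metric.eventually_nhds_iff.1 ((c0.eventually hf.eventually_analyticAt).and
    (g1.eventually_analyticAt.and ((g1.continuousAt.eventually_ne ha).and
      (Vz.ev_of_an (slice (an_ax 0) hf) g1 g3))))
  simp only [dist_zero_right] at E
  filter_upwards [Ioo_mem_nhdsGT hr₀] with r hr
  have k : ∀ y ∈ sphere (0 : ℂ) r, y ≠ 0 ∧ ‖y‖ < r₀ := fun y hy =>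
    ⟨ne_of_mem_sphere hy hr.1.ne', (mem_sphere_zero_iff_norm.1 hy).trans_lt hr.2⟩
  refine mean_lim hr.1 (f := fun z => g z ^ s) (fun z hz => (E (hz.trans_lt hr.2)).2.1.fun_zpow
    (E (hz.trans_lt hr.2)).2.2.1) ?_ fun ε hε =>
    (isCompact_sphere _ _).eventually_forall_of_forall_eventually fun y hy => ?_
  · refine ((isCompact_sphere (0 : ℂ) r).eventually_forall_of_forall_eventually
      (P := fun p z => AnalyticAt ℂ f (p, (z, τ p / z)) ∧ f (p, (z, τ p / z)) ≠ 0)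
      fun y hy => ?_).mono fun p hp y hy => ContinuousAt.continuousWithinAt ?_
    · obtain ⟨a1, -, a3, a4⟩ := E (k y hy).2
      exact (cont_neck hτ h0 (k y hy).1).eventually (a1.eventually_analyticAt.and
        (a1.continuousAt.eventually_ne (a4 ▸ mul_ne_zero (pow_ne_zero _ (k y hy).1) a3)))
    · have b := pow_ne_zero u (k y hy).1
      exact ((slice (an_neck _ (k y hy).1) (hp y hy).1).continuousAt.div
        (continuousAt_id.pow u) b).zpow₀ s (Or.inl (div_ne_zero (hp y hy).2 b))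
  · obtain ⟨a1, a2, a3, a4⟩ := E (k y hy).2
    have b := pow_ne_zero u (k y hy).1
    have c := ((a1.continuousAt.tendsto.comp (cont_neck hτ h0 (k y hy).1)).div
      ((continuous_snd.tendsto (p₀, y)).pow u) b)
    rw [a4, mul_div_cancel_left₀ _ b] at c
    have d := ((c.zpow₀ s (Or.inl a3)).sub ((a2.continuousAt.tendsto.comp
      (continuous_snd.tendsto (p₀, y))).zpow₀ s (Or.inl a3))).norm
    rw [sub_self, norm_zero] at d
    exact d.eventually_le_const hε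

theorem neck_le {τ z : ℂ} {r : ℝ} (hr : 0 < r) (hτ : τ ≠ 0) (h : ‖τ‖ / r ≤ ‖z‖) :
    z ≠ 0 ∧ ‖τ / z‖ ≤ r := by
  have a : 0 < ‖z‖ := (div_pos (norm_pos_iff.2 hτ) hr).trans_le h
  refine ⟨norm_pos_iff.1 a, ?_⟩
  rw [norm_div, div_le_iff₀' a]
  exact (div_le_iff₀ hr).1 h

end NeckP

open NeckP

/-- **Hurwitz** -/
theorem eventually_vz {f : P × ℂ → ℂ} (hf : AnalyticAt ℂ f (p₀, 0)) {u : ℕ} {a : ℂ} (ha : a ≠ 0)
    (h : Vz u (fun z => f (p₀, z)) a) : ∀ᶠ r : ℝ in 𝓝[>] 0, ∀ᶠ p in 𝓝 p₀,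
      (∀ z : ℂ, z ≠ 0 → ‖z‖ < r → f (p, z) ≠ 0) →
        ∃ a' ≠ 0, Vz u (fun z => f (p, z)) a' := by
  obtain ⟨g, g1, rfl, g3⟩ := h
  obtain ⟨r₀, hr₀, E⟩ := exists_ball (hf.eventually_analyticAt.and
    ((continuous_snd.tendsto (p₀, (0 : ℂ))).eventually (g1.eventually_analyticAt.and
      ((g1.continuousAt.eventually_ne ha).and (Vz.ev_of_an (slice analyticAt_id hf) g1 g3)))))
  filter_upwards [Ioo_mem_nhdsGT hr₀] with r hr
  have hρ := half_pos hr.1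
  have k : ∀ {z : ℂ}, ‖z‖ ≤ r / 2 → ‖z‖ < r := fun hz => hz.trans_lt (half_lt_self hr.1)
  have S := (isCompact_sphere (0 : ℂ) (r / 2)).eventually_forall_of_forall_eventually (x₀ := p₀)
    (P := fun p z => ‖f (p, z) / f (p₀, z) - 1‖ ≤ 1 / 4 ∧ ‖f (p₀, z) / f (p, z) - 1‖ ≤ 1 / 4)
    fun z hz => by
      obtain ⟨a1, -, a3, a4⟩ :=
        E.self_of_nhds z ((k (mem_sphere_zero_iff_norm.1 hz).le).trans hr.2)
      have b : f (p₀, z) ≠ 0 :=
        a4 ▸ mul_ne_zero (pow_ne_zero _ (ne_of_mem_sphere hz hρ.ne')) a3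
      have c := (slice analyticAt_id a1).continuousAt.comp (f := Prod.snd) (x := (p₀, z))
        continuousAt_snd
      exact (near_one a1.continuousAt c rfl b).and (near_one c a1.continuousAt rfl b)
  filter_upwards [E, S] with p h1 h2 h3
  obtain ⟨n, g', a1, a2, a3⟩ := An.Nrm.factor (K := closedBall 0 (r / 2)) (f := fun z => f (p, z))
    (fun z hz => slice analyticAt_id (h1 z ((k (mem_closedBall_zero_iff.1 hz)).trans hr.2)).1)
    (mem_closedBall_self hρ.le) fun e => by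
      obtain ⟨z, b1, b2, b3⟩ := ((e.filter_mono nhdsWithin_le_nhds).and (Eventually.and
        (self_mem_nhdsWithin (s := {0}ᶜ)) (mem_nhdsWithin_of_mem_nhds (ball_mem_nhds _ hr.1)))).exists
      exact h3 z b2 (mem_ball_zero_iff.1 b3) b1
  simp only [sub_zero] at a3
  have b : ∀ z : ℂ, ‖z‖ ≤ r / 2 → AnalyticAt ℂ g' z ∧ g' z ≠ 0 := fun z hz =>
    ⟨a1 z (mem_closedBall_zero_iff.2 hz), by
      rcases eq_or_ne z 0 with rfl | e
      exacts [a2, right_ne_zero_of_mul (a3 z ▸ h3 z e (k hz))]⟩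
  have c := fun z hz => (h1 z ((k hz).trans hr.2)).2
  have d := fun z hz => (c z (mem_sphere_zero_iff_norm.1 hz).le).2.2
  obtain rfl : n = u := le_antisymm
    (ord_le hρ (fun z hz => ⟨(b z hz).1, (c z hz).1, (c z hz).2.1⟩) fun z hz =>
      a3 z ▸ d z hz ▸ (h2 z hz).1)
    (ord_le hρ (fun z hz => ⟨(c z hz).1, b z hz⟩) fun z hz => a3 z ▸ d z hz ▸ (h2 z hz).2)
  exact ⟨_, a2, g', (b 0 (by simpa using hρ.le)).1, rfl, .of_forall fun t => by
    rw [zpow_natCast]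
    exact a3 t⟩

/-- the leading coefficient is holomorphic -/
theorem exists_an_lead {f : P × ℂ → ℂ} (hf : AnalyticAt ℂ f (p₀, 0)) (u : ℕ) :
    ∃ a : P → ℂ, AnalyticAt ℂ a p₀ ∧ ∀ᶠ p in 𝓝 p₀, ∀ a', Vz u (fun z => f (p, z)) a' → a' = a p := by
  obtain ⟨G, h1, h2⟩ := exists_taylor_div hf u
  refine ⟨fun p => G (p, 0), h1.comp (f := fun p => (p, (0 : ℂ)))
    (analyticAt_id.prod analyticAt_const), ?_⟩
  filter_upwards [(hf.eventually_analyticAt.and (h1.eventually_analyticAt.and h2)).curry_nhds]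
    with p hp a' h
  have b := slice analyticAt_id hp.self_of_nhds.1
  exact h.unique ⟨fun z => G (p, z), slice analyticAt_id hp.self_of_nhds.2.1, rfl,
    (hp.filter_mono nhdsWithin_le_nhds).mono fun z hz => by
      rw [zpow_natCast]
      exact hz.2.2 ((dv_iff_jet b).1 (h.dv b))⟩

/-- on a smooth neck one of two functions with product zero vanishes -/
theorem eventually_tau {f f' : P × (ℂ × ℂ) → ℂ} {τ : P → ℂ} (hf : AnalyticAt ℂ f (p₀, 0))
    (hf' : AnalyticAt ℂ f' (p₀, 0)) (hτ : ContinuousAt τ p₀) (h0 : τ p₀ = 0)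
    (h : ¬∀ᶠ z in 𝓝 0, f (p₀, (z, 0)) = 0) (h' : ¬∀ᶠ z in 𝓝 0, f' (p₀, (0, z)) = 0)
    {U : Set (ℂ × ℂ)} (hU : U ∈ 𝓝 0) : ∀ᶠ p in 𝓝 p₀,
      (∀ z ∈ U, z.1 * z.2 = τ p → f (p, z) * f' (p, z) = 0) → τ p = 0 := by
  obtain ⟨r, hr, E⟩ := exists_ball (hf.eventually_analyticAt.and (hf'.eventually_analyticAt.and
    ((continuous_snd.tendsto (p₀, (0 : ℂ × ℂ))).eventually hU)))
  obtain ⟨y, a1, a2, a3, a4⟩ :=
    (((slice (an_ax 0) hf).eventually_eq_zero_or_eventually_ne_zero.resolve_left h).and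
    (((slice (κ := fun w => (0, w)) (analyticAt_const.prod analyticAt_id)
      hf').eventually_eq_zero_or_eventually_ne_zero.resolve_left h').and (Eventually.and
      (self_mem_nhdsWithin (s := {0}ᶜ)) (mem_nhdsWithin_of_mem_nhds (ball_mem_nhds _ hr))))).exists
  replace a3 : y ≠ 0 := a3
  rw [dist_zero_right] at a4
  have b := (cont_neck hτ h0 a3).comp (Continuous.prodMk_left y).continuousAt
  have b' := (continuous_id.prodMap continuous_swap).continuousAt.tendsto.comp b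
  have c : ∀ᶠ p in 𝓝 p₀, ‖τ p‖ < ‖y‖ * r :=
    hτ.norm.eventually_lt continuousAt_const (by rw [h0, norm_zero]; positivity)
  filter_upwards [E, c, b.eventually ((E.self_of_nhds (y, 0)
    (by simpa using a4)).1.continuousAt.eventually_ne a1), b'.eventually ((E.self_of_nhds (0, y)
    (by simpa using a4)).2.1.continuousAt.eventually_ne a2)] with p h1 h2 h3 h4 h5
  by_contra ht
  have k : ∀ z ∈ {u : ℂ | ‖τ p‖ / r < ‖u‖ ∧ ‖u‖ < r}, z ≠ 0 ∧ ‖(z, τ p / z)‖ < r := fun z hz => by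
    have d : 0 < ‖z‖ := (div_nonneg (norm_nonneg _) hr.le).trans_lt hz.1
    refine ⟨norm_pos_iff.1 d, max_lt hz.2 ?_⟩
    rw [norm_div, div_lt_iff₀' d]
    exact (div_lt_iff₀ hr).1 hz.1
  rcases AnalyticOnNhd.eq_zero_or_eq_zero_of_mul_eq_zero
    (fun z hz => slice (an_neck _ (k z hz).1) (h1 _ (k z hz).2).1)
    (fun z hz => slice (an_neck _ (k z hz).1) (h1 _ (k z hz).2).2.1)
    (fun z hz => h5 _ (h1 _ (k z hz).2).2.2 (mul_div_cancel₀ _ (k z hz).1))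
    (isPreconnected_annulus (div_nonneg (norm_nonneg _) hr.le)) with d | d
  · exact h3 (d y ⟨(div_lt_iff₀ hr).2 h2, a4⟩)
  · have d' := d (τ p / y) ⟨by
      rw [norm_div]
      exact div_lt_div_of_pos_left (norm_pos_iff.2 ht) (norm_pos_iff.2 a3) a4, by
      rwa [norm_div, div_lt_iff₀' (norm_pos_iff.2 a3)]⟩
    rw [div_div_cancel₀ ht] at d'
    exact h4 d'

/-- **the neck lemma** -/
theorem tendsto_neck {f f' : P × (ℂ × ℂ) → ℂ} {τ : P → ℂ} (hf : AnalyticAt ℂ f (p₀, 0))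
    (hf' : AnalyticAt ℂ f' (p₀, 0)) (hτ : ContinuousAt τ p₀) (h0 : τ p₀ = 0) {u : ℕ} {a a' : ℂ}
    (ha : a ≠ 0) (ha' : a' ≠ 0) (h : Vz u (fun z => f (p₀, (z, 0))) a)
    (h' : Vz u (fun z => f' (p₀, (0, z))) a') (hu : u ≠ 0) {p : α → P} {t : α → ℂ}
    (hp : Tendsto p l (𝓝 p₀)) {U : Set (ℂ × ℂ)} (hU : U ∈ 𝓝 0)
    (e : ∀ᶠ n in l, t n ≠ 0 ∧ ∀ z ∈ U, z.1 * z.2 = τ (p n) → f (p n, z) * f' (p n, z) = t n) :
    (∀ᶠ n in l, τ (p n) ≠ 0) ∧ Tendsto (fun n => t n / τ (p n) ^ u) l (𝓝 (a * a')) := by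
  obtain ⟨r₀, hr₀, E⟩ := exists_ball (hf.eventually_analyticAt.and
    ((continuous_snd.tendsto (p₀, (0 : ℂ × ℂ))).eventually hU))
  obtain ⟨r, hr, L, L', V⟩ := (Eventually.and (Ioo_mem_nhdsGT hr₀)
    ((lim_cau hf hτ h0 ha h 1).and ((lim_cau (f := fun q => f' (q.1, q.2.swap))
      (hf'.comp (f := fun q : P × (ℂ × ℂ) => (q.1, q.2.swap)) (analyticAt_fst.prod
        ((analyticAt_snd.comp analyticAt_snd).prod (analyticAt_fst.comp analyticAt_snd))))
      hτ h0 ha' h' (-1)).and (eventually_vz (f := fun q : P × ℂ => f (q.1, (q.2, 0)))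
      (hf.comp (f := fun q : P × ℂ => (q.1, (q.2, (0 : ℂ))))
        (analyticAt_fst.prod (analyticAt_snd.prod analyticAt_const))) ha h)))).exists
  have h1 : ∀ᶠ n in l, τ (p n) ≠ 0 := by
    filter_upwards [e, hp.eventually E, hp.eventually V] with n b1 b2 b3 b4
    have c : ∀ z : ℂ, ‖z‖ < r → f (p n, (z, 0)) ≠ 0 := fun z hz => left_ne_zero_of_mul
      ((b1.2 _ (b2 (z, 0) (by simpa using hz.trans hr.2)).2 (by rw [b4, mul_zero])).trans_ne b1.1)
    obtain ⟨_, -, g, g1, -, g3⟩ := b3 fun z _ => c z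
    refine c 0 (by simpa using hr.1) ((Vz.ev_of_an (slice (an_ax 0)
      (b2 (0, 0) (by simpa using hr₀)).1) g1 g3).self_of_nhds.trans ?_)
    rw [zero_pow hu, zero_mul]
  have h2 : ∀ᶠ q in 𝓝 p₀, ‖τ q‖ < r * r :=
    hτ.norm.eventually_lt continuousAt_const (by rw [h0, norm_zero]; exact mul_pos hr.1 hr.1)
  have h3 := zpow_ne_zero (-1) ha'
  have h4 := (L.comp hp).div (L'.comp hp) h3
  rw [zpow_one, zpow_neg_one, div_inv_eq_mul] at h4
  refine ⟨h1, h4.congr' ?_⟩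
  filter_upwards [e, h1, hp.eventually E, hp.eventually h2, (L'.comp hp).eventually_ne h3]
    with n b1 b2 b3 b4 b5
  have c : ∀ z : ℂ, ‖τ (p n)‖ / r ≤ ‖z‖ → ‖z‖ ≤ r → ‖(z, τ (p n) / z)‖ < r₀ := fun z c1 c2 =>
    (max_le c2 (neck_le hr.1 b2 c1).2).trans_lt hr.2
  have d := (div_le_iff₀ hr.1).2 b4.le
  refine (div_eq_iff b5).2 ((mean_neck b2 hr.1 d fun z c1 c2 => ?_).trans
    (mean_mul hr.1 fun v hv => ?_))
  · have z0 := (neck_le hr.1 b2 c1).1
    simp only [zpow_one]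
    exact (slice (an_neck _ z0) (b3 _ (c z c1 c2)).1).div (analyticAt_id.pow u) (pow_ne_zero _ z0)
  · obtain ⟨v0, v1⟩ := neck_le hr.1 b2 (d.trans hv.ge)
    have k := b1.2 (τ (p n) / v, v) (b3 _ ((max_le v1 hv.le).trans_lt hr.2)).2
      (div_mul_cancel₀ _ v0)
    have k' := right_ne_zero_of_mul (k.trans_ne b1.1)
    simp only [div_div_cancel₀ b2, Prod.swap_prod_mk, zpow_one, zpow_neg_one, ← k, div_pow]
    field_simp

end Vale.Agent.P269.Base
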