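import Vale.Agent.P269.Spl.Geo
import Vale.Agent.P269.Base.MerPar
import Vale.Agent.P269.Base.FMer
import Vale.Agent.P269.Cv.P1
import Vale.Agent.P269.Pt.Uniq
import Vale.Agent.P269.Spl.Neck

/-!
# Points on all components; separation of the components in families
-/

set_option linter.unusedSectionVars false

namespace Vale.Agent.P269.Base

open Set Function Topology Filter Holo Cv

variable {ι β β' : Type} [Fintype ι] [DecidableEq ι] [Fintype β] [Fintype β'] {M : ι → ℕ} {o : ι}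
  {g : ℤ} {m χ : ι → ℤ} {T P : Type*} [TopologicalSpace T] [NormedAddCommGroup P] [NormedSpace ℂ P]
  [FiniteDimensional ℂ P]

section one

variable {C : Set (V M)} {y : β → V M} {z : β' → V M} {u : β' → ℤ} {f : V M → ℂ}

theorem Hit.mono (h : Hit o C y) {y' : β' → V M} (e : ∀ k, ∃ k', Orb (y k) (y' k')) :
    Hit o C y' := fun X _ _ _ R N A π hp z => by
  obtain ⟨k, z', a, b⟩ := h X R N A π hp z
  obtain ⟨k', c⟩ := e k
  exact ⟨k', z', a, b.trans c⟩

theorem Hit.orb (h : Hit o C y) {y' : β → V M} (e : ∀ k, Orb (y k) (y' k)) : Hit o C y' :=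
  h.mono fun k => ⟨k, e k⟩

/-- one parametrisation is enough -/
theorem hit_of_par {X : Type} [TopologicalSpace X] [T2Space X] [CompactSpace X] {R : RS X}
    {N : Finset (X × X)} {A : ι → LB R} {π : X → V M} (h : Par o C N A π)
    (e : ∀ z, ∃ k, ∃ z' ∈ connectedComponent z, Orb (π z') (y k)) : Hit o C y :=
  fun _ _ _ _ _ _ _ _ h' z => by
    obtain ⟨f, c, hf, -, a, b, -⟩ := h.exists_iso h'
    obtain ⟨x, rfl⟩ := f.surjective z
    obtain ⟨k, x', d, d'⟩ := e x
    exact ⟨k, f x', hf.cont.mapsTo_connectedComponent x d,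
      (Orb.symm ⟨c x', b x', a x'⟩).trans d'⟩

set_option linter.unusedVariables false in
/-- the zeros of a form of positive degree meet all components -/
theorem hit_of_triv (hC : IsCurve o g m C) {b : ι → ℕ} (hb : ∀ i, 1 ≤ b i) {l : Tens M b}
    (hy : Spt o C y) (h : Triv o C (fun i => b i) y 1 (val l)) : Hit o C y :=
  fun _ _ _ _ R _ A _ hp z => by
    obtain ⟨w, w1, w2⟩ := hp.exists_pt hy
    obtain ⟨s, s1, s2, s3⟩ := hp.exists_sec w1 w2 h.toMer
    have hU := (exists_comp (R := R) z).1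
    have a := degOn_of_ne (U := connectedComponent z) (fun x _ => s1.1 x)
      fun x _ => (hp.triv_iff w1 w2 h.toMer s2 s3).1 h x
    by_contra c
    have d : ∀ k, w k ∉ connectedComponent z := fun k e => c ⟨k, _, e, (w2 k).2⟩
    simp only [degOn_div, degOn_bz, degOn_prod, degOn_zpow, degOn_pt hU, d, if_false, mul_zero,
      Finset.sum_const_zero, sub_zero] at a
    have e := Finset.single_le_sum
      (f := fun i => (b i : ℤ) * degOn (A i) (connectedComponent z)) (fun i _ => mul_nonneg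
        (Int.natCast_nonneg _) (hp.ge_zero i _ hU connectedComponent_nonempty)) (Finset.mem_univ o)
    exact (a ▸ e).not_gt (mul_pos (Int.natCast_pos.2 (hb o))
      (hp.ge_one _ hU connectedComponent_nonempty))

/-- a section of degree zero that vanishes on no component is a trivialisation -/
theorem Hit.triv (h : Hit o C y) (hC : IsCurve o g m C) (hz : Spt o C z) (hf : Mer o C χ z u f)
    (hy : ∀ k, y k ∈ C ∧ Off z (y k) ∧ f (y k) ≠ 0) (hd : ∑ k, u k = dgz m χ) :
    Triv o C χ z u f := by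
  obtain ⟨X, _, _, _, R, N, A, π, hp⟩ := hC.isNodal.exists_par
  obtain ⟨w, w1, w2⟩ := hp.exists_pt hz
  obtain ⟨s, s1, s2, s3⟩ := hp.exists_sec w1 w2 hf
  refine (hp.triv_iff w1 w2 hf s2 s3).2 fun x hx => ?_
  have a : univ ⊆ Gen s := fun x _ => by
    obtain ⟨k, x', a1, a2⟩ := h X R N A π hp x
    have b := s2 x' ((hp.off_iff w2).1 ((hy k).2.1.orb a2.symm))
    obtain ⟨t, a3, a4⟩ := a2
    have c : s x' ≠ 0 := fun e => (hy k).2.2 (by
      rw [a4, hf.hom t a3 _ (hp.mem _), ← b, e, mul_zero])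
    exact (isClopen_gen s1.1).connectedComponent_subset ((s1.1 x').mem_gen c)
      (connectedComponent_eq a1 ▸ mem_connectedComponent)
  have b := card_le_degOn isClopen_univ (fun x _ => s1.1 x) a (T := {x}) (by simpa using hx)
  simp only [degOn_univ, deg_div, deg_bz, deg_prod, deg_zpow, deg_pt, mul_one, hd, dgz,
    (hp.numbers hC).2.1, sub_self, Finset.card_singleton] at b
  omega

end one

variable {C : T → Set (V M)} {π : T → P} {t₀ : T}

theorem LocFam.exists_hit (h : LocFam o C π t₀) (hC : ∀ᶠ t in 𝓝 t₀, IsCurve o g m (C t))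
    {z : β' → V M} (hz : ∀ k i, z k i ≠ 0) : ∃ (r : ℕ) (y : Fin r → P → V M),
      (∀ k, AnalyticAt ℂ (y k) (π t₀) ∧ ¬IsNode o (C t₀) (y k (π t₀)) ∧ Off z (y k (π t₀))) ∧
      ∀ᶠ t in 𝓝 t₀, (∀ k, y k (π t) ∈ C t) ∧ Hit o (C t) fun k => y k (π t) := by
  obtain ⟨b, l, r, τ, a1, -, a2, a3, a4, a5⟩ := h.exists_pres (β := Empty) (σ := Empty.elim)
    ⟨fun k => k.elim, fun k => k.elim⟩ (y := z) fun k => ⟨hz k, fun j => j.elim⟩
  refine ⟨r, fun k p => τ k (p, 0), fun k => ⟨(a2.chart (.inr k)).an.comp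
    (f := fun p => (p, (0 : ℂ))) (analyticAt_id.prod analyticAt_const), (a2.spt h).sm (.inr k),
    fun j e => ?_⟩, ?_⟩
  · have c := a2.isBranch h (.inr k)
    obtain ⟨x, -, d⟩ := a4.ord' (.inr k) c (Orb.refl _)
    obtain ⟨q, q1, -, q2⟩ := d
    have d := (Vz.ev_of_an (n := 1) ((Dict.an_val _ _).comp c.holo) q1 q2).self_of_nhds
    obtain ⟨s, s1, s2⟩ := e
    rw [pow_one, zero_mul] at d
    exact mul_ne_zero (Finset.prod_ne_zero_iff.2 fun i _ => pow_ne_zero _ (s1 i)) (a5 j)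
      ((Dict.val_smul _ s _).symm.trans (s2 ▸ d))
  · filter_upwards [hC, h.eventually, a2.eventually h, a3.eventually_triv h a2 a4] with t c1 c2 c3 c4
    exact ⟨fun k => c3.mem (.inr k), (hit_of_triv c1 a1 (c3.spt c2) c4).mono fun k => by
      rcases k with k | k
      exacts [k.elim, ⟨k, Orb.refl _⟩]⟩

open Nrm in
/-- A decomposition of the central fibre into closed cones extends to the nearby fibres. -/
theorem LocFam.exists_sep (h : LocFam o C π t₀) [DecidableEq β] {e : V M → β}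
    (h1 : ∀ s : ι → ℂ, (∀ i, s i ≠ 0) → ∀ c ∈ C t₀, e (s • c) = e c)
    (h2 : ∀ c ∈ C t₀, ∀ᶠ c' in 𝓝[C t₀] c, e c' = e c) : ∃ e' : V M → β,
      (∀ c ∈ C t₀, ∀ᶠ c' in 𝓝 c, e' c' = e c) ∧
      (∀ s : ι → ℂ, (∀ i, s i ≠ 0) → ∀ c, e' (s • c) = e' c) ∧
      ∀ᶠ t in 𝓝 t₀, ∀ c ∈ C t, ∀ᶠ c' in 𝓝 c, e' c' = e' c := by
  have hN := h.nod
  have hK : ∀ b, IsClosed (Nrm.P '' {c | (c ∈ C t₀ ∧ ∀ i, ‖c i‖ = 1) ∧ e c = b}) := fun b =>
    ((hN.isCompact.of_isClosed_subset (isClosed_of_closure_subset fun c hc => by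
      have a := hN.isCompact.isClosed.closure_subset (closure_mono (fun _ a => a.1) hc)
      obtain ⟨y, a1, a2⟩ := ((mem_closure_iff_frequently.1 hc).and_eventually
        (eventually_nhdsWithin_iff.1 (h2 c a.1))).exists
      exact ⟨a, (a2 a1.1.1).symm.trans a1.2⟩) fun _ a => a.1).image_of_continuousOn
      fun c hc => (continuousAt_P (hN.ne_zero c hc.1.1)).continuousWithinAt).isClosed
  obtain ⟨U, U1, U2⟩ := Pairwise.exists_mem_filter_of_disjoint (ι := β) fun b b' hb =>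
    disjoint_nhdsSet_nhdsSet (hK b) (hK b') (disjoint_left.2 fun _ ⟨c, a1, a2⟩ ⟨c', a3, a4⟩ => by
      obtain ⟨s, a5, rfl⟩ := exists_of_P (hN.ne_zero _ a3.1.1) (a4.trans a2.symm)
      exact hb (a1.2.symm.trans ((h1 s a5 c a1.1.1).symm.trans a3.2)))
  have : Nonempty β := ⟨e 0⟩
  have key : ∀ c ∈ C t₀, ∀ᶠ c' in 𝓝 c,
      Classical.epsilon (fun b => Nrm.P c' ∈ U b) = e c := fun c hc => by
    obtain ⟨y, ⟨s, hs, rfl⟩, a⟩ := exists_orb_sphere (hN.ne_zero c hc)
    filter_upwards [continuousAt_P (hN.ne_zero c hc) (mem_nhdsSet_iff_forall.1 (U1 _) _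
      ⟨_, ⟨⟨hN.cone s hs c hc, a⟩, h1 s hs c hc⟩, P_smul hs c⟩)] with c' d
    exact by_contra fun k => disjoint_left.1 (U2 k)
      (Classical.epsilon_spec (p := fun b => Nrm.P c' ∈ U b) ⟨_, d⟩) d
  refine ⟨_, key, fun s hs c => by rw [P_smul hs], h.compact
    (p := fun q => ∀ᶠ c' in 𝓝 q.2, Classical.epsilon (fun b => Nrm.P c' ∈ U b) =
      Classical.epsilon fun b => Nrm.P q.2 ∈ U b) (fun c hc => ?_)
    (.of_forall fun t s hs c _ a => ?_)⟩
  · exact ((continuousAt_snd (p := (t₀, c))).eventually (key c hc).eventually_nhds).mono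
      fun q a _ => a.mono fun c' b => b.trans a.self_of_nhds.symm
  · exact ((tendsto_smul tendsto_const_nhds tendsto_id).eventually a).mono fun c' b => by
      simpa only [P_smul hs, id] using b

end Vale.Agent.P269.Base
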