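import Vale.Agent.P269.Spl.Ver
import Vale.Agent.P269.Spl.DictC
import Vale.Agent.P269.Map.Fib

/-!
# Two points with the same projection
-/

set_option linter.unusedSectionVars false

namespace Vale.Agent.P269

open Set Function Topology Filter Holo Base Cv

namespace Cv

variable {X : Type} [TopologicalSpace X] [T2Space X] [CompactSpace X] {R : RS X}
  {L B B' : LB R} {s s' r r' : X → ℂ} {y : X}

theorem ij_zero (h : B.Sec r y) (m : ∀ z, s z * r z = 0) (a : y ∈ Gen s) :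
    ∀ᶠ z in 𝓝 y, r z = 0 := h.zero_or_ne.resolve_right fun d => by
  have := R.neBot y
  obtain ⟨z, e, f⟩ := ((mem_gen.1 a).and d).exists
  exact mul_ne_zero e f (m z)

theorem ij_loc0 (h : ∀ᶠ z in 𝓝 y, r z = 0) : ∀ᶠ t in 𝓝 0, B.loc r y t = 0 :=
  (R.ev_iff.1 h).mono fun t e => by rw [LB.loc, e, zero_div]

theorem ij_loc (h : B.Sec s y) (h' : B'.Sec s' y) {k : ℕ} (o : B.ord s y = k)
    (o' : B'.ord s' y = k) : y ∈ Gen s ∧ y ∈ Gen s' ∧ ∃ g, AnalyticAt ℂ g 0 ∧ g 0 ≠ 0 ∧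
      ∀ᶠ t in 𝓝 0, B'.loc s' y t = g t * B.loc s y t := by
  obtain ⟨g, g1, g2, g3⟩ := h.analyticOrderAt_eq_natCast.1 o
  obtain ⟨g', g1', g2', g3'⟩ := h'.analyticOrderAt_eq_natCast.1 o'
  refine ⟨h.ord_ne_top.1 (o ▸ ENat.natCast_ne_top _), h'.ord_ne_top.1 (o' ▸ ENat.natCast_ne_top _),
    g' / g, g1'.div g1 g2, div_ne_zero g2' g2, ?_⟩
  filter_upwards [g3, g3', g1.continuousAt.eventually_ne g2] with t a b c
  rw [a, b, smul_eq_mul, smul_eq_mul, Pi.div_apply]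
  field_simp

/-- gluing of the quotients `s' / s` and `r / r'` -/
theorem ij_quot (hs : s ∈ B.Γ) (hs' : s' ∈ (L * B).Γ) (hr : r ∈ (L * B').Γ) (hr' : r' ∈ B'.Γ)
    (m : ∀ z, s z * r z = 0) (m' : ∀ z, s' z * r' z = 0)
    (h : ∀ y, ∃ k : ℕ, (B.ord s y = k ∧ (L * B).ord s' y = k) ∨
      (B'.ord r' y = k ∧ (L * B').ord r y = k)) :
    ∃ φ ∈ L.Γ, (∀ y, φ y ≠ 0) ∧ (∀ y, s' y = φ y * s y) ∧ ∀ y, r y = φ y * r' y := by
  have : ∀ y, ∃ g, AnalyticAt ℂ g 0 ∧ g 0 ≠ 0 ∧ (y ∈ Gen s ∨ y ∈ Gen r') ∧ ∀ᶠ t in 𝓝 0,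
      (L * B).loc s' y t = g t * B.loc s y t ∧ (L * B').loc r y t = g t * B'.loc r' y t :=
    fun y => by
      obtain ⟨k, ⟨o, o'⟩ | ⟨o, o'⟩⟩ := h y
      · obtain ⟨a, a', g, g1, g2, g3⟩ := ij_loc (hs y) (hs' y) o o'
        refine ⟨g, g1, g2, .inl a, ?_⟩
        filter_upwards [g3, ij_loc0 (B := L * B') (ij_zero (hr y) m a),
          ij_loc0 (B := B') (ij_zero (hr' y) m' a')] with t d e f
        exact ⟨d, by rw [e, f, mul_zero]⟩
      · obtain ⟨a, a', g, g1, g2, g3⟩ := ij_loc (hr' y) (hr y) o o'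
        refine ⟨g, g1, g2, .inr a, ?_⟩
        filter_upwards [g3, ij_loc0 (B := L * B) (ij_zero (hs' y)
          (fun z => (mul_comm _ _).trans (m' z)) a), ij_loc0 (B := B) (ij_zero (hs y)
          (fun z => (mul_comm _ _).trans (m z)) a')] with t d e f
        exact ⟨by rw [e, f, mul_zero], d⟩
  choose g g1 g2 g3 g4 using this
  have e : ∀ y, s' y = g y 0 * s y ∧ r y = g y 0 * r' y := fun y => by
    simpa only [LB.loc_zero] using (g4 y).self_of_nhds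
  refine ⟨fun y => g y 0, fun y => (g1 y).congr ?_, g2, fun y => (e y).1, fun y => (e y).2⟩
  have k : ∀ {B : LB R} {a a' : X → ℂ}, y ∈ Gen a → (∀ z, a' z = g z 0 * a z) →
      (∀ᶠ t in 𝓝 0, (L * B).loc a' y t = g y t * B.loc a y t) →
      ∀ᶠ t in 𝓝[≠] 0, g y t = L.loc (fun z => g z 0) y t := fun {B a a'} d f l => by
    filter_upwards [R.ev_ne_iff.1 d, l.filter_mono nhdsWithin_le_nhds] with t d l
    rw [show a' = (fun z => g z 0) * a from funext f, LB.loc_mul] at l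
    exact (mul_right_cancel₀ (div_ne_zero d (B.ne _ _)) l).symm
  rw [EventuallyEq, ← nhdsNE_sup_pure, eventually_sup, eventually_pure]
  exact ⟨(g3 y).elim (k · (fun z => (e z).1) ((g4 y).mono fun _ => And.left))
    (k · (fun z => (e z).2) ((g4 y).mono fun _ => And.right)), by rw [LB.loc_zero]⟩

end Cv

namespace Ch

open Res.Lnk.FibP

variable {J ι ν' ε : Type} [Fintype J] [Fintype ι] [DecidableEq ι] [Fintype ν'] [Fintype ε]
  {ch : Ch ι J} {i : ι} {b c : J} {h : ch.o ≠ i}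

theorem DgC.chb (hc : ch.DgC i b c) {G : Type} [DivisionCommMonoid G] (t : ι → G) :
    ∏ j, t j ^ ch.wd b j = t i / t ch.o := by
  rw [hc.wb, Finset.prod_eq_mul i ch.o hc.ne.symm (fun j _ e => by simp [e.1, e.2]) (by simp)
    (by simp)]
  simp [hc.ne, hc.ne.symm, div_eq_mul_inv]

theorem DgC.chc (hc : ch.DgC i b c) {G : Type} [DivisionCommMonoid G] (t : ι → G) :
    ∏ j, t j ^ ch.wd c j = (t i / t ch.o)⁻¹ := by
  simp only [hc.wc, Pi.neg_apply, zpow_neg, Finset.prod_inv_distrib, hc.chb]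

theorem ij_ne {x : ch.W ν'} {s : Bool} {y : V ch.M} :
    bv x b c s y ≠ 0 ↔ fld x y (if s then b else c) ≠ 0 := by
  cases s <;> simp [bv]

variable {X : Type} [TopologicalSpace X] [T2Space X] [CompactSpace X] {R : RS X}
  {N : Finset (X × X)} {A B : ι → LB R} {x x' : ch.W ν'} {y : (ch.flat h).W ν'}
  {π π' : X → V ch.M} {u u' : X → ∀ l, ch.E l →L[ℂ] ℂ} {p : ν' → X} {ξ : X → ℂ}

/-- two points with the same projection have a common parametrisation -/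
theorem Prj.exists_same (hc : ch.DgC i b c) (H : Prj x y) (H' : Prj x' y) (k : Cr N A x π u p ξ) :
    ∃ (B : ι → LB R) (π' u' : _), Cr N B x' π' u' p ξ ∧ (∀ j ≠ i, B j = A j) ∧
      ∀ z, pj i (π' z) = pj i (π z) := by
  obtain ⟨X', _, _, _, R', N', A', π', u', p', ξ', k'⟩ := exists_cr H'.mem.1
  obtain ⟨v, a⟩ := H.cr hc k
  obtain ⟨v', a'⟩ := H'.cr hc k'
  obtain ⟨f, s, hf, b1, b2, b3, b4⟩ := a.par.exists_iso a'.par
  obtain ⟨u₂, p₂, ξ₂, k₂⟩ := ((k'.par.comp hf k.par.nd b1).of_iso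
    (B := fun j => if j = i then hf.pb (A' j) else A j)
    (c := fun z j => if e : j = i then 1 else (s z ⟨j, e⟩)⁻¹) (fun j => by
      by_cases e : j = i
      · simp only [if_pos e, dif_pos e, div_self']
        exact H0.one_mem
      · simp only [if_neg e, dif_neg e]
        exact inv_div (hf.pb (A' j)) (A j) ▸ H0.inv_mem (b4 ⟨j, e⟩) (b3 · _)) fun z j => by
      split_ifs with e
      exacts [one_ne_zero, inv_ne_zero (b3 z _)]).exists_cr H'.mem.1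
  have e : ∀ z, pj i ((fun j => if e : j = i then 1 else (s z ⟨j, e⟩)⁻¹) • π' (f z)) =
      pj i (π z) := fun z => by
    rw [pj_smul, b2, show (fun j : {j // j ≠ i} => if e : j.1 = i then 1 else (s z ⟨j.1, e⟩)⁻¹) =
      (s z)⁻¹ from funext fun j => dif_neg j.2, Dict.inv_smul (b3 z)]
  obtain ⟨v₂, a₂⟩ := H'.cr hc k₂
  rw [funext e, show (fun j : {j // j ≠ i} => if j.1 = i then hf.pb (A' j.1) else A j.1) =
    fun j => A j.1 from funext fun j => if_neg j.2] at a₂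
  obtain rfl : p₂ = p := funext fun n =>
    a.orb_mark.1 (let ⟨s, _, e⟩ := (a₂.mark n).symm; ⟨s, e⟩)
  obtain rfl := xi_unique a₂ a
  exact ⟨_, _, u₂, k₂, fun j hj => if_neg hj, e⟩

theorem ij_bv (hc : ch.DgC i b c) (k : Cr N A x π u p ξ) (hb : Sc x b) (hc' : Sc x c) (s : Bool)
    (w : X) {t : ι → ℂ} (ht : ∀ j, t j ≠ 0) :
    bv x b c s (t • π w) = t i / t ch.o * bv x b c s (π w) := by
  cases s
  · simp only [bv, Bool.false_eq_true, if_false, k.fld_smul (ind_fld k hc') w ht, hc.chc, mul_inv,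
      inv_inv]
  · simp only [bv, if_true, k.fld_smul (ind_fld k hb) w ht, hc.chb]

section

variable {o' : {j // j ≠ i}} {C : Set (V fun j : {j // j ≠ i} => ch.M j.1)}
  (k : Cr N A x π u p ξ) (k' : Cr N B x' π' u' p ξ) (eπ : ∀ z, pj i (π' z) = pj i (π z))
  (hp : Par o' C N (fun j => A j.1) fun z => pj i (π z))
include k k' eπ hp

theorem ij_pt {z z' : V ch.M} (hz : z ∈ crv x) (hz' : z' ∈ crv x') (e : pj i z = pj i z') :
    ∃ w, ∃ t t' : ι → ℂ, (∀ j, t j ≠ 0) ∧ (∀ j, t' j ≠ 0) ∧ z = t • π w ∧ z' = t' • π' w ∧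
      ∀ j ≠ i, t' j = t j := by
  obtain ⟨w, t, a, rfl⟩ := (k.par.img z).1 hz
  obtain ⟨w', t', a', rfl⟩ := (k'.par.img z').1 hz'
  rw [pj_smul, pj_smul, eπ] at e
  have d := hp.fibre (fun j => a j.1) e
  rw [← hp.π_eq d] at e
  exact ⟨w, t, t', a, a', rfl, by rw [k'.par.π_eq d], fun j hj =>
    (congrFun (Dict.smul_cancel (hp.ne w) e) ⟨j, hj⟩).symm⟩

/-- comparison of branches with the same projection -/
theorem ij_br (eA : ∀ j ≠ i, B j = A j) {γ γ' : ℂ → V ch.M} (hγ : IsBranch ch.o (crv x) γ)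
    (hγ' : IsBranch ch.o (crv x') γ') (e : ∀ᶠ z in 𝓝 0, pj i (γ z) = pj i (γ' z)) :
    ∃ w, Nrm.Fac (br A π w) γ ∧ Nrm.Fac (br B π' w) γ' ∧ ∃ t t' : ι → ℂ, γ 0 = t • π w ∧
      γ' 0 = t' • π' w ∧ ∀ φ ∈ (B i / A i).Γ, ∃ g, AnalyticAt ℂ g 0 ∧ g 0 = t' i / t i * φ w ∧
        ∀ᶠ z in 𝓝 0, ∃ v, ∃ τ τ' : ι → ℂ, (∀ j, τ j ≠ 0) ∧ (∀ j, τ' j ≠ 0) ∧ γ z = τ • π v ∧
          γ' z = τ' • π' v ∧ (∀ j ≠ i, τ' j = τ j) ∧ g z = τ' i / τ i * φ v := by
  obtain ⟨w, F⟩ := k.par.dc_fac hγ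
  obtain ⟨w', F'⟩ := k'.par.dc_fac hγ'
  obtain ⟨r, ψ, a1, a2, a3, a4, a5, a6⟩ := id F
  obtain ⟨r', ψ', b1, b2, b3, b4, b5, b6⟩ := id F'
  have d : ∀ v t, pj i (br B π' v t) =
      br (fun j : {j // j ≠ i} => A j.1) (fun z => pj i (π z)) v t := fun v t => by
    rw [← funext eπ, ← show (fun j : {j // j ≠ i} => B j.1) = fun j => A j.1 from
      funext fun j => eA _ j.2]
    rfl
  have c1 : ∀ᶠ z in 𝓝 0, pj i (γ z) = (fun j : {j // j ≠ i} => r z j.1) •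
      br (fun j : {j // j ≠ i} => A j.1) (fun z => pj i (π z)) w (ψ z) :=
    a6.mono fun z a => a ▸ rfl
  have c2 : ∀ᶠ z in 𝓝 0, pj i (γ z) = (fun j : {j // j ≠ i} => r' z j.1) •
      br (fun j : {j // j ≠ i} => A j.1) (fun z => pj i (π z)) w' (ψ' z) :=
    (e.and b6).mono fun z a => by rw [a.1, a.2, pj_smul, d]
  obtain rfl : w = w' := hp.dc_uniq (γ := fun z => pj i (γ z))
    ⟨_, ψ, AnalyticAt.pi fun j => analyticAt_pi_iff.1 a1 j.1, a2, fun j => a3 j.1, a4, a5, c1⟩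
    ⟨_, ψ', AnalyticAt.pi fun j => analyticAt_pi_iff.1 b1 j.1, b2, fun j => b3 j.1, b4, b5, c2⟩
  obtain ⟨U, hU, c3⟩ := Nrm.inj_branch hp.isNodal (hp.isBranch w)
  refine ⟨w, F, F', r 0, r' 0, by rw [a6.self_of_nhds, a4, br_zero],
    by rw [b6.self_of_nhds, b4, br_zero], fun φ hφ => ⟨fun z => r' z i / r z i *
      (B i / A i).loc φ w (ψ z), ((analyticAt_pi_iff.1 b1 i).div (analyticAt_pi_iff.1 a1 i)
        (a3 i)).mul (AnalyticAt.comp_of_eq (hφ w) a2 a4), by simp only [a4, LB.loc_zero], ?_⟩⟩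
  filter_upwards [a6, b6, c1, c2, (a4 ▸ a2.continuousAt.tendsto :).eventually hU,
    (b4 ▸ b2.continuousAt.tendsto :).eventually hU, eventually_all.2 fun j =>
      (continuousAt_pi.1 a1.continuousAt j).eventually_ne (a3 j), eventually_all.2 fun j =>
      (continuousAt_pi.1 b1.continuousAt j).eventually_ne (b3 j)] with z e1 e2 e3 e4 e5 e6 e7 e8
  have e9 : ψ' z = ψ z := c3 _ e6 _ e5 ((fun j => r z j.1)⁻¹ * fun j => r' z j.1) (by
    rw [mul_smul, ← e4, e3, Dict.inv_smul fun j : {j // j ≠ i} => e7 j.1])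
  rw [e9] at e2 e4
  rw [br_eq, smul_smul] at e1 e2
  refine ⟨_, _, _, fun j => mul_ne_zero (e7 j) (inv_ne_zero ((A j).ne _ _)),
    fun j => mul_ne_zero (e8 j) (inv_ne_zero ((B j).ne _ _)), e1, e2, fun j hj => ?_, ?_⟩
  · rw [eA j hj, show r' z j = r z j from congrFun (Dict.smul_cancel
      (hp.ne_zero _ (hp.br_mem w (ψ z))) (e4.symm.trans e3)) ⟨j, hj⟩]
  · simp only [LB.loc, LB.div_φ]
    field_simp

end

end Ch

end Vale.Agent.P269
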