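import Vale.Agent.P269.Spl.Geo3
import Vale.Agent.P269.Spl.Hit
import Vale.Agent.P269.Map.Hol
import Vale.Agent.P269.Spl.InjA

/-!
# The coordinates are injective on the model
-/

set_option linter.unusedSectionVars false

namespace Vale.Agent.P269.Ch

open Set Function Topology Filter Holo Base Cv

section

open Res.Lnk.FibP

variable {J ι ν' ε : Type} [Fintype J] [Fintype ι] [DecidableEq ι] [Fintype ν'] [Fintype ε]
  {ch : Ch ι J} {i : ι} {b c : J} {X : Type} [TopologicalSpace X] [T2Space X] [CompactSpace X]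
  {R : RS X} {N : Finset (X × X)} {A B : ι → LB R} {x x' : ch.W ν'}
  {π π' : X → V ch.M} {u u' : X → ∀ l, ch.E l →L[ℂ] ℂ} {p : ν' → X} {ξ : X → ℂ}

theorem DgC.ij_b (hc : ch.DgC i b c) (eA : ∀ j ≠ i, B j = A j) :
    bz B (ch.wd b) = B i / A i * bz A (ch.wd b) := by
  rw [bz, bz, hc.chb, hc.chb, eA _ hc.ne, div_mul_div_cancel]

theorem DgC.ij_c (hc : ch.DgC i b c) (eA : ∀ j ≠ i, B j = A j) :
    bz A (ch.wd c) = B i / A i * bz B (ch.wd c) := by
  rw [bz, bz, hc.chc, hc.chc, eA _ hc.ne, inv_div, inv_div, mul_comm, div_mul_div_cancel]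

variable {o' : {j // j ≠ i}} {C : Set (V fun j : {j // j ≠ i} => ch.M j.1)} (hc : ch.DgC i b c)
  (k : Cr N A x π u p ξ)
include hc k

section

variable (k' : Cr N B x' π' u' p ξ) (eA : ∀ j ≠ i, B j = A j)
  (eπ : ∀ z, pj i (π' z) = pj i (π z)) (hp : Par o' C N (fun j => A j.1) fun z => pj i (π z))
include k' eA

/-- the isomorphism of the bundles off the special fibre -/
theorem ij_phi1 (sb : Sc x b) (sb' : Sc x' b) {t : ℂ} (ht : t ≠ 0)
    (m : ∀ y ∈ crv x, fld x y b * fld x y c = t) (m' : ∀ y ∈ crv x', fld x' y b * fld x' y c = t) :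
    ∃ φ ∈ H0 N (B i / A i), (∀ z, φ z ≠ 0) ∧ (∀ z, fld x' (π' z) b = φ z * fld x (π z) b) ∧
      ∀ z, fld x (π z) c = φ z * fld x' (π' z) c := by
  have a := fun z => left_ne_zero_of_mul ((m _ (k.par.mem z)).trans_ne ht)
  have a' := fun z => left_ne_zero_of_mul ((m' _ (k'.par.mem z)).trans_ne ht)
  have d := H0.mul_mem (hc.ij_b eA ▸ k'.ind_mem (ind_fld k' sb'))
    (H0.inv_mem (k.ind_mem (ind_fld k sb)) a)
  rw [mul_inv_cancel_right] at d
  refine ⟨_, d, fun z => mul_ne_zero (a' z) (inv_ne_zero (a z)),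
    fun z => (inv_mul_cancel_right₀ (a z) _).symm, fun z => mul_left_cancel₀ (a z) ?_⟩
  rw [m _ (k.par.mem z), ← m' _ (k'.par.mem z), ← mul_assoc, mul_comm (fld x _ b)]
  exact congrArg (· * _) (inv_mul_cancel_right₀ (a z) _).symm

include eπ hp

/-- the isomorphism of the bundles on the special fibre -/
theorem ij_phi0 {e₀ : ε → ℕ} {γ δ γ' δ' : ε → ℂ → V ch.M} {a₁ a₁' a₂ a₂' : ε → ℂ}
    (G : Gd x b c e₀ γ δ a₁ a₁') (G' : Gd x' b c e₀ γ' δ' a₂ a₂') (ea : a₁ * a₁' = a₂ * a₂')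
    (eγ : ∀ e, ∀ᶠ z in 𝓝 0, pj i (γ e z) = pj i (γ' e z))
    (eδ : ∀ e, ∀ᶠ z in 𝓝 0, pj i (δ e z) = pj i (δ' e z))
    (hs : ∀ y, ∃ w ∈ connectedComponent y, ∃ s, bv x b c s (π w) ≠ 0 ∧ bv x' b c s (π' w) ≠ 0) :
    ∃ φ ∈ H0 N (B i / A i), (∀ z, φ z ≠ 0) ∧ (∀ z, fld x' (π' z) b = φ z * fld x (π z) b) ∧
      ∀ z, fld x (π z) c = φ z * fld x' (π' z) c := by
  have ib := ind_fld k G.scb
  have ic := ind_fld k G.scc
  have ib' := ind_fld k' G'.scb
  have ic' := ind_fld k' G'.scc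
  have mb := k.ind_mem ib
  have mc := k.ind_mem ic
  have mb' := k'.ind_mem ib'
  have mc' := k'.ind_mem ic'
  have m := fun z => G.mul _ (k.par.mem z)
  have m' := fun z => G'.mul _ (k'.par.mem z)
  choose w F F' t t' h1 h1' H using fun e =>
    ij_br k k' eπ hp eA (G.cross e).1 (G'.cross e).1 (eγ e)
  choose v E E' r r' h2 h2' K using fun e =>
    ij_br k k' eπ hp eA (G.cross e).2.1 (G'.cross e).2.1 (eδ e)
  have j := fun e => k.par.dc_jn (G.cross e) (F e) (E e)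
  have o1 : ∀ e z, w e = z ∨ Jn N (w e) z → z = w e ∨ z = v e := fun e z d =>
    d.imp Eq.symm fun d => d.unique k.par.nd (j e)
  have o2 : ∀ z, (∀ e, z ≠ w e ∧ z ≠ v e) → (fld x (π z) b ≠ 0 ∨ fld x (π z) c ≠ 0) ∧
      (fld x' (π' z) b ≠ 0 ∨ fld x' (π' z) c ≠ 0) := fun z d =>
    ⟨G.ne _ (k.par.mem z) fun e f =>
        not_or.2 (d e) (o1 e z (k.par.dc_rel ((dc_orb (F e)).trans f))),
      G'.ne _ (k'.par.mem z) fun e f =>
        not_or.2 (d e) (o1 e z (k'.par.dc_rel ((dc_orb (F' e)).trans f)))⟩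
  have g : ∀ {L : LB R} {s : X → ℂ} {y z}, s ∈ H0 N L → z ∈ connectedComponent y → s z ≠ 0 →
      y ∈ Gen s := fun {L s y z} d e f =>
    (isClopen_gen d.1).connectedComponent_subset ((d.1 z).mem_gen f)
      (connectedComponent_eq e ▸ mem_connectedComponent)
  obtain ⟨φ, q1, q2, q3, q4⟩ := ij_quot (L := B i / A i) mb.1 (hc.ij_b eA ▸ mb'.1)
    (hc.ij_c eA ▸ mc.1) mc'.1 m m' fun y => by
      rw [← hc.ij_b eA, ← hc.ij_c eA]
      by_cases d : ∀ e, y ≠ w e ∧ y ≠ v e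
      · obtain ⟨z, f, s, l, l'⟩ := hs y
        refine ⟨0, ?_⟩
        simp only [Nat.cast_zero, LB.ord_eq_zero (mb.1 y), LB.ord_eq_zero (mb'.1 y),
          LB.ord_eq_zero (mc.1 y), LB.ord_eq_zero (mc'.1 y)]
        cases s
        · exact .inr ⟨(o2 y d).2.resolve_left (not_not.2 (ij_zero (mb'.1 y)
            (fun z => (mul_comm _ _).trans (m' z)) (g mc' f (ij_ne.1 l'))).self_of_nhds),
            (o2 y d).1.resolve_left (not_not.2 (ij_zero (mb.1 y)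
            (fun z => (mul_comm _ _).trans (m z)) (g mc f (ij_ne.1 l))).self_of_nhds)⟩
        · exact .inl ⟨(o2 y d).1.resolve_right (not_not.2 (ij_zero (mc.1 y) m
            (g mb f l)).self_of_nhds), (o2 y d).2.resolve_right (not_not.2 (ij_zero (mc'.1 y) m'
            (g mb' f l')).self_of_nhds)⟩
      · obtain ⟨e, d⟩ := not_forall.1 d
        obtain rfl | rfl : y = w e ∨ y = v e := by tauto
        · exact ⟨_, .inl ⟨(k.dc_vz ib (F e)).2 ⟨_, G.vzb e⟩, (k'.dc_vz ib' (F' e)).2 ⟨_, G'.vzb e⟩⟩⟩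
        · exact ⟨_, .inr ⟨(k'.dc_vz ic' (E' e)).2 ⟨_, G'.vzc e⟩, (k.dc_vz ic (E e)).2 ⟨_, G.vzc e⟩⟩⟩
  have n : ∀ e, φ (w e) = φ (v e) := fun e => by
    obtain ⟨f, f1, f2, f3⟩ := H e φ q1
    obtain ⟨l, l1, l2, l3⟩ := K e φ q1
    have c1 := (G'.vzb e).2.unique (((G.vzb e).2.an_mul f1).congr
      ((f3.filter_mono nhdsWithin_le_nhds).mono fun z ⟨y, τ, τ', d1, d2, d3, d4, d5, d6⟩ => by
        rw [d3, d4, d6, k.fld_smul ib y d1, k'.fld_smul ib' y d2, hc.chb, hc.chb, q3, d5 _ hc.ne]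
        field_simp [d1 i]))
    have c2 := (G.vzc e).2.unique (((G'.vzc e).2.an_mul l1).congr
      ((l3.filter_mono nhdsWithin_le_nhds).mono fun z ⟨y, τ, τ', d1, d2, d3, d4, d5, d6⟩ => by
        rw [d3, d4, d6, k.fld_smul ic y d1, k'.fld_smul ic' y d2, hc.chc, hc.chc, q4, d5 _ hc.ne]
        field_simp [d1 i, d2 i]))
    have c3 : r e = t e := Dict.smul_cancel (k.par.ne (w e)) (by
      rw [← h1, k.par.π_eq (.inr (j e)), ← h2, (G.cross e).2.2.2.1])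
    have c4 : r' e = t' e := Dict.smul_cancel (k'.par.ne (w e)) (by
      rw [← h1', k'.par.π_eq (.inr (j e)), ← h2', (G'.cross e).2.2.2.1])
    have c5 : a₁ e * a₁' e = a₂ e * a₂' e := congrFun ea e
    rw [l2, c3, c4] at c2
    rw [f2] at c1
    refine mul_left_cancel₀ (mul_ne_zero (mul_ne_zero (left_ne_zero_of_mul (left_ne_zero_of_mul
      (c1 ▸ (G'.vzb e).1))) (G.vzb e).1) (G'.vzc e).1) ?_
    linear_combination a₁ e * c2 - a₂' e * c1 - c5
  refine ⟨φ, mem_H0_iff.2 ⟨q1, fun y z l => ?_⟩, q2, q3, q4⟩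
  by_cases d : ∀ e, y ≠ w e ∧ y ≠ v e
  · rcases (o2 y d).1 with f | f
    · refine mul_right_cancel₀ f ?_
      rw [← q3, k.par.π_eq (.inr l), ← q3, k'.par.π_eq (.inr l)]
    · refine mul_right_cancel₀ (right_ne_zero_of_mul (q4 y ▸ f)) ?_
      rw [← q4, k'.par.π_eq (.inr l), ← q4, k.par.π_eq (.inr l)]
  · obtain ⟨e, d⟩ := not_forall.1 d
    obtain rfl | rfl : y = w e ∨ y = v e := by tauto
    · rw [n, l.unique k.par.nd (j e)]
    · rw [← n, l.unique k.par.nd (j e).symm]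

end

/-- change of the bundle `A i` -/
theorem ij_iso (eA : ∀ j ≠ i, B j = A j) (sb : Sc x b) (sc : Sc x c) {φ : X → ℂ}
    (h1 : φ ∈ H0 N (B i / A i)) (h2 : ∀ z, φ z ≠ 0) : ∃ π₁ u₁, Cr N B x π₁ u₁ p ξ ∧
      ∀ z, pj i (π₁ z) = pj i (π z) ∧ ∀ s, bv x b c s (π₁ z) = φ z * bv x b c s (π z) := by
  have h0 : ∀ z j, (if j = i then φ z else 1) ≠ 0 := fun z j => by
    split_ifs
    exacts [h2 z, one_ne_zero]
  have a := k.of_iso (B := B) (c := fun z j => if j = i then φ z else 1) (fun j => by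
    by_cases e : j = i
    · simpa only [e, if_true] using h1
    · simp only [if_neg e, eA j e, div_self']
      exact H0.one_mem) h0
  rw [show (fun y => ξ y * ∏ j, (if j = i then φ y else 1) ^ ch.χ j) = ξ from funext fun z => by
    rw [Finset.prod_eq_one fun j _ => by
      split_ifs with e
      exacts [by rw [e, hc.chi0, zpow_zero], one_zpow _], mul_one]] at a
  refine ⟨_, _, a, fun z => ⟨funext fun j => ?_, fun s => ?_⟩⟩
  · exact (congrArg (· • π z j.1) (if_neg j.2)).trans (one_smul ℂ _)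
  · rw [ij_bv hc k sb sc s z (h0 z), if_pos rfl, if_neg hc.ne, div_one]

variable (k' : Cr N A x' π' u' p ξ) (sb : Sc x b) (sc : Sc x c) (sb' : Sc x' b) (sc' : Sc x' c)
  (eπ : ∀ z, pj i (π' z) = pj i (π z)) (hp : Par o' C N (fun j => A j.1) fun z => pj i (π z))
  (ev : ∀ z s, bv x b c s (π z) = bv x' b c s (π' z))
include k' sb sc sb' sc' eπ hp ev

/-- the curves agree -/
theorem ij_pi {z z' : Fin (ch.M i) → V ch.M} {s : Fin (ch.M i) → Bool}
    (h1 : ∀ j, z j ∈ crv x ∧ bv x b c (s j) (z j) ≠ 0) (h2 : ∀ j, z' j ∈ crv x')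
    (h3 : ∀ j, pj i (z j) = pj i (z' j)) (h4 : LinearIndependent ℂ fun j => z j i)
    (h5 : ∀ j, (bv x b c (s j) (z j))⁻¹ • z j i = (bv x' b c (s j) (z' j))⁻¹ • z' j i) :
    π' = π := by
  obtain ⟨T, hT⟩ := exists_lift_vec fun j => k.full.span i _ (k'.par.sec i j)
  have e : (T : _ →ₗ[ℂ] _) = .id := LinearMap.ext_on_range
    (h4.span_eq_top_of_card_eq_finrank' (by simp)) fun j => by
      obtain ⟨w, t, t', a, a', d, d', f⟩ := ij_pt k k' eπ hp (h1 j).1 (h2 j) (h3 j)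
      refine smul_right_injective _ (inv_ne_zero (h1 j).2) (.trans ?_ (h5 j).symm)
      simp only [d, d', ij_bv hc k sb sc _ w a, ij_bv hc k' sb' sc' _ w a', ev, Dict.smul_ap,
        map_smul, ContinuousLinearMap.coe_coe, hT, smul_smul, f _ hc.ne, mul_inv]
      congr 1
      field_simp [a i, a' i]
  funext w j
  by_cases d : j = i
  · subst d
    exact (hT w).symm.trans (LinearMap.congr_fun e _)
  · exact congrFun (eπ w) ⟨j, d⟩

end

section

open Res.Lnk.FibP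

variable {J ι ν κ : Type} [Fintype J] [Fintype ι] [DecidableEq ι] [Fintype ν] [Fintype κ]
  {ch : Ch ι J} {i : ι} {b c : J} {X : Type} [TopologicalSpace X] [T2Space X] [CompactSpace X]
  {R : RS X} {N : Finset (X × X)} {A : ι → LB R} {x x' : ch.W (Mk ν κ)} {π : X → V ch.M}
  {u u' : X → ∀ l, ch.E l →L[ℂ] ℂ} {p : Mk ν κ → X} {ξ : X → ℂ} {t t' : ℂ}
  {o' : {j // j ≠ i}} {C : Set (V fun j : {j // j ≠ i} => ch.M j.1)}

theorem Bc.ij_mt (H : Bc x b c t) (s : Bool) (q : κ) :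
    bv x b c s (x.p (.inr (q, true))) = bv x b c s (x.p (.inr (q, false))) := by
  rw [Ch.bv, Ch.bv, H.mtb, H.mtc]

/-- points with the same curve and the same coordinates agree -/
theorem ij_eq (hc : ch.DgC i b c) (k : Cr N A x π u p ξ) (k' : Cr N A x' π u' p ξ)
    (H : Bc x b c t) (H' : Bc x' b c t') (hp : Par o' C N (fun j => A j.1) fun z => pj i (π z))
    (ev : ∀ z s, bv x b c s (π z) = bv x' b c s (π z)) {S : ∀ l, ch.E l →L[ℂ] Tens ch.M (ch.a l)}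
    (h1 : ∀ l, Surjective (x.Q l ∘L S l)) (h2 : ∀ l, x.Q l ∘L S l = x'.Q l ∘L S l)
    (h3 : ∀ a, pj i (x.p a) = pj i (x'.p a)) {s : Mk ν κ → Bool}
    (h4 : ∀ a, bv x b c (s a) (x.p a) ≠ 0)
    (h5 : ∀ a : ν ⊕ κ, bv x b c (s (a.map id (·, false))) (x.p (a.map id (·, false))) =
      bv x' b c (s (a.map id (·, false))) (x'.p (a.map id (·, false))))
    (h6 : ∀ j, j ≠ b → j ≠ c → x.X j = x'.X j) : x = x' := by
  have eQ : ∀ l, x.Q l = x'.Q l := fun l => ContinuousLinearMap.ext fun μ => by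
    obtain ⟨v, e⟩ := h1 l (x.Q l μ)
    refine e.symm.trans ((congrArg (· v) (h2 l)).trans (k'.u_ext fun y => ?_))
    rw [ContinuousLinearMap.comp_apply] at e
    rw [ContinuousLinearMap.comp_apply, k'.u_Q, k'.u_Q, ← k.u_Q, ← k.u_Q, e]
  obtain rfl : u' = u := funext fun y =>
    k.u_eq ⟨k.par.ne y, fun l μ => by rw [eQ]; exact k'.u_Q y l μ⟩
  have m := fun a => (k.mem.2.2.2.1 a).1
  have m' := fun a => (k'.mem.2.2.2.1 a).1
  have e1 : ∀ a, bv x b c (s a) (x.p a) = bv x' b c (s a) (x'.p a) → x.p a = x'.p a := fun a e => by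
    obtain ⟨w, r, r', f, f', d, d', g⟩ := ij_pt k k' (fun _ => rfl) hp (m a) (m' a) (h3 a)
    have l := h4 a
    rw [d, ij_bv hc k H.scb H.scc _ w f] at l e
    rw [d', ij_bv hc k' H'.scb H'.scc _ w f', ← ev, g _ hc.ne] at e
    rw [d, d']
    refine congrArg (· • _) (funext fun j => ?_)
    by_cases q : j = i
    · exact q ▸ (div_left_inj' (f _)).1 (mul_right_cancel₀ (right_ne_zero_of_mul l) e)
    · exact (g j q).symm
  refine W.ext eQ (fun a => e1 a ?_) (ContinuousLinearMap.ext fun μ => k.u_ext fun y =>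
    (k.Xi y μ).trans (k'.Xi y μ).symm) fun j => ?_
  · rcases a with a | ⟨q, _ | _⟩
    · exact h5 (.inl a)
    · exact h5 (.inr q)
    · obtain ⟨w, r, f, d⟩ := (k.par.img _).1 (m (.inr (q, false)))
      rw [H.ij_mt, H'.ij_mt, ← e1 (.inr (q, false)) (h5 (.inr q)), d, ij_bv hc k H.scb H.scc _ w f,
        ij_bv hc k' H'.scb H'.scc _ w f, ev]
  · by_cases e : j = b
    · subst e
      exact k.X_ext (ind_fld k H.scb) (funext (ev · true) ▸ ind_fld k' H'.scb)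
    by_cases e' : j = c
    · subst e'
      exact k.X_ext (ind_fld k H.scc) (funext (fun z => inv_injective (ev z false)) ▸
        ind_fld k' H'.scc)
    exact h6 j e e'

theorem ij_ev {x₀ : ch.W (Mk ν κ)} (H : Bc x₀ b c t) {z : ch.W (Mk ν κ) → V ch.M}
    (hz : AnalyticAt ℂ z x₀) (m : z x₀ ∈ crv x₀) {s : Bool}
    (h0 : fld x₀ (z x₀) (if s then b else c) ≠ 0) :
    ∀ᶠ x in 𝓝 x₀, z x ∈ crv x → ∀ t, Bc x b c t → bv x b c s (z x) ≠ 0 := by
  have e : ∀ {x : ch.W (Mk ν κ)} {t}, Bc x b c t → Sc x (if s then b else c) := fun H => by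
    cases s
    exacts [H.scc, H.scb]
  obtain ⟨Φ, h1, h2⟩ := exists_fldU H.mem.1.1 (crv_ne m) (if s then b else c)
  have h3 := (analyticAt_id.prod hz).continuousAt.tendsto
  filter_upwards [h3.eventually h2, h3.eventually (h1.continuousAt.eventually_ne
    (h2.self_of_nhds m (e H _ m) ▸ h0))] with x a d f t g
  exact ij_ne.2 ((a f (e g _ f)).trans_ne d)

end

variable {J ι ν κ ε : Type} [Fintype J] [Fintype ι] [DecidableEq ι] [Fintype ν]
  [Fintype κ] [Fintype ε] {ch : Ch ι J} {i : ι} {h : ch.o ≠ i} {n : ℕ} {b c : J}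
  {x₀ : ch.bm ν κ} {Ψ : PV n ε → (ch.flat h).W (Mk ν κ)} {k : _} {σ' : _} {σ : _}
  {u : ε → ℕ} {a a' : ε → ℂ} {D : ch.Cd ν κ h n ε}

/-- moving points on all components with constant sides -/
theorem Lm.exists_side (H : Lm b c x₀ Ψ k σ' σ u a a') : ∃ (r : ℕ)
    (m : Fin r → PV n ε → V (ch.flat h).M) (z : Fin r → ch.W (Mk ν κ) → V ch.M) (s : Fin r → Bool),
    ∀ᶠ x in 𝓝 x₀.1, ∀ t, Bc x b c t → Hit (ch.flat h).o (crv (Ψ (k x))) (fun j => m j (k x)) ∧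
      ∀ j, z j x ∈ crv x ∧ pj i (z j x) = m j (k x) ∧ bv x b c (s j) (z j x) ≠ 0 := by
  have P := H.vs.prj.self_of_nhds x₀.2
  rw [H.vs.k0] at P
  obtain ⟨r, m, h1, h2⟩ := (H.vs.locFam H.dg).exists_hit (H.vs.mem.mono fun _ d => d.1.2.2.1)
    (z := (Empty.elim : Empty → _)) fun e => e.elim
  choose y h3 h4 using fun j => P.crv.le (h2.self_of_nhds.1 j)
  have h5 : ∀ j, ¬IsNode ch.o (crv x₀.1) (y j) := fun j e =>
    (h1 j).2.1 (h4 j ▸ (P.isNode (h3 j)).2 e)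
  choose z h6 h7 h8 using fun j => H.vs.exists_lift H.dg (h3 j) (h5 j) (h1 j).1 (h4 j).symm
    (h2.mono fun _ d => d.1 j)
  have h9 : ∀ j, ∃ s : Bool, fld x₀.1 (z j x₀) (if s then b else c) ≠ 0 := fun j =>
    h7 j ▸ (H.gd.ne _ (h3 j) fun e f => h5 j (x₀.2.1.2.2.1.nod.isNode_orb
      ⟨_, _, H.gd.cross e⟩ f)).elim (⟨true, ·⟩) (⟨false, ·⟩)
  choose s h10 using h9
  refine ⟨r, m, z, s, ?_⟩
  filter_upwards [(H.vs.k0 ▸ H.vs.ank.continuousAt.tendsto :).eventually h2, eventually_all.2 h8,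
    eventually_all.2 fun j => ij_ev H.bc (h6 j) (h7 j ▸ h3 j) (h10 j)] with x e1 e2 e3 t e4
  exact ⟨e1.2, fun j => ⟨(e2 j e4.mem).1, (e2 j e4.mem).2, e3 j (e2 j e4.mem).1 t e4⟩⟩

/-- **injectivity** -/
theorem Lm.inj (H : Lm b c x₀ Ψ k σ' σ u a a') (hD : D.Ok b c x₀ Ψ k) :
    ∀ᶠ q : ch.W (Mk ν κ) × ch.W (Mk ν κ) in 𝓝 (x₀.1, x₀.1), ∀ t cf,
      Pq b c u (fun x => (k x).2) σ q.1 t cf → Pq b c u (fun x => (k x).2) σ q.2 t cf →
      k q.1 = k q.2 → D.co b c k q.1 = D.co b c k q.2 → q.1 = q.2 := by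
  have hc := H.dg
  obtain ⟨r, m, z, s, h1⟩ := H.exists_side
  have h2 : ∀ᶠ x in 𝓝 x₀.1, ∀ e, ∀ᶠ w in 𝓝 (0 : ℂ × ℂ), x ∈ ch.bm ν κ → w.1 * w.2 = (k x).2 e →
      pj i (σ e (x, w)) = σ' e (k x, w) :=
    eventually_all.2 fun e => (nhds_prod_eq (x := x₀.1) (y := (0 : ℂ × ℂ)) ▸ H.vs.lift e).curry
  have h3 : ∀ᶠ x in 𝓝 x₀.1, LinearIndependent ℂ fun j => D.z j x i :=
    (continuousAt_pi.2 fun j => continuousAt_pi.1 (hD.anz j).continuousAt i).eventually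
      hD.li.eventually
  have h4 := eventually_all.2 fun j =>
    ij_ev H.bc (hD.anz j) (hD.memz.self_of_nhds x₀.2 j).1 (hD.sd j)
  have h5 := eventually_all.2 fun j => ij_ev H.bc (W.an_p analyticAt_id j)
    (x₀.2.1.2.2.2.1 j).1 (hD.sp j)
  have h6 := eventually_all.2 fun l => eventually_bijective
    (an_comp (an_Q l x₀.1) analyticAt_const).continuousAt (hD.S l)
  refine ((h1.and (h2.and (H.vs.prj.and (hD.memz.and (h3.and (h4.and (h5.and h6))))))).prod_nhds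
    (h1.and (h2.and (H.vs.prj.and hD.memz)))).mono ?_
  rintro ⟨x, x'⟩ ⟨⟨a1, a2, a3, a4, a5, a6, a7, a8⟩, b1, b2, b3, b4⟩ t cf ⟨c1, c2⟩ ⟨d1, d2⟩ ek ec
  dsimp only at *
  have P := a3 c1.mem
  have P' := ek ▸ b3 d1.mem
  obtain ⟨X, _, _, _, R, N, A, π, v, p, ξ, k1⟩ := exists_cr c1.mem.1
  obtain ⟨B, π', v', k2, eA, eπ⟩ := P.exists_same hc P' k1
  obtain ⟨_, k3⟩ := P.cr hc k1
  obtain ⟨φ, q1, q2, q3, q4⟩ : ∃ φ ∈ H0 N (B i / A i), (∀ z, φ z ≠ 0) ∧
      (∀ z, fld x' (π' z) b = φ z * fld x (π z) b) ∧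
      ∀ z, fld x (π z) c = φ z * fld x' (π' z) c := by
    rcases c2 with ⟨ht, -⟩ | ⟨ht, e1, a₁, a₁', G, e2⟩
    · exact ij_phi1 hc k1 k2 eA c1.scb d1.scb ht c1.mul d1.mul
    obtain ⟨-, -, a₂, a₂', G', e3⟩ := d2.resolve_left fun e => e.1 ht
    refine ij_phi0 hc k1 k2 eA eπ k3.par G G' (e2.symm.trans e3) (fun e => ?_) (fun e => ?_)
      fun y => ?_
    · filter_upwards [(tendsto_inl (0 : ℂ) (0 : ℂ)).eventually ((a2 e).and (b2 e))] with w f
      rw [f.1 c1.mem (by simp [e1]), f.2 d1.mem (by simp [← ek, e1]), ek]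
    · filter_upwards [(tendsto_inr (0 : ℂ) (0 : ℂ)).eventually ((a2 e).and (b2 e))] with w f
      rw [f.1 c1.mem (by simp [e1]), f.2 d1.mem (by simp [← ek, e1]), ek]
    · obtain ⟨j, w, f1, f2⟩ := (a1 t c1).1 X R N _ _ k3.par y
      obtain ⟨g1, g2, g3⟩ := (a1 t c1).2 j
      obtain ⟨g1', g2', g3'⟩ := (b1 t d1).2 j
      obtain ⟨w', τ, τ', l, l', d, d', -⟩ := ij_pt k1 k2 eπ k3.par g1 g1' (by rw [g2, g2', ek])
      have f3 := k3.par.dc_rel (f2.trans (.symm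
        ⟨_, fun j => l j.1, g2.symm.trans (congrArg (pj i) d)⟩))
      rw [d, ij_bv hc k1 c1.scb c1.scc _ _ l, ← k1.par.π_eq f3] at g3
      rw [d', ij_bv hc k2 d1.scb d1.scc _ _ l', ← k2.par.π_eq f3] at g3'
      exact ⟨w, f1, _, right_ne_zero_of_mul g3, right_ne_zero_of_mul g3'⟩
  obtain ⟨π₁, v₁, k4, e⟩ := ij_iso hc k1 eA c1.scb c1.scc q1 q2
  have ev : ∀ z s, bv x b c s (π₁ z) = bv x' b c s (π' z) := fun z s => by
    rw [(e z).2]
    cases s
    · simp only [bv, Bool.false_eq_true, if_false, q4, mul_inv, mul_inv_cancel_left₀ (q2 z)]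
    · exact (q3 z).symm
  obtain ⟨_, k5⟩ := P.cr hc k4
  simp only [Cd.co, Prod.mk.injEq, funext_iff] at ec
  obtain rfl := ij_pi hc k4 k2 c1.scb c1.scc d1.scb d1.scc (fun z => (eπ z).trans (e z).1.symm)
    k5.par ev (fun j => ⟨(a4 c1.mem j).1, a6 j (a4 c1.mem j).1 t c1⟩) (fun j => (b4 d1.mem j).1)
    (fun j => by rw [(a4 c1.mem j).2, (b4 d1.mem j).2, ek]) a5 fun j => funext (ec.2.1 j)
  exact ij_eq hc k4 k2 c1 d1 k5.par ev (fun l => (a8 l).2) ec.2.2.1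
    (fun a => (P.1 a).symm.trans (P'.1 a)) (fun a => a7 a (c1.mem.1.2.2.2.1 a).1 t c1)
    ec.2.2.2.1 fun j e e' => ec.2.2.2.2 ⟨j, e, e'⟩

end Vale.Agent.P269.Ch
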