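import Vale.Agent.P269.Spl.Neck

/-!
# Hurwitz's theorem for two functions with product zero; degrees on the two parts of a curve
-/

set_option linter.unusedSectionVars false

namespace Vale.Agent.P269

open Set Function Topology Filter Metric

namespace Base

open NeckP Clos

variable {P : Type*} [NormedAddCommGroup P] [NormedSpace ℂ P] [FiniteDimensional ℂ P] {p₀ : P}

theorem Vz.not_ev {u : ℤ} {f : ℂ → ℂ} {a : ℂ} (h : Vz u f a) (ha : a ≠ 0) :
    ¬∀ᶠ z in 𝓝 0, f z = 0 := fun e =>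
  let ⟨_, a, b⟩ := ((h.eventually_ne ha).and (e.filter_mono nhdsWithin_le_nhds)).exists
  a b

/-- the order is constant if the common zeros do not move -/
theorem eventually_vz' {f f' : P × ℂ → ℂ} (hf : AnalyticAt ℂ f (p₀, 0))
    (hf' : AnalyticAt ℂ f' (p₀, 0)) {u : ℕ} {a : ℂ} (ha : a ≠ 0) (h : Vz u (fun z => f (p₀, z)) a)
    {U : Set ℂ} (hU : U ∈ 𝓝 0) : ∀ᶠ p in 𝓝 p₀, (∀ z ∈ U, f (p, z) * f' (p, z) = 0) →
      (∀ z ∈ U, z ≠ 0 → f (p, z) ≠ 0 ∨ f' (p, z) ≠ 0) → ∃ a' ≠ 0, Vz u (fun z => f (p, z)) a' := by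
  obtain ⟨r₀, hr₀, E⟩ := exists_ball (hf.eventually_analyticAt.and (hf'.eventually_analyticAt.and
    ((continuous_snd.tendsto (p₀, (0 : ℂ))).eventually hU)))
  obtain ⟨r, hr, V⟩ := (Eventually.and (Ioo_mem_nhdsGT hr₀) (eventually_vz hf ha h)).exists
  obtain ⟨y, a1, a2⟩ := ((h.eventually_ne ha).and
    (mem_nhdsWithin_of_mem_nhds (ball_mem_nhds _ hr.1))).exists
  have k : ∀ {z : ℂ}, z ∈ ball 0 r → ‖z‖ < r₀ := fun hz => (mem_ball_zero_iff.1 hz).trans hr.2
  filter_upwards [E, V, (Continuous.prodMk_left y).continuousAt.eventually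
    ((E.self_of_nhds y (k a2)).1.continuousAt.eventually_ne a1)] with p h1 h2 h3 h4 h5
  have d := (AnalyticOnNhd.eq_zero_or_eq_zero_of_mul_eq_zero
    (fun z hz => slice analyticAt_id (h1 z (k hz)).1)
    (fun z hz => slice analyticAt_id (h1 z (k hz)).2.1) (fun z hz => h4 z (h1 z (k hz)).2.2)
    (convex_ball 0 r).isPreconnected).resolve_left fun e => h3 (e y a2)
  exact h2 fun z e hz => (h5 z (h1 z (hz.trans hr.2)).2.2 e).resolve_right
    (not_not.2 (d z (mem_ball_zero_iff.2 hz)))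

end Base

end Vale.Agent.P269
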