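import Vale.Agent.P269.Holo.Set2

/-!
# Counting the points of the model `cf e * τ e ^ u e = t`
-/

namespace Vale.Agent.P269.MultF

open Set Function Topology Filter Holo

theorem card_roots {n : ℕ} (hn : n ≠ 0) {a : ℂ} (ha : a ≠ 0) :
    (Polynomial.nthRootsFinset n a).card = n := by
  classical
  have h := Complex.isPrimitiveRoot_exp n hn
  rw [Polynomial.nthRootsFinset_def, Multiset.toFinset_card_of_nodup (h.nthRoots_nodup ha),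
    h.card_nthRoots, if_pos (IsAlgClosed.exists_pow_nat_eq a (Nat.pos_of_ne_zero hn))]

theorem ev_pow_inj {n : ℕ} (hn : n ≠ 0) {a : ℂ} (ha : a ≠ 0) :
    ∃ U ∈ 𝓝 a, InjOn (fun z : ℂ => z ^ n) U := by
  have h := hasStrictDerivAt_pow n a
  have h1 : (n : ℂ) * a ^ (n - 1) ≠ 0 := mul_ne_zero (Nat.cast_ne_zero.2 hn) (pow_ne_zero _ ha)
  exact ⟨_, h.eventually_left_inverse h1, fun x hx y hy e => by
    rw [← mem_ofPred.1 hx, ← mem_ofPred.1 hy]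
    exact congrArg _ e⟩

variable {X P Q ε : Type} [NormedAddCommGroup X] [NormedSpace ℂ X] [NormedAddCommGroup P]
  [NormedSpace ℂ P] [NormedAddCommGroup Q] [NormedSpace ℂ Q] [Fintype ε]

theorem holOn_ev [CompleteSpace P] {C : Set X} {p : X → P} {x : X} (h : HolOn C p x) :
    ∀ᶠ y in 𝓝 x, HolOn C p y := by
  obtain ⟨Φ, h1, h2⟩ := h
  filter_upwards [h1.eventually_analyticAt, h2.eventually_nhds] with y a b using ⟨Φ, a, b⟩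

omit [NormedSpace ℂ P] in
/-- the roots are small -/
theorem ev_roots {u : ε → ℕ} {p : P} {c : ε → ℂ} (hc : ∀ e, c e ≠ 0)
    {G : P × (ε → ℂ) × (ε → ℂ) × ℂ → Prop} (hG : ∀ᶠ q in 𝓝 (p, c, 0, 0), G q) :
    ∀ᶠ q : (P × (ε → ℂ)) × ℂ in 𝓝 ((p, c), 0), ∀ τ : ε → ℂ, (∀ e, q.1.2 e * τ e ^ u e = q.2) →
      G (q.1.1, q.1.2, τ, q.2) := by
  obtain ⟨δ, hδ, h⟩ := Metric.eventually_nhds_iff.1 hG
  have h1 : ∀ᶠ q : (P × (ε → ℂ)) × ℂ in 𝓝 ((p, c), 0), ∀ e, ‖q.2‖ < ‖q.1.2 e‖ * δ ^ u e :=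
    eventually_all.2 fun e => ContinuousAt.eventually_lt (by fun_prop) (by fun_prop)
      (by simpa using mul_pos (norm_pos_iff.2 (hc e)) (pow_pos hδ _))
  filter_upwards [h1, Metric.ball_mem_nhds _ hδ] with q a b τ e
  simp only [Metric.mem_ball, Prod.dist_eq, max_lt_iff] at b
  refine h ?_
  simp only [Prod.dist_eq, max_lt_iff]
  refine ⟨b.1.1, b.1.2, (dist_pi_lt_iff hδ).2 fun i => ?_, b.2⟩
  have := a i
  rw [← e i, norm_mul, norm_pow] at this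
  simpa using lt_of_pow_lt_pow_left₀ _ hδ.le (lt_of_mul_lt_mul_left this (norm_nonneg _))

/-- **counting roots** -/
theorem cnt [CompleteSpace P] {C M : Set X} {x₀ : X} {t : X → ℂ} {p : X → P} {τ cf : X → ε → ℂ}
    {u : ε → ℕ} (hu : ∀ e, u e ≠ 0) (hx : x₀ ∈ C) (ht : AnalyticAt ℂ t x₀) (t0 : t x₀ = 0)
    (hτ : AnalyticAt ℂ τ x₀) (hp : HolOn C p x₀) (h0 : HolOn (C ∩ {y | t y = 0}) cf x₀)
    (hc : ∀ᶠ y in 𝓝 x₀, y ∈ C → ContinuousWithinAt cf C y) (hne : ∀ e, cf x₀ e ≠ 0)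
    (heq : ∀ᶠ y in 𝓝 x₀, y ∈ C → ∀ e, cf y e * τ y e ^ u e = t y)
    (inj : ∀ᶠ q : X × X in 𝓝 (x₀, x₀), q.1 ∈ C → q.2 ∈ C → t q.1 = t q.2 → cf q.1 = cf q.2 →
      τ q.1 = τ q.2 → p q.1 = p q.2 → q.1 = q.2)
    (ex : ∀ O ∈ 𝓝 x₀, ∀ᶠ q : P × (ε → ℂ) × (ε → ℂ) × ℂ in 𝓝 (p x₀, cf x₀, 0, 0), q.2.2.2 ≠ 0 →
      (∀ e, q.2.1 e * q.2.2.1 e ^ u e = q.2.2.2) →
        ∃ y ∈ O, y ∈ M ∧ y ∈ C ∧ p y = q.1 ∧ τ y = q.2.2.1 ∧ t y = q.2.2.2)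
    (L : (P × (ε → ℂ)) ≃L[ℂ] Q) :
    (∀ᶠ y in 𝓝[C] x₀, ContinuousWithinAt (fun y => L (p y, cf y)) C y) ∧
      HolOn (C ∩ {y | t y = 0}) (fun y => L (p y, cf y)) x₀ ∧
      (∃ U ∈ 𝓝 x₀, InjOn (fun y => L (p y, cf y)) (C ∩ {y | t y = 0} ∩ U)) ∧
      ∃ V₀ ∈ 𝓝 x₀, ∀ V ∈ 𝓝 x₀, ∃ᶠ w in 𝓝 (L (p x₀, cf x₀), (0 : ℂ)), ∃ Y : Finset X,
        Y.card = ∏ e, u e ∧ (∀ y ∈ V₀, y ∈ C → (L (p y, cf y), t y) = w → y ∈ Y) ∧
        ∀ y ∈ Y, y ∈ V ∧ (L (p y, cf y), t y) = w ∧ y ∈ M ∧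
          HolOn C (fun y => L (p y, cf y)) y ∧
          ∃ U ∈ 𝓝 y, InjOn (fun z => (L (p z, cf z), t z)) (C ∩ U) := by
  classical
  have hne' : ∀ᶠ y in 𝓝 x₀, y ∈ C → ∀ e, cf y e ≠ 0 := eventually_nhdsWithin_iff.1
    (eventually_all.2 fun e => ((continuous_apply e).continuousAt.tendsto.comp
      (hc.self_of_nhds hx)).eventually_ne (hne e))
  rw [nhds_prod_eq] at inj
  obtain ⟨V₁, hV₁, inj⟩ := mem_prod_self_iff.1 inj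
  obtain ⟨V₀, a1, a2, a3⟩ := eventually_nhds_iff.1 ((((hne'.and heq).and (holOn_ev hp)).and
    (ht.eventually_analyticAt.and hτ.eventually_analyticAt)).and hV₁)
  have hV₀ := a2.mem_nhds a3
  have inj' : ∀ y ∈ V₀, ∀ z ∈ V₀, y ∈ C → z ∈ C → (L (p y, cf y), t y) = (L (p z, cf z), t z) →
      τ y = τ z → y = z := fun y hy z hz b1 b2 e1 e2 => by
    obtain ⟨e3, e4⟩ := Prod.ext_iff.1 e1
    obtain ⟨e5, e6⟩ := Prod.ext_iff.1 (L.injective e3)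
    exact inj (mk_mem_prod (a1 y hy).2 (a1 z hz).2) b1 b2 e4 e6 e2 e5
  refine ⟨eventually_nhdsWithin_iff.2 ?_, ((hp.mono (.of_forall fun _ h => h.1)).prod h0).comp_an
    ⟨hx, t0⟩ (L.analyticAt _), ⟨V₀, hV₀, fun y hy z hz e => ?_⟩, V₀, hV₀, fun V hV => ?_⟩
  · filter_upwards [holOn_ev hp, hc] with y b1 b2 hy
    exact L.continuous.continuousAt.comp_continuousWithinAt
      (ContinuousWithinAt.prodMk (b1.tendsto hy) (b2 hy))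
  · have k : ∀ y ∈ C ∩ {y | t y = 0} ∩ V₀, τ y = 0 := fun y hy => funext fun e =>
      pow_eq_zero_iff (hu e) |>.1 ((mul_eq_zero.1 (((a1 y hy.2).1.1.1.2 hy.1.1 e).trans
        hy.1.2)).resolve_left ((a1 y hy.2).1.1.1.1 hy.1.1 e))
    exact inj' y hy.2 z hz.2 hy.1.1 hz.1.1 (Prod.ext e (hy.1.2.trans hz.1.2.symm))
      ((k y hy).trans (k z hz).symm)
  have f0 : Tendsto (fun q : (P × (ε → ℂ)) × ℂ => (L q.1, q.2)) (𝓝 ((p x₀, cf x₀), 0))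
      (𝓝 (L (p x₀, cf x₀), 0)) := Continuous.tendsto (by fun_prop) _
  have f1 : ∃ᶠ q : (P × (ε → ℂ)) × ℂ in 𝓝 ((p x₀, cf x₀), 0), q.2 ≠ 0 :=
    (((Continuous.prodMk_right (p x₀, cf x₀)).tendsto (0 : ℂ)).mono_left
      (nhdsWithin_le_nhds (s := {0}ᶜ))).frequently (Eventually.frequently self_mem_nhdsWithin)
  have f2 : ∀ᶠ q : (P × (ε → ℂ)) × ℂ in 𝓝 ((p x₀, cf x₀), 0), ∀ e, q.1.2 e ≠ 0 :=
    eventually_all.2 fun e => ContinuousAt.eventually_ne (by fun_prop) (hne e)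
  refine f0.frequently ((f1.and_eventually (f2.and (ev_roots (u := u) hne
    (ex _ (inter_mem hV hV₀))))).mono ?_)
  rintro ⟨⟨w, c⟩, s⟩ ⟨hs, hc', hq⟩
  dsimp only at hs hc' hq ⊢
  let R := Fintype.piFinset fun e => Polynomial.nthRootsFinset (u e) (s / c e)
  have hR : ∀ ρ, ρ ∈ R ↔ ∀ e, c e * ρ e ^ u e = s := fun ρ => by
    simp only [R, Fintype.mem_piFinset, Polynomial.mem_nthRootsFinset (Nat.pos_of_ne_zero (hu _)),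
      eq_div_iff (hc' _), mul_comm]
  choose! y y1 y2 y3 y4 y5 y6 using fun ρ (h : ρ ∈ R) => hq ρ ((hR ρ).1 h) hs ((hR ρ).1 h)
  have hρ : ∀ ρ ∈ R, ∀ e, ρ e ≠ 0 := fun ρ h e h0 => hs (by
    rw [← (hR ρ).1 h e, h0, zero_pow (hu e), mul_zero])
  have y7 : ∀ ρ ∈ R, (L (p (y ρ), cf (y ρ)), t (y ρ)) = (L (w, c), s) := fun ρ h => by
    have : cf (y ρ) = c := funext fun e => mul_right_cancel₀ (pow_ne_zero (u e) (hρ ρ h e)) (by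
      rw [(hR ρ).1 h e, ← y6 ρ h, ← (a1 _ (y1 ρ h).2).1.1.1.2 (y3 ρ h) e, y5 ρ h])
    rw [this, y4 ρ h, y6 ρ h]
  refine ⟨R.image y, ?_, fun z hz hC e => ?_, fun z hz => ?_⟩
  · rw [Finset.card_image_of_injOn fun ρ h ρ' h' e => by rw [← y5 ρ h, e, y5 ρ' h'],
      Fintype.card_piFinset]
    exact Finset.prod_congr rfl fun e _ => card_roots (hu e) (div_ne_zero hs (hc' e))
  · obtain ⟨e3, e4⟩ := Prod.ext_iff.1 e
    obtain ⟨-, e6⟩ := Prod.ext_iff.1 (L.injective e3)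
    dsimp only at e4 e6
    have h : τ z ∈ R := (hR _).2 fun e => by rw [← e6, ← e4, (a1 z hz).1.1.1.2 hC]
    exact Finset.mem_image.2 ⟨_, h, inj' _ (y1 _ h).2 _ hz (y3 _ h) hC ((y7 _ h).trans e.symm)
      (y5 _ h)⟩
  obtain ⟨ρ, h, rfl⟩ := Finset.mem_image.1 hz
  obtain ⟨⟨⟨-, b1⟩, b2, b3⟩, -⟩ := a1 _ (y1 ρ h).2
  have b4 : ∀ e, τ (y ρ) e ≠ 0 := fun e => by rw [y5 ρ h]; exact hρ ρ h e
  have b5 : ∀ e, ContinuousAt (fun z => τ z e) (y ρ) := fun e =>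
    (analyticAt_pi_iff.1 b3 e).continuousAt
  have b6 := a2.mem_nhds (y1 ρ h).2
  refine ⟨(y1 ρ h).1, y7 ρ h, y2 ρ h, (b1.prod (HolOn.pi fun e => ⟨fun z => t z / τ z e ^ u e,
    b2.div ((analyticAt_pi_iff.1 b3 e).pow _) (pow_ne_zero _ (b4 e)), ?_⟩)).comp_an (y3 ρ h)
      (L.analyticAt _), ?_⟩
  · filter_upwards [(b5 e).eventually_ne (b4 e), b6] with z c1 c2 c3
    rw [eq_div_iff (pow_ne_zero _ c1), (a1 z c2).1.1.1.2 c3]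
  · choose U U1 U2 using fun e => ev_pow_inj (hu e) (b4 e)
    refine ⟨_, inter_mem b6 (eventually_all.2 fun e => b5 e (U1 e)), fun z hz z' hz' e =>
      inj' z hz.2.1 z' hz'.2.1 hz.1 hz'.1 e (funext fun i => U2 i (hz.2.2 i) (hz'.2.2 i) ?_)⟩
    obtain ⟨e3, e4⟩ := Prod.ext_iff.1 e
    obtain ⟨-, e6⟩ := Prod.ext_iff.1 (L.injective e3)
    dsimp only at e4 e6
    refine mul_left_cancel₀ ((a1 z hz.2.1).1.1.1.1 hz.1 i) ?_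
    beta_reduce
    rw [(a1 z hz.2.1).1.1.1.2 hz.1, e4, e6, (a1 z' hz'.2.1).1.1.1.2 hz'.1]

/-- a chart of the parameter space -/
theorem exists_chart {B₀ : Set X} {l : X} {n : ℕ} (h : MfdAt B₀ n l) :
    ∃ (χ : X → Fin n → ℂ) (ψ : (Fin n → ℂ) → X), AnalyticAt ℂ χ l ∧
      Tendsto ψ (𝓝 (χ l)) (𝓝 l) ∧ (∀ z, ψ z ∈ B₀) ∧ (∀ᶠ z in 𝓝 (χ l), χ (ψ z) = z) ∧
      ∀ᶠ s in 𝓝 l, s ∈ B₀ → ψ (χ s) = s := by
  obtain ⟨hl, ψ, h1, h2⟩ := h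
  obtain ⟨w, a1, a2, a3, a4, -⟩ := h1.exists_inv
  have a5 := h1.an.continuousAt.tendsto
  rw [h2] at a1 a2 a4 a5
  exact ⟨w, fun z => (ψ z).1, a1, by rwa [show w l = 0 from a2], fun z => (ψ z).2,
    by rwa [show w l = 0 from a2], (ev_sub hl (p := fun s => (ψ (w s)).1 = s)).1
      (a4.mono fun _ e => congrArg Subtype.val e)⟩

open Module in
/-- **counting roots**, with parameters -/
theorem cnt2 {Λ A B C D E : Type} [Fintype Λ] [NormedAddCommGroup A] [NormedSpace ℂ A]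
    [NormedAddCommGroup B] [NormedSpace ℂ B] [NormedAddCommGroup C] [NormedSpace ℂ C]
    [NormedAddCommGroup D] [NormedSpace ℂ D] [NormedAddCommGroup E] [NormedSpace ℂ E]
    [FiniteDimensional ℂ A] [FiniteDimensional ℂ B] [FiniteDimensional ℂ C] [FiniteDimensional ℂ D]
    [FiniteDimensional ℂ E] {B₀ : Set (Λ → ℂ)} {S M : Set ((Option Λ → ℂ) × X)}
    {x₀ : (Option Λ → ℂ) × X} {co Φ : X → A × B × C × D × E} {τ : X → ε → ℂ}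
    {cf : (Option Λ → ℂ) × X → ε → ℂ} {u : ε → ℕ} (hu : ∀ e, u e ≠ 0) {b N : ℕ}
    (hB : MfdAt B₀ b (x₀.1 ∘ some)) (hN : b + (finrank ℂ A + (finrank ℂ B + (finrank ℂ C +
      (finrank ℂ D + finrank ℂ E)))) + Fintype.card ε = N) (hx : x₀ ∈ S) (t0 : x₀.1 none = 0)
    (hS : ∀ y ∈ S, y.1 ∘ some ∈ B₀) (hτ : AnalyticAt ℂ τ x₀.2) (hΦ : AnalyticAt ℂ Φ x₀.2)
    (hp : ∀ᶠ y in 𝓝 x₀, y ∈ S → co y.2 = Φ y.2) (h0 : HolOn (S ∩ {y | y.1 none = 0}) cf x₀)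
    (hc : ∀ᶠ y in 𝓝 x₀, y ∈ S → ContinuousWithinAt cf S y) (hne : ∀ e, cf x₀ e ≠ 0)
    (heq : ∀ᶠ y in 𝓝 x₀, y ∈ S → ∀ e, cf y e * τ y.2 e ^ u e = y.1 none)
    (inj : ∀ᶠ q : ((Option Λ → ℂ) × X) × (Option Λ → ℂ) × X in 𝓝 (x₀, x₀), q.1 ∈ S → q.2 ∈ S →
      q.1.1 none = q.2.1 none → cf q.1 = cf q.2 → τ q.1.2 = τ q.2.2 → co q.1.2 = co q.2.2 →
        q.1.2 = q.2.2)
    (ex : ∀ O ∈ 𝓝 x₀.2, ∀ᶠ q : (A × B × C × D × E) × (ε → ℂ) × (ε → ℂ) × ℂ in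
      𝓝 (co x₀.2, cf x₀, 0, 0), q.2.2.2 ≠ 0 → (∀ e, q.2.1 e * q.2.2.1 e ^ u e = q.2.2.2) →
        ∃ x ∈ O, co x = q.1 ∧ τ x = q.2.2.1 ∧ ∀ l, l ∘ some ∈ B₀ → l none = q.2.2.2 →
          (l, x) ∈ M ∧ (l, x) ∈ S) :
    ∃ φ : (Option Λ → ℂ) × X → Fin N → ℂ, (∀ᶠ y in 𝓝[S] x₀, ContinuousWithinAt φ S y) ∧
      HolOn (S ∩ {y | y.1 none = 0}) φ x₀ ∧ (∃ U ∈ 𝓝 x₀, InjOn φ (S ∩ {y | y.1 none = 0} ∩ U)) ∧
      ∃ V₀ ∈ 𝓝 x₀, ∀ V ∈ 𝓝 x₀, ∃ᶠ w in 𝓝 (φ x₀, (0 : ℂ)), ∃ Y : Finset ((Option Λ → ℂ) × X),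
        Y.card = ∏ e, u e ∧ (∀ y ∈ V₀, y ∈ S → (φ y, y.1 none) = w → y ∈ Y) ∧
        ∀ y ∈ Y, y ∈ V ∧ (φ y, y.1 none) = w ∧ y ∈ M ∧ HolOn S φ y ∧
          ∃ U ∈ 𝓝 y, InjOn (fun z => (φ z, z.1 none)) (S ∩ U) := by
  obtain ⟨χ, ψ, c1, c2, c3, c4, c5⟩ := exists_chart hB
  have an1 : AnalyticAt ℂ (fun y : (Option Λ → ℂ) × X => y.1 ∘ some) x₀ :=
    analyticAt_pi_iff.2 fun o => analyticAt_pi_iff.1 analyticAt_fst (some o)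
  have : CompleteSpace ((Fin b → ℂ) × A × B × C × D × E) := FiniteDimensional.complete ℂ _
  refine ⟨_, cnt (X := (Option Λ → ℂ) × X) (t := fun y => y.1 none) (τ := fun y => τ y.2)
    (p := fun y => (χ (y.1 ∘ some), co y.2)) hu hx (analyticAt_pi_iff.1 analyticAt_fst none) t0
    (hτ.comp analyticAt_snd) ((HolOn.of_an (c1.comp_of_eq an1 rfl)).prod
      ⟨fun y => Φ y.2, hΦ.comp analyticAt_snd, hp⟩) h0 hc hne heq ?_ (fun O hO => ?_)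
    (ContinuousLinearEquiv.ofFinrankEq (by simp [finrank_prod, ← hN]))⟩
  · have t1 := continuousAt_fst (p := (x₀, x₀))
    have t2 := continuousAt_snd (p := (x₀, x₀))
    filter_upwards [t1.eventually (an1.continuousAt.eventually c5),
      t2.eventually (an1.continuousAt.eventually c5), inj] with q e3 e4 e5 h1 h2 f1 f2 f3 f4
    obtain ⟨f5, f6⟩ := Prod.ext_iff.1 f4
    refine Prod.ext (funext fun o => ?_) (e5 h1 h2 f1 f2 f3 f6)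
    rcases o with _ | o
    · exact f1
    · exact congrFun ((e3 (hS _ h1)).symm.trans ((congrArg ψ f5).trans (e4 (hS _ h2)))) o
  obtain ⟨O₁, o1, O₂, o2, o3⟩ := mem_nhds_prod_iff.1 hO
  let P := ((Fin b → ℂ) × A × B × C × D × E) × (ε → ℂ) × (ε → ℂ) × ℂ
  let q₀ : P := ((χ (x₀.1 ∘ some), co x₀.2), cf x₀, 0, 0)
  have t1 : Tendsto (fun q : P => q.1.1) (𝓝 q₀) (𝓝 (χ (x₀.1 ∘ some))) :=
    continuousAt_fst.fst.tendsto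
  have t3 : Tendsto (fun (q : P) (o : Option Λ) => o.elim q.2.2.2 (ψ q.1.1)) (𝓝 q₀) (𝓝 x₀.1) :=
    tendsto_pi_nhds.2 fun o => by
      rcases o with _ | o
      · exact t0 ▸ continuousAt_snd.snd.snd.tendsto
      · exact tendsto_pi_nhds.1 (c2.comp t1) o
  have t4 : Tendsto (fun q : P => (q.1.2, q.2)) (𝓝 q₀) (𝓝 (co x₀.2, cf x₀, 0, 0)) :=
    (continuousAt_fst.snd.prodMk continuousAt_snd).tendsto
  filter_upwards [t1.eventually c4, t3.eventually o1, t4.eventually (ex _ o2)]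
    with q e1 e3 e4 h1 h2
  obtain ⟨x, x1, x2, x3, x4⟩ := e4 h1 h2
  obtain ⟨x5, x6⟩ := x4 (fun o => o.elim q.2.2.2 (ψ q.1.1)) (c3 _) rfl
  exact ⟨_, o3 (mk_mem_prod e3 x1), x5, x6, Prod.ext e1 x2, x3, rfl⟩

end Vale.Agent.P269.MultF
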