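import Vale.Agent.P269.Spl.MultB
import Vale.Agent.P269.Holo.Set2

/-!
# Multiplicities on cycles from local coordinates in the ambient space
-/

namespace Vale.Agent.P269

open P291Z Set Function Topology Filter Holo Module Orb MultB

variable {A W P : Type} [NormedRing A] [NormedAlgebra ℂ A] [NormedAddCommGroup W] [NormedSpace ℂ W]
  [NormedAddCommGroup P] [NormedSpace ℂ P] [FiniteDimensional ℂ A] [FiniteDimensional ℂ W]
  [FiniteDimensional ℂ P] {act : A → W → W} {C M O Y Z : Set W} {d : ℕ}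

theorem Cyc.mult' [IsAct act Y] [IsAct act Z] (hO : IsOpen O) (hY : Y = C ∩ O)
    (ho : Orb.Orb Aˣ (Sp act Y)) (h : Cyc act Y (M ∩ O) (d + 1)) (e : Z ⊆ Y) (hZ : Clo Z Y)
    {θ : Coch (Quo act Y)} (hθ : LCo (range (Quo.incl act e)) θ) (hd : IsDeg 2 θ) {x : Sp act Z}
    (hx : Fre act x.val) (hP : finrank ℂ P = finrank ℂ A + d) {φ : W → P} {t : W → ℂ}
    (ht : ∀ y, AnalyticAt ℂ t y) (hz : ∀ᶠ y in 𝓝 x.val, y ∈ Y → (y ∈ Z ↔ t y = 0))
    (hs : LocDiv (pull Sp.mk θ) (fun y => t y.val) (Sp.incl act e x)) {m : ℕ}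
    (h1 : ∀ᶠ y in 𝓝[C] x.val, ContinuousWithinAt φ C y) (h2 : HolOn (C ∩ {y | t y = 0}) φ x.val)
    (h3 : ∃ U ∈ 𝓝 x.val, InjOn φ (C ∩ {y | t y = 0} ∩ U))
    (h4 : ∃ V₀ ∈ 𝓝 x.val, ∀ V ∈ 𝓝 x.val, ∃ᶠ w in 𝓝 (φ x.val, (0 : ℂ)), ∃ F : Finset W,
      F.card = m ∧ (∀ y ∈ V₀, y ∈ C → (φ y, t y) = w → y ∈ F) ∧
      ∀ y ∈ F, y ∈ V ∧ (φ y, t y) = w ∧ y ∈ M ∧ HolOn C φ y ∧
        ∃ U ∈ 𝓝 y, InjOn (fun z => (φ z, t z)) (C ∩ U)) :
    haveI := nice_of_orb ho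
    PtVal (Orb.lgys (Quo.incl act e) θ (fnd act Y (d + 1))) d x m := by
  classical
  have hC : Y ⊆ C := hY ▸ inter_subset_left
  have tv : ∀ y : Sp act Y, Tendsto Sp.val (𝓝 y) (𝓝[C] y.val) := fun y =>
    tendsto_nhdsWithin_iff.2 ⟨Sp.continuous_val.tendsto y, .of_forall fun z => hC z.val_mem⟩
  have tx : Tendsto Sp.val (𝓝 (Sp.incl act e x)) (𝓝 x.val) := Sp.continuous_val.tendsto _
  have hz' : ∀ᶠ z : Sp act Z in 𝓝 x, z.val ∈ C ∩ {y | t y = 0} :=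
    ((Sp.continuous_val.tendsto x).eventually hz).mono fun z a =>
      ⟨hC (e z.val_mem), (a (e z.val_mem)).1 z.val_mem⟩
  have k3 : Cnt (fun y : Sp act Y => (φ y.val, t y.val)) (Sp.incl act e x) m fun y =>
      y.val ∈ M ∩ O ∧ HolAt Sp.val (fun z : Sp act Y => (φ z.val, t z.val)) y ∧
        ∃ U ∈ 𝓝 y, InjOn (fun z : Sp act Y => (φ z.val, t z.val)) U := by
    obtain ⟨V₀, a1, a2⟩ := h4
    refine ⟨_, tx a1, fun V hV => ?_⟩
    rw [Sp.isEmbedding_val.isInducing.nhds_eq_comap] at hV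
    obtain ⟨V', b1, b2⟩ := hV
    beta_reduce
    rw [Sp.val_incl, show t x.val = 0 from hz'.self_of_nhds.2]
    refine (a2 _ (inter_mem b1 (hO.mem_nhds (hY ▸ e x.val_mem : x.val ∈ C ∩ O).2))).mono ?_
    rintro w ⟨F, c1, c2, c3⟩
    refine ⟨F.preimage Sp.val Sp.isEmbedding_val.injective.injOn, ?_, fun y hy k =>
      Finset.mem_preimage.2 (c2 _ hy (hC y.val_mem) k), fun y hy => ?_⟩
    · rw [Finset.card_preimage, Finset.filter_true_of_mem fun y hy => ?_, c1]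
      rw [Sp.range_val]
      exact h.sub ⟨(c3 y hy).2.2.1, (c3 y hy).1.2⟩
    · obtain ⟨d1, d2, d3, ⟨Φ, d4, d5⟩, U, d6, d7⟩ := c3 _ (Finset.mem_preimage.1 hy)
      exact ⟨b2 d1.1, d2, ⟨d3, d1.2⟩, HolAt.prod ⟨Φ, d4, ((Sp.continuous_val.tendsto y).eventually
        d5).mono fun z k => k (hC z.val_mem)⟩ (HolAt.of_an (ht _)), _,
        Sp.continuous_val.tendsto y d6, fun z k z' k' q =>
          Sp.ext (d7 ⟨hC z.val_mem, k⟩ ⟨hC z'.val_mem, k'⟩ q)⟩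
  refine MultB.mult (φ := fun y => φ y.val) ho h.lc (h.deg ho) e hZ hθ hd hx hP ?_ hs ?_ ?_
    (cnt_comp (k := id) (e := id) k3 (LH.id _) ((eventually_fre ho hx).mono fun y hy hy' =>
      ⟨?_, hy'.2⟩) continuous_id injective_id)
  · filter_upwards [(tv _).eventually h1, tx.eventually hz] with y a b
    exact ⟨Tendsto.comp a (tv y), (ht _).continuousAt.comp Sp.continuous_val.continuousAt,
      b y.val_mem⟩
  · obtain ⟨Φ, a, b⟩ := h2
    exact ⟨Φ, a, by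
      filter_upwards [(Sp.continuous_val.tendsto x).eventually b, hz'] with z k k' using k k'⟩
  · obtain ⟨U, a, b⟩ := h3
    exact ⟨_, inter_mem hz' (Sp.continuous_val.tendsto x a), fun z k z' k' q =>
      Sp.ext (b k k' q)⟩
  obtain ⟨U, h4, h5⟩ := h.opn
  obtain ⟨ξ, h6, rfl⟩ := exists_isSlice ho (x := y) ((isMfd_of_nhdsWithin hy'.1 h.sub (by
    rw [h5] at hy' ⊢
    exact inter_mem_nhdsWithin _ (h4.mem_nhds hy'.1.2))).1 (h.mfd _))
  have := h.val ho h6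
  rw [stab_eq_one (Sp.free_iff.1 hy), Nat.cast_one] at this
  exact ⟨ξ, h6, rfl, this⟩

end Vale.Agent.P269
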