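import Vale.Agent.P269.Spl.LocF
import Vale.Agent.P269.Spl.LocT
import Vale.Agent.P269.Spl.Inj
import Vale.Agent.P269.Spl.Ex
import Vale.Agent.P269.Spl.Ver
import Vale.Agent.P269.Spl.StrA
import Vale.Agent.P269.Spl.MultF0
import Vale.Agent.P269.Spl.MultF1

/-!
# The multiplicities of the special fibre
-/

set_option linter.unusedSectionVars false

namespace Vale.Agent.P269.Ch

open P291Z Set Function Topology Filter Holo Base Cv Module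

variable {S Λ₀ R J K ι ν κ ε : Type} [Fintype S] [Fintype Λ₀] [Fintype R] [Fintype J]
  [Fintype K] [Fintype ι] [DecidableEq ι] [Fintype ν] [Fintype κ] [Fintype ε] [DecidableEq R]
  {F : Fam S (Option Λ₀) R J K} {r : R} {b c : J} {B₀ : Set (Λ₀ → ℂ)} {Ω : Set ℂ}
  {ch : Ch ι J} {ℓ : R → ι → ℤ} {i : ι} {u : ε → ℕ} {a : ℤ} {d : R → ℤ} {T : Set (Mk ν κ)}

theorem dim_PW [DecidableEq J] {n b' N : ℕ} (hm : F.mov = {b, c}ᶜ)
    (hN : (N : ℤ) = ch.dS S F.mov b' (0 : Mk ν κ → ℤ))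
    (hn : (n + Fintype.card ε : ℤ) = 3 * ch.g - 3 + Fintype.card (Mk ν κ) +
      (Fintype.card ι - 2) * (ch.g - 1) + (∑ j with j ≠ i, ch.M j * ch.M j : ℕ) +
      Fintype.card (Mk ν κ) * (Fintype.card ι - 1) - Fintype.card κ) :
    b' + (finrank ℂ (Fin n → ℂ) + (finrank ℂ (Fin (ch.M i) → Fin (ch.M i) → ℂ) +
      (finrank ℂ ch.Frm + (finrank ℂ (ν ⊕ κ → ℂ) + finrank ℂ (∀ j : {j // j ≠ b ∧ j ≠ c},
        Tens ch.M (ch.b j) →L[ℂ] ch.E (some j)))))) + Fintype.card ε = N := by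
  have h1 := finrank_pi_clm (fun j : {j // j ≠ b ∧ j ≠ c} => Tens ch.M (ch.b j))
    fun j => ch.E (some j)
  have h2 := finrank_pi_clm ch.E ch.E
  have h3 : ch.fm {b, c}ᶜ = ∑ j : {j // j ≠ b ∧ j ≠ c},
      finrank ℂ (Tens ch.M (ch.b j)) * ch.h (some j) :=
    Finset.sum_subtype _ (fun j => by simp [not_or]) _
  have h4 : finrank ℂ (Fin (ch.M i) → Fin (ch.M i) → ℂ) = ch.M i * ch.M i := by
    simp [finrank_pi_fintype]
  rw [dS, qd, finrank_AF, ← Finset.add_sum_erase _ _ (Finset.mem_univ i), ← Finset.filter_ne', hm,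
    h3] at hN
  rw [h1, h2, h4]
  simp only [Fintype.card_sum, Fintype.card_prod, Fintype.card_bool, Pi.zero_apply, and_self,
    Finset.filter_true, Finset.card_univ, finrank_fintype_fun_eq_card, Fintype.card_fin] at hN hn ⊢
  push_cast at hN hn
  zify
  linear_combination hn - hN

variable (hc : ch.Dg F.toWt ℓ i b c) (hF : F.Deg r b c B₀ Ω) (hu : ∀ e, u e ≠ 0)
include hc hF hu

/-- **local coordinates**: the function `t` has degree `∏ u e` -/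
theorem Dg.exists_cnt {x₀ : ch.WF ν κ (Option Λ₀)}
    (hx : x₀ ∈ ch.locP (F.sub (slab B₀ 0) ∅) ℓ
      (AM.Ct (AM.SpN (F.w b) b c (extU 0 u) a d (extT ε T)))) {b' N : ℕ}
    (hB : MfdAt B₀ b' (x₀.1 ∘ some)) (hN : (N : ℤ) = ch.dS S F.mov b' (0 : Mk ν κ → ℤ)) :
    ∃ φ : ch.WF ν κ (Option Λ₀) → Fin N → ℂ,
      (∀ᶠ y in 𝓝[ch.cyc κ F 0] x₀, ContinuousWithinAt φ (ch.cyc κ F 0) y) ∧
      HolOn (ch.cyc κ F 0 ∩ {y | y.1 none = 0}) φ x₀ ∧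
      (∃ U ∈ 𝓝 x₀, InjOn φ (ch.cyc κ F 0 ∩ {y | y.1 none = 0} ∩ U)) ∧
      ∃ V₀ ∈ 𝓝 x₀, ∀ V ∈ 𝓝 x₀, ∃ᶠ w in 𝓝 (φ x₀, (0 : ℂ)), ∃ Y : Finset (ch.WF ν κ (Option Λ₀)),
        Y.card = ∏ e, u e ∧ (∀ y ∈ V₀, y ∈ ch.cyc κ F 0 → (φ y, y.1 none) = w → y ∈ Y) ∧
        ∀ y ∈ Y, y ∈ V ∧ (φ y, y.1 none) = w ∧ y ∈ ch.main κ F 0 ∧ HolOn (ch.cyc κ F 0) φ y ∧
          ∃ U ∈ 𝓝 y, InjOn (fun z => (φ z, z.1 none)) (ch.cyc κ F 0 ∩ U) := by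
  classical
  have hx' := hc.mem_cyc hF hu hx
  obtain ⟨ha, m, hm, n₀, hn, hs⟩ := hx
  obtain ⟨B, π, u₀, s, hr⟩ := hm.exists_data ha.1.2.1
  obtain ⟨h₀, n, Ψ, k, σ', σ, α, α', H, hdim, -, hmd, -⟩ := hc.exists_lm hF hu ha hr hs
  obtain ⟨D, hD⟩ := H.vs.exists_cd H.dg H.gd
  obtain ⟨Φ, hΦ, eΦ⟩ := hD.exists_an H.vs.ank H.bc.scb H.bc.scc
  obtain ⟨A, hA, eA, hcf⟩ := H.exists_cf
  have t0 : x₀.1 none = 0 := ha.1.1.2
  have cq : Continuous fun y : ch.WF ν κ (Option Λ₀) => (y.2, y.1 none) := by fun_prop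
  have tq : Tendsto (fun y : ch.WF ν κ (Option Λ₀) => (y.2, y.1 none)) (𝓝 x₀) (𝓝 (x₀.2, 0)) :=
    t0 ▸ cq.tendsto x₀
  have hb : ∀ y : ch.WF ν κ (Option Λ₀), y ∈ ch.cyc κ F 0 →
      y.1 ∘ some ∈ B₀ ∧ Bc y.2 b c (y.1 none) := fun y hy =>
    ⟨(hF.B ▸ hy.2.1 : y.1 ∈ {l | l ∘ some ∈ B₀ ∧ l none ∈ Ω}).1,
      ((mem_adm_deg hF).1 (hc.cyc_adm hF hy)).2⟩
  have hq : ∀ᶠ y in 𝓝 x₀, y ∈ ch.cyc κ F 0 →
      Pq b c u (fun x => (k x).2) σ y.2 (y.1 none) (cfn u k A (y.2, y.1 none)) := by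
    filter_upwards [hmd, tq.eventually hcf] with y e1 e2 hy using ((e2 (e1 hy)).1 _).2 rfl
  have e0 : cfn u k A (x₀.2, x₀.1 none) = α * α' := (if_pos t0).trans eA
  have an2 : AnalyticAt ℂ (fun y : ch.WF ν κ (Option Λ₀) => A y.2) x₀ :=
    hA.comp_of_eq (f := fun y : ch.WF ν κ (Option Λ₀) => y.2) analyticAt_snd rfl
  refine MultF.cnt2 (co := D.co b c k) (τ := fun x => (k x).2)
    (cf := fun y => cfn u k A (y.2, y.1 none)) hu hB (dim_PW hF.mov hN hdim) hx' t0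
    (fun y hy => (hb y hy).1) (analyticAt_snd.comp H.vs.ank) hΦ ?_
    ⟨_, an2, .of_forall fun y hy => if_pos hy.2⟩ ?_ (fun e => ?_) ?_ ?_ fun O hO => ?_
  · filter_upwards [continuousAt_snd.eventually eΦ] with y e1 hy
    exact e1 (hb y hy).2.mem (hb y hy).2.scb (hb y hy).2.scc
  · filter_upwards [hmd.eventually_nhds, tq.eventually hcf] with y e1 e2 hy
    exact Tendsto.comp (e2 (e1.self_of_nhds hy)).2 (tendsto_nhdsWithin_iff.2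
      ⟨(cq.tendsto y).mono_left nhdsWithin_le_nhds, eventually_nhdsWithin_iff.2 e1⟩)
  · rw [e0]
    exact mul_ne_zero (H.gd.vzb e).1 (H.gd.vzc e).1
  · filter_upwards [hq] with y e1 hy e
    rcases (e1 hy).2 with h | h
    · exact h.2 e
    · rw [show (k y.2).2 e = 0 from congrFun h.2.1 e, zero_pow (hu e), mul_zero, h.1]
  · filter_upwards [(continuousAt_fst (p := (x₀, x₀))).eventually hq,
      (continuousAt_snd (p := (x₀, x₀))).eventually hq, ((continuous_snd.prodMap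
        continuous_snd).tendsto (x₀, x₀)).eventually (H.inj hD)] with q e1 e2 e5 h1 h2 f1 f2 f3 f4
    have f5 := congrArg Prod.fst f4
    exact e5 _ _ (e1 h1) (by rw [f2, f1]; exact e2 h2) (Prod.ext f5 f3) f4
  rw [e0]
  filter_upwards [continuousAt_snd.snd.snd.eventually (hF.opn.mem_nhds hF.zero),
    H.exists_smooth hD (H.gd.m_eq H.dg) hO] with q e1 e2 h1 h2
  obtain ⟨x, x1, x2, x3, x4⟩ := e2 h1 h2
  refine ⟨x, x1, x3, x4, fun l l1 l2 => ?_⟩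
  rw [← l2] at e1 h1 x2
  have h3 : (l, x) ∈ ch.adm ν κ F := (mem_adm_deg hF).2 ⟨by rw [hF.B]; exact ⟨l1, e1⟩, x2⟩
  exact ⟨hc.mem_main hF h3 h1, subset_closure (hc.mem_main hF h3 h1), h3.1⟩

/-- **multiplicities** -/
theorem Dg.ptVal {O Y Z : Set (ch.WF ν κ (Option Λ₀))} (hO : IsOpen O) (hY : Y = ch.cyc κ F 0 ∩ O)
    [IsAct (actF F.toWt) Y] [IsAct (actF F.toWt) Z] {n : ℕ}
    (ho : Orb.Orb (ch.AF ν κ S)ˣ (Holo.Sp (actF F.toWt) Y))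
    (h : Cyc (actF F.toWt) Y (ch.main κ F 0 ∩ O) (n + 1)) (e : Z ⊆ Y) (hZ : Clo Z Y)
    {θ : Coch (Quo (actF F.toWt) Y)} (hθ : Orb.LCo (range (Quo.incl _ e)) θ) (hd : IsDeg 2 θ)
    {x : Holo.Sp (actF F.toWt) Z} (hf : Fre (actF F.toWt) x.val)
    (hz : ∀ᶠ y in 𝓝 x.val, y ∈ Y → (y ∈ Z ↔ y.1 none = 0))
    (hs : LocDiv (pull Holo.Sp.mk θ) (fun y => y.val.1 none) (Holo.Sp.incl _ e x))
    (hx : x.val ∈ ch.locP (F.sub (slab B₀ 0) ∅) ℓ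
      (AM.Ct (AM.SpN (F.w b) b c (extU 0 u) a d (extT ε T)))) {b' : ℕ}
    (hB : MfdAt B₀ b' (x.val.1 ∘ some))
    (hN : (finrank ℂ (ch.AF ν κ S) + n : ℤ) = ch.dS S F.mov b' (0 : Mk ν κ → ℤ)) :
    haveI := nice_of_orb ho
    PtVal (Orb.lgys (Quo.incl _ e) θ (fnd (actF F.toWt) Y (n + 1))) n x (∏ e, u e : ℕ) := by
  obtain ⟨φ, h1, h2, h3, h4⟩ := hc.exists_cnt hF hu hx hB (N := finrank ℂ (ch.AF ν κ S) + n)
    (by rw [← hN, Nat.cast_add])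
  exact h.mult' (t := fun y => y.1 none) hO hY ho e hZ hθ hd hf (finrank_fin_fun ℂ)
    (fun _ => analyticAt_pi_iff.1 analyticAt_fst none) hz hs h1 h2 h3 h4

end Vale.Agent.P269.Ch
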