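import Vale.Agent.P269.Spl.CyB
import Vale.Agent.P269.Spl.MultF

/-!
# The class of the special fibre
-/

set_option linter.unusedSectionVars false

namespace Vale.Agent.P269

open P291Z Set Function Topology Filter Module

variable {S Λ Λ₀ R J K ι ν κ α : Type} [Fintype S] [Fintype Λ] [Fintype Λ₀] [Fintype R] [Fintype J]
  [Fintype K] [Fintype ι] [DecidableEq ι] [Fintype ν] [Fintype κ]

theorem ev_gys_eq_zero {X Y : Type} [TopologicalSpace X] [TopologicalSpace Y] [Nice X] [Nice Y]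
    {i : X → Y} (hi : IsClosedEmbedding i) {t : Coch Y} (ht : supp (δ t) = ∅)
    (hs : supp t ⊆ range i) (β : BM Y) {x : X} (hx : i x ∉ supp t) {a : Coch X}
    (h1 : supp (δ a) = ∅) (h2 : supp a ⊆ {x}) : ev (gys i t β) a = 0 := by
  obtain ⟨b, k1, k2, k3⟩ := exists_near' hi (Orb.Zc_of_pt h1 h2) (isClosed_supp t).isOpen_compl
    ((image_mono h2).trans (by rintro _ ⟨_, rfl, rfl⟩; exact hx))
  rw [← Orb.ev_congr _ k3, Orb.ev_gys hi ht hs β k1, ev_eq, cls_of_mem_Bc (mem_Bc_of_null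
    fun y hy => k2 (supp_mul _ _ hy).1 (supp_mul _ _ hy).2), map_zero]

namespace Fam.DgO

variable [DecidableEq R] [DecidableEq ν] [DecidableEq κ] {k D : ℕ} {g : ℤ} {d : R → ℤ} {n₀ n : ℕ}
  {F : Fam S (Option Λ₀) R J K} {i : R} {b c : J} {B₀ : Set (Λ₀ → ℂ)} {Ω : Set ℂ} {K₀ : Set K}
  {O : Set ((F.sch ν κ k D g d).WF ν κ (Option Λ₀))} (h : F.DgO i b c B₀ Ω k K₀ n₀ O)

/-- **the special fibre with multiplicities** -/
theorem gys_eq (hn : (n : ℤ) = F.dO ν κ k n₀ D g d) {A : Finset ((R → ℤ) × ℤ × ℕ)}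
    (hA : ∀ τ : STy R (ν ⊕ κ), (F.stT (k := k) b c B₀ D g d τ).Nonempty → τ ∈ STy.set i A)
    {θ : Coch (Quo (Ch.actF F.toWt) (F.YT O))} {σ : (ν ⊕ κ → Bool) → Prop} [DecidablePred σ]
    (hθ : F.Cut0 b c B₀ θ σ) :
    haveI := h.dom.nice
    gys (Quo.incl _ (inter_subset_left : F.YT O ∩ Ch.tAt 0 ⊆ _)) θ ((h.vd hn).dom.fnd (n + 1)) =
      ∑ τ ∈ STy.set i A with σ τ.s,
        τ.c • push (Quo.incl _ (h.cut_sub τ)) ((h.vdT hn τ).dom.fnd n) := by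
  classical
  have := h.dom.isAct
  have := h.isAct0
  have := fun τ => (h.vdT hn τ).dom.isAct
  have := h.dom.nice
  have cl : Clo (F.YT O ∩ Ch.tAt 0) (F.YT O) :=
    ⟨_, isClosed_eq ((continuous_apply none).comp continuous_fst) continuous_const, rfl⟩
  have ho := orb_mono h.dom.orb inter_subset_left (h.tpc hn).lc
  have := nice_of_orb ho
  have hi := Quo.isClosedEmbedding_incl (act := Ch.actF F.toWt) inter_subset_left cl
  have hs : supp θ ⊆ range (Quo.incl _ (inter_subset_left : F.YT O ∩ Ch.tAt 0 ⊆ _)) :=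
    fun z hz => (Quo.range_incl _).ge ⟨z.out.2, hθ.sup hz⟩
  have hd := ((h.vd hn).dom.fnd_deg (h.vd hn).cyc).gys
    (Quo.incl _ (inter_subset_left : F.YT O ∩ Ch.tAt 0 ⊆ _)) hθ.deg
  rw [Nat.cast_succ, mul_add_one, add_sub_cancel_right] at hd
  refine (h.tpc hn).eq_sum ho _ (fun τ _ => (h.vdT hn τ).cyc) h.cut_sub (fun τ _ => h.cut_clo τ)
    (fun τ _ x hx => ⟨⟨mem_iUnion.2 ⟨τ, hx.1.1⟩, hx.1.2⟩, hx.2⟩) _ hd fun x hx hf => ?_
  obtain ⟨τ, h0⟩ := mem_iUnion.1 hx.1.1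
  have p := fun τ' => h.stT_pm h.bd (τ' := τ') h0
  by_cases hσ : σ τ.s
  · obtain ⟨V, hV, e⟩ := h.ok.toStd.dom_open (ν := ν) (κ := κ)
    have f : ∀ T ⊆ Ch.adm _ ν κ F, F.cutO T O = T ∩ (O ∩ V) := fun T a => Set.ext fun y =>
      ⟨fun b => ⟨b.1.1, b.1.2, (e.le b.2).2⟩, fun b => ⟨⟨b.1, b.2.1⟩, e.ge ⟨a b.1, b.2.2⟩⟩⟩
    refine (congrArg (PtVal _ n x) ((Finset.sum_congr (Finset.ext fun τ' => ?_) fun _ _ => rfl).trans
      (STy.sum_pm (hA _ ⟨_, h0⟩)))).mpr ?_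
    · simp only [Finset.mem_filter, and_assoc]
      exact and_congr_right fun _ =>
        ⟨fun a => (p _).1 a.2.1.1, fun a => ⟨a.2.2.1 ▸ hσ, ⟨(p _).2 a, hx.1.2⟩, hx.2⟩⟩
    rw [← Orb.lgys_eq_gys hi hθ.cyc hs]
    exact (h.dg h.bd).ptVal h.dgn τ.u_ne (h.ok.pr.opn.inter hV) (f _ ((h.dg h.bd).cyc_adm h.dgn))
      h.dom.orb (f (Ch.main _ κ F 0) (fun _ a => a.1) ▸ (h.vd hn).cyc) inter_subset_left cl
      (.of_supp hθ.cyc hs) hθ.deg hf (.of_forall fun _ a => and_iff_right a) (hθ.div τ hσ _ h0) h0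
      ⟨h0.1.1.1.1, h.sm _⟩ (by rw [dS_zero, hn])
  · refine (congrArg (PtVal _ n x) (Finset.sum_eq_zero fun τ' a => ?_)).mpr
      fun _ _ _ a _ a1 a2 _ => (ev_gys_eq_zero hi hθ.cyc hs _ (x := x.mk)
        (hθ.van τ hσ (Holo.Sp.incl _ inter_subset_left x) h0) a1 a2).trans (zero_mul _).symm
    simp only [Finset.mem_filter] at a
    exact absurd (((p τ').1 a.2.1.1).2.2.1 ▸ a.1.2) hσ

end Fam.DgO

end Vale.Agent.P269

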