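import Vale.Agent.P269.Spl.NFQ
import Vale.Agent.P269.Mono.DgIntA

/-!
# Integrals over a divisor in a base cycle
-/

set_option linter.unusedSectionVars false
set_option linter.style.haveILetI false

namespace Vale.Agent.P269

open P291Z Set Function Topology Filter Module

namespace Ch.KD.Gd

open Orb Holo

variable {A W P α : Type} [NormedRing A] [NormedAlgebra ℂ A] [NormedAddCommGroup W]
  [NormedSpace ℂ W] [AddCommGroup P] [Module ℂ P] [TopologicalSpace P] [IsTopologicalAddGroup P]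
  [ContinuousSMul ℂ P] [T2Space P] [FiniteDimensional ℂ A] [FiniteDimensional ℂ W]
  {act : A → W → W} {Z Z₀ Y Y₀ : Set W} {D : KD A W P} {n r m : ℕ} (g : D.Gd act Z Y n r)
include g

omit g in
theorem cob_lin (O : Set W) : D.Lin D id id O .id :=
  ⟨fun _ h => h, fun _ _ _ _ => rfl, fun _ _ _ h => h,
    fun x _ => (sub_self (D.s x)).symm ▸ Submodule.zero_mem _, fun _ _ _ _ h => h⟩

theorem cob_gd (e₀ : Y₀ ⊆ Y) (c₀ : Clo Y₀ Y) (hi : Ivt act Y₀) (hZ : Z₀ = Z ∩ Y₀) :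
    D.Gd act Z₀ Y₀ n r :=
  let ⟨_, a, b⟩ := c₀
  g.mono e₀ hi (b ▸ g.lc.inter a.isLocallyClosed) hZ

theorem cob_emb (e₀ : Y₀ ⊆ Y) (c₀ : Clo Y₀ Y) (hi : Ivt act Y₀) :
    IsClosedEmbedding (Quo.incl act e₀) :=
  haveI := g.dom.isAct
  haveI := g.dom.isAct.mono e₀ hi
  Quo.isClosedEmbedding_incl e₀ c₀

/-- closed parts -/
theorem cob_vr (e₀ : Y₀ ⊆ Y) (c₀ : Clo Y₀ Y) (hi : Ivt act Y₀) (hZ : Z₀ = Z ∩ Y₀) (e : Z₀ ⊆ Z)
    (β : BM (Quo act Y₀)) : IsPr (Quo.incl act e) ∧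
      D.vr act Z Y (push (Quo.incl act e₀) β) = push (Quo.incl act e) (D.vr act Z₀ Y₀ β) :=
  (g.cob_gd e₀ c₀ hi hZ).vr_prop g (EqM.incl e₀) (cob_lin _) (fun _ _ _ _ h => h) (fun _ => rfl)
    (fun _ a b => hZ.ge ⟨b, a⟩) (EqM.incl e) (.of_isClosedEmbedding (g.cob_emb e₀ c₀ hi)) β

/-- integrals over a closed part cut out by the cocycle `θ` -/
theorem cob_ev (e₀ : Y₀ ⊆ Y) (c₀ : Clo Y₀ Y) (hi : Ivt act Y₀) {θ : Coch (Quo act Y)}
    (hθ : IsCo (Quo.part act Y Y₀) m θ) (β : BM (Quo act Y)) {b : Coch (Quo act Z)}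
    (hb : supp (δ b) = ∅) {C : Set (Quo act Z)} (hs : supp b ⊆ C)
    (hC : IsCompact (C ∩ Quo.part act Z Y₀)) :
    IsCompact (Quo.incl act (inter_subset_left : Z ∩ Y₀ ⊆ Z) ⁻¹' C) ∧
      ev (D.vr act Z Y β) (pull (Quo.incl act g.dom.sub) θ * b) =
        ev (D.vr act (Z ∩ Y₀) Y₀ (haveI := g.nice; gys (Quo.incl act e₀) θ β))
          (pull (Quo.incl act inter_subset_left) b) := by
  have g₀ := g.cob_gd e₀ c₀ hi rfl
  have := g.nice
  have := g.niceZ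
  have := g.dom.isAct
  have := g₀.dom.isAct
  have := g.isActZ
  have := g₀.isActZ
  have h1 : supp θ ⊆ range (Quo.incl act e₀) := hθ.supp.trans (Quo.range_incl e₀).ge
  obtain ⟨h2, h3⟩ : IsClosedEmbedding (Quo.incl act (inter_subset_left : Z ∩ Y₀ ⊆ Z)) ∧
      gys (Quo.incl act inter_subset_left) (pull (Quo.incl act g.dom.sub) θ) (D.vr act Z Y β) =
        D.vr act (Z ∩ Y₀) Y₀ (gys (Quo.incl act e₀) θ β) :=
    g₀.vr_gys g (EqM.incl e₀) (cob_lin _) (fun _ _ _ _ h => h) (fun _ => rfl)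
      (fun _ a b => ⟨b, a⟩) (EqM.incl inter_subset_left) (g.cob_emb e₀ c₀ hi) hθ.cocycle h1 β
  have hc := g.isClosedEmbedding.continuous
  have h4 : range (Quo.incl act (inter_subset_left : Z ∩ Y₀ ⊆ Z)) = Quo.part act Z Y₀ := by
    rw [Quo.range_incl]
    exact Set.ext fun z => and_iff_right z.out.2
  have h5 : supp (pull (Quo.incl act g.dom.sub) θ) ⊆ Quo.part act Z Y₀ := fun z hz => by
    have a := h1 (supp_pull hc θ hz)
    obtain ⟨x, rfl⟩ := Sp.surjective_mk z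
    exact (Quo.mem_part (fun t ht y hy => ⟨g.ivtZ t ht y hy.1, hi t ht y hy.2⟩) x).2
      ((Quo.mk_mem_range e₀ (x := Sp.incl act g.dom.sub x)).1 a)
  have h6 := cocycle_pull hc hθ.cocycle
  have h7 : IsCompact (Quo.incl act (inter_subset_left : Z ∩ Y₀ ⊆ Z) ⁻¹' C) := by
    have a := h2.isCompact_preimage hC
    rwa [← h4, preimage_inter, preimage_range, inter_univ] at a
  refine ⟨h7, ?_⟩
  rw [← h3, ← lgys_eq_gys h2 h6 (h5.trans h4.ge), ev_lgys h2 (.of_supp h6 (h5.trans h4.ge)) _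
    (fun _ => supp_eq_empty.1 hb _)
    (h7.of_isClosed_subset ((isClosed_supp b).preimage h2.continuous) (preimage_mono hs))
    (fun y hy => h4.ge (h5 (supp_mul _ _ hy).2)) fun _ => van_refl _ _, ev_eq, ev_eq,
    cls_eq_of_cohom hC ((cohom_comm_even hb h6 (hθ.deg.pull _)).mono
      (inter_subset_inter hs h5))]

/-- the class of the closed part is a combination of classes of closed subsets -/
theorem cob_sum (e₀ : Y₀ ⊆ Y) (c₀ : Clo Y₀ Y) (hi : Ivt act Y₀) {θ : Coch (Quo act Y)}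
    (hθ : IsCo (Quo.part act Y Y₀) m θ) (s : Finset α) (c : α → ℂ) {Z' O' : α → Set W}
    (eT : ∀ a, O' a ⊆ Y₀) (cT : ∀ a, Clo (O' a) Y₀) (iT : ∀ a, Ivt act (O' a))
    (hZ : ∀ a, Z' a = Z ∩ O' a) (eZ : ∀ a, Z' a ⊆ Z) {β : BM (Quo act Y)}
    {β' : ∀ a, BM (Quo act (O' a))} (hy : haveI := g.nice; gys (Quo.incl act e₀) θ β =
      ∑ a ∈ s, c a • push (Quo.incl act (eT a)) (β' a)) {b : Coch (Quo act Z)}
    (hb : supp (δ b) = ∅) {C : Set (Quo act Z)} (hs : supp b ⊆ C)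
    (hC : IsCompact (C ∩ Quo.part act Z Y₀)) :
    (∀ a, IsCompact (Quo.incl act (eZ a) ⁻¹' C)) ∧
      ev (D.vr act Z Y β) (pull (Quo.incl act g.dom.sub) θ * b) =
        ∑ a ∈ s, c a * ev (D.vr act (Z' a) (O' a) (β' a)) (pull (Quo.incl act (eZ a)) b) := by
  have g₀ := g.cob_gd e₀ c₀ hi rfl
  obtain ⟨h1, h2⟩ := g.cob_ev e₀ c₀ hi hθ β hb hs hC
  have h3 : ∀ a, Z' a = Z ∩ Y₀ ∩ O' a := fun a => by
    rw [hZ, inter_assoc, inter_eq_right.2 (eT a)]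
  have h4 := fun a => g₀.cob_vr (eT a) (cT a) (iT a) (h3 a) ((h3 a).le.trans inter_subset_left)
    (β' a)
  have h5 : ∀ a, Quo.incl act (inter_subset_left : Z ∩ Y₀ ⊆ Z) ∘
      Quo.incl act ((h3 a).le.trans inter_subset_left) = Quo.incl act (eZ a) := fun a =>
    funext fun z => Quot.inductionOn z fun _ => rfl
  have hc : Continuous (Quo.incl act (inter_subset_left : Z ∩ Y₀ ⊆ Z)) :=
    (EqM.incl inter_subset_left).map.continuous
  refine ⟨fun a => h5 a ▸ (h4 a).1.pre _ h1, ?_⟩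
  rw [h2, hy, map_sum, sum_ev]
  refine Finset.sum_congr rfl fun a _ => ?_
  rw [map_smul, smul_ev, (h4 a).2, ev_push (h4 a).1 _ ⟨isCompact_supp_of_subset h1
    ((supp_pull hc b).trans (preimage_mono hs)), cocycle_pull hc hb⟩, pull_pull, h5]

end Ch.KD.Gd

variable {S Λ Λ₀ R J K ι ν κ α : Type} [Fintype S] [Fintype Λ] [Fintype Λ₀] [Fintype R] [Fintype J]
  [Fintype K] [Fintype ι] [DecidableEq ι] [Fintype ν] [Fintype κ]

namespace Ch

variable [DecidableEq R] {ch : Ch ι J} {F : Fam S Λ R J K} {e : K → ι → ℕ} {K₀ : Set K}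
  {ℓ : R → ι → ℤ} {S₀ Y Y₀ M : Set (ch.WF ν κ Λ)} {N N' : ℕ} {B' : Set (Λ → ℂ)} {A' : Set J}
  {fs : List (Fac F.toWt ν κ)}

theorem Std.cob_sub (hs : ch.Std F e K₀ ℓ) (hF' : (F.sub B' A').Inv) (hB : B' ⊆ F.B)
    (hz : F.zer ⊆ A') : ch.Std (F.sub B' A') e K₀ ℓ :=
  ⟨hF', hs.reg.sub hB hz, ⟨hs.fits.wt, hs.fits.le, hs.fits.ne⟩, hs.cuts, hs.wt⟩

theorem GZ.cob_dia {Z Z' : Set (ch.WF ν κ Λ)} (h : GZ F ℓ Z)
    (h' : GZ F ℓ Z') (e : Z' ⊆ Z) : Quo.incl _ e ⁻¹' dia F.toWt Z = dia F.toWt Z' := by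
  rw [GZ.dia_eq, GZ.dia_eq, preimage_iInter]
  refine iInter_congr fun q => Set.ext fun z => ?_
  obtain ⟨x, rfl⟩ := Tq.mk_surj z
  exact (h.mk_mem_diq (x := ⟨x, e x.2⟩)).trans h'.mk_mem_diq.symm

/-- from classes of base cycles to numbers -/
theorem Vd.ev_gys (h : Vd F e S₀ Y M N) (hs : ch.Std F e K₀ ℓ) (hF : F.Good)
    (hF' : (F.sub B' A').Good) (hB : B' ⊆ F.B) (hz : F.zer ⊆ A') (e₀ : Y₀ ⊆ Y) (c₀ : Clo Y₀ Y)
    (hi : Ivt (actF F.toWt) Y₀) {θ : Coch (Quo (actF F.toWt) Y)}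
    (hθ : IsCo (Quo.part _ Y Y₀) 1 θ) (s : Finset α) (c : α → ℂ)
    {T O' M' : α → Set (ch.WF ν κ Λ)} (hT : ∀ a, Vd (F.sub B' A') e (T a) (O' a) (M' a) N')
    (eT : ∀ a, O' a ⊆ Y₀) (cT : ∀ a, Clo (O' a) Y₀)
    (hy : haveI := h.dom.nice; gys (Quo.incl _ e₀) θ (h.dom.fnd N) =
      ∑ a ∈ s, c a • push (Quo.incl _ (eT a)) ((hT a).dom.fnd N'))
    (hA : ∀ f ∈ fs, f.Ok F 0) (hq : ∀ q, .dg q ∈ fs)
    (hc : IsCompact (dia F.toWt (ch.solF ν κ F ∩ S₀) ∩ Quo.part _ _ Y₀)) :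
    ev (virF F e S₀) (pull (Quo.incl _ h.dom.sub) θ * (fs.map (F.coch _)).prod) =
      ∑ a ∈ s, c a * ev (virF (F.sub B' A') e (T a)) (fs.map ((F.sub B' A').coch _)).prod := by
  have hs' := hs.cob_sub hF'.toInv hB hz
  obtain ⟨n, g⟩ := h.gd hs
  have z := h.gz hs
  have d := (St.dg F K₀ hF hs.reg).1
  have a1 : ∀ f ∈ fs, f.At (ch.solF ν κ F ∩ S₀) := fun f hf => at_of_ok0 inter_subset_left (hA f hf)
  have hZ : ∀ a, ch.solF ν κ (F.sub B' A') ∩ T a = ch.solF ν κ F ∩ S₀ ∩ O' a := fun a =>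
    Set.ext fun x => ⟨fun k => have b := (hT a).dom.sub k
      ⟨(h.dom.zero x (e₀ (eT a b))).1 (((hT a).dom.zero x b).2 k), b⟩,
      fun k => ((hT a).dom.zero x k.2).1 ((h.dom.zero x (e₀ (eT a k.2))).2 k.1)⟩
  have eZ := fun a => (hZ a).le.trans inter_subset_left
  have sp : supp (fs.map (F.coch (ch.solF ν κ F ∩ S₀))).prod ⊆ dia F.toWt _ := fun x hx =>
    GZ.dia_eq.ge (mem_iInter.2 fun q => z.supp_dg d q
      (NF.supp_prod (List.mem_map_of_mem (hq q)) hx))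
  obtain ⟨k1, k2⟩ := g.cob_sum e₀ c₀ hi hθ s c eT cT (fun a => (hT a).dom.isAct.mem) hZ eZ hy
    (z.cocycle_prod d a1) sp hc
  rw [h.virF_vr hs]
  refine k2.trans (Finset.sum_congr rfl fun a _ => congrArg _ ?_)
  have z' := (hT a).gz hs'
  have z'' : GZ F ℓ (ch.solF ν κ (F.sub B' A') ∩ T a) :=
    ⟨z'.toOZ, z.inv, z.wt, (eZ a).trans z.sol, (eZ a).trans z.adm, z'.psi, z'.fld, z'.kos⟩
  rw [(hT a).virF_vr hs']
  exact z.ev_subF hF hs.reg hF' hB hz z' (eZ a) a1 hq (z.cob_dia z'' (eZ a) ▸ k1 a) _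

end Ch

/-- moving a point along a segment -/
theorem cohom_tau_sub {X : Type} [TopologicalSpace X] {f : X → ℂ} (hf : Continuous f) (s : ℂ) :
    Cohom (f ⁻¹' segment ℝ 0 s) (pull (fun x (_ : Fin 1) => f x - 0) (tau 1))
      (pull (fun x (_ : Fin 1) => f x - s) (tau 1)) := by
  have a : ∀ t, pull (fun x (_ : Fin 1) => f x - t) (tau 1) = pull f (Mono.DgI.wt t) := fun t => by
    rw [tau, List.ofFn_succ, List.ofFn_zero, List.prod_cons, List.prod_nil, mul_one, pull_pull,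
      Mono.DgI.wt, pull_pull]
    rfl
  rw [a, a]
  exact (Mono.DgI.cohom_wt s).symm.pull hf

end Vale.Agent.P269
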