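import Vale.Agent.P269.Spl.CoA
import Vale.Agent.P269.Spl.CoB
import Vale.Agent.P269.Bas.Supp

/-!
# Specialisation to the special fibre
-/

set_option linter.unusedSectionVars false

namespace Vale.Agent.P269

open P291Z Set Function Topology Filter Module

variable {S Λ Λ₀ R J K ι ν κ α : Type} [Fintype S] [Fintype Λ] [Fintype Λ₀] [Fintype R] [Fintype J]
  [Fintype K] [Fintype ι] [DecidableEq ι] [Fintype ν] [Fintype κ]

namespace Fam.DgO

variable [DecidableEq R] [DecidableEq ν] [DecidableEq κ] {k D : ℕ} {g : ℤ} {d : R → ℤ} {n₀ n : ℕ}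
  {F : Fam S (Option Λ₀) R J K} {i : R} {b c : J} {B₀ : Set (Λ₀ → ℂ)} {Ω : Set ℂ} {K₀ : Set K}
  {O : Set ((F.sch ν κ k D g d).WF ν κ (Option Λ₀))} (h : F.DgO i b c B₀ Ω k K₀ n₀ O)

/-- **the integrals over the special fibre** -/
theorem core {A : Finset ((R → ℤ) × ℤ × ℕ)}
    (hA : ∀ τ : STy R (ν ⊕ κ), (F.stT (k := k) b c B₀ D g d τ).Nonempty → τ ∈ STy.set i A)
    {θ : Coch (Quo (Ch.actF F.toWt) (F.YT O))} {σ : (ν ⊕ κ → Bool) → Prop} [DecidablePred σ]
    (hθ : F.Cut0 b c B₀ θ σ) {fs : List (Fac F.toWt ν κ)} (hf : F.Fs 0 fs) :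
    ev (F.vir κ k D g d 0) (pull (Quo.incl _ h.dom.sub) θ * (fs.map (F.coch _)).prod) =
      ∑ τ ∈ STy.set i A with σ τ.s, τ.c * (F.sp0 B₀).intQ k D g d (τ.C (F.w b) b c) fs := by
  have g0 := h.good0 (empty_subset _)
  have hB := h.dgn.slab_sub h.dgn.zero
  have hD : (F.sp0 B₀).BigD k D := h.bd
  simp only [intQ_eq hD]
  rcases lt_or_ge (F.dO ν κ k n₀ D g d) 0 with hn | hn
  · have e := h.empty0 hn
    refine ((Orb.ev_congr _ fun x => ?_).trans (ev_zero_right _)).trans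
      (Finset.sum_eq_zero fun τ _ => ?_).symm
    · rw [sub_zero]
      intro a
      have := h.dom.isAct
      have := h.gz.act
      have a' := hθ.sup (supp_pull (Ch.isEmbedding_incl _).continuous _ (supp_mul _ _ a).1)
      exact e.le ⟨(Quo.out (Quo.incl _ h.dom.sub x)).2, a'⟩
    · have : IsEmpty (Ch.ModS (F.sp0 B₀) (F.clT (k := k) b c B₀ D g d τ)) := ⟨fun z => by
        have a := (Quo.out z).2
        have s := ((Ch.solF_sub hB h.dgn.zer).le a.1).1
        have t := h.clT_sub h.bd a.2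
        exact e.le ⟨h.dom.sub ⟨s, t.1⟩, t.2⟩⟩
      exact mul_eq_zero_of_right _
        ((congrArg (ev · _) (@Orb.BM_eq_of_isEmpty _ _ this _ 0)).trans (ev_zero _))
  · obtain ⟨n, hn⟩ := Int.eq_ofNat_of_zero_le hn
    have := h.dom.isAct
    have := h.gz.act
    refine (h.vd hn.symm).ev_gys h.ok.toStd h.toGood g0 hB (h.dgn.zer_sub _) inter_subset_left
      ⟨_, isClosed_eq ((continuous_apply none).comp continuous_fst) continuous_const, rfl⟩
      h.isAct0.mem ⟨hθ.cyc, hθ.deg, fun z a => ⟨(Quo.out z).2, hθ.sup a⟩⟩ _ _ (h.vdT hn.symm)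
      h.cut_sub h.cut_clo (h.gys_eq hn.symm hA hθ) (fun f a => (hf.1 f a).1) hf.2 ?_
    convert h.isCompact_dia using 2
    exact Set.ext fun z => and_iff_right (h.dom.sub (Quo.out z).2)

end Fam.DgO

end Vale.Agent.P269
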