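import Vale.Agent.P269.Spl.Geo
import Vale.Agent.P269.Base.Std

/-!
# Strata of the special fibre of a degeneration: types, positivity, gluing, local coordinates
-/

set_option linter.unusedSectionVars false

namespace Vale.Agent.P269

open P291Z Set Function Topology Filter Holo Base Cv

variable {S Λ R J K ι ν ν' κ ε : Type} [Fintype S] [Fintype Λ] [Fintype R] [Fintype J] [Fintype K]
  [Fintype ι] [DecidableEq ι] [Fintype ν] [Fintype ν'] [Fintype κ] [Fintype ε]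

/-- The marked points `T` and the first branches of the new nodes. -/
def extT (ε : Type) (T : Set (Ch.Mk ν κ)) : Set (Ch.Mk ν (κ ⊕ ε)) := fun
  | .inl n => .inl n ∈ T
  | .inr (.inl q, s) => .inr (q, s) ∈ T
  | .inr (.inr _, s) => s = false

namespace AM

/-- The degree bounds that hold for stable solutions. -/
def Pos [DecidableEq R] (θ : R → ℤ) (k : ℕ) (m : AM Λ R J ν κ) : Prop :=
  m.Stable θ ∧ Ge (bz m.L θ) 0 ∧ ∃ N, 10 * N + 20 ≤ k ∧
    ∀ o, Near (stdA ((m.ω * bz m.L θ) ^ k) m.L o) (m.ω * bz m.L θ) k N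

/-- A split map of given numerical type. -/
def SpT (w : R → ℤ) (b c : J) (U : Ch.Mk ν κ → ℤ) (a : ℤ) (d : R → ℤ) (T : Set (Ch.Mk ν κ))
    (m : AM Λ R J ν κ) : Prop := m.Spl w b c U ∧ m.Sd b a d T

/-- `b`, `c` are sections of `L ^ w`, `L ^ (-w)` with `b c = 0`, matched at the persistent nodes. -/
structure Nb (m : AM Λ R J ν κ) (w : R → ℤ) (b c : J) : Prop where
  b_mem : m.y b ∈ H0 m.N (bz m.L w)
  c_mem : m.y c ∈ H0 m.N (bz m.L (-w))
  mul : ∀ z, m.y b z * m.y c z = 0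
  mtb : m.Mt (m.y b)
  mtc : m.Mt (m.y c)

/-- Split maps. -/
def SpU (w : R → ℤ) (b c : J) (U : Ch.Mk ν κ → ℤ) (m : AM Λ R J ν κ) : Prop :=
  m.Nb w b c ∧ m.Spl w b c U

/-- Split maps of given type. -/
def SpN (w : R → ℤ) (b c : J) (U : Ch.Mk ν κ → ℤ) (a : ℤ) (d : R → ℤ) (T : Set (Ch.Mk ν κ))
    (m : AM Λ R J ν κ) : Prop := m.Nb w b c ∧ m.SpT w b c U a d T

/-- Maps with ghost components. -/
def GhN (w : R → ℤ) (b c : J) (U : Ch.Mk ν κ → ℤ) (m : AM Λ R J ν κ) : Prop :=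
  m.Nb w b c ∧ m.Gh w b c U

end AM

namespace Ch

variable {ch : Ch ι J}

variable (ch) in
/-- A chart for a degeneration. -/
structure Dg (W : Wt S Λ R J) (ℓ : R → ι → ℤ) (i : ι) (b c : J) : Prop extends ch.DgC i b c where
  m_ne : ch.m ch.o ≠ 1
  lat : ch.Lat W ℓ

/-- `Z` is stable under changing the fields in `A`. -/
def Stb (A : Set J) (Z : Set (ch.WF ν κ Λ)) : Prop :=
  ∀ x ∈ Z, ∀ X : ch.Fld, (∀ j ∉ A, X j = x.2.X j) → (x.1, setX x.2 X) ∈ Z

open Classical in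
variable (ch) in
/-- The dimension of the split strata, for parameters of dimension `b`. -/
noncomputable def dS (S : Type) [Fintype S] (A : Set J) (b : ℕ) (U : Mk ν κ → ℤ) : ℤ :=
  b - Fintype.card S + Module.finrank ℂ (ch.AF ν κ S) + ch.fm A + ch.qd ν κ + (1 - ch.g) -
    (Finset.univ.filter fun q => U (.inr (q, false)) = 0 ∧ U (.inr (q, true)) = 0).card

/-! ### Gluing -/

variable (ch) in
/-- The same degrees, another curve. -/
@[reducible] def alt (M : ι → ℕ) (g : ℤ) (m : ι → ℤ) (h : Option J → ℕ) : Ch ι J :=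
  { ch with M := M, g := g, m := m, h := h }

section glue

variable {M : ι → ℕ} {g : ℤ} {m : ι → ℤ} {h : Option J → ℕ}

variable (ch M h) in
/-- Projections of the factors, projections of the spaces of sections, new fields. -/
abbrev Lg : Type := (∀ i, (Fin (M i) → ℂ) →L[ℂ] Fin (ch.M i) → ℂ) ×
  (∀ l, (Fin (h l) → ℂ) →L[ℂ] ch.E l) × ch.Fld

/-- Pull-back of forms along linear maps of the factors. -/
noncomputable def pbT {β : Type} [Fintype β] {s : β → ι}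
    (π : ∀ i, (Fin (M i) → ℂ) →L[ℂ] Fin (ch.M i) → ℂ) : Tn ch.M s →L[ℂ] Tn M s :=
  ContinuousMultilinearMap.compContinuousLinearMapL fun a => π (s a)

open Classical in
/-- The gluing map; the fields in `A` are free. -/
noncomputable def glu (A : Set J) (y : (ch.alt M g m h).WF ν (κ ⊕ ε) Λ × ch.Lg M h) :
    ch.WF ν κ Λ :=
  (y.1.1, W.mk' (fun l => y.2.2.1 l ∘L y.1.2.Q l ∘L pbT y.2.1)
    (fun n i => y.2.1 i (y.1.2.p (n.map id (Prod.map .inl id)) i))
    (y.2.2.1 none ∘L y.1.2.Ξ ∘L pbT y.2.1)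
    fun j => if j ∈ A then y.2.2.2 j else y.2.2.1 (some j) ∘L y.1.2.X j ∘L pbT y.2.1)

end glue

/-- The branches `n` are the axes of the charts `σ`. -/
def Axes {c : AC ν κ} (B : ι → LB c.R) (π : c.X → V ch.M) (n : ε × Bool → c.X)
    (σ : ε → ℂ × ℂ → V ch.M) : Prop :=
  ∀ e, (Nrm.Fac (br B π (n (e, false))) fun z => σ e (z, 0)) ∧
    Nrm.Fac (br B π (n (e, true))) fun z => σ e (0, z)

/-! ### Local coordinates near a good point -/

variable {i : ι} {h : ch.o ≠ i}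

/-- `b c = t`, and `b`, `c` agree at the persistent nodes. -/
structure Bc (x : ch.W (Mk ν κ)) (b c : J) (t : ℂ) : Prop where
  mem : x ∈ ch.bm ν κ
  scb : Sc x b
  scc : Sc x c
  mul : ∀ y ∈ crv x, fld x y b * fld x y c = t
  mtb : ∀ q, fld x (x.p (.inr (q, false))) b = fld x (x.p (.inr (q, true))) b
  mtc : ∀ q, fld x (x.p (.inr (q, false))) c = fld x (x.p (.inr (q, true))) c

/-- The points of the model `cf e * τ e ^ u e = t`. -/
def Pq (b c : J) (u : ε → ℕ) (τ : ch.W (Mk ν κ) → ε → ℂ)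
    (σ : ε → ch.W (Mk ν κ) × (ℂ × ℂ) → V ch.M) (x : ch.W (Mk ν κ)) (t : ℂ) (cf : ε → ℂ) : Prop :=
  Bc x b c t ∧ ((t ≠ 0 ∧ ∀ e, cf e * τ x e ^ u e = t) ∨ (t = 0 ∧ τ x = 0 ∧ ∃ a a',
    Gd x b c u (fun e z => σ e (x, (z, 0))) (fun e z => σ e (x, (0, z))) a a' ∧ cf = a * a'))

variable (ch h ν κ) in
/-- Moving points `z`, `m` and sides `sd`, `sp`, a splitting `S` of the Hilbert points. -/
structure Cd (n : ℕ) (ε : Type) where
  /-- points that give a frame of the factor `i` -/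
  z : Fin (ch.M i) → ch.W (Mk ν κ) → V ch.M
  /-- their projections -/
  m : Fin (ch.M i) → PV n ε → V (ch.flat h).M
  /-- their sides -/
  sd : Fin (ch.M i) → Bool
  /-- the sides of the marked points -/
  sp : Mk ν κ → Bool
  /-- the splittings -/
  S : ∀ l, ch.E l →L[ℂ] Tens ch.M (ch.a l)

variable {n : ℕ}

/-- The data are adapted to `x₀`. -/
structure Cd.Ok (D : ch.Cd ν κ h n ε) (b c : J) (x₀ : ch.W (Mk ν κ))
    (Ψ : PV n ε → (ch.flat h).W (Mk ν κ)) (k : ch.W (Mk ν κ) → PV n ε) : Prop where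
  anz : ∀ j, AnalyticAt ℂ (D.z j) x₀
  anm : ∀ j, AnalyticAt ℂ (D.m j) 0
  memz : ∀ᶠ x in 𝓝 x₀, x ∈ ch.bm ν κ → ∀ j, D.z j x ∈ crv x ∧ pj i (D.z j x) = D.m j (k x)
  memm : ∀ᶠ v in 𝓝 0, ∀ j, D.m j v ∈ crv (Ψ v)
  li : LinearIndependent ℂ fun j => D.z j x₀ i
  sd : ∀ j, fld x₀ (D.z j x₀) (if D.sd j then b else c) ≠ 0
  sp : ∀ a, fld x₀ (x₀.p a) (if D.sp a then b else c) ≠ 0
  S : ∀ l, Bijective (x₀.Q l ∘L D.S l)

variable (ch i ν κ) in
/-- The space of coordinates. -/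
abbrev PW (b c : J) (n : ℕ) : Type := (Fin n → ℂ) × (Fin (ch.M i) → Fin (ch.M i) → ℂ) × ch.Frm ×
  (ν ⊕ κ → ℂ) × ∀ j : {j // j ≠ b ∧ j ≠ c}, Tens ch.M (ch.b j) →L[ℂ] ch.E (some j)

/-- The coordinates. -/
noncomputable def Cd.co (D : ch.Cd ν κ h n ε) (b c : J) (k : ch.W (Mk ν κ) → PV n ε)
    (x : ch.W (Mk ν κ)) : ch.PW ν κ i b c n :=
  ((k x).1, fun j => (bv x b c (D.sd j) (D.z j x))⁻¹ • D.z j x i, fun l => x.Q l ∘L D.S l,
    fun a => bv x b c (D.sp (a.map id (·, false))) (x.p (a.map id (·, false))), fun j => x.X j)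

end Ch

end Vale.Agent.P269
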