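import Vale.Agent.P269.Spl.GBf
import Vale.Agent.P269.Spl.DictP
import Vale.Agent.P269.Spl.SpecB
import Vale.Agent.P269.Holo.Etale
import Vale.Agent.P269.Base.NdU
import Vale.Agent.P269.Spl.Geo2
import Vale.Agent.P269.Spl.Dim
import Vale.Agent.P269.Pt.Glue

/-!
# Gluing on the level of the smooth spaces
-/

set_option linter.unusedSectionVars false

namespace Vale.Agent.P269

open Set Function Topology Filter Holo Base Cv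

variable {S Λ Λ₀ R J K ι ν κ ε : Type} [Fintype S] [Fintype Λ] [Fintype Λ₀] [Fintype R] [Fintype J]
  [Fintype K] [Fintype ι] [DecidableEq ι] [Fintype ν] [Fintype κ] [Fintype ε]

/-- The numerical data of a chart. -/
def Ch.nm (ch : Ch ι J) : Nm ι J := ⟨ch.M, ch.h, ch.g, ch.m⟩

namespace Fam

variable [DecidableEq R] {F : Fam S Λ R J K} {k D : ℕ} {g g' : ℤ} {d : R → ℤ}
  {P : AM Λ R J ν (κ ⊕ ε) → Prop} {N N' : ℕ}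

theorem gOk (hD : F.BigD k D) : (F.sch ν κ k D g d).GOk (F.sch ν (κ ⊕ ε) k D g' d).nm :=
  ⟨chart_cuts hD, chart_tight, (chart_tight : (F.sch ν (κ ⊕ ε) k D g' d).Tight)⟩

theorem finrank_H : Module.finrank ℂ ((F.sch ν (κ ⊕ ε) k D g' d).AF ν (κ ⊕ ε) S) +
    (F.sch ν κ k D g d).fG F.mov = Module.finrank ℂ ((F.sch ν κ k D g d).AF ν κ S) +
    Module.finrank ℂ ((F.sch ν (κ ⊕ ε) k D g' d).A ε) + (F.sch ν κ k D g d).fm F.mov :=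
  Ch.finrank_H (ch := F.sch ν κ k D g d) (n := (F.sch ν (κ ⊕ ε) k D g' d).nm) F.mov

/-- **labels exist** for positive maps -/
theorem exists_lab (hD : F.BigD k D) (hg : g' + Fintype.card ε = g) {A : Set J}
    {x : (F.sch ν κ k D g d).WF ν κ Λ} {m : AM Λ R J ν κ} {B π u s}
    (r : Ch.RepD ℓs A x m B π u s) {v : ε × Bool → m.X} (hn : m.Nds v) (pos : m.Pos F.θ k) :
    ∃ w : (F.sch ν κ k D g d).Lb (F.sch ν (κ ⊕ ε) k D g' d).nm (Ch.Mk ν (κ ⊕ ε)), Ch.Gl x.2 w ∧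
      (∀ j ∈ A, Ch.Mt x.2 w j) ∧ (∀ j ∉ A, w.1.X j = 0) ∧ Ch.Rep ℓs A (Ch.μL x w) (m.cut hn) ∧
      ∀ σ, Ch.Axes B π v σ → Ch.Brs w (Ch.axs σ) :=
  r.exists_lab (chart_lat hD) chart_tight hn fun _ s0 =>
    let ⟨x', π', u', a⟩ := AM.Pos.exists_repD (A := A) (g := g') (d := d) hD
      ((AM.pos_cut hn).2 pos) ((AM.typ_cut hn).2 (hg ▸ rep_typ r.rep r.cr.mem))
      (fun _ hj => ((AC.mem_H0_cut hn).1 (r.sec chart_wd' hj)).1) s0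
    ⟨x', _, π', u', a⟩

/-- near a positive map all maps can be glued -/
theorem glu (hk : k ≠ 0) (hD : F.BigD k D) (hg : g' + Fintype.card ε = g) {A : Set J}
    {y : (F.sch ν (κ ⊕ ε) k D g' d).WF ν (κ ⊕ ε) Λ} {m : AM Λ R J ν (κ ⊕ ε)} {B π u s}
    (r : Ch.RepD ℓs A y m B π u s) (pos : m.Pos F.θ k) :
    (F.sch ν κ k D g d).Glu (F.sch ν (κ ⊕ ε) k D g' d).nm ℓs y :=
  (eventually_pos hk hD r pos).mono fun _ a A m B π u s r hA _ s0 =>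
    let ⟨x', π', u', a⟩ := AM.Pos.exists_repD (A := A) (g := g) (d := d) hD
      (AM.pos_glue.2 (a A m B π u s r)) (hg ▸ AM.typ_glue.2 (rep_typ r.rep r.cr.mem))
      (fun j hj => AC.mem_H0_glue.2 ⟨r.sec (W := F.toWt) chart_wd' hj, fun e => hA j hj (.inr e)⟩) s0
    ⟨x', _, π', u', a⟩

theorem exists_Zf (hF : F.Inv) (hD : F.BigD k D) (hg : g' + Fintype.card ε = g)
    {x : (F.sch ν κ k D g d).WF ν κ Λ} (hx : x ∈ Ch.adm _ ν κ F) {m : AM Λ R J ν κ} {B π u s}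
    (r : Ch.RepD ℓs F.movᶜ x m B π u s) {v : ε × Bool → m.X} (hn : m.Nds v) (p : P (m.cut hn))
    (pos : m.Pos F.θ k) :
    ∃ w : (F.sch ν κ k D g d).Lb (F.sch ν (κ ⊕ ε) k D g' d).nm (Ch.Mk ν (κ ⊕ ε)),
      (x, w) ∈ Ch.Zf F (Ch.locP _ F ℓs P) ∧ Ch.Rep ℓs F.movᶜ (Ch.μL x w) (m.cut hn) ∧
      ∀ σ, Ch.Axes B π v σ → Ch.Brs w (Ch.axs σ) :=
  let ⟨w, a, b, c, e, f⟩ := exists_lab hD hg r hn pos
  ⟨w, ⟨⟨a, ⟨(a.mem_adm_iff hF (chart_lat hD) b e).1 hx, _, e, p⟩, b⟩,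
    fun j hj => c j fun a => a hj⟩, e, f⟩

/-- **GB1** -/
theorem dimLt_ct (hF : F.Inv) (hk : 2 ≤ k) (hD : F.BigD k D) (hg : g' + Fintype.card ε = g)
    (hP : AM.IvtA F.toWt F.movᶜ P) (pos : ∀ m, P m → m.Pos F.θ k)
    (hN : (N' : ℤ) - Module.finrank ℂ ((F.sch ν (κ ⊕ ε) k D g' d).AF ν (κ ⊕ ε) S) -
      (F.sch ν (κ ⊕ ε) k D g' d).fm F.mov ≤
      N - Module.finrank ℂ ((F.sch ν κ k D g d).AF ν κ S) - (F.sch ν κ k D g d).fm F.mov)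
    (h : DimLt N' ((F.sch ν (κ ⊕ ε) k D g' d).locP F ℓs P)) :
    DimLt N ((F.sch ν κ k D g d).locP F ℓs (AM.Ct P)) := by
  have a := finrank_H (F := F) (ν := ν) (κ := κ) (ε := ε) (k := k) (D := D) (g := g) (g' := g')
    (d := d)
  refine (Ch.dimLt_fst (gOk hD) (fun a ha x hx => Ch.actF_mem_locP hF hP hx ha) (Ch.stb_locP hF)
    ?_ h).mono fun x ⟨hx, m, r, v, hn, p⟩ => ?_
  · show N' + (F.sch ν κ k D g d).fG F.mov ≤ Module.finrank ℂ ((F.sch ν (κ ⊕ ε) k D g' d).A ε) +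
      N + (F.sch ν (κ ⊕ ε) k D g' d).fm F.mov
    omega
  · obtain ⟨B, π, u, s, r⟩ := r.exists_data hx.1.2.1
    obtain ⟨w, b, -⟩ := exists_Zf hF hD hg hx r hn p ((AM.pos_cut hn).1 (pos _ p))
    exact ⟨_, b, rfl⟩

/-- **GB2** -/
theorem mfd_ct (hF : F.Inv) (hk : 2 ≤ k) (hD : F.BigD k D) (hg : g' + Fintype.card ε = g)
    (hP : AM.IvtA F.toWt F.movᶜ P) {x₀ : (F.sch ν κ k D g d).WF ν κ Λ}
    (hx : x₀ ∈ Ch.adm _ ν κ F) (hx' : x₀.2 ∈ (F.sch ν κ k D g d).bm ν κ) {m₀ : AM Λ R J ν κ} {B₀ π₀ u₀ s₀}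
    (h₀ : Ch.RepD ℓs F.movᶜ x₀ m₀ B₀ π₀ u₀ s₀) {n₀ : ε × Bool → m₀.X} (hn : m₀.Nds n₀)
    (p₀ : P (m₀.cut hn)) (pos : m₀.Pos F.θ k) {σ : ε → _ × (ℂ × ℂ) → _} {τ : ε → _ → ℂ}
    (hσ : ∀ e, Chart none (fun x : (F.sch ν κ k D g d).bm ν κ => Ch.crv x.1) Subtype.val ⟨_, hx'⟩
      (σ e) fun x => {z | z.1 * z.2 = τ e x})
    (hτ : ∀ e, AnalyticAt ℂ (τ e) x₀.2 ∧ τ e x₀.2 = 0)
    (ax : Ch.Axes B₀ π₀ n₀ fun e z => σ e (x₀.2, z))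
    (loc : ∀ᶠ x in 𝓝 x₀, x ∈ (F.sch ν κ k D g d).locP F ℓs (AM.Ct P) → (∀ e, τ e x.2 = 0) ∧
      ∀ (m : AM Λ R J ν κ) (B π u s) (n : ε × Bool → m.X) (h : m.Nds n),
        Ch.RepD ℓs F.movᶜ x m B π u s → Ch.Axes B π n (fun e z => σ e (x.2, z)) → P (m.cut h))
    (hM : ∀ y ∈ (F.sch ν (κ ⊕ ε) k D g' d).locP F ℓs P, 
      MfdAt ((F.sch ν (κ ⊕ ε) k D g' d).locP F ℓs P) N' y)
    (hN : (N' : ℤ) - Module.finrank ℂ ((F.sch ν (κ ⊕ ε) k D g' d).AF ν (κ ⊕ ε) S) -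
      (F.sch ν (κ ⊕ ε) k D g' d).fm F.mov =
      N - Module.finrank ℂ ((F.sch ν κ k D g d).AF ν κ S) - (F.sch ν κ k D g d).fm F.mov) :
    MfdAt ((F.sch ν κ k D g d).locP F ℓs (AM.Ct P)) N x₀ := by
  have a := finrank_H (F := F) (ν := ν) (κ := κ) (ε := ε) (k := k) (D := D) (g := g) (g' := g')
    (d := d)
  obtain ⟨w, b, r, c⟩ := exists_Zf hF hD hg hx h₀ hn p₀ pos
  obtain ⟨B, π, u, s, r⟩ := r.exists_data b.1.1.mem'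
  have k0 : k ≠ 0 := by omega
  have p := (AM.pos_cut hn).2 pos
  refine Ch.NdC.mfd (z := (x₀, w)) (gOk hD) (num₀ hk hD _ _ _) (num₀ hk hD g' _ d) hF
    (chart_lat hD) hP ⟨b.1.1, hx', hσ, hτ, c _ ax⟩ b (fun e e' o => h₀.dc_inj hn ?_)
    (glu k0 hD hg r p) (glu (A := ∅) k0 hD hg ⟨r.l, r.cr.setX 0, r.mark, r.L, fun _ => False.elim⟩ p)
    (loc.mono fun x a b => (a b).2) (loc.mono fun x a b => (a b).1) (hM _ b.1.2.1) ?_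
  · exact ((dc_orb (ax e).1).trans o).trans (dc_orb (ax e').1).symm
  · show N' + (F.sch ν κ k D g d).fG F.mov = Module.finrank ℂ ((F.sch ν (κ ⊕ ε) k D g' d).A ε) +
      N + (F.sch ν (κ ⊕ ε) k D g' d).fm F.mov
    omega

end Fam

end Vale.Agent.P269
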