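import Vale.Agent.P269.Spl.LocB
import Vale.Agent.P269.Spl.Spec

/-!
# The split strata are locally constructible
-/

set_option linter.unusedSectionVars false

namespace Vale.Agent.P269

open Set Function Topology Filter Holo Base Cv

variable {S Λ Λ₀ R J K ι ν κ ε : Type} [Fintype S] [Fintype Λ] [Fintype Λ₀] [Fintype R] [Fintype J]
  [Fintype K] [Fintype ι] [DecidableEq ι] [Fintype ν] [Fintype κ] [Fintype ε]

namespace Ch

variable {ch : Ch ι J} {F : Fam S Λ R J K} {ℓ : R → ι → ℤ} {i : ι} {b c : J}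

theorem anAt_adm_nodal (hc : ch.Cuts) (hw : ∀ j i, ch.wd j i = ∑ r, F.w j r * ℓ r i)
    (hN : F.Nodal b c) {x : ch.WF ν κ Λ} (hx : x ∈ ch.baseF ν κ F.B) :
    AnAt (ch.baseF ν κ F.B) x (· ∈ ch.adm ν κ F) := by
  refine anAt_adm hc hw (T := {.X b * .X c}) (fun f e =>
    ⟨fun i => ∑ j, (Finsupp.single b 1 + Finsupp.single c 1 : J →₀ ℕ) j * F.w j i, fun α a => ?_⟩)
    (fun l a y => by simp [hN.E l a, evz]) hx
  rw [Finset.mem_singleton.1 e, MvPolynomial.X, MvPolynomial.X, MvPolynomial.monomial_mul] at a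
  obtain rfl := Finset.mem_singleton.1 (MvPolynomial.support_monomial_subset a)
  refine ⟨fun j hj => ?_, fun _ => rfl⟩
  obtain ⟨e, e'⟩ := not_or.1 (mt (dc_mov hN).2 (not_not.2 hj))
  simp [e, e']

theorem locAn_spN (hc : ch.Dg F.toWt ℓ i b c) (hN : F.Nodal b c) (U : Mk ν κ → ℤ) (a : ℤ)
    (d : R → ℤ) (T : Set (Mk ν κ)) :
    LocAn (ch.baseF ν κ F.B) (ch.locP F ℓ (AM.SpN (F.w b) b c U a d T)) := by
  classical
  refine locAn_of fun x hx => ?_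
  have c0 := hc.toDgC.cuts'
  have hw := hc.lat.wd
  have hb : b ∈ F.movᶜ := (dc_mov hN).2 (.inl rfl)
  have hc' : c ∈ F.movᶜ := (dc_mov hN).2 (.inr rfl)
  have hj : ∀ p : Prop, (if p then b else c) ∈ F.movᶜ := fun p => by split_ifs <;> assumption
  have ad := anAt_adm_nodal c0 hw hN hx
  by_cases h0 : x ∈ ch.adm ν κ F
  swap
  · exact ⟨Empty, inferInstance, Empty.elim, Empty.rec _, (ad.ev_not hx h0).mono fun y a hy =>
      iff_of_false (fun e => a hy e.1) fun ⟨e, _⟩ => e.elim⟩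
  have rp : ∀ s ∈ ch.adm ν κ F, ∃ m B π u t, RepD ℓ F.movᶜ s m B π u t := fun s a =>
    let ⟨m, h⟩ := hc.lat.exists_rep_adm a; ⟨m, h.exists_data a.1.2.1⟩
  obtain ⟨m₀, B₀, π₀, u₀, s₀, h⟩ := rp x h0
  obtain ⟨r, y, z₀, y1, y2, y3⟩ := h.exists_spec c0 finite_empty
  have y4 : ∀ V, IsClopen V → V.Nonempty → ∃ k, z₀ k ∈ V := fun V a ⟨z, e⟩ =>
    (y2 z).imp fun k f => a.connectedComponent_subset e f
  have ya : ∀ k, AnalyticAt ℂ (fun s : ch.WF ν κ Λ => y k s.2) x := fun k =>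
    AnalyticAt.comp (g := y k) (f := Prod.snd) (y1 k).1 analyticAt_snd
  have am : ∀ j ∈ F.movᶜ, ∀ N : Mk ν κ → ℕ, AnAt {y ∈ ch.baseF ν κ F.B | y ∈ ch.adm ν κ F} x
      fun s => Mer ch.o (crv s.2) (ch.wd j) s.2.p (fun n => N n) fun c => fld s.2 c j :=
    fun j hj N => (anAt_mer c0 hx.2.1 N).comp analyticAt_snd
      (.of_forall fun s a => ⟨a.1.2.1, a.2.2.1 j hj⟩)
  refine ⟨{Y // m₀.Ty (F.w b) d a U T Y}, (m₀.finite_clopen.subset fun _ t => t.sat.1).to_subtype,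
    fun Y s => (s ∈ ch.adm ν κ F ∧
      Mer ch.o (crv s.2) (ch.wd b) s.2.p (fun n => (U n).toNat) (fun c => fld s.2 c b) ∧
      Mer ch.o (crv s.2) (ch.wd c) s.2.p (fun n => (-U n).toNat) fun y => fld s.2 y c) ∧
      ∏ k, fld s.2 (y k s.2) (if z₀ k ∈ Y.1 then b else c) ≠ 0,
    fun Y => AnAt.lc hx (ad.and' hx fun _ => .and (mem_sep hx h0) (am b hb _) (am c hc' _))
      fun h1 => holOn_prod (mem_sep hx h1) fun k => holOn_fld' (mem_sep hx h1) hx.2.1 (ya k)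
        (y3.mono fun s e hs => ⟨?_, hs.2.1.2.1 _ (hj _)⟩), y3.mono fun s e _ => ?_⟩
  · obtain ⟨m, B, π, u, t, k⟩ := rp s hs.2.1
    obtain ⟨z, z1, -⟩ := e _ m B π u t k
    obtain ⟨t, a, e⟩ := (z1 _).2.2
    exact e ▸ k.cr.par.smul_mem _ a
  by_cases h1 : s ∈ ch.adm ν κ F
  swap
  · exact iff_of_false (fun e => h1 e.1) fun ⟨_, e⟩ => h1 e.1.1
  obtain ⟨m, B, π, u, t, k⟩ := rp s h1
  obtain ⟨z, z1, z2, z3⟩ := e _ m B π u t k
  have nb := hc.nb hN h1 k.rep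
  rw [mem_locP hw (AM.ivtA_spN hb hc' rfl hc.w_c) h1 k.rep, AM.SpN, and_iff_right nb,
    AM.spT_iff nb (fun k => (z1 k).1) fun V a e => let ⟨_, a, f, _, _, g, _⟩ := z2 V a
      (y4 _ a (g e)).imp fun k => (f k).2]
  simp only [k.mer_iff (W := F.toWt) hw hb, k.mer_iff (W := F.toWt) hw hc', hc.w_c, h1, true_and,
    Finset.prod_ne_zero_iff, Finset.mem_univ, true_imp_iff, fun n p => k.fld_ne (hj p) (z1 n).2.2,
    exists_and_left, and_assoc, Subtype.exists]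
  refine and_congr_right fun _ => and_congr_right fun _ => ⟨fun ⟨Y, t, f⟩ => ?_, fun ⟨Y, t, f⟩ => ?_⟩
  · obtain ⟨Y₀, -, a1, a2, a3, -, a4⟩ := z2 Y t.sat.1
    exact ⟨Y₀, k.ty h hc.k_ne (a4 t.sat) (fun o => (a3 o).symm) (fun n => (a2 n).symm) t,
      by simpa only [a1] using f⟩
  · obtain ⟨Y', a0, a5⟩ := z3 Y t.sat
    obtain ⟨Y₀, a, a1, a2, a3, -⟩ := z2 Y' a0.1
    obtain rfl : Y₀ = Y := Set.ext fun w => by
      obtain ⟨n, e⟩ := y2 w
      have q : ∀ V, IsClopen V → (w ∈ V ↔ z₀ n ∈ V) := fun V v =>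
        ⟨fun g => v.connectedComponent_subset g e, fun g => v.connectedComponent_subset g
          (connectedComponent_eq e ▸ mem_connectedComponent)⟩
      rw [q _ a, q _ t.sat.1, ← a1, a5]
    exact ⟨Y', h.ty k hc.k_ne a0 a3 a2 t, by simpa only [a1] using f⟩

end Ch

end Vale.Agent.P269
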