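import Vale.Agent.P269.Spl.StrE
import Vale.Agent.P269.Spl.Spec

/-!
# The split strata are manifolds
-/

set_option linter.unusedSectionVars false

namespace Vale.Agent.P269

open Set Function Topology Filter Holo Base Cv

variable {S Λ R J K ι ν κ : Type} [Fintype S] [Fintype Λ] [Fintype R] [Fintype J]
  [Fintype K] [Fintype ι] [DecidableEq ι] [Fintype ν] [Fintype κ]

namespace Ch

variable {ch : Ch ι J} {F : Fam S Λ R J K} {ℓ : R → ι → ℤ} {i : ι} {b c : J} {U : Mk ν κ → ℤ}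
  {b' : ℕ}

theorem mfd_spN (hc : ch.Dg F.toWt ℓ i b c) (hN : F.Nodal b c) {x : ch.WF ν κ Λ} {a d T}
    (hx : x ∈ ch.locP F ℓ (AM.SpN (F.w b) b c U a d T)) (hB : MfdAt F.B b' x.1) :
    ∃ n : ℕ, (n : ℤ) = ch.dS S F.mov b' U ∧
      MfdAt (ch.locP F ℓ (AM.SpN (F.w b) b c U a d T)) n x := by
  obtain ⟨h1, m, h2, h3, h4, h5⟩ := hx
  refine (mfd_spU hc hN ⟨h1, m, h2, h3, h4⟩ hB).imp fun n h => ⟨h.1, h.2.congr
    ((hc.eventually_sd ((dc_mov hN).2 (.inl rfl)) ((dc_mov hN).2 (.inr rfl)) h1.1.2.1 h2 h3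
      (fun z e => ?_) h5).mono fun s e => ⟨fun ⟨k1, m, k2, k3, k4⟩ =>
        ⟨k1, m, k2, k3, k4, (e k1.1.2.1 m k2 k3).1⟩,
      fun ⟨k1, m, k2, k3, k4, _⟩ => ⟨k1, m, k2, k3, k4⟩⟩)⟩
  have := m.R.neBot z
  obtain ⟨y, k1, k2⟩ := ((AM.ev_um z).and (e.filter_mono nhdsWithin_le_nhds)).exists
  exact (h4.2 y k1).elim (· k2.1) (· k2.2)

end Ch

end Vale.Agent.P269
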