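import Vale.Agent.P269.Spl.Ty2

/-!
# The dimension of the special fibre, the cocycles of the fibres
-/

namespace Vale.Agent.P269

open P291Z

variable {S Λ Λ₀ R J K ι : Type} [Fintype S] [Fintype Λ] [Fintype Λ₀] [Fintype R] [Fintype J]
  [Fintype K] [Fintype ι] [DecidableEq ι] (ν κ : Type) [Fintype ν] [Fintype κ]

/-- The dimension of the orbit space of a fibre of a degeneration in the standard chart. -/
noncomputable def Fam.dO [DecidableEq R] (F : Fam S Λ R J K) (k n₀ D : ℕ) (g : ℤ) (d : R → ℤ) : ℤ :=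
  sdim S R ν κ n₀ g + (F.sch ν κ k D g d).fm F.mov

variable {ν κ}

/-- The cocycle of the fibre over `s`. -/
noncomputable def Ch.θt {ch : Ch ι J} (W : Wt S (Option Λ₀) R J) (Y : Set (ch.WF ν κ (Option Λ₀)))
    (s : ℂ) : Coch (Quo (Ch.actF W) Y) :=
  pull (fun z (_ : Fin 1) => (Quo.out z).1.1 none - s) (tau 1)

/-- The total space near the solutions. -/
abbrev Fam.YT (F : Fam S Λ R J K) {ch : Ch ι J} (O : Set (ch.WF ν κ Λ)) :
    Set (ch.WF ν κ Λ) := F.cutO (ch.cyc κ F 0) O

end Vale.Agent.P269
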