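import Vale.Agent.P269.Spl.TyC
import Vale.Agent.P269.Spl.Ty3
import Vale.Agent.P269.Spl.GB
import Vale.Agent.P269.Spl.Str
import Vale.Agent.P269.Spl.LocAn
import Vale.Agent.P269.Glu.Pcy

/-!
# The closures of the strata are cycles
-/

set_option linter.unusedSectionVars false

namespace Vale.Agent.P269

open P291Z Set Function Topology Filter Module

variable {S Λ Λ₀ R J K ι ν κ α : Type} [Fintype S] [Fintype Λ] [Fintype Λ₀] [Fintype R] [Fintype J]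
  [Fintype K] [Fintype ι] [DecidableEq ι] [Fintype ν] [Fintype κ]

namespace Fam

variable [DecidableEq R] {k D : ℕ} {g : ℤ} {d : R → ℤ} {n₀ : ℕ}

open Classical in
theorem dS_sch (F : Fam S Λ R J K) (A : Set J) (U : Ch.Mk ν κ → ℤ) {m : ℕ}
    (h : (Finset.univ.filter fun q => U (.inr (q, false)) = 0 ∧ U (.inr (q, true)) = 0).card = m) :
    (F.sch ν κ k D g d).dS S A n₀ U = sdim S R ν κ n₀ g + Fintype.card κ - m +
      finrank ℂ ((F.sch ν κ k D g d).AF ν κ S) + (F.sch ν κ k D g d).fm A := by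
  have e : (F.sch ν κ k D g d).g = g := rfl
  rw [Ch.dS, h, Ch.qd, e, sdim]
  simp only [Fintype.card_sum, Fintype.card_prod, Fintype.card_bool, Fintype.card_option]
  push_cast
  ring

theorem dS_zero (F : Fam S Λ R J K) : (F.sch ν κ k D g d).dS S F.mov n₀ (0 : Ch.Mk ν κ → ℤ) =
    finrank ℂ ((F.sch ν κ k D g d).AF ν κ S) + F.dO ν κ k n₀ D g d := by
  rw [dS_sch F _ _ (m := Fintype.card κ) (by simp), dO]
  ring

theorem dS_cut (F : Fam S Λ R J K) {r : ℕ} {u : Fin r → ℕ} (hu : ∀ e, u e ≠ 0) :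
    (F.sch ν (κ ⊕ Fin r) k D (g - r) d).dS S F.mov n₀ (extU (0 : Ch.Mk ν κ → ℤ) u) =
      sdim S R ν κ n₀ g + finrank ℂ ((F.sch ν (κ ⊕ Fin r) k D (g - r) d).AF ν (κ ⊕ Fin r) S) +
        (F.sch ν (κ ⊕ Fin r) k D (g - r) d).fm F.mov := by
  rw [dS_sch F _ _ (m := Fintype.card κ)]
  · simp only [sdim, Fintype.card_sum, Fintype.card_fin]
    push_cast
    ring
  · refine (congrArg _ (Finset.ext ?_)).trans (Finset.card_map (s := Finset.univ) Embedding.inl)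
    rintro (q | e) <;> rw [@Finset.mem_filter _ _ (_)] <;> simp [extU, hu]

/-- gluing does not change the dimension of the stack -/
theorem dimLt_ctZ {F : Fam S Λ R J K} {r N : ℕ} {P : AM Λ R J ν (κ ⊕ Fin r) → Prop} {z : ℤ}
    (hF : F.Inv) (hk : 2 ≤ k) (hD : F.BigD k D) (hP : AM.IvtA F.toWt F.movᶜ P)
    (hN : z + finrank ℂ ((F.sch ν κ k D g d).AF ν κ S) + (F.sch ν κ k D g d).fm F.mov ≤ N)
    (h : ∀ N' : ℕ, z + finrank ℂ ((F.sch ν (κ ⊕ Fin r) k D (g - r) d).AF ν (κ ⊕ Fin r) S) +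
      (F.sch ν (κ ⊕ Fin r) k D (g - r) d).fm F.mov ≤ N' →
      DimLt N' ((F.sch ν (κ ⊕ Fin r) k D (g - r) d).locP F ℓs P)) :
    DimLt N ((F.sch ν κ k D g d).locP F ℓs (AM.Ct fun m => P m ∧ m.Pos F.θ k)) := by
  have hg : g - r + Fintype.card (Fin r) = g := by simp
  obtain a | a := le_total 0 (z + finrank ℂ ((F.sch ν (κ ⊕ Fin r) k D (g - r) d).AF ν
    (κ ⊕ Fin r) S) + (F.sch ν (κ ⊕ Fin r) k D (g - r) d).fm F.mov)
  · obtain ⟨N', e⟩ := Int.eq_ofNat_of_zero_le a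
    exact dimLt_ct hF hk hD hg (fun m m' i p => ⟨hP m m' i p.1, AM.ivtA_pos m m' i p.2⟩)
      (fun _ p => p.2) (by omega) ((h N' e.le).mono fun x ⟨a, m, r, p⟩ => ⟨a, m, r, p.1⟩)
  · refine (dimLt_empty N).mono fun x ⟨hx, m, r, v, hn, p⟩ => ?_
    obtain ⟨B, π, u, s, r⟩ := r.exists_data hx.1.2.1
    obtain ⟨w, b, -⟩ := exists_Zf hF hD hg hx r hn p.1 ((AM.pos_cut hn).1 p.2)
    exact (dimLt_zero.1 (h 0 a)).le b.1.2.1

variable {F : Fam S (Option Λ₀) R J K} {i : R} {b c : J} {B₀ : Set (Λ₀ → ℂ)} {Ω : Set ℂ}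
  {K₀ : Set K} {τ : STy R (ν ⊕ κ)}

namespace DgS

variable (h : F.DgS i b c B₀ Ω k K₀ n₀)
include h

theorem inv0 : (F.sp0 B₀).Inv := (h.good0 (empty_subset _)).toInv

theorem mfd_base0 (hD : F.BigD k D) : ∀ x ∈ (F.sch ν κ k D g d).baseF ν κ (slab B₀ 0),
    ∃ n, Holo.MfdAt ((F.sch ν κ k D g d).baseF ν κ (slab B₀ 0)) n x := fun _ a =>
  ((num₀ h.two_le hD _ _ _).mfd_baseF (h.sm0 0 ∅) a).imp fun _ e => e.2

theorem mfd_spN (hD : F.BigD k D) {U : Ch.Mk ν κ → ℤ} {a d' T x}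
    (hx : x ∈ (F.sch ν κ k D g d).locP (F.sp0 B₀) ℓs (AM.SpN (F.w b) b c U a d' T)) :
    ∃ n : ℕ, (n : ℤ) = (F.sch ν κ k D g d).dS S F.mov n₀ U ∧ Holo.MfdAt
      ((F.sch ν κ k D g d).locP (F.sp0 B₀) ℓs (AM.SpN (F.w b) b c U a d' T)) n x :=
  Ch.mfd_spN (F := F.sp0 B₀) (h.dg hD) h.dgn.nodal hx ⟨hx.1.1.1, h.sm0 0 ∅ ⟨_, hx.1.1.1⟩⟩

theorem cy_spN {U : Ch.Mk ν κ → ℤ} {a d' T} {n : ℤ} (e : ∀ D, (F.sch ν κ k D g d).dS S F.mov n₀ U =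
    n + finrank ℂ ((F.sch ν κ k D g d).AF ν κ S) + (F.sch ν κ k D g d).fm F.mov) :
    (F.sp0 B₀).Cy k g d (AM.SpN (F.w b) b c U a d' T) n :=
  ⟨AM.ivtA_spN h.mem_b h.mem_c rfl h.wc, (F.eventually_bigD k).mono fun D hD =>
    ⟨univ, ((F.sch ν κ k D g d).dS S F.mov n₀ U).toNat, isOpen_univ, fun _ _ _ _ => trivial,
      fun _ _ _ _ => trivial, subset_univ _, (pcy_clo (h.mfd_base0 hD) (fun _ a => a.1.1)
        (fun _ hx => let ⟨_, a, m⟩ := h.mfd_spN hD hx; a ▸ m)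
        (Ch.locAn_spN (F := F.sp0 B₀) (h.dg hD) h.dgn.nodal U a d' T)).inter isOpen_univ,
      fun ⟨_, hx, _⟩ => let ⟨_, a, _⟩ := h.mfd_spN hD hx
        (Int.toNat_of_nonneg (a ▸ Int.natCast_nonneg _)).trans (e D)⟩⟩

theorem cy_Q : (F.sp0 B₀).Cy k (g - τ.r) d (τ.Q (F.w b) b c) (sdim S R ν κ n₀ g) :=
  h.cy_spN fun _ => F.dS_cut τ.u_ne

theorem cy_P : (F.sp0 B₀).Cy k (g - τ.r) d (τ.P (F.w b) b c)
    (sdim S R ν κ n₀ g - τ.r * Fintype.card R) := by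
  refine h.cy_spN fun _ => ?_
  rw [dS_sch F _ _ (m := Fintype.card κ) (by
    rw [Finset.filter_true_of_mem fun _ _ => ⟨rfl, rfl⟩, Finset.card_univ])]
  simp only [sdim, Fintype.card_sum, Fintype.card_prod, Fintype.card_fin, Fintype.card_bool]
  push_cast
  ring

theorem mfd_stT (hD : F.BigD k D) {x} (hx : x ∈ F.stT (k := k) b c B₀ D g d τ)
    (hp : x ∈ F.posO ν κ k D g d) : ∃ N : ℕ,
      (N : ℤ) = finrank ℂ ((F.sch ν κ k D g d).AF ν κ S) + F.dO ν κ k n₀ D g d ∧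
      Holo.MfdAt (F.stT (k := k) b c B₀ D g d τ) N x := by
  obtain ⟨hx, m, r, v, hn, p⟩ := hx
  have pos := pos_of_posO hp hx.1.2.1 r
  have hg : g - τ.r + Fintype.card (Fin τ.r) = g := by simp
  have e₀ := F.dS_cut (ν := ν) (κ := κ) (k := k) (D := D) (g := g) (d := d) (n₀ := n₀) τ.u_ne
  have nn : 0 ≤ finrank ℂ ((F.sch ν κ k D g d).AF ν κ S) + F.dO ν κ k n₀ D g d := by
    by_contra a
    refine (dimLt_zero.1 (dimLt_ctZ (F := F.sp0 B₀) (z := sdim S R ν κ n₀ g + 1) h.inv0 h.two_le hD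
      h.ivtQ ?_ fun N' e => DimLt.of_locally fun y hy => ?_)).le
        ⟨hx, m, r, v, hn, p, (AM.pos_cut hn).2 pos⟩
    · change _ + (finrank ℂ ((F.sch ν κ k D g d).AF ν κ S) : ℤ) + (F.sch ν κ k D g d).fm F.mov ≤ _
      rw [dO] at a
      omega
    · obtain ⟨n, e', a⟩ := h.mfd_spN hD hy
      obtain ⟨V, hV, a⟩ := a.dimLt
      refine ⟨V, hV, a.le ?_⟩
      rw [e₀] at e'
      change _ + (finrank ℂ ((F.sch ν _ k D (g - τ.r) d).AF ν _ S) : ℤ) +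
        (F.sch ν _ k D (g - τ.r) d).fm F.mov ≤ _ at e
      omega
  obtain ⟨N, e⟩ := Int.eq_ofNat_of_zero_le nn
  obtain ⟨B, π, u, s, r⟩ := r.exists_data hx.1.2.1
  obtain ⟨w, z, -⟩ := exists_Zf (F := F.sp0 B₀) h.inv0 hD hg hx r hn p pos
  obtain ⟨N', e', -⟩ := h.mfd_spN hD z.1.2.1
  obtain ⟨h₀, n, Ψ, κ', σ', σ, α, α', l, -, ax, -, ev⟩ := (h.dg hD).exists_lm h.dgn τ.u_ne hx r p
  refine ⟨N, e.symm, mfd_ct (F := F.sp0 B₀) (N' := N') h.inv0 h.two_le hD hg h.ivtQ hx h₀ r hn p pos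
    l.vs.ch₀ (fun e => ⟨analyticAt_pi_iff.1 (analyticAt_snd.comp l.vs.ank) e,
      congrArg (·.2 e) l.vs.k0⟩) ax (ev.mono fun y a hy => ?_)
    (fun y hy => ?_) ?_⟩
  · obtain ⟨a1, a2⟩ := a hy.1 fun _ => (h.dg hD).isNode_of_ct h.dgn τ.u_ne
      (let ⟨a, m, r, v, hn, p⟩ := hy; ⟨a, m, r, v, hn, p.1, p.2.1⟩)
    exact ⟨congrFun a1, fun m B π u s n hn r => (a2 m B π u s r).2 n hn⟩
  · obtain ⟨n, a, f⟩ := h.mfd_spN hD hy
    rwa [Int.natCast_inj.1 (a.trans e'.symm)] at f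
  · rw [e₀] at e'
    rw [dO] at e
    change _ - (finrank ℂ ((F.sch ν _ k D (g - τ.r) d).AF ν _ S) : ℤ) -
      (F.sch ν _ k D (g - τ.r) d).fm F.mov = _ - (finrank ℂ ((F.sch ν κ k D g d).AF ν κ S) : ℤ) -
        (F.sch ν κ k D g d).fm F.mov
    omega

/-- the maps with ghost components form a small set -/
theorem dimLt_rest (hD : F.BigD k D) {N : ℕ}
    (hN : finrank ℂ ((F.sch ν κ k D g d).AF ν κ S) + F.dO ν κ k n₀ D g d ≤ N) :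
    DimLt N ((Ch.cyc _ κ F 0 ∩ Ch.tAt 0 ∩ F.posO ν κ k D g d) \
      ⋃ τ : STy R (ν ⊕ κ), F.stT (k := k) b c B₀ D g d τ) := by
  refine (DimLt.iUnion fun s : ℕ => DimLt.iUnion fun u : Fin s → ℕ => DimLt.iUnion
    fun hu : ∀ e, u e ≠ 0 => dimLt_ctZ (F := F.sp0 B₀) (z := sdim S R ν κ n₀ g) (N := N) (g := g)
      (d := d) h.inv0 h.two_le hD (AM.ivtA_gh (U := extU 0 u) h.mem_b h.mem_c rfl h.wc) ?_
      fun N' e => Ch.dimLt_gh (F := F.sp0 B₀) (h.dg hD) h.dgn.nodal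
        (fun l a => ⟨a, h.sm0 0 ∅ ⟨l, a⟩⟩) ((F.dS_cut hu).trans_le e)).mono
    fun x ⟨⟨⟨a1, a2⟩, a3⟩, a4⟩ => ?_
  · rw [dO] at hN
    change _ + (finrank ℂ ((F.sch ν κ k D g d).AF ν κ S) : ℤ) + (F.sch ν κ k D g d).fm F.mov ≤ _
    omega
  · have a := (h.dg hD).cyc_adm h.dgn a1
    have a' := Ch.lf_adm h.dgn a a2
    obtain ⟨m, r⟩ := (chart_lat hD).exists_rep_adm a
    obtain ⟨s, u, n, hn, hu, p | p⟩ := (h.dg hD).cyc_type h.dgn a1 a2 r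
    · obtain ⟨τ, p⟩ := STy.exists_C hu hn p
      exact (a4 (mem_iUnion.2 ⟨τ, a', m, r, p⟩)).elim
    · exact mem_iUnion.2 ⟨s, mem_iUnion.2 ⟨u, mem_iUnion.2 ⟨hu, a', m, r, n, hn, p,
        (AM.pos_cut hn).2 (pos_of_posO a3 a.1.2.1 r)⟩⟩⟩

theorem pcy_C' (hD : F.BigD k D) : PCy (F.clT (k := k) b c B₀ D g d τ ∩ F.posO ν κ k D g d)
    (F.stT (k := k) b c B₀ D g d τ ∩ F.posO ν κ k D g d)
    (finrank ℂ ((F.sch ν κ k D g d).AF ν κ S) + F.dO ν κ k n₀ D g d).toNat := by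
  refine ⟨fun x hx => ?_, (isClosed_closure.isLocallyClosed.inter (isLocallyClosed_of_mfd
    fun x => (h.mfd_base0 (g := g) (d := d) hD x.1 x.2).imp fun _ a => a.2)).inter isOpen_posO.isLocallyClosed,
    fun x hx => ⟨⟨subset_closure hx.1, hx.1.1.1⟩, hx.2⟩, ⟨interior {x | x ∈ Ch.cyc _ κ F 0 ∩
      Ch.tAt 0 → x ∈ F.stT (k := k) b c B₀ D g d τ}, isOpen_interior, Subset.antisymm
      (fun x hx => ⟨⟨⟨subset_closure hx.1, hx.1.1.1⟩, hx.2⟩, mem_interior_iff_mem_nhds.2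
        (mem_nhdsWithin_iff_eventually.1 (h.stT_nhds hD hx.1))⟩)
      fun x hx => ⟨interior_subset hx.2 (h.clT_sub hD hx.1.1), hx.1.2⟩⟩,
    (h.dimLt_rest hD (Int.self_le_toNat _)).mono fun x ⟨a, e⟩ => ⟨⟨h.clT_sub hD a.1, a.2⟩,
      fun f => ?_⟩, fun x hx => isOpen_posO.closure_inter ⟨hx.1.1, hx.2⟩⟩
  · obtain ⟨N, e, m⟩ := h.mfd_stT hD hx.1 hx.2
    rw [← e]
    exact m.congr (mem_of_superset (isOpen_posO.mem_nhds hx.2) fun _ a => (and_iff_left a).symm)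
  · obtain ⟨τ', f⟩ := mem_iUnion.1 f
    obtain ⟨y, a1, a2⟩ := ((mem_closure_iff_frequently.1 a.1.1).and_eventually
      (mem_nhdsWithin_iff_eventually.1 (h.stT_nhds hD f))).exists
    exact e ⟨(h.stT_pm hD f).2 ((h.stT_pm hD (a2 (h.stT_sub hD a1))).1 a1), a.2⟩

theorem pcy_C (hD : F.BigD k D) {N : ℕ}
    (hN : (N : ℤ) = finrank ℂ ((F.sch ν κ k D g d).AF ν κ S) + F.dO ν κ k n₀ D g d) :
    PCy (F.clT (k := k) b c B₀ D g d τ ∩ F.posO ν κ k D g d)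
      (F.stT (k := k) b c B₀ D g d τ ∩ F.posO ν κ k D g d) N := by
  have := h.pcy_C' (g := g) (d := d) (τ := τ) hD
  rwa [← hN] at this

theorem cy_C : (F.sp0 B₀).Cy k g d (τ.C (F.w b) b c) (sdim S R ν κ n₀ g) :=
  ⟨h.ivtC, (F.eventually_bigD k).mono fun D hD => ⟨F.posO ν κ k D g d, _, isOpen_posO, ivt_posO hD,
    stb_posO hD _, inter_subset_left.trans (sol_posO (F := F.sp0 B₀) h.inv0 h.sg.big hD),
    h.pcy_C' hD, fun ⟨_, a, e⟩ => let ⟨_, f, _⟩ := h.mfd_stT hD a e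
      (Int.toNat_of_nonneg (f ▸ Int.natCast_nonneg _)).trans ((add_left_comm _ _ _).trans (add_assoc _ _ _).symm)⟩⟩

end DgS

end Fam

end Vale.Agent.P269
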