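import Vale.Agent.P269.Spl.CyA

/-!
# The base cycles of a degeneration
-/

set_option linter.unusedSectionVars false

namespace Vale.Agent.P269

open P291Z Set Function Topology Filter Module

/-- unions of open strata -/
theorem Tpc.of_iUnion {A W α : Type} [NormedRing A] [NormedAlgebra ℂ A] [NormedAddCommGroup W]
    [NormedSpace ℂ W] [FiniteDimensional ℂ A] [FiniteDimensional ℂ W] {act : A → W → W} {Z : Set W}
    {M : α → Set W} {d : ℕ} (h : ∀ a, Str act (M a) d) (hl : IsLocallyClosed Z)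
    (hs : ∀ a, M a ⊆ Z) (hn : ∀ a, ∀ x ∈ M a, M a ∈ 𝓝[Z] x)
    (hd : DimLt (finrank ℂ A + d) (Z \ ⋃ a, M a)) : Tpc act Z (⋃ a, M a) d := by
  refine ⟨⟨fun s k x e => ?_, fun ⟨x, e⟩ => ?_, iUnion_subset fun a => (h a).free.trans
    (closure_mono fun _ e => ⟨mem_iUnion_of_mem a e.1, e.2⟩)⟩, hl, iUnion_subset hs,
    ⟨interior {x | x ∈ Z → x ∈ ⋃ a, M a}, isOpen_interior, Subset.antisymm (iUnion_subset
      fun a x e => ⟨hs a e, mem_interior_iff_mem_nhds.2 ?_⟩) fun x e => interior_subset e.2 e.1⟩, hd⟩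
  · exact (mem_iUnion.1 e).elim fun a e => mem_iUnion_of_mem a ((h a).inv s k x e)
  · obtain ⟨a, k⟩ := mem_iUnion.1 e
    exact (isMfd_of_nhdsWithin k (subset_iUnion M a)
      (nhdsWithin_mono _ (iUnion_subset hs) (hn a x k))).1 ((h a).mfd ⟨x, k⟩)
  · exact (mem_nhdsWithin_iff_eventually.1 (hn a x e)).mono fun y k k' => mem_iUnion_of_mem a (k k')

variable {S Λ Λ₀ R J K ι ν κ α : Type} [Fintype S] [Fintype Λ] [Fintype Λ₀] [Fintype R] [Fintype J]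
  [Fintype K] [Fintype ι] [DecidableEq ι] [Fintype ν] [Fintype κ]

namespace Fam.DgO

variable [DecidableEq R] {k D : ℕ} {g : ℤ} {d : R → ℤ} {n₀ n : ℕ} {F : Fam S (Option Λ₀) R J K}
  {i : R} {b c : J} {B₀ : Set (Λ₀ → ℂ)} {Ω : Set ℂ} {K₀ : Set K} {t : ℂ}
  {O : Set ((F.sch ν κ k D g d).WF ν κ (Option Λ₀))} (h : F.DgO i b c B₀ Ω k K₀ n₀ O)
include h

theorem dom : Ch.Dom F (F.tdeg (F.sch ν κ k D g d)) (Ch.cyc _ κ F 0) (F.YT O) :=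
  h.ok.dom_clo (Ch.lev_main h.toInv 0)

theorem gz : Ch.GZ F ℓs (F.Zs κ k D g d (0 : ν → J → ℕ)) :=
  h.ok.gz_lev (Ch.lev_cyc h.toInv h.ok.cuts 0)
    (isClosed_closure.isLocallyClosed.inter h.ok.lc_baseF)

theorem isCompact_dia : IsCompact (Ch.dia F.toWt (F.Zs κ k D g d (0 : ν → J → ℕ)) ∩
    Quo.part _ _ (Ch.tAt 0)) :=
  mem_of_eq_of_mem (s := {s | IsCompact s}) (Set.ext fun z => and_congr_right fun _ =>
    ⟨fun e => ⟨(h.dgn.B.le (Quo.out z).2.1.1.1).1, e⟩, fun e => e.2⟩)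
    (h.toGood.isCompact_lev h.big h.bd (Ch.lev_cyc h.toInv h.ok.cuts 0)
      (fun _ a => ⟨closure_minimal inter_subset_left isClosed_closure a.1, a.2⟩) h.slab_sub
      (h.good0 (empty_subset _)).invB h.cp)

theorem cut_sub (τ : STy R (ν ⊕ κ)) :
    F.cutO (F.clT (k := k) b c B₀ D g d τ) O ⊆ F.YT O ∩ Ch.tAt 0 := fun _ a =>
  have e := h.clT_sub h.bd a.1.1
  ⟨⟨⟨e.1, a.1.2⟩, a.2⟩, e.2⟩

theorem cut_clo (τ : STy R (ν ⊕ κ)) :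
    Clo (F.cutO (F.clT (k := k) b c B₀ D g d τ) O) (F.YT O ∩ Ch.tAt 0) :=
  ⟨_, isClosed_closure, Subset.antisymm (fun _ a => ⟨h.cut_sub τ a, a.1.1.1⟩) fun _ a =>
    ⟨⟨(h.clT_eq h.bd).ge ⟨a.1.1.1.1, a.2⟩, a.1.1.1.2⟩, a.1.1.2⟩⟩

theorem isAct0 : Holo.IsAct (Ch.actF F.toWt) (F.YT O ∩ Ch.tAt 0) :=
  Ch.isActF_of fun s e x a => ⟨h.dom.isAct.mem s e x a.1, h.ivt_tAt h.bd s e x a.2⟩

theorem lev_stT (τ : STy R (ν ⊕ κ)) : Ch.Lev (F.sp0 B₀) (F.stT (k := k) b c B₀ D g d τ) :=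
  Ch.lev_locP h.ok0.inv h.ivtC

theorem lev_clT (τ : STy R (ν ⊕ κ)) : Ch.Lev (F.sp0 B₀) (F.clT (k := k) b c B₀ D g d τ) :=
  Ch.lev_clP h.ok0.inv h.ok0.cuts h.ivtC

/-- in negative dimension the special fibre is empty -/
theorem empty0 (hn : F.dO ν κ k n₀ D g d < 0) : F.YT O ∩ Ch.tAt 0 = ∅ := by
  have := h.isAct0
  refine image_eq_empty.1 (dimLt_zero.1 (DimLt.image_inv (f := fun _ => (0 : ℂ))
    ((h.dimLt_rest h.bd (by omega)).mono fun x a => ⟨⟨⟨a.1.1.1, a.2⟩, h.pos a.1.1.2⟩, fun e => ?_⟩)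
    Subset.rfl this.mem (fun x _ => (h.ok.pr.prp.mono fun _ a => ⟨a.1.1.1.2, a.1.1.2⟩).finite x)
    (fun _ _ => contDiffAt_const) fun _ _ _ _ => rfl))
  obtain ⟨τ, e⟩ := mem_iUnion.1 e
  obtain ⟨N, p, q⟩ := h.mfd_stT h.bd e (h.pos a.1.1.2)
  have := h.ok0.pr.finrank_le (h.lev_stT τ) q a.1.1.2
  omega

theorem main_fib (ht : t ∈ Ω) (h0 : t ≠ 0) :
    (F.sch ν κ k D g d).main κ (F.sub (slab B₀ t) ∅) (0 : ν → J → ℕ) =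
      Ch.cyc _ κ F 0 ∩ Ch.tAt t :=
  (Ch.main_sub (h.dgn.slab_sub ht) h.dgn.zer 0).trans (Set.ext fun _ =>
    ⟨fun a => ⟨⟨subset_closure a.1, a.1.1.1⟩, a.2.2⟩, fun a => ⟨(h.dg h.bd).mem_main h.dgn
      ((h.dg h.bd).cyc_adm h.dgn a.1) (a.2.trans_ne h0), (h.dgn.B.le a.1.2.1).1, a.2⟩⟩)

theorem cyc_fib (ht : t ∈ Ω) (h0 : t ≠ 0) :
    (F.sch ν κ k D g d).cyc κ (F.sub (slab B₀ t) ∅) (0 : ν → J → ℕ) =
      Ch.cyc _ κ F 0 ∩ Ch.tAt t :=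
  Subset.antisymm (fun _ a => ⟨⟨closure_minimal (fun _ e => ((h.main_fib ht h0).le e).1.1)
    isClosed_closure a.1, h.dgn.slab_sub ht a.2.1, a.2.2⟩, a.2.1.2⟩) fun _ a =>
    have e := (h.main_fib ht h0).ge a
    ⟨subset_closure e, e.1.1⟩

theorem okF (ht : t ∈ Ω) (hw : F.wl none = 0) : (F.sch ν κ k D g d).Ok (F.sub (slab B₀ t) ∅)
    (F.tdeg (F.sch ν κ k D g d)) K₀ ℓs n₀ O :=
  h.ok.subF (h.dgn.slab_sub ht) (h.dgn.zer_sub _)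
    (h.dgn.good h.toGood ht (.inr hw) (empty_subset _)).toInv (h.sm0 t ∅)

theorem mfd_fib (h0 : t ≠ 0) {x}
    (hx : x ∈ (F.sch ν κ k D g d).main κ (F.sub (slab B₀ t) ∅) (0 : ν → J → ℕ)) : ∃ N : ℕ,
    (N : ℤ) = finrank ℂ ((F.sch ν κ k D g d).AF ν κ S) + F.dO ν κ k n₀ D g d ∧
      Holo.MfdAt ((F.sch ν κ k D g d).main κ (F.sub (slab B₀ t) ∅) 0) N x :=
  (Ch.mfd_fib (h.dg h.bd) h.dgn h0 hx ⟨hx.1.1.1.1, h.sm _⟩).imp fun _ a =>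
    ⟨a.1.trans F.dS_zero, a.2⟩

theorem emptyF (ht : t ∈ Ω) (h0 : t ≠ 0) (hw : F.wl none = 0) (hn : F.dO ν κ k n₀ D g d < 0) :
    F.YT O ∩ Ch.tAt t = ∅ := eq_empty_of_forall_notMem fun x a => by
  obtain ⟨N, p, q⟩ := h.mfd_fib h0 ((h.main_fib ht h0).ge ⟨a.1.1.1, a.2⟩)
  have := (h.okF ht hw).pr.finrank_le (Ch.lev_main (h.okF ht hw).inv 0) q a.1.1.2
  omega

theorem cut_eq (ht : t ∈ Ω) {T : Set ((F.sch ν κ k D g d).WF ν κ (Option Λ₀))}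
    (hT : T ⊆ Ch.cyc _ κ F 0 ∩ Ch.tAt t) :
    T ∩ O ∩ Ch.dom ν κ _ (F.sub (slab B₀ t) ∅) (F.tdeg (F.sch ν κ k D g d)) = F.cutO T O := by
  rw [Ch.dom_sub (h.dgn.slab_sub ht) h.dgn.zer, ← inter_assoc]
  exact inter_eq_left.2 fun _ a => ⟨(h.dgn.B.le (hT a.1.1).1.2.1).1, (hT a.1.1).2⟩

variable (hn : (n : ℤ) = F.dO ν κ k n₀ D g d)
include hn

theorem vd : Ch.Vd F (F.tdeg (F.sch ν κ k D g d)) (Ch.cyc _ κ F 0) (F.YT O)
    (F.cutO (Ch.main _ κ F 0) O) (n + 1) := by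
  have := h.ok.vd_clo (N := finrank ℂ ((F.sch ν κ k D g d).AF ν κ S) + (n + 1))
    (Ch.lev_main h.toInv 0) (fun x a => ?_) (Ch.locAn_main h.ok.cuts h.ok.wt h.dgn.polE 0)
  · rwa [Nat.add_sub_cancel_left] at this
  obtain ⟨N, p, q⟩ := Ch.mfd_tot (h.dg h.bd) h.dgn a ⟨(h.dgn.B.le a.1.1.1).1, h.sm _⟩
  rw [F.dS_zero] at p
  rwa [show _ + (n + 1) = N by omega]

theorem vdT (τ : STy R (ν ⊕ κ)) : Ch.Vd (F.sp0 B₀) (F.tdeg (F.sch ν κ k D g d))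
    (F.clT (k := k) b c B₀ D g d τ) (F.cutO (F.clT (k := k) b c B₀ D g d τ) O)
    (F.cutO (F.stT (k := k) b c B₀ D g d τ) O) n := by
  have p := h.ok0.pr
  have a := h.lev_clT τ
  have e := (h.pcy_C (τ := τ) (N := finrank ℂ ((F.sch ν κ k D g d).AF ν κ S) + n) h.bd
    (by omega)).inter p.opn
  rw [inter_assoc, inter_assoc, inter_eq_right.2 h.pos] at e
  rw [← h.cut_eq h.dgn.zero (h.clT_sub h.bd), ← h.cut_eq h.dgn.zero (h.stT_sub h.bd)]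
  exact h.ok0.toStd.vd a.adm a.inv p.opn (p.ivt a) (fun _ b => p.sol b.1) (p.prp_lev a)
    (e.cyc (p.ivt (h.lev_stT τ)) (p.free (h.lev_stT τ)))

theorem tpc : Tpc (Ch.actF F.toWt) (F.YT O ∩ Ch.tAt 0)
    (F.cutO (⋃ τ : STy R (ν ⊕ κ), F.stT (k := k) b c B₀ D g d τ) O) n := by
  rw [cutO, iUnion_inter, iUnion_inter]
  refine .of_iUnion (fun τ => (h.vdT hn τ).cyc.toStr) ((h.vd hn).cyc.lc.inter (isClosed_eq
    ((continuous_apply none).comp continuous_fst) continuous_const).isLocallyClosed)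
    (fun τ => (h.vdT hn τ).cyc.sub.trans (h.cut_sub τ)) (fun τ x a => ?_)
    ((h.dimLt_rest h.bd (by omega)).mono fun x a => ⟨⟨⟨a.1.1.1.1, a.1.2⟩, h.pos a.1.1.1.2⟩,
      fun e => a.2 ((mem_iUnion.1 e).elim fun τ e =>
        mem_iUnion_of_mem τ ⟨⟨e, a.1.1.1.2⟩, a.1.1.2⟩)⟩)
  exact mem_nhdsWithin_iff_eventually.2 ((mem_nhdsWithin_iff_eventually.1
    (h.stT_nhds h.bd a.1.1)).mono fun y e f => ⟨⟨e ⟨f.1.1.1, f.2⟩, f.1.1.2⟩, f.1.2⟩)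

theorem vdF (ht : t ∈ Ω) (h0 : t ≠ 0) (hw : F.wl none = 0) :
    Ch.Vd (F.sub (slab B₀ t) ∅) (F.tdeg (F.sch ν κ k D g d))
      (Ch.cyc _ κ (F.sub (slab B₀ t) ∅) 0) (F.YT O ∩ Ch.tAt t) (F.YT O ∩ Ch.tAt t) n := by
  have o := h.okF ht hw
  have := o.vd_clo (N := finrank ℂ ((F.sch ν κ k D g d).AF ν κ S) + n)
    (Ch.lev_main o.inv 0) (fun x a => ?_) (Ch.locAn_main o.cuts o.wt (h.dgn.polE.sub _ _) 0)
  · have e : F.cutO (Ch.cyc _ κ F 0 ∩ Ch.tAt t) O = F.YT O ∩ Ch.tAt t := by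
      rw [cutO, inter_right_comm _ _ O, inter_right_comm]
    rw [Nat.add_sub_cancel_left, ← Ch.cyc, h.cut_eq ht (h.main_fib ht h0).le,
      h.cut_eq ht (h.cyc_fib ht h0).le, h.main_fib ht h0, h.cyc_fib ht h0, e] at this
    rwa [h.cyc_fib ht h0]
  obtain ⟨N, p, q⟩ := h.mfd_fib h0 a
  rwa [show _ + n = N by omega]

end Fam.DgO

end Vale.Agent.P269
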