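import Vale.Agent.P269.Spl.Defs
import Vale.Agent.P269.Orb.TZ

set_option linter.all false

/-!
# The multiplicity of a divisor is the number of nearby points
-/

namespace Vale.Agent.P269

open P291Z Set Function Topology Filter Holo Module Orb unitInterval

variable {X Z : Type} [TopologicalSpace X] [TopologicalSpace Z] [Nice X] [Nice Z] {n : ℕ}

omit [Nice X] in
theorem LocDiv.of_cohom {θ θ' c : Coch X} {s : X → ℂ} {x : X} (h : LocDiv θ s x)
    (e : θ' - θ - δ c ∈ Van x) (hc : ∀ᶠ y in 𝓝 x, y ∈ supp c → s y = 0) : LocDiv θ' s x := by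
  obtain ⟨b, hb⟩ := h
  refine ⟨c + b, ((hb.and hc).and (eventually_van e)).mono fun y hy =>
    ⟨?_, fun h => (supp_add _ _ h).elim hy.1.2 hy.1.1.2⟩⟩
  have := (Van y).add_mem hy.2 hy.1.1.1
  rw [map_add]
  convert this using 1
  abel

/-- a family of cocycles of local coefficient one, pulled back along a section -/
theorem locDiv_family {E : Type} [TopologicalSpace E] {Ξ : X × (Fin 1 → ℂ) → E} {t : Coch E}
    (hd : IsDeg 2 t) {s : X → ℂ} {x : X} (h : ∀ᶠ y in 𝓝 x, ContinuousAt s y ∧ ∀ v,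
      ContinuousAt Ξ (y, v) ∧ δ t ∈ Van (Ξ (y, v)) ∧ (v ≠ 0 → t ∈ Van (Ξ (y, v))))
    (h1 : LocCo (P291Z.pull (fun v => Ξ (x, v)) t) 1) :
    LocDiv (P291Z.pull (fun y => Ξ (y, fun _ => s y)) t) s x := by
  obtain ⟨B, h2, h3, h4⟩ := eventually_nhds_iff.1 h
  haveI : Nice B := Nice.of_isLocallyClosed h3.isLocallyClosed
  haveI : Nonempty B := ⟨⟨x, h4⟩⟩
  have hj := h3.isOpenEmbedding_subtypeVal
  have h5 : Continuous fun w : B × (Fin 1 → ℂ) => Ξ (w.1, w.2) := continuous_iff_continuousAt.2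
    fun w => ContinuousAt.comp (g := Ξ) ((h2 _ w.1.2).2 _).1 (by fun_prop)
  have h6 : Continuous fun y : B => (y, fun _ : Fin 1 => s y) :=
    continuous_id.prodMk (continuous_pi fun _ => continuous_iff_continuousAt.2 fun y =>
      ContinuousAt.comp (g := s) (h2 _ y.2).1 hj.continuous.continuousAt)
  obtain ⟨c, h7, h8⟩ := exists_cohom_snd (k := 1)
    (t := P291Z.pull (fun w : B × (Fin 1 → ℂ) => Ξ (w.1, w.2)) t) (supp_eq_empty.2 fun w =>
      van_δ_pull h5.continuousAt ((h2 _ w.1.2).2 _).2.1) (fun w hw => by_contra fun h0 =>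
      Van.pull h5.continuousAt (((h2 _ w.1.2).2 _).2.2 h0) hw) (hd.pull _) (x := ⟨x, h4⟩)
      (d := 1) (by rwa [pull_pull])
  obtain ⟨c', hc⟩ := exists_pull_eq hj.injective
    (P291Z.pull (fun y : B => (y, fun _ : Fin 1 => s y)) c)
  refine ⟨c', ?_⟩
  rw [show x = (⟨x, h4⟩ : B).1 from rfl, ← hj.map_nhds_eq, eventually_map]
  refine h8.mono fun y hy => ⟨van_of_pull hj ?_, fun h9 => by_contra fun h0 => van_of_pull hj
    (hc ▸ Van.pull h6.continuousAt fun h10 => h0 (congrFun (h7 h10) 0)) h9⟩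
  have := Van.pull h6.continuousAt (hy _)
  rw [one_smul, map_sub, map_sub, pull_pull, pull_pull, ← δ_pull] at this
  rwa [map_sub, map_sub, pull_pull, pull_pull, ← δ_pull, hc]

theorem LocDiv.unit {θ : Coch X} {s u : X → ℂ} {x : X} (h : LocDiv θ s x) (h0 : u x ≠ 0)
    (hc : ∀ᶠ y in 𝓝 x, ContinuousAt s y ∧ ContinuousAt u y) : LocDiv θ (fun y => u y * s y) x := by
  have h1 := hc.self_of_nhds.2.eventually_ne h0
  obtain ⟨c, h2⟩ := h
  refine (locDiv_family (Ξ := fun w => (u w.1)⁻¹ • w.2) (t := tau 1) (s := fun y => u y * s y)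
    (tau_deg 1) ((hc.and h1).mono fun y hy => ⟨hy.1.2.mul hy.1.1, fun v => ⟨(ContinuousAt.comp
      (g := fun y => (u y)⁻¹) (hy.1.2.inv₀ hy.2) continuousAt_fst).smul continuousAt_snd,
      supp_eq_empty.1 (tau_cocycle 1) _,
      fun h3 => tau_van (smul_ne_zero (inv_ne_zero hy.2) h3)⟩⟩)
    (posGerm_linearEquiv (LinearEquiv.smulOfNeZero ℂ _ _ (inv_ne_zero h0))).co).of_cohom (c := c) ?_
    (h2.mono fun y hy h3 => by rw [hy.2 h3, mul_zero])
  have := (Van x).add_mem h2.self_of_nhds.1 (van_pull_congr (f := fun z (_ : Fin 1) => s z)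
    (g := fun y => (u y)⁻¹ • fun _ : Fin 1 => u y * s y) (h1.mono fun y hy => funext fun _ =>
      (inv_mul_cancel_left₀ hy _).symm) (tau 1))
  convert this using 1
  abel

omit [Nice X] in
theorem LocDiv.pull {Y : Type} [TopologicalSpace Y] {θ : Coch X} {s : X → ℂ} {f : Y → X} {y : Y}
    (h : LocDiv θ s (f y)) (hf : ∀ᶠ z in 𝓝 y, ContinuousAt f z) :
    LocDiv (P291Z.pull f θ) (fun z => s (f z)) y := by
  obtain ⟨c, hc⟩ := h
  refine ⟨P291Z.pull f c, (hf.and (hf.self_of_nhds.eventually hc)).mono fun z hz =>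
    ⟨?_, fun h => hz.2.2 (by_contra fun h' => Van.pull hz.1 h' h)⟩⟩
  have := Van.pull hz.1 hz.2.1
  rwa [map_sub, map_sub, pull_pull, ← δ_pull] at this

omit [Nice X] in
theorem LocDiv.congr {θ : Coch X} {s s' : X → ℂ} {x : X} (h : LocDiv θ s x) (e : s =ᶠ[𝓝 x] s') :
    LocDiv θ s' x := by
  obtain ⟨c, hc⟩ := h
  refine ⟨c, (hc.and e.eventually_nhds).mono fun y hy =>
    ⟨?_, fun h => hy.2.self_of_nhds ▸ hy.1.2 h⟩⟩
  have := (Van y).add_mem hy.1.1 (van_pull_congr (f := fun z (_ : Fin 1) => s z)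
    (g := fun z (_ : Fin 1) => s' z) (hy.2.mono fun _ h => funext fun _ => h) (tau 1))
  convert this using 1
  abel

omit [Nice X] in
theorem LocDiv.of_lcoh {θ θ' : Coch X} {s : X → ℂ} {x : X} {B : Set X} (h : LocDiv θ s x)
    (e : LCoh B θ' θ) (hx : x ∈ B)
    (hB : ∀ᶠ y in 𝓝 x, y ∈ B → s y = 0) : LocDiv θ' s x :=
  let ⟨_, h1, h2⟩ := e
  h.of_cohom (h2 x hx) (((h1 x hx).and hB).mono fun _ hy h => hy.2 (hy.1 h))

/-- the Euler cocycle of a section of a line bundle represents its divisor -/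
theorem locDiv_eul {Y : Ch.Sp} {E : Ch.VB Y} (hr : E.r = 1) {s : Y.T → E.W} (hs : E.IsSec s)
    (t : Y.T) (l : E.W →L[ℂ] ℂ) (hl : ∀ w ∈ E.F t, l w = 0 → w = 0) :
    LocDiv (P291Z.pull Y.π hs.eul) (fun y => l (s y)) t := by
  let q : E.W →L[ℂ] (Fin 1 → ℂ) := ContinuousLinearMap.pi fun _ => l
  have hq : ∀ w ∈ E.F t, q w = 0 → w = 0 := fun w hw h => hl w hw (congrFun h 0)
  obtain ⟨ψ, hψ⟩ := exists_dual_frame E hr (b := t) (φ := id) (m := fun _ => q)
    (Eventually.of_forall fun _ => ⟨continuousAt_id, continuousAt_const⟩) hq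
  let Ξ : Y.T × (Fin 1 → ℂ) → E.V := fun w => ⟨(w.1, E.P w.1 (ψ w.1 w.2)), E.P_mem _ _⟩
  have h1 : ∀ᶠ y in 𝓝 t, ∀ v, ContinuousAt Ξ (y, v) ∧ q (Ξ (y, v)).1.2 = v := hψ.mono fun y hy v =>
    ⟨IsInducing.subtypeVal.continuousAt_iff.2 (continuousAt_fst.prodMk
      ((E.P_cont.continuousAt.comp continuousAt_fst).clm_apply ((ContinuousAt.comp (g := ψ) hy.1
        continuousAt_fst).clm_apply continuousAt_snd))),
      (congrArg q (E.P_eq (hy.2.2.1 v))).trans (hy.2.1 v)⟩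
  have h2 := h1.self_of_nhds
  refine (locDiv_family (Ξ := E.tot.π ∘ Ξ) (t := E.th) (s := fun y => l (s y))
    (by simpa [hr] using E.th_deg) (h1.mono fun y hy => ⟨(l.continuous.comp hs.cont).continuousAt, fun v =>
      ⟨E.tot.cont.continuousAt.comp (hy v).1, supp_eq_empty.1 E.th_cocycle _, fun h3 h4 =>
        h3 (by rw [← (hy v).2, Ch.VB.mk_mem_Z.1 (E.th_supp h4), map_zero])⟩⟩)
    (locCo_thom hr E.isThom (φ := fun v => Ξ (t, v)) (m := fun _ => q)
      (Eventually.of_forall fun v => ⟨ContinuousAt.comp (g := Ξ) (h2 v).1 (by fun_prop),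
        continuousAt_const⟩) hq (by simp [Ξ]) (Eventually.of_forall fun v h => by
          rw [← (h2 v).2, h, map_zero])
      (posGerm_id.co.pull_congr (Eventually.of_forall fun v => (h2 v).2)))).of_cohom (c := 0) ?_
    (Eventually.of_forall fun y hy => by simp [supp_zero] at hy)
  rw [map_zero, sub_zero, Ch.VB.IsSec.eul, pull_pull]
  refine van_pull_congr (hψ.mono fun y hy => ?_) _
  refine (hs.mor.map_π y).trans (congrArg E.tot.π (Subtype.ext (Prod.ext rfl ?_)))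
  exact ((congrArg (E.P y) (hy.2.2.2 _ (hs.mem y))).trans (E.P_eq (hs.mem y))).symm

omit [Nice X] in
theorem cls_eq_of_pt [RegularSpace X] {x : X} {a b e : Coch X} (ha : supp a ⊆ {x})
    (hb : supp b ⊆ {x}) (he : ∀ᶠ y in 𝓝 x, y ≠ x → e ∈ Van y) (h : a - b - δ e ∈ Van x) :
    cls a = cls b := by
  obtain ⟨N, h1, h2⟩ := exists_cut_pt he
  refine cls_eq_of_cohom isCompact_singleton ⟨_, h1, supp_eq_empty.2 (van_of_supp
    ((supp_sub _ _).trans (union_subset ha hb)) ((supp_δ _).trans h1) ?_)⟩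
  rintro _ rfl
  have := (Van _).add_mem h (Van.δ h2)
  rwa [map_sub, sub_add_sub_cancel] at this

omit [Nice X] in
theorem Cnt.comp {Y Y' : Type} [TopologicalSpace Y] [TopologicalSpace Y'] {Φ : X → Y} {x : X}
    {m : ℕ} {P P' : X → Prop} (h : Cnt Φ x m P) {e : Y → Y'} (he : Continuous e)
    (hi : Injective e) (hP : ∀ y, P y → P' y) : Cnt (e ∘ Φ) x m P' :=
  let ⟨V₀, h1, h2⟩ := h
  ⟨V₀, h1, fun V hV => (he.tendsto _).frequently ((h2 V hV).mono fun _ ⟨F, h3, h4, h5⟩ =>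
    ⟨F, h3, fun y hy h6 => h4 y hy (hi h6), fun y hy =>
      ⟨(h5 y hy).1, congrArg e (h5 y hy).2.1, hP y (h5 y hy).2.2⟩⟩)⟩

/-- **the local degree is the number of nearby points** -/
theorem exists_ev_of_cnt {β : BM X} {Φ : X → Fin n → ℂ} {x : X} (h0 : Φ x = 0)
    (hc : ∀ᶠ y in 𝓝 x, ContinuousAt Φ y ∧ (Φ y = 0 → y = x)) {m : ℕ}
    (hm : Cnt Φ x m fun y => ∃ χ : (Fin n → ℂ) → X, χ 0 = y ∧ ContinuousAt χ 0 ∧ Val β χ 1 ∧
      LocCo (pull (fun v => Φ (χ v) - Φ y) (tau n)) 1) :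
    ∃ b, supp b ⊆ {x} ∧ pull Φ (tau n) - b ∈ Van x ∧ ev β b = m := by
  obtain ⟨V₀, h1, h2⟩ := hm
  obtain ⟨K, h3, h4, h5⟩ := local_compact_nhds (inter_mem h1 hc)
  have h6 : IsCompact (frontier K) :=
    h5.of_isClosed_subset isClosed_frontier h5.isClosed.frontier_subset
  obtain ⟨r, hr, h7⟩ := exists_radius (P := fun w => w ∉ Φ '' frontier K)
    ((h6.image_of_continuousOn fun y hy => (h4 (h5.isClosed.frontier_subset
      hy)).2.1.continuousWithinAt).isClosed.isOpen_compl.mem_nhds (by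
        rintro ⟨y, h7, h8⟩
        exact h7.2 (((h4 (h5.isClosed.frontier_subset h7)).2.2 h8).symm ▸
          mem_interior_iff_mem_nhds.2 h3)))
  obtain ⟨w, ⟨F, rfl, h8, h9⟩, h10⟩ := ((h2 _ (interior_mem_nhds.2 h3)).and_eventually
    (h0 ▸ Metric.closedBall_mem_nhds (0 : Fin n → ℂ) hr)).exists
  let H : I × X → Fin n → ℂ := fun p => Φ p.2 - (p.1 : ℝ) • w
  have h11 : ∀ p : I × X, p.2 ∈ K → ContinuousAt H p := fun p hp =>
    (ContinuousAt.comp (g := Φ) (h4 hp).2.1 continuousAt_snd).sub (by fun_prop)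
  let C := cut (Prod.snd ⁻¹' K) (pull H (tau n))
  have h12 : ∀ p ∈ supp C, p.2 ∈ interior K ∧ H p = 0 := fun p hp => by
    obtain ⟨h12, h13⟩ := supp_cut _ _ hp
    rw [(h5.isClosed.preimage continuous_snd).closure_eq] at h12
    have h14 : H p = 0 := by_contra fun h => Van.pull (h11 p h12) (tau_van h) h13
    refine ⟨by_contra fun h => h7 ((p.1 : ℝ) • w) ?_ ⟨p.2, ⟨subset_closure h12, h⟩,
      sub_eq_zero.1 h14⟩, h14⟩
    rw [norm_smul, Real.norm_of_nonneg p.1.2.1]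
    exact (mul_le_of_le_one_left (norm_nonneg _) p.1.2.2).trans (by rwa [h0, dist_zero_right] at h10)
  have h13 : ∀ p : I × X, p.2 ∈ interior K → pull H (tau n) - C ∈ Van p := fun p hp =>
    cut_in (continuousAt_snd (mem_interior_iff_mem_nhds.1 hp)) _
  have h14 : supp (δ C) = ∅ := cocycle_of_supp (A := Prod.snd ⁻¹' interior K) (fun p hp =>
    van_δ_pull (h11 p (interior_subset hp)) (supp_eq_empty.1 (tau_cocycle n) _))
    (fun p hp => (h12 p hp).1) h13
  have hk : ∀ s : I, Continuous (Prod.mk s : X → I × X) := Continuous.prodMk_right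
  have h15 : ∀ (s : I), ∀ y ∈ interior K, pull (fun y => Φ y - (s : ℝ) • w) (tau n) -
      pull (Prod.mk s) C ∈ Van y := fun s y hy => by
    have := van_pull_sub (hk s).continuousAt (h13 (s, y) hy)
    rwa [pull_pull] at this
  refine ⟨pull (Prod.mk 0) C, fun y hy => ?_, by
    simpa using h15 0 x (mem_interior_iff_mem_nhds.2 h3), ?_⟩
  · have := h12 _ (supp_pull (hk 0) _ hy)
    exact (h4 (interior_subset this.1)).2.2 (by simpa [H] using this.2)
  rw [ev_eq, cls_pull_eq_of_homotopy (h := id) continuous_id h14 (isCompact_supp_of_subset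
    (isCompact_univ.prod h5) fun p hp => ⟨trivial, interior_subset (h12 p hp).1⟩)
    (f := Prod.mk 0) (g := Prod.mk 1) (fun _ => rfl) fun _ => rfl, ← ev_eq,
    ev_finite β (fun _ => 1) F (cocycle_pull (hk 1) h14) (fun y hy => ?_) fun y hy a h16 h17 h18 => ?_,
    Finset.sum_const, nsmul_one]
  · have := h12 _ (supp_pull (hk 1) _ hy)
    exact h8 y (h4 (interior_subset this.1)).1 (by simpa [H, sub_eq_zero] using this.2)
  · obtain ⟨h19, rfl, χ, rfl, h20, h21, h22⟩ := h9 y hy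
    have := van_trans (h15 1 _ h19) h18
    rw [← h21 a 1 h16 h17 (LocCo.of_van h20 (by rw [pull_pull]; simpa [comp_def] using h22)
      (van_symm this)), one_mul]

/-- **multiplicities** -/
theorem ev_lgys_of_cnt {β : BM X} (hβ : BM.IsDeg (2 * (n + 1 : ℕ)) β) {i : Z → X}
    (hi : IsClosedEmbedding i) {θ : Coch X} (hθ : LCo (range i) θ) (hd : IsDeg 2 θ)
    {ψ : (Fin n → ℂ) → Z} (hψ : LH ψ 0) {φ : X → Fin n → ℂ} {s : X → ℂ}
    (hc : ∀ᶠ y in 𝓝 (i (ψ 0)), ContinuousAt φ y ∧ ContinuousAt s y ∧ (y ∈ range i ↔ s y = 0))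
    (hs : LocDiv θ s (i (ψ 0))) (h0 : PosGerm fun v => φ (i (ψ v))) {m : ℕ}
    (hm : Cnt (fun y => (φ y, s y)) (i (ψ 0)) m fun y => ∃ χ : (Fin (n + 1) → ℂ) → X, χ 0 = y ∧
      ContinuousAt χ 0 ∧ Val β χ 1 ∧
        PosGerm fun v => Fin.append (φ (χ v) - φ y) fun _ : Fin 1 => s (χ v) - s y)
    {a : Coch Z} {c : ℂ} (h1 : supp (δ a) = ∅) (h2 : supp a ⊆ {ψ 0}) (h3 : LocCo (pull ψ a) c) :
    ev (Orb.lgys i θ β) a = m * c := by
  have h4 : ∀ᶠ y in 𝓝 (i (ψ 0)), y ∈ range i → φ y = 0 → y = i (ψ 0) := by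
    have : ∀ᶠ z in 𝓝 (ψ 0), φ (i z) = 0 → z = ψ 0 := by
      rw [← hψ.map_nhds, eventually_map]
      exact h0.germ.ev.mono fun v hv h => congrArg ψ (hv.2 h)
    rw [hi.isInducing.nhds_eq_comap, eventually_comap] at this
    exact this.mono (by rintro _ h ⟨z, rfl⟩ h'; exact congrArg i (h z rfl h'))
  let e : (Fin n → ℂ) × ℂ → Fin (n + 1) → ℂ := fun w => Fin.append w.1 fun _ : Fin 1 => w.2
  have he : Continuous e := continuous_append continuous_fst (by fun_prop)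
  obtain ⟨b, h5, h6, h7⟩ := exists_ev_of_cnt (β := β) (Φ := e ∘ fun y => (φ y, s y))
    (append_eq_zero.2 ⟨h0.germ.zero, funext fun _ => hc.self_of_nhds.2.2.1 ⟨_, rfl⟩⟩)
    ((hc.and h4).mono fun y hy => ⟨he.continuousAt.comp (hy.1.1.prodMk hy.1.2.1), fun h =>
      hy.2 (hy.1.2.2.2 (congrFun (append_eq_zero.1 h).2 0)) (append_eq_zero.1 h).1⟩)
    (hm.comp he (fun w w' h => Prod.ext (funext fun j => by
      simpa [e] using congrFun h (Fin.castAdd 1 j)) (by
        simpa [e] using congrFun h (Fin.natAdd n 0))) fun y ⟨χ, k1, k2, k3, k4⟩ =>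
      ⟨χ, k1, k2, k3, k4.co.pull_congr (Eventually.of_forall fun v => funext fun j => by
        refine Fin.addCases (fun j => ?_) (fun j => ?_) j <;> simp [e])⟩)
  have h8 : pull (e ∘ fun y => (φ y, s y)) (tau (n + 1)) =
      pull φ (tau n) * pull (fun z (_ : Fin 1) => s z) (tau 1) := by
    rw [tau_add, map_mul, pull_pull, pull_pull]
    congr 3 <;> funext y j
    exacts [Fin.append_left (φ y) (fun _ : Fin 1 => s y) j, Fin.append_right (φ y) (fun _ => s y) j]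
  obtain ⟨N, h9, h10, h11⟩ := exists_mem_nhds_isClosed_subset (hc.and h4)
  have h12 : pull φ (tau n) - cut N (pull φ (tau n)) ∈ Van (i (ψ 0)) := cut_in h9 _
  have h13 : ∀ y ∈ range i, y ≠ i (ψ 0) → cut N (pull φ (tau n)) ∈ Van y := fun y hy h h' => by
    obtain ⟨k1, k2⟩ := supp_cut _ _ h'
    rw [h10.closure_eq] at k1
    exact Van.pull (h11 k1).1.1 (tau_van fun k3 => h ((h11 k1).2 hy k3)) k2
  have h14 : δ (pull φ (tau n)) ∈ Van (i (ψ 0)) :=
    van_δ_pull hc.self_of_nhds.1 (supp_eq_empty.1 (tau_cocycle n) _)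
  generalize cut N (pull φ (tau n)) = A at h12 h13
  have h15 : ∀ z, δ A ∈ Van (i z) := fun z => by
    by_cases hz : i z = i (ψ 0)
    · rw [hz]; exact van_δ_congr (van_symm h12) h14
    · exact Van.δ (h13 _ ⟨z, rfl⟩ hz)
  have h16 : i ⁻¹' supp A ⊆ {ψ 0} := fun z hz => by_contra fun h =>
    h13 _ ⟨z, rfl⟩ (fun h' => h (hi.injective h')) hz
  obtain ⟨N', h17, h18⟩ := exists_cut_pt (a := A * θ) ((hθ.isol _ ⟨ψ 0, rfl⟩).mono fun y hy h h' =>
    h13 y (hy (supp_mul _ _ h').2) h (supp_mul _ _ h').1)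
  have h19 := ev_lgys hi hθ β h15 (isCompact_singleton.of_isClosed_subset
    ((isClosed_supp _).preimage hi.continuous) h16) (h17.trans (singleton_subset_iff.2 ⟨_, rfl⟩))
    fun z => by
      by_cases hz : i z = i (ψ 0)
      · rwa [hz]
      · exact (Van _).sub_mem (Van.mul_right (h13 _ ⟨z, rfl⟩ hz) _) fun h => hz (h17 h)
  obtain ⟨u, hu⟩ := hs
  rw [ev_eq β, cls_eq_of_pt h17 h5 (e := par A * u) ((hu.and hc).mono fun y hy h h' => h13 y
    (hy.2.2.2.2 (hy.1.2 (supp_mul _ _ h').2)) h (supp_par _ (supp_mul _ _ h').1)) ?_, ← ev_eq,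
    h7] at h19
  · have h20 := hi.continuous.continuousAt (x := ψ 0)
    have h21 : supp (pull i A) ⊆ {ψ 0} := (supp_pull hi.continuous _).trans h16
    have h22 : pull i A ∈ Zc Z :=
      Zc_of_pt (supp_eq_empty.2 fun z => van_δ_pull hi.continuous.continuousAt (h15 z)) h21
    obtain ⟨v, hv⟩ := locCo_iff.1 (h3.sub ((LocCo.of_van hψ.cont (b := pull i (pull φ (tau n)))
      (by rw [pull_pull, pull_pull]; exact h0.co) (van_pull_sub h20 (van_symm h12))).smul c))
    obtain ⟨g, k1, k2, -, k3⟩ := hψ.exists_inv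
    have k4 : Tendsto g (𝓝 (ψ 0)) (𝓝 0) := by simpa [ContinuousAt, k1] using k2.cont
    rw [ev_eq, cls_eq_of_pt h2 ((supp_smul c _).trans h21) (e := pull g v)
      (((k3.and k2.eventually_cont).and (k4.eventually hv)).mono fun z hz h =>
        Van.pull hz.1.2 (hz.2.2 fun h' => h (by rw [← hz.1.1, h']))) ?_, ← ev_eq, ev_smul _ _ h22,
      h19, mul_comm]
    have k5 := Van.pull k2.cont (k4.eventually hv).self_of_nhds.1
    rw [mul_one, sub_self, zero_smul, sub_zero, ← map_smul, ← map_sub, map_sub, pull_pull,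
      ← δ_pull] at k5
    have := (Van _).sub_mem k5 (van_pull_congr (g := id) k3 (a - c • pull i A))
    rw [pull_id] at this
    convert this using 1
    rw [show ψ ∘ g = fun z => ψ (g z) from rfl]
    abel
  · rw [h8] at h6
    have := (Van _).add_mem ((Van _).sub_mem ((Van _).sub_mem ((Van _).sub_mem
      (Van.mul_left hu.self_of_nhds.1 A) h18) (Van.mul_right h12
        (pull (fun z (_ : Fin 1) => s z) (tau 1)))) (Van.mul_right (Van.δ (Van.par
          (van_symm h12))) u)) ((Van _).add_mem h6 (Van.mul_right (Van.par h14) u))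
    convert this using 1
    rw [δ_mul, par_par, map_sub, map_sub, δ_par (pull φ (tau n))]
    noncomm_ring

end Vale.Agent.P269
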