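import Vale.Agent.P269.Spl.CyB
import Vale.Agent.P269.Spl.MultA

/-!
# The divisors of the base fields at a marked point
-/

set_option linter.unusedSectionVars false

namespace Vale.Agent.P269

open P291Z Set Function Topology Filter Module

variable {S Λ Λ₀ R J K ι ν κ α : Type} [Fintype S] [Fintype Λ] [Fintype Λ₀] [Fintype R] [Fintype J]
  [Fintype K] [Fintype ι] [DecidableEq ι] [Fintype ν] [Fintype κ]

/-- naturality of the first Chern class for orbifolds -/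
theorem Tq.Eqh.map_lcq' {A A' W W' : Type} [NormedRing A] [NormedAlgebra ℂ A] [NormedAddCommGroup W]
    [NormedSpace ℂ W] [NormedRing A'] [NormedAlgebra ℂ A'] [NormedAddCommGroup W']
    [NormedSpace ℂ W'] {act : A → W → W} {act' : A' → W' → W'} {T : Set W} {T' : Set W'}
    {θ : A → A'} {f : W → W'} [Holo.IsAct act T] [Holo.IsAct act' T'] (h : Tq.Eqh act act' T T' θ f)
    (ho : Orb.Orb Aˣ (Holo.Sp act T)) (ho' : Orb.Orb A'ˣ (Holo.Sp act' T')) {c : A' → ℂ}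
    (hc : Tq.Hm c) : H.map h.toEqv.qm (Tq.lcq act' T' c) = Tq.lcq act T fun a => c (θ a) := by
  let m : Ch.Mor (Ch.spA ho) (Ch.spA ho') :=
    ⟨h.hm.ρ.toMonoidHom, fun x => Holo.Sp.of act' (f x.val) (h.maps x.val_mem), h.hm.ρ.continuous,
      (h.cont.domRestrict.subtype_mk _ :), fun g x => Holo.Sp.ext (h.eqv _ g.isUnit _ x.val_mem)⟩
  have a := (Tq.lcq_eq (Ch.presA ho') (χ := hc.ρ) fun _ => rfl).trans (H.map_id (fun _ => rfl) _)
  have b := (Tq.lcq_eq (Ch.presA ho) (c := fun a => c (θ a)) (χ := m.chr hc.ρ) fun _ => rfl).trans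
    (H.map_id (fun _ => rfl) _)
  exact (congrArg₂ (fun g => H.map g) (DFunLike.coe_injective
    (m.map_eq (φ := h.toEqv.qm) fun _ => rfl)) a).trans
      ((congrArg Subtype.val (Ch.map_c1 m hc.ρ)).trans b.symm)

theorem Ch.exists_eul {ch : Ch ι J} {F : Fam S Λ R J K} {ℓ : R → ι → ℤ} {T : Set (ch.WF ν κ Λ)}
    [Holo.IsAct (actF F.toWt) T] (ho : Orb.Orb (ch.AF ν κ S)ˣ (Holo.Sp (actF F.toWt) T))
    (hw : ∀ j i, ch.wd j i = ∑ r, F.w j r * ℓ r i) (hT : T ⊆ ch.adm ν κ F) (n : Mk ν κ) {j : J}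
    (hj : j ∉ F.mov) : ∃ θ : Coch (Quo (actF F.toWt) T),
      IsCo (Quo.part _ _ {x | (vl x n).2 j = 0}) 1 θ ∧
      (∀ x : Holo.Sp (actF F.toWt) T,
        LocDiv (pull Holo.Sp.mk θ) (fun y => (vl y.val n).2 j) x) ∧
      hcls θ = Tq.lcq (actF F.toWt) T fun s => chT (F.wt j) (F.w j) (θv ℓ n s) := by
  have a := (hm_θv (ch := ch) (S := S) ℓ n).comp (hm_chT (F.wt j) (F.w j))
  have b : ∀ s, IsUnit s → ∀ x ∈ T, (vl (actF F.toWt s x) n).2 j =
      chT (F.wt j) (F.w j) (θv ℓ n s) * (vl x n).2 j := fun s hs x hx => by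
    have p := p_mem_crv (hT hx).1.2.1 n
    refine (fld_actF_p hs p ((hT hx).2.1 j hj _ p)).trans (congrArg (fun z => _ * z * _) ?_)
    simp only [hw, θv, Cv.prod_prod_zpow ((Cv.isUnit_iff.1 (isUnit_dupF hs)).2.2 n)]
  have hs : (char (Y := spA ho) a.ρ).IsSec fun y : Holo.Sp (actF F.toWt) T => (vl y.val n).2 j :=
    ⟨fun _ => trivial, ContinuousOn.domRestrict (f := fun x => (vl x n).2 j) (s := T) fun x hx =>
      (holOn_fld' hx (hT hx).1.2.1 (W.an_p analyticAt_snd n) (.of_forall fun _ e =>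
        ⟨p_mem_crv (hT e).1.2.1 n, (hT e).2.1 j hj⟩)).tendsto hx,
      fun g x => b _ g.isUnit _ x.val_mem⟩
  refine ⟨hs.eul, ⟨hs.isCo.cocycle, hs.isCo.deg, hs.isCo.supp.trans ?_⟩,
    fun x => locDiv_eul rfl hs x (.id ℂ ℂ) fun _ _ e => e, hs.hcls_eul.trans
      ((Tq.lcq_eq (presA ho) (χ := a.ρ) fun _ => rfl).trans (H.map_id (fun _ => rfl) _)).symm⟩
  rintro _ ⟨x, e, rfl⟩
  exact (Quo.mem_part (fun s hs y hy => ⟨Holo.IsAct.mem s hs y hy.1,
    (b s hs y hy.1).trans ((congrArg _ hy.2).trans (mul_zero _))⟩) x).2 e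

namespace Fam.DgO

variable [DecidableEq R] {k D : ℕ} {g : ℤ} {d : R → ℤ} {n₀ n : ℕ}
  {F : Fam S (Option Λ₀) R J K} {i : R} {b c : J} {B₀ : Set (Λ₀ → ℂ)} {Ω : Set ℂ} {K₀ : Set K}
  {O : Set ((F.sch ν κ k D g d).WF ν κ (Option Λ₀))} (h : F.DgO i b c B₀ Ω k K₀ n₀ O)
include h

/-- the Euler cocycle of the value of a base field at a marked point -/
theorem exists_eul (n : Ch.Mk ν κ) {j : J} (hj : j ∉ F.mov) :
    ∃ θ : Coch (Quo (Ch.actF F.toWt) (F.YT O)),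
      IsCo (Quo.part _ _ {x | (Ch.vl x n).2 j = 0}) 1 θ ∧
      (∀ x : Holo.Sp (Ch.actF F.toWt) (F.YT O),
        LocDiv (pull Holo.Sp.mk θ) (fun y => (Ch.vl y.val n).2 j) x) ∧
      hcls (pull (Quo.incl _ h.dom.sub) θ) =
        F.cl _ (.ev n _ (F.lc F.cone (F.wt j) (F.w j))) := by
  have := h.dom (ν := ν) (κ := κ).isAct
  have z := h.gz
  have := z.act
  have := h.toGood.fp
  obtain ⟨θ, a, b, e⟩ := Ch.exists_eul h.dom.orb z.wt (fun _ x => x.2.1) n hj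
  refine ⟨θ, a, b, ?_⟩
  rw [z.cl_ev n fun _ x => Ch.vl_mem x.1 n, Wt.lc_eq, (z.eqh_vl n fun _ x =>
    Ch.vl_mem x.1 n).map_lcq' z.orb (Tq.orb _ _) (hm_chT _ _), ← (Tq.Eqh.incl h.dom.sub).map_lcq' z.orb h.dom.orb
      ((Ch.hm_θv ℓs n).comp (hm_chT _ _)), ← e]
  exact (H.map_hcls (Tq.Eqh.incl h.dom.sub).toEqv.qm a.cocycle).symm

end Fam.DgO

end Vale.Agent.P269

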