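import Vale.Agent.P269.Spl.Core
import Vale.Agent.P269.Spl.EulA

/-!
# The divisors of the base fields at a marked point
-/

set_option linter.unusedSectionVars false

namespace Vale.Agent.P269

open P291Z Set Function Topology Filter Module

variable {S Λ Λ₀ R J K ι ν κ α : Type} [Fintype S] [Fintype Λ] [Fintype Λ₀] [Fintype R] [Fintype J]
  [Fintype K] [Fintype ι] [DecidableEq ι] [Fintype ν] [Fintype κ]

namespace Ch.EulB

variable {ch : Ch ι J} {F : Fam S Λ R J K} {Y : Set (ch.WF ν κ Λ)} (hY : Y ⊆ ch.adm ν κ F)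
  (n : Mk ν κ) {j : J} (hj : j ∉ F.mov)
include hY hj

theorem continuous_vl : Continuous fun y : Holo.Sp (actF F.toWt) Y => (vl y.val n).2 j :=
  continuous_iff_continuousAt.2 fun x =>
    have a := fun y : Holo.Sp (actF F.toWt) Y => p_mem_crv (hY y.val_mem).1.2.1 n
    have b := fun y : Holo.Sp (actF F.toWt) Y => val_fld ((hY y.val_mem).2.1 j hj _ (a y))
    have t := (Holo.Sp.continuous_val.tendsto x).snd_nhds
    tendsto_val (hY x.val_mem).1.2.1.1 t (((W.pL (ch := ch) n).continuous.tendsto _).comp t) (a x)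
      (.of_forall fun y => ⟨a y, b y⟩) (b x)

theorem ivt_zero [Holo.IsAct (actF F.toWt) Y] :
    Ivt (actF F.toWt) (Y ∩ {x | (vl x n).2 j = 0}) := fun _ hs _ hx =>
  have a := p_mem_crv (hY hx.1).1.2.1 n
  ⟨Holo.IsAct.mem _ hs _ hx.1, (fld_actF_p hs a ((hY hx.1).2.1 j hj _ a)).trans
    ((congrArg (_ * ·) hx.2).trans (mul_zero _))⟩

end Ch.EulB

namespace Fam.DgO

variable [DecidableEq R] {k D : ℕ} {g : ℤ} {d : R → ℤ} {n₀ n : ℕ}
  {F : Fam S (Option Λ₀) R J K} {i : R} {b c : J} {B₀ : Set (Λ₀ → ℂ)} {Ω : Set ℂ} {K₀ : Set K}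
  {O : Set ((F.sch ν κ k D g d).WF ν κ (Option Λ₀))} (h : F.DgO i b c B₀ Ω k K₀ n₀ O)
include h

theorem exists_cut1 (n : ν) {j j' : J} (hj : j ∉ F.mov) (hj' : j' ∉ F.mov) {v : Bool}
    (e : ∀ x ∈ F.YT O, (Ch.vl x (.inl n)).2 j' * (Ch.vl x (.inl n)).2 j = x.1 none)
    (s : ∀ τ : STy R (ν ⊕ κ), ∀ x ∈ F.stT (k := k) b c B₀ D g d τ,
      ((Ch.vl x (.inl n)).2 j ≠ 0 ↔ τ.s (.inl n) = !v) ∧
        ((Ch.vl x (.inl n)).2 j' ≠ 0 ↔ τ.s (.inl n) = v)) :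
    ∃ θ : Coch (Quo (Ch.actF F.toWt) (F.YT O)), F.Cut0 b c B₀ θ (fun s => s (.inl n) = v) ∧
      hcls (pull (Quo.incl _ h.dom.sub) θ) =
        F.cl _ (.ev (.inl n) _ (F.lc F.cone (F.wt j) (F.w j))) := by
  obtain ⟨θ, a₁, a₂, a₃⟩ := h.exists_eul (.inl n) hj
  have := h.dom.isAct
  have := h.dom.orb.nice
  have hY : F.YT O ⊆ Ch.adm _ ν κ F := fun _ a => a.2.1
  refine ⟨θ, ⟨a₁.cocycle, a₁.deg, fun z hz => (e _ (Quo.out z).2).symm.trans
    ((congrArg (_ * ·) (a₁.supp hz)).trans (mul_zero _)), fun τ a x hx =>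
      ((a₂ x).unit (((s τ _ hx).2).2 a) (.of_forall fun y =>
        ⟨(Ch.EulB.continuous_vl hY _ hj).continuousAt,
          (Ch.EulB.continuous_vl hY _ hj').continuousAt⟩)).congr (.of_forall fun y => e _ y.val_mem),
    fun τ a x hx z => ((s τ _ hx).1).2 (Bool.eq_not_of_ne a)
      ((Quo.mem_part (Ch.EulB.ivt_zero hY _ hj) x).1 (a₁.supp z))⟩, a₃⟩

theorem exists_cut0 (n : ν) : ∃ θb θc : Coch (Quo (Ch.actF F.toWt) (F.YT O)),
    F.Cut0 b c B₀ θb (fun s => s (.inl n) = false) ∧ F.Cut0 b c B₀ θc (fun s => s (.inl n) = true) ∧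
    hcls (pull (Quo.incl _ h.dom.sub) θb) =
      F.cl _ (.ev (.inl n) _ (F.lc F.cone (F.wt b) (F.w b))) ∧
    hcls (pull (Quo.incl _ h.dom.sub) θc) =
      F.cl _ (.ev (.inl n) _ (F.lc F.cone (F.wt c) (F.w c))) :=
  let ⟨θb, a, a'⟩ := h.exists_cut1 n h.mem_b h.mem_c (v := false)
    (fun _ e => (mul_comm _ _).trans (h.vl_mul h.bd e.2.1 _)) fun _ _ e => h.stT_side h.bd e n
  let ⟨θc, d, d'⟩ := h.exists_cut1 n h.mem_c h.mem_b (v := true)
    (fun _ e => h.vl_mul h.bd e.2.1 _) fun _ _ e => (h.stT_side h.bd e n).symm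
  ⟨θb, θc, a, d, a', d'⟩

theorem Cut0.isCo_pull {θ : Coch (Quo (Ch.actF F.toWt) (F.YT O))} {σ : (ν ⊕ κ → Bool) → Prop}
    (hθ : F.Cut0 b c B₀ θ σ) :
    IsCo (Quo.part _ _ (Ch.tAt 0)) 1 (pull (Quo.incl _ h.dom.sub) θ) := by
  have := h.dom.isAct
  have := h.gz.act
  have e := (Quo.isEmbedding_incl (act := Ch.actF F.toWt) h.dom.sub).continuous
  refine ⟨cocycle_pull e hθ.cyc, hθ.deg.pull _, (supp_pull e θ).trans fun z hz => ?_⟩
  obtain ⟨x, rfl⟩ := Holo.Sp.surjective_mk z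
  have a : ∀ Y, Holo.IsAct (Ch.actF F.toWt) Y → Ivt (Ch.actF F.toWt)
      (Y ∩ Ch.tAt 0 : Set ((F.sch ν κ k D g d).WF ν κ _)) := fun Y _ s u y v =>
    ⟨Holo.IsAct.mem _ u _ v.1, h.ivt_tAt h.bd s u y v.2⟩
  exact (Quo.mem_part (a _ ‹_›) x).2
    ((Quo.mem_part (a _ ‹_›) (Holo.Sp.incl _ h.dom.sub x)).1 (hθ.sup hz))

end Fam.DgO

theorem St.spc2 : St.Spc2 := by
  intro S Λ₀ R J K ν κ _ _ _ _ _ _ _ _ _ _ F i b c B₀ Ω k K₀ n₀ g β n fs h hf
  filter_upwards [h.eventually_set ν κ g β] with A hA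
  filter_upwards [F.eventually_bigD k] with D hD
  obtain ⟨O, o⟩ := h.exists_dgO (ν := ν) (κ := κ) hD g β
  obtain ⟨θb, θc, a₁, a₂, e₁, e₂⟩ := o.exists_cut0 n
  have s : ∀ x, F.Fs 0 (.ev (.inl n) F.cone x :: fs) := fun x => ⟨List.forall_mem_cons.2
    ⟨⟨fun _ a => a.1, trivial⟩, hf.1⟩, fun q => List.mem_cons_of_mem _ (hf.2 q)⟩
  rw [← o.core (hA D hD) a₁ (s _), ← o.core (hA D hD) a₂ (s _), List.map_cons, List.map_cons,
    List.prod_cons, List.prod_cons, ← mul_assoc, ← mul_assoc, ev_eq, ev_eq]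
  have dg := (St.dg F K₀ h.toGood h.reg).1
  have t := fun x => o.gz.cocycle dg (Ch.at_of_ok0 o.gz.sol ((s x).1 _ List.mem_cons_self).1)
  have c₁ := Fam.DgO.Cut0.isCo_pull o a₁
  have c₂ := Fam.DgO.Cut0.isCo_pull o a₂
  refine congrArg _ (o.gz.cls_congr dg (fun f a => Ch.at_of_ok0 o.gz.sol (hf.1 f a).1)
    (Fam.forall₂_refl fs) hf.2 (cocycle_mul c₁.cocycle (t _))
    ((supp_mul _ _).trans (inter_subset_left.trans c₁.supp)) ?_ o.isCompact_dia).2.2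
  exact (((NF.cohom_of_hcls (t _) c₂.cocycle e₂.symm).mul_left c₁.cocycle).mono
    (inter_subset_left.trans c₁.supp)).trans
      (((cohom_comm_even c₁.cocycle c₂.cocycle c₂.deg).mono (inter_subset_left.trans c₁.supp)).trans
        (((NF.cohom_of_hcls c₁.cocycle (t _) e₁).mul_left c₂.cocycle).mono
          (inter_subset_left.trans c₂.supp)))

end Vale.Agent.P269
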