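import Vale.Agent.P269.Bas.Fbr
import Vale.Agent.P269.Loc.Sum

/-!
# The class of a fibre of an invariant function
-/

set_option linter.unusedSectionVars false
set_option linter.style.haveILetI false

namespace Vale.Agent.P269.GenA

open P291Z Set Function Topology Filter Module Orb Holo

variable {A W : Type} [NormedRing A] [NormedAlgebra ℂ A] [NormedAddCommGroup W] [NormedSpace ℂ W]
  {act : A → W → W} {S : Set W} {Y : Type} {f : W → Y}

theorem out_eq (h : ∀ a, IsUnit a → ∀ x, f (act a x) = f x) :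
    (fun z : Quo act S => f (Quo.out z).1) = Quot.lift (fun x : S => f x.1)
      fun x _ ⟨a, h1, h2⟩ => (h a h1 x).symm.trans (congrArg f h2.symm) :=
  funext fun z => by
    conv_rhs => rw [← Quot.out_eq z]
    rfl

theorem out_mk (h : ∀ a, IsUnit a → ∀ x, f (act a x) = f x) (x : S) :
    f (Quo.out (Quo.mk act x)).1 = f x.1 := congrFun (out_eq h) _

theorem continuous_out [TopologicalSpace Y] (h : ∀ a, IsUnit a → ∀ x, f (act a x) = f x)
    (hf : Continuous f) : Continuous fun z : Quo act S => f (Quo.out z).1 := by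
  rw [out_eq h]
  exact continuous_quot_lift _ (hf.comp continuous_subtype_val)

variable {n : ℕ}

/-- the trivial action -/
def triv (n : ℕ) (_ : Empty → ℂ) (v : Fin n → ℂ) : Fin n → ℂ := v

theorem isAct_triv : IsAct (triv n) univ :=
  ⟨fun _ _ => rfl, fun _ _ _ _ _ _ => rfl, fun _ _ _ _ => trivial, fun _ _ _ _ => analyticAt_snd⟩

theorem fp_triv : Mono.FP (triv n) univ :=
  haveI := isAct_triv (n := n)
  Tq.fp_of (fun _ _ _ _ => trivial) isOpen_univ.isLocallyClosed
    (fun _ _ _ _ _ => Subsingleton.elim _ _) fun _ a _ _ _ _ _ _ _ _ k => by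
      obtain ⟨m, hm⟩ := (k.eventually_gt_atTop 0).exists
      rw [Subsingleton.elim (a m) 0, norm_zero] at hm
      exact lt_irrefl _ hm

theorem dim_triv : Tq.Dim (triv n) univ n := fun x _ => by
  have := MfdAt.univ x
  rw [finrank_fin_fun] at this
  rwa [finrank_zero_of_subsingleton, zero_add]

/-- the class of a point -/
noncomputable def pt (l : Fin n → ℂ) : Coch (Quo (triv n) univ) :=
  pull (fun z => (Quo.out z).1 - l) (tau n)

theorem isCo_pt (l : Fin n → ℂ) : IsCo {Quo.mk (triv n) ⟨l, mem_univ l⟩} n (pt l) :=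
  have c : Continuous fun z : Quo (triv n) univ => (Quo.out z).1 - l :=
    (continuous_out (f := id) (fun _ _ _ => rfl) continuous_id).sub continuous_const
  ⟨cocycle_pull c (tau_cocycle n), (tau_deg n).pull _, fun z hz => (Tq.mk_out z).symm.trans
    (congrArg _ (Subtype.ext (sub_eq_zero.1 (supp_tau n (supp_pull c _ hz)))))⟩

theorem ev_pt (l : Fin n → ℂ) : ev (Tq.fnd (triv n) univ) (pt l) = 1 := by
  haveI := isAct_triv (n := n)
  haveI := fp_triv (n := n)
  let σ : (Fin n → ℂ) → Sp (triv n) univ := fun v => Sp.of _ (l + v) trivial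
  let e : (Empty → ℂ)ˣ × (Fin n → ℂ) ≃ₜ Sp (triv n) univ :=
    { toFun := fun x => x.1 • σ x.2
      invFun := fun y => (1, y.val - l)
      left_inv := fun x => Prod.ext (Subsingleton.elim _ _) (add_sub_cancel_left l x.2)
      right_inv := fun y => Sp.ext (add_sub_cancel l y.val)
      continuous_toFun := Sp.isEmbedding_val.continuous_iff.2 (continuous_const.add continuous_snd)
      continuous_invFun := continuous_const.prodMk (Sp.continuous_val.sub continuous_const) }
  have hσ : IsSlice (Empty → ℂ)ˣ Sp.val σ :=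
    ⟨e.isLocalHomeomorph.isLocalHomeomorphOn, analyticAt_const.add analyticAt_id, fun y => y - l,
      analyticAt_id.sub analyticAt_const, .of_forall fun x => add_sub_cancel_left l x.2⟩
  have h := dim_triv.holOrb.val isQuo_sp hσ (pt l) 1 (isCo_pt l).cocycle
    ((isCo_pt l).supp.trans (singleton_subset_iff.2 (congrArg Holo.Sp.mk (Sp.ext (add_zero l).symm))))
    (by
      rw [pt, pull_pull]
      refine (show LocCo (pull id (tau n)) 1 by rw [pull_id]; exact locCo_tau).pull_congr
        (.of_forall fun v => ?_)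
      exact (congrArg (· - l) (out_mk (f := id) (fun _ _ _ => rfl) _)).trans
        (add_sub_cancel_left l v))
  rwa [← dim_triv.fnd_eq, Mono.FP.stab, Nat.cast_one, one_mul] at h

/-- **the fibre of an invariant linear function** -/
theorem gys_fib [FiniteDimensional ℂ A] [FiniteDimensional ℂ W] [IsAct act univ]
    {p : W →L[ℂ] Fin n → ℂ} (hp : ∀ a, IsUnit a → ∀ x, p (act a x) = p x) {l : Fin n → ℂ}
    {O O₀ M : Set W} [IsAct act O] [IsAct act O₀] [Nice (Quo act O)] (e₀ : O₀ ⊆ O)
    (h0 : O₀ = O ∩ p ⁻¹' {l}) (ho : Orb Aˣ (Sp act O)) (ho₀ : Orb Aˣ (Sp act O₀)) {T T'}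
    (hT : LTr act p univ l M T T') (hM : ∃ U, IsOpen U ∧ M ∩ O = M ∩ U) {N N₁ : ℕ}
    (hc : Cyc act O (M ∩ O) N) (hc₁ : Cyc act O₀ (M ∩ O₀) N₁) :
    gys (Quo.incl act e₀) (pull (fun z => p (Quo.out z).1 - l) (tau n)) (fnd act O N) =
      fnd act O₀ N₁ := by
  haveI := isAct_triv (n := n)
  haveI := fp_triv (n := n)
  haveI := nice_of_orb ho₀
  have f : Fbr act act (triv n) (ContinuousLinearEquiv.uniqueProd ℂ A (Empty → ℂ)).symm p :=
    ⟨Prod.ext (Subsingleton.elim _ _) rfl, fun _ _ => Prod.ext (Subsingleton.elim _ _) rfl,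
      fun _ _ _ => rfl, hp⟩
  have r := f.res_gys (mem_univ l) (fun _ _ => trivial) h0 ho hT dim_triv hM hc Subset.rfl
    ⟨univ, isOpen_univ, (inter_univ _).symm⟩ hc₁ (isCo_pt l) (ev_pt l)
  rw [show Quo.incl act (Subset.rfl : O₀ ⊆ O₀) = id from
    funext fun z => Quot.inductionOn z fun _ => rfl, Loc.res_id', pt, pull_pull] at r
  refine Eq.trans (congrArg₂ (fun i q => gys i (pull q (tau n)) (fnd act O N))
    (funext fun z => Quot.inductionOn z fun _ => rfl) (funext fun z => ?_)) r
  obtain ⟨x, rfl⟩ := Tq.mk_surj z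
  exact congrArg (· - l) ((out_mk hp x).trans
    (out_mk (act := triv n) (f := id) (fun _ _ _ => rfl) ⟨p x.1, mem_univ _⟩).symm)

end Vale.Agent.P269.GenA
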