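import Vale.Agent.P269.Spl.CyB
import Vale.Agent.P269.Spl.GenA0

/-!
# The class of a general fibre
-/

set_option linter.unusedSectionVars false
set_option linter.style.haveILetI false

namespace Vale.Agent.P269

open P291Z Set Function Topology Filter Module

variable {S Λ Λ₀ R J K ι ν κ α : Type} [Fintype S] [Fintype Λ] [Fintype Λ₀] [Fintype R] [Fintype J]
  [Fintype K] [Fintype ι] [DecidableEq ι] [Fintype ν] [Fintype κ]

namespace GenA

open Ch

variable {ch : Ch ι J}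

theorem actL_eq (W : Wt Empty Λ R J) (a : Empty → ℂ) (l : Λ → ℂ) : W.actL a l = l :=
  (congrArg (W.actL · l) (Subsingleton.elim a 1)).trans (W.actL_one l)

theorem inv_t (W : Wt Empty (Option Λ₀) R J) (a : ch.AF ν κ Empty) (_ : IsUnit a)
    (x : ch.WF ν κ (Option Λ₀)) : (actF W a x).1 none = x.1 none :=
  congrFun (actL_eq W a.1 x.1) none

open Classical in
/-- rescaling one field -/
noncomputable def cf (c : J) (a : ℂ) (j : J) : ℂ := if j = c then a else 1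

theorem cf_mul (c : J) {a a' : ℂ} (h : a * a' = 1) (x : ch.W ν) :
    scl (cf c a) (scl (cf c a') x) = x :=
  (scl_mul _ _ _).symm.trans ((congrArg (scl · x) (funext fun j => by
    rw [Pi.mul_apply, cf, cf]
    split_ifs
    exacts [h, one_mul _])).trans (scl_one _))

theorem an_cf {P : Type} [NormedAddCommGroup P] [NormedSpace ℂ P] (c : J) {a : P → ℂ}
    {x : P → ch.W ν} {q : P} (ha : AnalyticAt ℂ a q) (hx : AnalyticAt ℂ x q) :
    AnalyticAt ℂ (fun y => scl (cf c (a y)) (x y)) q :=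
  W.an_iff.2 ⟨fun l => (W.an_Q hx l :), fun n => (W.an_p hx n :), (W.an_Ξ hx :),
    fun j => an_smul_clm (by
      unfold cf
      split_ifs
      exacts [ha, analyticAt_const]) (W.an_X hx j)⟩

theorem bc_scl {x : ch.W (Mk ν κ)} {b c : J} {t : ℂ} (h : Bc x b c t) (hbc : b ≠ c) (a : ℂ) :
    Bc (scl (cf c a) x) b c (a * t) := by
  have e : ∀ j, Sc x j → ∀ y ∈ crv x, fld (scl (cf c a) x) y j = cf c a j * fld x y j :=
    fun j hj y hy => Cv.fld_eq (x := scl (cf c a) x) hy ((val_fld (hj y hy)).scl _)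
  have d := fun n => (h.mem.1.2.2.2.1 n).1
  refine ⟨h.mem, fun y hy => (h.scb y hy).imp' _ fun _ k => k.scl _,
    fun y hy => (h.scc y hy).imp' _ fun _ k => k.scl _, fun y hy => ?_,
    fun q => (e b h.scb _ (d _)).trans ((congrArg _ (h.mtb q)).trans (e b h.scb _ (d _)).symm),
    fun q => (e c h.scc _ (d _)).trans ((congrArg _ (h.mtc q)).trans (e c h.scc _ (d _)).symm)⟩
  rw [e b h.scb y hy, e c h.scc y hy, cf, cf, if_neg hbc, if_pos rfl, one_mul, mul_left_comm,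
    h.mul y hy]

variable (ν κ ch) in
/-- the parameter of the degeneration -/
noncomputable def pT : ch.WF ν κ (Option Empty) →L[ℂ] Fin 1 → ℂ :=
  .pi fun _ => .proj none ∘L .fst ℂ _ _

theorem par_ext {l : Option Empty → ℂ} {t : ℂ} (h : l none = t) : (fun _ => t) = l :=
  funext fun o => by
    rcases o with _ | o
    exacts [h.symm, o.elim]

variable [DecidableEq R] {F : Fam Empty (Option Empty) R J K} {r : R} {b c : J} {Ω : Set ℂ}
  {ℓ : R → ι → ℤ} {i : ι} (hc : ch.Dg F.toWt ℓ i b c) (hF : F.Deg r b c univ Ω)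
include hc hF

theorem scl_main {x : ch.WF ν κ (Option Empty)} (hx : x ∈ ch.main κ F 0) {v a : ℂ} (hv : v ∈ Ω)
    (h0 : v ≠ 0) (e : a * x.1 none = v) :
    ((fun _ => v, scl (cf c a) x.2) : ch.WF ν κ (Option Empty)) ∈ ch.main κ F 0 :=
  hc.mem_main hF ((mem_adm_deg hF).2 ⟨hF.B ▸ ⟨trivial, hv⟩,
    e ▸ bc_scl ((mem_adm_deg hF).1 hx.1).2 hF.ne a⟩) h0

/-- the main stratum is locally trivial away from the special fibre -/
theorem exists_ltr {t : ℂ} (ht : t ∈ Ω) (h0 : t ≠ 0) : ∃ T T',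
    LTr (actF F.toWt) (pT ν κ ch) univ (fun _ => t) (ch.main κ F 0) T T' := by
  have a : ∀ᶠ v : Fin 1 → ℂ in 𝓝 fun _ => t, v 0 ∈ Ω ∧ v 0 ≠ 0 :=
    (continuous_apply (0 : Fin 1)).continuousAt.tendsto.eventually (p := fun z => z ∈ Ω ∧ z ≠ 0)
      ((hF.opn.eventually_mem ht).and (eventually_ne_nhds h0))
  have p0 : ∀ q, AnalyticAt ℂ (fun y : (Fin 1 → ℂ) × ch.WF ν κ (Option Empty) => y.1 0) q :=
    fun q => analyticAt_pi_iff.1 analyticAt_fst 0
  refine ⟨fun v x => (fun _ => v 0, scl (cf c (v 0 / t)) x.2),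
    fun y => (fun _ => t, scl (cf c (t / y.1 none)) y.2),
    fun x _ => (analyticAt_pi_iff.2 fun _ => p0 _).prod
      (an_cf c ((p0 _).div analyticAt_const h0) (analyticAt_snd.comp analyticAt_snd)),
    fun x hx => analyticAt_const.prod (an_cf c (analyticAt_const.div
      (analyticAt_pi_iff.1 analyticAt_fst none) ((congrFun hx 0).trans_ne h0)) analyticAt_snd),
    fun x hx => Prod.ext (par_ext (congrFun hx 0)) ((congrArg (scl · x.2) (funext fun j => by
      rw [div_self h0, cf, ite_self, Pi.one_apply])).trans (scl_one _)),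
    a.mono fun v d x hx => ⟨funext fun j => congrArg v (Subsingleton.elim _ _),
      Prod.ext (par_ext (congrFun hx 0)) (cf_mul c ?_ _), fun _ e => scl_main hc hF e d.1 d.2 ?_,
      fun s _ => Prod.ext (actL_eq _ _ _).symm ?_⟩,
    a.mono fun v d y hy => ⟨rfl, Prod.ext (par_ext (congrFun hy 0)) (cf_mul c ?_ _),
      fun e => scl_main hc hF e ht h0 (div_mul_cancel₀ _ ((congrFun hy 0).trans_ne d.2))⟩,
    fun _ _ => trivial⟩
  · rw [div_mul_div_cancel₀ d.2, div_self h0]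
  · rw [show x.1 none = t from congrFun hx 0, div_mul_cancel₀ _ h0]
  · exact (scl_act _ _ _).trans (congrArg (act (dup s.2)) ((scl_mul _ _ _).symm.trans
      ((congrArg (scl · x.2) (mul_comm _ _)).trans (scl_mul _ _ _))))
  · rw [show y.1 none = v 0 from congrFun hy 0, div_mul_div_cancel₀ h0, div_self d.2]

end GenA

namespace Fam.DgO

variable [DecidableEq R] {k D : ℕ} {g : ℤ} {d : R → ℤ} {n₀ n : ℕ}
  {F : Fam Empty (Option Empty) R J K} {i : R} {b c : J} {Ω : Set ℂ} {K₀ : Set K} {t : ℂ}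
  {O : Set ((F.sch ν κ k D g d).WF ν κ (Option Empty))} (h : F.DgO i b c univ Ω k K₀ n₀ O)
include h

theorem continuous_t :
    Continuous fun z : Quo (Ch.actF F.toWt) (F.YT O) => (Quo.out z).1.1 none :=
  have _ := h
  GenA.continuous_out (GenA.inv_t F.toWt)
    ((continuous_apply none).comp continuous_fst)

theorem isCo_θt (t : ℂ) : IsCo (Quo.part _ _ (Ch.tAt t)) 1 (Ch.θt F.toWt (F.YT O) t) :=
  have a : Continuous fun (z : Quo (Ch.actF F.toWt) (F.YT O)) (_ : Fin 1) =>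
      (Quo.out z).1.1 none - t := continuous_pi fun _ => h.continuous_t.sub continuous_const
  ⟨cocycle_pull a (tau_cocycle 1), (tau_deg 1).pull _, fun _ hz =>
    sub_eq_zero.1 (congrFun (supp_tau 1 (supp_pull a _ hz)) 0)⟩

theorem cut0_θt : F.Cut0 b c univ (Ch.θt F.toWt (F.YT O) 0) fun _ => True := by
  refine ⟨(h.isCo_θt 0).cocycle, (h.isCo_θt 0).deg, (h.isCo_θt 0).supp, fun τ _ x _ =>
    ⟨0, .of_forall fun y => ⟨?_, fun a => by rw [supp_zero] at a; exact a.elim⟩⟩,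
    fun τ a => absurd trivial a⟩
  rw [map_zero, sub_zero, Ch.θt, pull_pull, sub_eq_zero.2]
  · exact zero_mem _
  · exact congrArg (pull · (tau 1)) (funext fun z => funext fun _ => (sub_zero _).trans
      (GenA.out_mk (f := fun x : (F.sch ν κ k D g d).WF ν κ _ => x.1 none) (GenA.inv_t F.toWt) z))

theorem gys_fib (hn : (n : ℤ) = F.dO ν κ k n₀ D g d) (ht : t ∈ Ω) (h0 : t ≠ 0) :
    haveI := h.dom.nice
    gys (Quo.incl _ (inter_subset_left : F.YT O ∩ Ch.tAt t ⊆ _)) (Ch.θt F.toWt _ t)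
      ((h.vd hn).dom.fnd (n + 1)) = (h.vdF hn ht h0 (Subsingleton.elim _ _)).dom.fnd n := by
  have v := h.vd hn
  have v' := h.vdF hn ht h0 (Subsingleton.elim _ _)
  haveI := h.dom.nice
  haveI := v.dom.isAct
  haveI : Holo.IsAct (Ch.actF F.toWt) (F.YT O ∩ Ch.tAt t) := v'.dom.isAct
  have c' : (F.sch ν κ k D g d).Dg F.toWt ℓs (some i) b c := h.dg h.bd
  obtain ⟨T, T', hT⟩ := GenA.exists_ltr (ν := ν) (κ := κ) c' h.dgn ht h0
  obtain ⟨V, hV, eV⟩ := h.ok.toStd.dom_open (ν := ν) (κ := κ)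
  have a : F.cutO (Ch.main _ κ F 0) O = Ch.main _ κ F 0 ∩ F.YT O :=
    Set.ext fun _ => ⟨fun a => ⟨a.1.1, ⟨⟨subset_closure a.1.1, a.1.1.1.1⟩, a.1.2⟩, a.2⟩,
      fun a => ⟨⟨a.1, a.2.1.2⟩, a.2.2⟩⟩
  have a' : F.YT O ∩ Ch.tAt t = Ch.main _ κ F 0 ∩ (F.YT O ∩ Ch.tAt t) :=
    (inter_eq_right.2 fun x hx => c'.mem_main h.dgn hx.1.2.1
      ((show x.1 none = t from hx.2).trans_ne h0)).symm
  have e₀ : F.YT O ∩ Ch.tAt t = F.YT O ∩ GenA.pT ν κ (F.sch ν κ k D g d) ⁻¹' {fun _ => t} :=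
    congrArg _ (Set.ext fun x => ⟨fun e => funext fun _ => e, fun e => congrFun e 0⟩)
  have e₁ : Ch.main _ κ F 0 ∩ F.YT O = Ch.main _ κ F 0 ∩ (O ∩ V) := by
    rw [← a, cutO, eV]
    exact Set.ext fun _ => ⟨fun a => ⟨a.1.1, a.1.2, a.2.2⟩, fun a => ⟨⟨a.1, a.2.1⟩, a.1.1, a.2.2⟩⟩
  have c₁ : Cyc (Ch.actF F.toWt) (F.YT O ∩ Ch.tAt t)
      (Ch.main _ κ F 0 ∩ (F.YT O ∩ Ch.tAt t)) n := by
    rw [← a']
    exact v'.cyc
  exact GenA.gys_fib (act := Ch.actF F.toWt) (p := GenA.pT ν κ (F.sch ν κ k D g d))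
    (fun s hs x => funext fun _ => GenA.inv_t F.toWt s hs x) inter_subset_left e₀
    v.dom.orb v'.dom.orb hT ⟨_, h.ok.pr.opn.inter hV, e₁⟩ (a ▸ v.cyc) c₁

end Fam.DgO

end Vale.Agent.P269
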