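import Vale.Agent.P269.Spl.Core
import Vale.Agent.P269.Spl.GenA

/-!
# Specialisation of the virtual class of a general fibre
-/

set_option linter.unusedSectionVars false

namespace Vale.Agent.P269

open P291Z Set Function Topology Filter Module

variable {S Λ Λ₀ R J K ι ν κ α : Type} [Fintype S] [Fintype Λ] [Fintype Λ₀] [Fintype R] [Fintype J]
  [Fintype K] [Fintype ι] [DecidableEq ι] [Fintype ν] [Fintype κ]

namespace GenP

theorem actL_eq (W : Wt Empty Λ R J) (τ : Empty → ℂ) (l : Λ → ℂ) : W.actL τ l = l := by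
  rw [Subsingleton.elim τ 1, W.actL_one]

variable {ch : Ch ι J} {W : Wt Empty Λ R J} {Z Y : Set (ch.WF ν κ Λ)}

theorem out_mk (x : Z) : (Quo.out (Quo.mk (Ch.actF W) x)).1.1 = x.1.1 := by
  have a : ∀ x y : Z, Relation.EqvGen (fun x y : Z => ∃ a, IsUnit a ∧ y.1 = Ch.actF W a x.1) x y →
      x.1.1 = y.1.1 := fun x y e => by
    induction e with
    | rel x y e =>
      obtain ⟨a, -, e⟩ := e
      rw [e]
      exact (actL_eq W _ _).symm
    | refl => rfl
    | symm _ _ _ e => exact e.symm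
    | trans _ _ _ _ _ e e' => exact e.trans e'
  exact a _ _ (Quot.eqvGen_exact (Quot.out_eq _))

theorem out_incl (e : Z ⊆ Y) (z : Quo (Ch.actF W) Z) :
    (Quo.out (Quo.incl _ e z)).1.1 = (Quo.out z).1.1 := by
  obtain ⟨x, rfl⟩ := Quot.exists_rep z
  exact (out_mk (W := W) (inclusion e x)).trans (out_mk (W := W) x).symm

theorem continuous_incl {A V : Type} [NormedRing A] [NormedAddCommGroup V] (act : A → V → V)
    {Z Y : Set V} (e : Z ⊆ Y) : Continuous (Quo.incl act e) :=
  continuous_quot_lift _ (continuous_quot_mk.comp (continuous_inclusion e))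

theorem ev_empty {X : Type} [TopologicalSpace X] (β : BM X) {a : Coch X} (h : supp a = ∅) :
    ev β a = 0 := by
  rw [ev_eq, cls_of_mem_Bc ⟨0, by rw [supp_zero]; exact isCompact_empty, by rwa [map_zero, sub_zero]⟩, map_zero]

end GenP

open GenP

namespace Fam.DgO

variable [DecidableEq R] {k D : ℕ} {g : ℤ} {d : R → ℤ} {n₀ n : ℕ}
  {F : Fam Empty (Option Empty) R J K} {i : R} {b c : J} {Ω : Set ℂ} {K₀ : Set K} {t : ℂ}
  {O : Set ((F.sch ν κ k D g d).WF ν κ (Option Empty))} (h : F.DgO i b c univ Ω k K₀ n₀ O)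
  (ht : t ∈ Ω) {fs : List (Fac F.toWt ν κ)} (hf : F.Fs 0 fs)
include h

/-- the diagonal locus over a compact set of parameters -/
theorem isCompact_ovr {C : Set ℂ} (hC : IsCompact C) (e : C ⊆ Ω) :
    IsCompact (Ch.dia F.toWt (F.Zs κ k D g d (0 : ν → J → ℕ)) ∩
      {z | (Quo.out z).1.1 none ∈ C}) := by
  have a : IsCompact {l : Option Empty → ℂ | l none ∈ C} := by
    rw [show {l : Option Empty → ℂ | l none ∈ C} = (fun z _ => z) '' C from Subset.antisymm
      (fun l hl => ⟨l none, hl, funext fun o => by rcases o with _ | o; exacts [rfl, o.elim]⟩)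
      (image_subset_iff.2 fun _ hl => hl)]
    exact hC.image (by fun_prop)
  have := isCompact_iff_compactSpace.1 a
  exact h.toGood.isCompact_lev h.big h.bd (Ch.lev_cyc h.toInv h.ok.cuts 0)
    (fun _ a => ⟨closure_minimal inter_subset_left isClosed_closure a.1, a.2⟩)
    (B' := {l | l none ∈ C}) (fun l hl => h.dgn.B ▸ ⟨trivial, e hl⟩)
    (fun τ _ l hl => (actL_eq F.toWt τ l).symm ▸ hl) Quot.compactSpace

include ht hf

theorem ev_fib (h0 : t ≠ 0) : ev (F.vir κ k D g d 0)
    (pull (Quo.incl _ h.dom.sub) (Ch.θt F.toWt _ t) * (fs.map (F.coch _)).prod) =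
      (F.sub (slab univ t) ∅).intM k D g d 0 fs := by
  have hw : F.wl none = 0 := Subsingleton.elim _ _
  rw [intM_eq (F := F.sub (slab univ t) ∅) h.bd]
  rcases lt_or_ge (F.dO ν κ k n₀ D g d) 0 with hn | hn
  · have e := h.emptyF ht h0 hw hn
    have : IsEmpty ((F.sub (slab univ t) ∅).Mod κ k D g d (0 : ν → J → ℕ)) :=
      ⟨Quot.ind fun x => by
        have a := (h.cyc_fib ht h0).subset x.2.2
        have b := (Ch.solF_sub (h.dgn.slab_sub ht) h.dgn.zer).subset x.2.1
        exact e.subset ⟨h.dom.sub ⟨b.1, a.1⟩, a.2⟩⟩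
    rw [Orb.BM_eq_of_isEmpty ((F.sub (slab univ t) ∅).vir κ k D g d 0) 0, ev_zero]
    refine ev_empty _ (supp_mul_eq_empty_left (subset_empty_iff.1 fun z hz => ?_) _)
    exact e.subset ⟨(Quo.out _).2, (h.isCo_θt t).supp (supp_pull (continuous_incl _ h.dom.sub) _ hz)⟩
  · have hn' : ((F.dO ν κ k n₀ D g d).toNat : ℤ) = _ := Int.toNat_of_nonneg hn
    have a := (h.vd hn').ev_gys h.ok.toStd h.toGood
      (h.dgn.good h.toGood ht (.inr hw) (empty_subset _)) (h.dgn.slab_sub ht) (h.dgn.zer_sub ∅)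
      (inter_subset_left : F.YT O ∩ Ch.tAt t ⊆ _)
      ⟨Ch.tAt t, isClosed_eq ((continuous_apply none).comp continuous_fst) continuous_const, rfl⟩
      (fun a ha x hx => ⟨h.dom.isAct.mem a ha x hx.1,
        (congrFun (actL_eq F.toWt a.1 x.1) none).trans hx.2⟩)
      ⟨(h.isCo_θt t).cocycle, (h.isCo_θt t).deg, fun z hz => ⟨(Quo.out z).2, (h.isCo_θt t).supp hz⟩⟩
      (Finset.univ : Finset Unit) (fun _ => 1)
      (fun _ => h.vdF hn' ht h0 hw) (fun _ => Subset.rfl)
      (fun _ => ⟨univ, isClosed_univ, (inter_univ _).symm⟩) (by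
        have := (h.vdF hn' ht h0 hw).dom.nice
        rw [Fintype.sum_unique, one_smul, h.gys_fib hn' ht h0,
          show Quo.incl (Ch.actF F.toWt) (Subset.rfl : F.YT O ∩ Ch.tAt t ⊆ _) = id from
            funext (Quot.ind fun _ => rfl), push_id'])
      (fun f e => (hf.1 f e).1) hf.2
      (by
        convert h.isCompact_ovr isCompact_singleton (singleton_subset_iff.2 ht) using 2
        exact Set.ext fun z => ⟨fun e => e.2, fun e => ⟨h.dom.sub (Quo.out z).2, e⟩⟩)
    rwa [Fintype.sum_unique, one_mul] at a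

theorem ev_θt : ev (F.vir κ k D g d 0)
    (pull (Quo.incl _ h.dom.sub) (Ch.θt F.toWt _ t) * (fs.map (F.coch _)).prod) =
      ev (F.vir κ k D g d 0)
        (pull (Quo.incl _ h.dom.sub) (Ch.θt F.toWt _ 0) * (fs.map (F.coch _)).prod) := by
  have c := continuous_incl (Ch.actF F.toWt) h.dom.sub
  have a := h.isCo_θt 0
  rw [ev_eq, ev_eq]
  exact congrArg _ (h.gz.cls_congr (St.dg F K₀ h.toGood h.reg).1
    (fun f e => Ch.at_of_ok0 inter_subset_left (hf.1 f e).1) (Fam.forall₂_refl fs) hf.2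
    (cocycle_pull c a.cocycle)
    (fun z hz => (a.supp (supp_pull c _ hz)).symm ▸ left_mem_segment ℝ 0 t)
    ((cohom_tau_sub h.continuous_t t).pull c) (by
      simp only [preimage, mem_ofPred_eq, out_incl]
      exact h.isCompact_ovr (C := segment ℝ 0 t) (by
        rw [segment_eq_image]; exact isCompact_Icc.image (by fun_prop))
        (h.dgn.cvx.segment_subset h.dgn.zero ht))).2.2.symm

end Fam.DgO

theorem St.spc1 : St.Spc1 := by
  intro R J K ν κ _ _ _ _ _ _ _ _ F i b c Ω k K₀ n₀ t g β fs h ht h0 hf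
  filter_upwards [h.eventually_set ν κ g β] with A hA
  filter_upwards [F.eventually_bigD k] with D hD
  obtain ⟨O, hO⟩ := h.exists_dgO (ν := ν) (κ := κ) hD g β
  rw [← hO.ev_fib ht hf h0, hO.ev_θt ht hf, hO.core (hA D hD) hO.cut0_θt hf, Finset.filter_true]

end Vale.Agent.P269
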