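import Vale.Agent.P269.Spl.Ty2
import Vale.Agent.P269.Spl.DictA
import Vale.Agent.P269.Pt.Split

/-!
# Split maps are pairs of relative maps
-/

set_option linter.unusedSectionVars false

namespace Vale.Agent.P269

open P291Z Set Function Topology Filter Module

variable {S Λ Λ₀ R J K ι ν κ α : Type} [Fintype S] [Fintype Λ] [Fintype Λ₀] [Fintype R] [Fintype J]
  [Fintype K] [Fintype ι] [DecidableEq ι] [Fintype ν] [Fintype κ]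

variable {F : Fam S Λ R J K} {b c : J} {ν₁ ν₂ κ₁ κ₂ : Type} [Fintype ν₁] [Fintype ν₂] [Fintype κ₁]
  [Fintype κ₂] {ψ : κ₁ ⊕ κ₂ ≃ κ}

namespace TyB

open Cv AM

theorem nsymm (hN : F.Nodal b c) : F.Nodal c b :=
  ⟨hN.ne.symm, hN.mov.trans (congrArg _ (pair_comm _ _)), hN.zer,
    fun l h y => (hN.E l h y).trans (by rw [mul_comm])⟩

theorem main_iff (hN : F.Nodal b c) {m : AM Λ R J ν κ} {u : ν → J → ℕ} :
    m.Main (F.sub F.B {c}) u ↔ (m.Mt (m.y b) ∧ m.Mt (m.y c)) ∧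
      (∀ n, (bz m.L (F.w b)).ord (m.y b) (m.p (.inl n)) = u n b) ∧
        ∀ z, (∀ n, z ≠ m.p (.inl n)) → m.y b z ≠ 0 := by
  have k : ∀ j, j ∉ F.mov ↔ j = b ∨ j = c := fun j => by rw [hN.mov]; exact not_not
  refine ⟨fun h => ⟨⟨h.1 b ((k b).2 (.inl rfl)), h.1 c ((k c).2 (.inr rfl))⟩,
    h.2 b ((k b).2 (.inl rfl)) hN.ne⟩, fun h => ⟨fun j a => ?_, fun j a e => ?_⟩⟩
  · obtain rfl | rfl := (k j).1 a
    exacts [h.1.1, h.1.2]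
  · obtain rfl := ((k j).1 a).resolve_right e
    exact h.2

variable {m : AM Λ R J ν κ} {m₁ : AM Λ R J ν₁ κ₁} {φ' : ν₁ → ν} {ψ' : κ₁ → κ} {j : m₁.X → m.X}
  {U : Ch.Mk ν κ → ℤ} {u : ν₁ → ℕ} {w : R → ℤ}

theorem main_side [DecidableEq J] (hN : F.Nodal b c) (hw : F.w b = w) (h : m.Nb w b c)
    (hs : m.Spl w b c U) (e : Emb m₁ m φ' ψ' j) (hr : range j = m.sb b) (hU : ∀ q, U (.inr q) = 0)
    (hu : ∀ n, U (.inl (φ' n)) = u n) : (∀ i ∈ ({c} : Set J), m₁.y i = 0) ∧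
      m₁.Main (F.sub F.B {c}) fun a => u a • Pi.single b 1 := by
  have k : ∀ x, j x ∈ m.sb b := fun x => hr.le (mem_range_self x)
  refine ⟨fun i (a : i = c) => funext fun x => (e.y i x).trans (a ▸ h.eq_zero.1 (k x)),
    (main_iff hN).2 ⟨⟨e.y_eq b ▸ e.mt h.mtb, e.y_eq c ▸ e.mt h.mtc⟩, fun n => ?_, fun z a => ?_⟩⟩
  · rw [e.ord, e.mark_inl, hw, (hs.ord_b h (e.mark_inl n ▸ k _)).2, hu]
    simp
  · rw [e.y]
    by_cases d : m.Um (j z)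
    · obtain ⟨B, l⟩ := hs.1
      exact l.b_ne h (k z) d
    · obtain ⟨n | q, d⟩ := not_um d
      · obtain ⟨n', -, f⟩ := e.eq_inl d
        exact (a n' f).elim
      · exact d ▸ (hs.b_ne h (hU q)).2 (d ▸ k z)

theorem of_main [DecidableEq J] (hN : F.Nodal b c) (hw : F.w b = w) (h : m.Nb w b c)
    (e : Emb m₁ m φ' ψ' j) (hU : ∀ q, U (.inr q) = 0) (hu : ∀ n, U (.inl (φ' n)) = u n)
    (hM : m₁.Main (F.sub F.B {c}) fun a => u a • Pi.single b 1) :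
    (∀ k, m.p k ∈ range j → 0 ≤ U k ∧ (bz m.L w).ord (m.y b) (m.p k) = (U k).toNat) ∧
      ∀ z ∈ range j, m.Um z → m.y b z ≠ 0 := by
  obtain ⟨-, a1, a2⟩ := (main_iff hN).1 hM
  refine ⟨fun k a => ?_, ?_⟩
  · obtain ⟨n | ⟨q, s⟩, rfl⟩ := e.all k a
    · have := a1 n
      rw [e.ord, e.mark_inl, hw] at this
      rw [Sum.map_inl, hu, this]
      simp
    · rw [Sum.map_inr, hU]
      refine ⟨le_rfl, (LB.ord_eq_zero (h.b_mem.1 _)).2 ?_⟩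
      exact ((e.y b _).trans (congrArg _ (e.mark_inr q s))).symm.trans_ne
        (a2 _ fun n f => Sum.inr_ne_inl (m₁.inj f))
  · rintro _ ⟨x, rfl⟩ a
    exact e.y b x ▸ a2 x fun n f => a _ (f ▸ e.mark_inl n)

theorem card_eq {φ : ν₁ ⊕ ν₂ ≃ ν} {s : ν → Bool} (h : Sid φ s) :
    {n | s n = true}.ncard = Fintype.card ν₂ := by
  rw [← Nat.card_eq_fintype_card, ← ncard_range_of_injective (φ.injective.comp Sum.inr_injective)]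
  refine congrArg _ (Set.ext fun n => ⟨fun a => ?_, fun ⟨x, a⟩ => a ▸ h.2 x⟩)
  obtain ⟨x | x, rfl⟩ := φ.surjective n
  exacts [Bool.noConfusion ((h.1 x).symm.trans a), ⟨x, rfl⟩]

theorem typ_iff {τ : STy R (ν ⊕ κ)} {φ : ν₁ ⊕ ν₂ ≃ ν} (hφ : Sid φ fun n => τ.s (.inl n))
    {m : AM Λ R J (ν ⊕ Fin τ.r × Bool) κ} {m₂ : AM Λ R J (ν₂ ⊕ Fin τ.r) κ₂} {φ' ψ'}
    {j : m₂.X → m.X} (e : Emb m₂ m φ' ψ' j) : m₂.Typ (τ.j + 1 - Fintype.card κ₂) τ.d ↔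
      degOn m.ω (range j) = τ.a ∧ ∀ r, degOn (m.L r) (range j) = τ.d r := by
  refine and_congr ?_ (by simp only [e.deg_eq])
  rw [← image_univ, ← e.degOn_ω isClopen_univ, degOn_univ, AC.deg_ω, STy.a, card_eq hφ]
  simp only [Fintype.card_sum, Fintype.card_prod, Fintype.card_fin, Fintype.card_bool]
  push_cast
  omega

end TyB

open TyB

theorem AM.Pr2.eq (hN : F.Nodal b c) {φ : ν₁ ⊕ ν₂ ≃ ν} {m : AM Λ R J ν κ} {u₁ u₂ g d} {U : Set m.X}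
    (h : m.Pr2 (F.sub F.B {b}) (F.sub F.B {c}) φ ψ u₁ u₂ g d U) : U = (m.sb b)ᶜ := by
  obtain ⟨m₁, m₂, j₁, j₂, h, rfl, -, a1, -, -, a2⟩ := h
  refine h.compl.symm.compl_eq.symm.trans (congrArg _ (Subset.antisymm ?_
    (closure_minimal (fun z a => ?_) h.two.liso.isClopen_range.isClosed)))
  · rintro _ ⟨x, rfl⟩
    have := m₂.R.neBot x
    exact map_mem_closure h.two.liso.cont (mem_closure_iff_frequently.2
      ((AM.ev_um x).frequently.filter_mono nhdsWithin_le_nhds)) fun y (a : m₂.Um y) =>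
        (h.two.y b y).symm.trans_ne (((main_iff hN).1 a2).2.2 y fun n => a _)
  · obtain ⟨x, rfl⟩ | ⟨x, rfl⟩ := h.cases z
    exacts [(a ((h.one.y b x).symm.trans (congrFun (a1 b rfl) x))).elim, mem_range_self x]

theorem STy.P_iff [DecidableEq J] (hN : F.Nodal b c) (hc : F.w c = -F.w b) {τ : STy R (ν ⊕ κ)}
    {φ : ν₁ ⊕ ν₂ ≃ ν} (hφ : Sid φ fun n => τ.s (.inl n)) (hψ : Sid ψ fun q => τ.s (.inr q))
    {m : AM Λ R J (ν ⊕ Fin τ.r × Bool) κ}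
    (hm : ∀ j ∉ F.mov, m.y j ∈ Cv.H0 m.N (Cv.bz m.L (F.w j))) :
    τ.P (F.w b) b c m ↔ ∃ U, m.Pr2 (F.sub F.B {b}) (F.sub F.B {c}) (mixE φ _) ψ
      (fun a => Sum.elim (0 : ν₁ → ℕ) τ.u a • Pi.single c 1)
      (fun a => Sum.elim (0 : ν₂ → ℕ) τ.u a • Pi.single b 1)
      (τ.j + 1 - Fintype.card κ₂) τ.d U := by
  have u0 : ∀ q, (extU 0 τ.u ∘ Ch.unp ν κ _) (.inr q) = 0 := fun _ => rfl
  have u0' : ∀ q, (-(extU 0 τ.u ∘ Ch.unp ν κ _)) (.inr q) = 0 := fun _ => neg_zero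
  have u1 : ∀ n, (-(extU 0 τ.u ∘ Ch.unp ν κ _)) (.inl (mixE φ _ (.inl n))) =
      (Sum.elim (0 : ν₁ → ℕ) τ.u n : ℕ) := by
    rintro (_ | _)
    exacts [neg_zero, neg_neg (_ : ℤ)]
  have u2 : ∀ n, (extU 0 τ.u ∘ Ch.unp ν κ _) (.inl (mixE φ _ (.inr n))) =
      (Sum.elim (0 : ν₂ → ℕ) τ.u n : ℕ) := by rintro (_ | _) <;> rfl
  have t1 : ∀ n : Ch.Mk (ν₁ ⊕ Fin τ.r) κ₁, n.map (fun a => mixE φ _ (.inl a))
      (Prod.map (fun q => ψ (.inl q)) id) ∉ Ch.unp ν κ _ ⁻¹' extT _ τ.T := by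
    rintro ((n | e) | ⟨q, s⟩) a
    exacts [Bool.noConfusion ((hφ.1 n).symm.trans a), Bool.noConfusion a,
      Bool.noConfusion ((hψ.1 q).symm.trans a)]
  have t2 : ∀ n : Ch.Mk (ν₂ ⊕ Fin τ.r) κ₂, n.map (fun a => mixE φ _ (.inr a))
      (Prod.map (fun q => ψ (.inr q)) id) ∈ Ch.unp ν κ _ ⁻¹' extT _ τ.T := by
    rintro ((n | e) | ⟨q, s⟩)
    exacts [hφ.2 n, rfl, hψ.2 q]
  refine ⟨fun ⟨h, hs, a1, a2, a3⟩ => ?_, fun ⟨_, m₁, m₂, j₁, j₂, h, _, a, z₁, a₁, z₂, a₂⟩ => ?_⟩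
  · obtain ⟨m₁, m₂, j₁, j₂, k, r₁⟩ := AM.exists_split (U := (m.sb b)ᶜ) ⟨h.clopen.compl,
      fun x hx y e hy => hx ((hs.sat h).2 y hy x e.symm)⟩ (mixE φ _) ψ
      (fun n a => t1 n ((a3 _).1 a)) fun n a => a ((a3 _).2 (t2 n))
    have r₂ : range j₂ = m.sb b := by rw [← k.compl.compl_eq, r₁, compl_compl]
    have c₁ := main_side (nsymm hN) hc h.symm hs.symm k.one (r₁.trans (hs.sb_c h).symm) u0' u1
    have c₂ := main_side hN rfl h hs k.two r₂ u0 u2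
    exact ⟨_, m₁, m₂, j₁, j₂, k, rfl, (typ_iff hφ k.two).2 (r₂.symm ▸ ⟨a1, a2⟩), c₁.1, c₁.2, c₂.1,
      c₂.2⟩
  · have b₁ := ((main_iff (nsymm hN)).1 a₁).1
    have b₂ := ((main_iff hN).1 a₂).1
    have n : m.Nb (F.w b) b c :=
      ⟨hm b (hN.mov ▸ not_not.2 (.inl rfl)), hc ▸ hm c (hN.mov ▸ not_not.2 (.inr rfl)),
        h.forall_iff.2 ⟨fun x => by rw [← h.one.y, z₁ b rfl, Pi.zero_apply, zero_mul],
          fun x => by rw [← h.two.y c, z₂ c rfl, Pi.zero_apply, mul_zero]⟩,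
        h.mt.2 ⟨h.one.y_eq b ▸ b₁.2, h.two.y_eq b ▸ b₂.1⟩,
        h.mt.2 ⟨h.one.y_eq c ▸ b₁.1, h.two.y_eq c ▸ b₂.2⟩⟩
    have c₁ := of_main (nsymm hN) hc n.symm h.one u0' u1 a₁
    have c₂ := of_main hN rfl n h.two u0 u2 a₂
    rw [← h.compl.symm.compl_eq] at c₁
    obtain ⟨s, e⟩ := AM.spl_of n h.two.sat_range c₂.1
      (fun k a => (c₁.1 k a).imp_left neg_nonneg.1) c₂.2 c₁.2
    refine ⟨n, s, e ▸ ((typ_iff hφ h.two).1 a).1, e ▸ ((typ_iff hφ h.two).1 a).2, fun k => ?_⟩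
    rw [e]
    obtain ⟨k, rfl⟩ | ⟨k, rfl⟩ := mk_cases (mixE φ _) ψ k
    · exact iff_of_false (fun ⟨x, a⟩ => h.ne _ x ((h.one.mark k).trans a.symm)) (t1 k)
    · exact iff_of_true ⟨_, h.two.mark k⟩ (t2 k)

end Vale.Agent.P269
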