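import Vale.Agent.P269.Spl.Trm0
import Vale.Agent.P269.Spl.AlgA
import Vale.Agent.P269.Spl.AlgC
import Vale.Agent.P269.Spl.TyB
import Vale.Agent.P269.Spl.CyA
import Vale.Agent.P269.Bas.Num
import Vale.Agent.P269.Bas.Rel
import Vale.Agent.P269.Bas.SpA

/-!
# The contribution of one type
-/

set_option linter.unusedSectionVars false

namespace Vale.Agent.P269

open P291Z Set Function Topology Filter Fock

namespace Trm

section gen

variable {S Λ R J K ν κ V : Type} [Fintype S] [Fintype Λ] [Fintype R] [Fintype J] [Fintype K]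
  [Fintype ν] [Fintype κ] [DecidableEq R] [AddCommGroup V] [Module ℂ V] {F : Fam S Λ R J K}
  {k : ℕ} {δ : J → ℕ} {A A' : Set ((Λ → ℂ) × (J → ℂ))} {D : Deg.Dv} {p : Fock.Par ℂ V}
  {w : V →ₗ[ℂ] H (F.X A)} {i : D.H →ₗ[ℂ] H (F.X A')} {a b r : ℕ}

theorem fs_fsL (hA : F.cone ⊆ A) (L₁ : List (ν × ℕ × H (F.X A))) {L₂ : List (κ × ℕ × ℕ)}
    (h : LG.Enum L₂) : F.Fs 0 (F.fsL A L₁ L₂) := by
  refine ⟨fun f hf => ?_, fun q => List.mem_append_right _ (dg_mem_nd h q)⟩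
  rcases List.mem_append.1 hf with a | a
  · obtain ⟨x, -, a⟩ := List.mem_flatMap.1 a
    rcases List.mem_append.1 a with a | a
    · rw [List.eq_of_mem_replicate a]
      exact ⟨trivial, trivial⟩
    · rw [List.mem_singleton.1 a]
      exact ⟨fun _ e => hA e.1, trivial⟩
  · rcases mem_nd a with ⟨_, rfl⟩ | ⟨_, rfl⟩ <;> exact ⟨trivial, trivial⟩

variable (hA : F.cone ⊆ A) (hA' : F.dvs δ ⊆ A') (v : Fin a → ℕ × V) (n : Fin b → ℕ × ℕ)
  (μ : Fin r → ℕ) (x : Fin r → D.H)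
include hA hA'

theorem fs_prt :
    F.Fs (fun m => Sum.elim (0 : Fin a → ℕ) (fun e => μ e + 1) m • δ) (prt w i v n μ x) :=
  ⟨fun f hf => ⟨Fam.ok_fsC (e := F.ex0) (subset_univ _) hA hA' f (.tail _ (.tail _ hf)),
    mem_prt w i v n μ x hf⟩, fun q => ((List.mem_cons.1 (Fam.dg_mem_fsC (e := F.ex0) q)).resolve_left
      nofun |> List.mem_cons.1).resolve_left nofun⟩

theorem ser_prt (hW : St.Well) (h : F.Nice δ) (hc : F.Cp) (hk : F.Big k) (hw : IsEv p (parH _) w)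
    (hi : IsEv D.p (parH _) i) {c : H (F.Bs F.B)} (he : c ∈ Ch.Hev _) (d : R → ℤ) (j : ℤ) :
    ∀ᶠ E in atTop, F.intM k E (j + 1 - b) d
      (fun m => Sum.elim (0 : Fin a → ℕ) (fun e => μ e + 1) m • δ) (.par _ c :: prt w i v n μ x) =
      F.serR k (F.exB c) p w δ D i d j (monR p D (.ofFn v) (.ofFn n) (.ofFn fun e => (μ e, x e))) := by
  rw [(St.spec (St.cor hW (St.rel St.dg)) F δ k (F.exB c) p w h hc hk
    (St.selC F k 1 _ c h.toGood hk Subset.rfl he).1 hA hw).2 D i hA' hi, List.map_ofFn,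
    List.map_ofFn, F.cor_ofFn]
  filter_upwards [Fam.corF_exB h hc hk hA hA' hW Subset.rfl he d j (Prod.map id w ∘ v) n
    (Prod.map id i ∘ fun e => (μ e, x e))] with E e
  rw [e]
  rfl

end gen

variable {S Λ₀ R J K ν κ V : Type} [Fintype S] [Fintype Λ₀] [Fintype R] [Fintype J] [Fintype K]
  [Fintype ν] [Fintype κ] [DecidableEq R] [DecidableEq J] [AddCommGroup V] [Module ℂ V]
  {F : Fam S (Option Λ₀) R J K} {i : R} {b c : J} {B₀ : Set (Λ₀ → ℂ)} {Ω : Set ℂ} {k : ℕ}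
  {K₀ : Set K} {n₀ : ℕ} (h : F.DgS i b c B₀ Ω k K₀ n₀)
include h

theorem cone_le (Z : Set J) : (F.sub (slab B₀ 0) Z).cone ⊆ F.cone :=
  Fam.cone_sub h.slab_sub (h.dgn.zer_sub Z)

theorem dvs_le {Z : Set J} {a : J} (hZ : ∀ j ∈ ({b, c} : Set J), j ∈ Z ∨ j = a) :
    (F.sub (slab B₀ 0) Z).dvs (Pi.single a 1) ⊆ (F.sub (slab B₀ 0) {b, c}).cone := fun _ e =>
  (Fam.mem_cone_sub h.slab_sub (h.dgn.zer_sub _)).2 ⟨cone_le h Z e.1, e.1.1, fun j q =>
    (hZ j q).elim (e.1.2.1.2.2 j) fun d => e.2 j (by rw [d, Pi.single_eq_same]; exact one_ne_zero)⟩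

theorem mov_eq : ({b, c} : Set J) = F.movᶜ := by rw [h.dgn.mov, compl_compl]

variable {D : Deg.Dv} {i' : D.H →ₗ[ℂ] H (F.X (F.sub (slab B₀ 0) {b, c}).cone)} {p : Fock.Par ℂ V}
  {w : V →ₗ[ℂ] H (F.X F.cone)} {τ : STy R (ν ⊕ κ)} {E : ℕ} (hE : F.BigD k E) (g : ℤ) (β : R → ℤ)
include hE

theorem vl_sp (a : (ν × ℕ) ⊕ Fin τ.r × Bool) :
    ∀ x ∈ (F.sp0 B₀).ZP k E g β (τ.P (F.w b) b c), Ch.vl x (.inl (a.map Prod.fst id)) ∈
      sp F.cone (F.sub (slab B₀ 0) {b, c}).cone a := by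
  rcases a with a | a
  · exact fun x hx => cone_le h ∅ (Ch.vl_mem hx.1 _)
  · exact (h.sg.gzQ (g := g) (d := β) hE h.ivtP).cuts.vl_clP h.sg.toInv
      (mov_eq h ▸ disjoint_compl_left) (empty_subset _)
      fun m e j q => q.elim (· ▸ (e.van a).1) fun q : j = c => q ▸ (e.van a).2

theorem at_nd (L₂ : List (κ × ℕ × ℕ)) :
    ∀ f ∈ nd F.toWt _ L₂, f.At ((F.sp0 B₀).ZP k E g β (τ.P (F.w b) b c)) := fun f e => by
  rcases mem_nd e with ⟨_, rfl⟩ | ⟨_, rfl⟩ <;> trivial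

theorem intQ_eqv {L₂ : List (κ × ℕ × ℕ)} (h₂ : LG.Enum L₂) {L fs}
    (e : Eqv (ins κ w i' L ++ nd F.toWt _ L₂) fs) :
    (F.sp0 B₀).intQ k E g β (τ.P (F.w b) b c) (ins κ w i' L ++ nd F.toWt _ L₂) =
      (F.sp0 B₀).intQ k E g β (τ.P (F.w b) b c) fs :=
  h.sg.intQ_perm hE h.ivtP (fun f a => (List.mem_append.1 a).elim
    (Wt.at_fsG _ _ (vl_sp h hE g β) L f) (at_nd h hE g β L₂ f))
    (fun q => List.mem_append_right _ (dg_mem_nd h₂ q)) e.1 e.2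

theorem sw (hw : IsEv p (parH _) w) (hi : IsEv D.p (parH _) i') {L₂ : List (κ × ℕ × ℕ)}
    (h₂ : LG.Enum L₂) : LG.SW (p.prod D.p) fun L =>
      (F.sp0 B₀).intQ k E g β (τ.P (F.w b) b c) (ins κ w i' L ++ nd F.toWt _ L₂) :=
  h.sg.sw_intQ hE h.ivtP _ (by rintro (_ | _) v; exacts [hw v.1, hi v.2]) (vl_sp h hE g β)
    (at_nd h hE g β L₂) (dg_mem_nd h₂)

end Trm

open Trm in
/-- **The contribution of one type.** -/
theorem St.trm (hW : St.Well) (hG : St.GLn) (hN : St.NDn) (hP : St.PRn) : St.Trm := by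
  intro S Λ₀ R J K N ν κ _ _ _ _ _ _ _ _ _ _ F i b c B₀ Ω k K₀ n₀ D i' V _ _ p w e f β j L₁ L₂ τ h
    hi hC hw hB h₁ h₂
  obtain ⟨a₁, a₂, φ, hφ⟩ := exists_sid fun n => τ.s (.inl n)
  obtain ⟨b₁, b₂, ψ, hψ⟩ := exists_sid fun q => τ.s (.inr q)
  obtain ⟨n₁, n₂, hn⟩ := h₂.exists_perm ψ
  obtain ⟨nL, nR, nD⟩ := h.nice
  have hb : (Fintype.card κ : ℤ) = b₁ + b₂ := by simp [← Fintype.card_congr ψ]
  have dL := dvs_le h (Z := {b}) (a := c) fun _ q => q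
  have dR := dvs_le h (Z := {c}) (a := b) fun _ q => q.symm
  have big := fun Z => h.big.sub h.slab_sub (h.dgn.zer_sub Z)
  have hf := fs_fsL (cone_le h ∅) (L₁.map (Prod.map id (Prod.map id w))) h₂
  generalize hg : j + 1 - Fintype.card κ = g
  have key := shuffle (l := atTop) τ.μ hφ hψ h₁ hn
    (fun q => (F.sub (slab B₀ 0) {b}).serR k (F.exB (e q)) p w (Pi.single c 1) D i' (β - τ.d)
      (j - τ.j - τ.r))
    (fun q => (F.sub (slab B₀ 0) {c}).serR k (F.exB (f q)) p w (Pi.single b 1) D i' τ.d τ.j)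
    ((F.eventually_bigD k).mono fun E a => sw (τ := τ) h a (g - τ.r) β hw hi h₂)
    fun v₁ v₂ x₁ x₂ => by
      have k1 := hP (F.sp0 B₀) k (j - τ.j - τ.r + 1 - b₁) (τ.j + 1 - b₂) (β - τ.d) τ.d {b} {c} _ _
        (Sum.elim 0 τ.u) (Sum.elim 0 τ.u) (mixE φ _) ψ e f (τ.P (F.w b) b c)
        (sdim S R ν κ n₀ g - τ.r * Fintype.card R) _ _ h.sg (empty_subset _) (empty_subset _) nL nR
        (fun l q y a => (h.dgn.nodal.E l q y).2 (mul_eq_zero.2 (a.imp (· b rfl) (· c rfl)))) hB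
        (by
          rw [sub_add_cancel, show j - τ.j - τ.r + 1 - b₁ + (τ.j + 1 - b₂) - 1 = g - τ.r by omega]
          exact h.cy_P)
        (fun m a => by simpa only [Fintype.card_fin] using STy.P_iff h.dgn.nodal h.wc hφ hψ a)
        (fun m U U' a a' => (a.eq h.dgn.nodal).trans (a'.eq h.dgn.nodal).symm)
        (fs_prt (F := F.sub _ {b}) (w := w) (i := i') (cone_le h _) dL v₁ n₁ τ.μ x₁)
        (fs_prt (F := F.sub _ {c}) (w := w) (i := i') (cone_le h _) dR v₂ n₂ τ.μ x₂)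
      rw [sub_add_cancel,
        show j - τ.j - τ.r + 1 - b₁ + (τ.j + 1 - b₂) - 1 = g - τ.r by omega] at k1
      filter_upwards [k1, F.eventually_bigD k,
        eventually_all.2 fun q => ser_prt (cone_le h _) dL v₁ n₁ τ.μ x₁ hW nL h.cp (big _) hw hi
          (hB.1 q).1 (β - τ.d) (j - τ.j - τ.r),
        eventually_all.2 fun q => ser_prt (cone_le h _) dR v₂ n₂ τ.μ x₂ hW nR h.cp (big _) hw hi
          (hB.1 q).2 τ.d τ.j] with E k1 k2 k3 k4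
      exact (intQ_eqv h k2 _ β h₂ (eqv_srt w i' τ.μ φ hn v₁ v₂ x₁ x₂)).trans
        (k1.trans (Finset.sum_congr rfl fun q _ => congrArg₂ _ (k3 q) (k4 q)))
  filter_upwards [key, F.eventually_bigD k,
    hG (F.sp0 B₀) k g (g - τ.r) β (τ.Q (F.w b) b c) _ τ.n _ (List.finRange τ.r) h.sg (by simp)
      h.cy_Q h.cy_C (fun m => STy.card_lab) hf (List.nodup_finRange _) List.mem_finRange,
    hN (F.sp0 B₀) k (g - τ.r) β {b, c} _ _ (τ.Q (F.w b) b c) (τ.P (F.w b) b c) _ _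
      (List.finRange τ.r) h.sg (mov_eq (F := F) h) nD hC (by simpa using h.cy_Q) h.cy_P STy.Q_iff
      (fun m a x j q => q.elim (· ▸ (a.van x).1) fun q : j = c => q ▸ (a.van x).2) hf
      (List.nodup_finRange _) List.mem_finRange] with E k1 k2 k3 k4
  simp only [STy.tm, ← Finset.mul_sum]
  refine Eq.trans ?_ (congrArg _ k1)
  rw [STy.c, div_mul_eq_mul_div, mul_assoc, div_eq_inv_mul]
  refine congrArg _ (congrArg _ (k3.trans (k4.trans (Finset.sum_congr rfl fun t _ => ?_))))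
  have := eqv_uns w i' L₁ L₂ (D.fr.e ∘ t) (D.fr.f ∘ t)
  exact (intQ_eqv h k2 _ β h₂ ⟨this.1.symm, this.2.symm⟩).symm

end Vale.Agent.P269
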