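import Vale.Agent.P269.Spl.G1
import Vale.Agent.P269.Spl.Gen
import Vale.Agent.P269.Spl.Eul
import Vale.Agent.P269.Spl.Trm

/-!
# The degeneration formula from the gluing statements
-/

namespace Vale.Agent.P269

/-- **The degeneration formula.** -/
theorem St.g1 (hW : St.Well) (hG : St.GLn) (hN : St.NDn) (hP : St.PRn) : St.G1 :=
  St.g1_of St.spc1 (St.trm hW hG hN hP) hW (St.spec (St.cor hW (St.rel St.dg))) St.par

/-- **The two divisors of a marked point commute.** -/
theorem St.g2 (hW : St.Well) (hG : St.GLn) (hN : St.NDn) (hP : St.PRn) : St.G2 :=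
  St.g2_of St.spc2 (St.trm hW hG hN hP) (St.spec (St.cor hW (St.rel St.dg))) St.par

end Vale.Agent.P269
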