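import Vale.Agent.P269.Spl.TyC
import Vale.Agent.P269.Spl.AlgA
import Vale.Agent.P269.Spl.AlgB

/-!
# The degeneration formula and the commutation of the two divisors
-/

set_option linter.unusedSectionVars false

namespace Vale.Agent.P269

open P291Z Set Function Topology Filter Fock

variable {S Λ Λ₀ R J K ν κ α β N V : Type} [Fintype S] [Fintype Λ] [Fintype Λ₀] [Fintype R]
  [Fintype J] [Fintype K] [Fintype ν] [Fintype κ] [Fintype N] [AddCommGroup V] [Module ℂ V]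

namespace SG

theorem enum_ofFn {n : ℕ} {φ : Fin n → ν} (h : Bijective φ) (v : Fin n → α) :
    LG.Enum (List.ofFn fun i => (φ i, v i)) := by
  refine ⟨?_, fun a => ?_⟩ <;> rw [List.map_ofFn]
  · exact List.nodup_ofFn.2 h.1
  · exact List.mem_ofFn.2 (h.2 a)

theorem snd_ofFn (l : List α) (φ : Fin l.length → ν) :
    (List.ofFn fun i => (φ i, l.get i)).map Prod.snd = l := by
  rw [List.map_ofFn]
  exact List.ofFn_get l

theorem fs_fsL [DecidableEq R] (F : Fam S Λ R J K) (L₁ : List (ν × ℕ × H (F.X F.cone)))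
    {L₂ : List (κ × ℕ × ℕ)} (h : LG.Enum L₂) : F.Fs 0 (F.fsL _ L₁ L₂) := by
  refine ⟨fun f hf => ?_, fun q => ?_⟩
  · simp only [Wt.fsL, List.mem_append, List.mem_flatMap, List.mem_replicate,
      List.mem_singleton] at hf
    obtain ⟨x, -, ⟨-, rfl⟩ | rfl⟩ | ⟨x, -, (⟨-, rfl⟩ | ⟨-, rfl⟩) | rfl⟩ := hf
    exacts [⟨trivial, trivial⟩, ⟨fun _ a => a.1, trivial⟩, ⟨trivial, trivial⟩, ⟨trivial, trivial⟩,
      ⟨trivial, trivial⟩]
  · obtain ⟨x, a, rfl⟩ := List.mem_map.1 (h.2 q)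
    exact List.mem_append_right _ (List.mem_flatMap.2 ⟨x, a, by simp⟩)

theorem fsC_tail (F : Wt S Λ R J) (A A' : Set ((Λ → ℂ) × (J → ℂ))) {a b : ℕ}
    (v₁ : Fin a → ℕ × H (F.X A)) (v₂ : Fin b → ℕ × ℕ) (v₃ : Fin 0 → ℕ × H (F.X A')) :
    (F.fsC F.ex0 A A' v₁ v₂ v₃).tail.tail =
      F.fsL A (List.ofFn fun i => (.inl i, v₁ i)) (List.ofFn fun q => (q, v₂ q)) := by
  simp only [Wt.fsC, Wt.fsL, List.tail_cons, List.ofFn_zero, List.append_nil, List.flatMap,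
    List.map_ofFn, comp_def]

end SG

open SG

namespace Fam.DgS

variable [DecidableEq R] [DecidableEq J] {F : Fam S (Option Λ₀) R J K} {i : R} {b c : J}
  {B₀ : Set (Λ₀ → ℂ)} {Ω : Set ℂ} {k : ℕ} {K₀ : Set K} {n₀ : ℕ} (h : F.DgS i b c B₀ Ω k K₀ n₀)
include h

theorem bigZ (Z : Set J) : (F.sub (slab B₀ 0) Z).Big k := h.big.sub h.slab_sub (h.dgn.zer_sub _)

theorem coneZ (Z : Set J) : (F.sub (slab B₀ 0) Z).cone ⊆ F.cone :=
  cone_sub h.slab_sub (h.dgn.zer_sub _)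

theorem dvsL : (F.sub (slab B₀ 0) {b}).dvs (Pi.single c 1) ⊆ (F.sub (slab B₀ 0) {b, c}).cone :=
  fun _ a => ⟨a.1.1, ⟨a.1.2.1.1, a.1.2.1.2.1, fun j q => q.elim (a.1.2.1.2.2 j) fun d => a.2 j (by
    rw [show j = c from d, Pi.single_eq_same]; exact one_ne_zero)⟩, a.1.2.2⟩

theorem dvsR : (F.sub (slab B₀ 0) {c}).dvs (Pi.single b 1) ⊆ (F.sub (slab B₀ 0) {b, c}).cone :=
  fun _ a => ⟨a.1.1, ⟨a.1.2.1.1, a.1.2.1.2.1, fun j q => q.elim (fun d => a.2 j (by
    rw [show j = b from d, Pi.single_eq_same]; exact one_ne_zero)) (a.1.2.1.2.2 j)⟩, a.1.2.2⟩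

variable (hS : St.Spec) (hP : St.Par) {g : Deg.Grd (R → ℤ)} {D : Deg.Dv}
  {i' : D.H →ₗ[ℂ] H (F.X (F.sub (slab B₀ 0) {b, c}).cone)} {p : Fock.Par ℂ V}
  {w : V →ₗ[ℂ] H (F.X F.cone)} (hg : F.Grd g) (hi : IsEv D.p (parH _) i') (hw : IsEv p (parH _) w)
  {e f : H (F.Bs (slab B₀ 0))} (he : e ∈ Ch.Hev _) (hf : f ∈ Ch.Hev _)
include hS hP hg hi hw he hf

theorem oks : ((F.sub (slab B₀ 0) {b}).serR k (F.exB e) p w (Pi.single c 1) D i').Ok g ∧
    ((F.sub (slab B₀ 0) {c}).serR k (F.exB f) p w (Pi.single b 1) D i').Ok g ∧ ∀ n,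
      {β | g.deg β = n ∧ (F.sub (slab B₀ 0) {c}).serR k (F.exB f) p w (Pi.single b 1) D i' β ≠ 0}.Finite :=
  ⟨(serR_ok hS St.supp hP h.nice.1 h.cp (h.bigZ _) (St.selC (F.sub _ {b}) k 1 _ e h.nice.1.toGood
    (h.bigZ _) Subset.rfl he).1 (h.coneZ _) h.dvsL hw hi hg).1,
    serR_ok hS St.supp hP h.nice.2.1 h.cp (h.bigZ _) (St.selC (F.sub _ {c}) k 1 _ f
      h.nice.2.1.toGood (h.bigZ _) Subset.rfl hf).1 (h.coneZ _) h.dvsR hw hi hg⟩

end Fam.DgS

/-- **The degeneration formula.** -/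
theorem St.g1_of (h1 : St.Spc1) (hT : St.Trm) (hW : St.Well) (hS : St.Spec) (hP : St.Par) :
    St.G1 := by
  intro R J K _ _ _ _ _ F i b c Ω k t g D i' V _ _ p w hd hG hR hk ht h0 hg hξ hi hc hw β j x _
  have sm : ∃ n, ∀ l : (univ : Set (Empty → ℂ)), Holo.IsMfd Subtype.val n l :=
    ⟨_, fun l => (Holo.MfdAt.univ l.1).isMfd l.2⟩
  obtain ⟨cp, cb⟩ := F.casB_pt (slab_univ 0)
  obtain ⟨K₀, n₀, h⟩ := Fam.exists_dgS hd hG hR sm hk cp
  have nt := (St.degN F i b c univ Ω hd hG hR sm).2.2.2 (Subsingleton.elim _ _) t ht h0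
  have ct : (F.sub (slab univ t) ∅).Cp := (F.casB_pt (slab_univ t)).1
  have bt : (F.sub (slab univ t) ∅).Big k := hk.sub (hd.slab_sub ht) (hd.zer_sub _)
  have st : (F.sub (slab univ t) ∅).cone ⊆ F.cone := Fam.cone_sub (hd.slab_sub ht) (hd.zer_sub _)
  obtain ⟨o1, o2, o3⟩ := h.oks hS hP hg hi hw (one_mem _) (one_mem _)
  rw [← Fam.serR_exB_one h.nice.1 h.cp (h.bigZ _) (h.coneZ _) h.dvsL Subset.rfl,
    ← Fam.serR_exB_one h.nice.2.1 h.cp (h.bigZ _) (h.coneZ _) h.dvsR Subset.rfl]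
  obtain ⟨L, hL⟩ := exists_glue_lin o1 o2 o3 β j
  refine (LinearMap.congr_fun (monT_ext (Z' := L ∘ₗ (Fock.map _ (Deg.isEv_diag _)).toLinearMap)
    fun l₁ l₂ => ?_) x).trans (hL _).symm
  let L₁ : List ((Fin l₁.length ⊕ Fin 0) × ℕ × V) := List.ofFn fun i => (.inl i, l₁.get i)
  let L₂ : List (Fin l₂.length × ℕ × ℕ) := List.ofFn fun q => (q, l₂.get q)
  have e1 : LG.Enum L₁ := enum_ofFn (Equiv.sumEmpty _ _).symm.bijective _
  have e2 : LG.Enum L₂ := enum_ofFn bijective_id _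
  have dg := diag_monT (p := p) e1 e2
  rw [snd_ofFn, snd_ofFn] at dg
  have e3 := (hS (F.sub _ ∅) 0 k F.ex0 (A' := F.cone) p w nt ct bt (St.selC (F.sub _ ∅) k 1 univ 1
    nt.toGood bt (subset_univ _) (one_mem _)).1 st hw).1 rfl β j l₁ l₂
  refine e3.trans (.trans ?_ ((congrArg L dg).trans (hL _).symm).symm)
  obtain ⟨A, a1, a2⟩ := ((h1 F i b c Ω k K₀ n₀ t (j + 1 - Fintype.card (Fin l₂.length)) β _ h ht h0
    (fs_fsL F (L₁.map (Prod.map id (Prod.map id w))) e2)).and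
      (glue_eq_sum o1 o2 o3 β j hξ fun s => monS p s L₁ L₂)).exists
  obtain ⟨E, b1, b2, b3⟩ := (a1.and ((Fam.corF_ex0 nt ct bt st (fun _ a => st a.1) hW β j
    (fun i => Prod.map id w (l₁.get i)) l₂.get Fin.elim0).and ((eventually_all_finset _).2
      fun τ (_ : τ ∈ STy.set i A) => hT F i b c univ Ω k K₀ n₀ D i' p w _ _ β j _ _ τ h hi hc hw
        cb e1 e2))).exists
  rw [a2]
  refine (((Fam.cor_map (F.sub _ ∅) k _ 0 _ _ β j _ (Empty.elim : _ → ℕ × _) l₁ l₂ []).trans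
    (congrArg _ (Subsingleton.elim (α := Fin 0 → _) _ _))).trans b2).trans (.trans ?_
      (b1.trans (Finset.sum_congr rfl fun τ a => (b3 τ a).trans (Fintype.sum_unique _))))
  rw [fsC_tail, Fintype.card_fin, List.map_ofFn]
  exact congrArg (Fam.intM _ k E _ β · _) (funext fun _ => smul_zero _)

/-- **The two divisors of a marked point commute.** -/
theorem St.g2_of (h2 : St.Spc2) (hT : St.Trm) (hS : St.Spec) (hP : St.Par) : St.G2 := by
  intro S Λ₀ R J K N _ _ _ _ _ _ _ _ F i b c B₀ Ω k g D i' V _ _ p w e f hd hG hR sm hk cp hg hξ hi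
    hc hw cb β j m a a' α x _ ha ha'
  obtain ⟨K₀, n₀, h⟩ := Fam.exists_dgS hd hG hR sm hk cp
  have o := fun q => h.oks hS hP hg hi hw (cb.1 q).1 (cb.1 q).2
  choose L hL using fun q => exists_glue_lin (o q).1 (o q).2.1 (o q).2.2 β j
  refine ((Finset.sum_congr rfl fun q _ => hL q _).trans (LinearMap.sum_apply _ _ _).symm).trans
    (monT_zero (Z := (∑ q, L q) ∘ₗ LinearMap.mul ℂ _
      (ι _ ((Finsupp.single m a, 0), 0) - ι _ (0, (Finsupp.single m a', 0))) ∘ₗ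
      (Fock.map _ (Deg.isEv_diag (Deg.pT p))).toLinearMap) (fun l => ?_) x)
  let L₁ : List (Option (Fin l.length) × ℕ × V) := List.ofFn fun i => (some i, l.get i)
  have e1 : ∀ a, LG.Enum ((none, m, a) :: L₁) := fun a => by
    refine ⟨?_, fun n => ?_⟩ <;> rw [List.map_cons, List.map_ofFn]
    · exact List.nodup_cons.2 ⟨by simp, List.nodup_ofFn.2 (Option.some_injective _)⟩
    · cases n <;> simp
  have e2 : LG.Enum ([] : List (Empty × ℕ × ℕ)) := ⟨List.nodup_nil, nofun⟩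
  have dg := diag_two (p := p) a' (e1 a) e2
  rw [snd_ofFn] at dg
  let fs := F.fsL F.cone ((none, m, α) :: L₁.map (Prod.map id (Prod.map id w))) ([] : List (Empty × _))
  obtain ⟨A, a1, a2⟩ := ((h2 F i b c B₀ Ω k K₀ n₀ (j + 1 - Fintype.card Empty) β none fs h
    (fs_fsL F _ e2)).and (eventually_all.2 fun q => glue_eq_sum (o q).1 (o q).2.1 (o q).2.2 β j hξ
      fun s : Option (Fin l.length) ⊕ Empty → Bool => bif s (.inl none) then
        -monS p s ((none, m, a') :: L₁) [] else monS p s ((none, m, a) :: L₁) [])).exists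
  have T := fun a => (eventually_all_finset _).2 fun τ (_ : τ ∈ STy.set i A) =>
    hT F i b c B₀ Ω k K₀ n₀ D i' p w e f β j _ _ τ h hi hc hw cb (e1 a) e2
  obtain ⟨E, b1, b2, b3, b4⟩ := (a1.and ((F.eventually_bigD k).and ((T a).and (T a')))).exists
  have sp : ∀ (τ : STy R (Option (Fin l.length) ⊕ Empty)) (a : V) ψ χ, w a = F.lc _ ψ χ * α →
      (F.sp0 B₀).intQ k E (j + 1 - Fintype.card Empty) β (τ.C (F.w b) b c)
        (F.fsL _ (((none, m, a) :: L₁).map (Prod.map id (Prod.map id w))) []) =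
      (F.sp0 B₀).intQ k E (j + 1 - Fintype.card Empty) β (τ.C (F.w b) b c)
        (.ev (.inl none) _ (F.lc F.cone ψ χ) :: fs) := fun τ a ψ χ e => by
    simp only [fs, Wt.fsL, List.map_cons, List.flatMap_cons, List.flatMap_nil, List.append_nil,
      Prod.map_apply, id, e, List.append_assoc, List.singleton_append]
    have := hG.fp
    refine h.sg.intQ_split b2 h.ivtC (h.coneZ _) (Wt.lc_mem ψ χ) (fun f a => ?_) nofun
    simp only [List.mem_append, List.mem_flatMap, List.mem_replicate, List.mem_singleton] at a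
    obtain ⟨-, rfl⟩ | ⟨x, -, ⟨-, rfl⟩ | rfl⟩ := a
    exacts [trivial, trivial, fun _ a => h.coneZ _ a.1]
  refine (congrArg (fun y => (∑ q, L q) y) dg).trans (.trans ?_ (sub_eq_zero.2 b1))
  rw [LinearMap.sum_apply, Finset.sum_congr rfl fun q _ => (hL q _).symm.trans (a2 q),
    Finset.sum_comm, Finset.sum_filter, Finset.sum_filter, ← Finset.sum_sub_distrib]
  refine Finset.sum_congr rfl fun τ t => ?_
  rw [← sp τ a _ _ ha, ← sp τ a' _ _ ha', b3 τ t, b4 τ t]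
  cases τ.s (.inl none) <;> simp [STy.tm_neg]

end Vale.Agent.P269
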