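import Vale.Agent.P269.Spl.G1

/-!
# The two divisors of a marked point commute

The statement `St.g2_of` is proved in `Spl/G1`.
-/
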