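import Vale.Agent.P269.Spl.GBa

/-!
# Gluing on the level of the smooth spaces: kernels, images, change of the label
-/

set_option linter.unusedSectionVars false

namespace Vale.Agent.P269

open Set Function Topology Filter Holo Base Cv

variable {S Λ R J K ι ν ν' κ ε : Type} [Fintype S] [Fintype Λ] [Fintype R] [Fintype J] [Fintype K]
  [Fintype ι] [DecidableEq ι] [Fintype ν] [Fintype ν'] [Fintype κ] [Fintype ε]

namespace GBK

variable {E F : Type} [NormedAddCommGroup E] [NormedSpace ℂ E] [FiniteDimensional ℂ E]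
  [NormedAddCommGroup F] [NormedSpace ℂ F] [FiniteDimensional ℂ F]

theorem exists_left {φ φ' : E →L[ℂ] F} (h : Surjective φ) (h' : Surjective φ')
    (hk : ∀ v, φ v = 0 → φ' v = 0) : ∃ g : F →L[ℂ] F, IsUnit g ∧ ∀ v, g (φ v) = φ' v := by
  obtain ⟨σ, hσ⟩ := φ.toLinearMap.exists_rightInverse_of_surjective (LinearMap.range_eq_top.2 h)
  have a : ∀ v, φ' (σ (φ v)) = φ' v := fun v => sub_eq_zero.1 ((map_sub φ' _ _).symm.trans
    (hk _ ((map_sub φ _ _).trans (sub_eq_zero.2 (LinearMap.congr_fun hσ (φ v))))))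
  have b : Surjective (φ' ∘L σ.toContinuousLinearMap) := fun y =>
    let ⟨v, e⟩ := h' y
    ⟨φ v, (a v).trans e⟩
  exact ⟨φ' ∘L σ.toContinuousLinearMap, ContinuousLinearMap.isUnit_iff_bijective.2
    ⟨(LinearMap.injective_iff_surjective (f := (φ' ∘L σ.toContinuousLinearMap).toLinearMap)).2 b,
      b⟩, a⟩

theorem exists_right {r r' : E →L[ℂ] F} (h : Injective r) (h' : Injective r')
    (hk : ∀ v, r' v ∈ range r) : ∃ g : E →L[ℂ] E, IsUnit g ∧ ∀ v, r (g v) = r' v := by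
  obtain ⟨q, hq⟩ := r.toLinearMap.exists_leftInverse_of_injective (LinearMap.ker_eq_bot.2 h)
  have a : ∀ v, r (q (r' v)) = r' v := fun v => by
    obtain ⟨y, e⟩ := hk v
    rw [← e]
    exact congrArg r (LinearMap.congr_fun hq y)
  refine ⟨q.toContinuousLinearMap ∘L r', isUnit_of_inj fun v e => h' ?_, a⟩
  rw [← a v, map_zero]
  exact (congrArg r e).trans (map_zero r)

end GBK

namespace Ch

variable {ch : Ch ι J} {n : Nm ι J} {x : ch.W (Mk ν κ)} {w : ch.Lb n (Mk ν (κ ⊕ ε))}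

theorem Gl.g_eq (h : Gl x w) : ch.g = n.g + Fintype.card ε := by
  obtain ⟨c, A, π, u, ξ, ξ', a⟩ := h.exists_gd
  exact a.cr.gen_eq.symm.trans (AC.gen_glue.trans (congrArg (· + _) a.cr'.gen_eq))

theorem Gl.m_eq (h : Gl x w) : ch.m = n.m := by
  obtain ⟨c, A, π, u, ξ, ξ', a⟩ := h.exists_gd
  exact funext fun i => (a.cr.deg_eq i).symm.trans (a.cr'.deg_eq i)

theorem Gl.M_add (ok : GOk ch n) (h : Gl x w) (i : ι) : n.M i = ch.M i + Fintype.card ε := by
  have a := ok.tight.eq h.mem i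
  have b : (n.M i : ℤ) = n.m i + 1 - n.g := ok.tight'.eq h.mem' i
  have c := h.g_eq
  rw [h.m_eq] at a
  omega

theorem Gl.h_add (ok : GOk ch n) (h : Gl x w) (l : Option J) :
    n.h l = ch.h l + Fintype.card ε := by
  have a := Ch.h_eq h.mem (ok.cuts.ne l)
  have b : (n.h l : ℤ) = dg n.m (ch.a l) + 1 - n.g := Ch.h_eq h.mem' (ok.cuts.ne l)
  have c := h.g_eq
  rw [h.m_eq] at a
  omega

/-- the kernel of `φ` is spanned by the differences -/
theorem Gl.ker_iff (ok : GOk ch n) (h : Gl x w) {i : ι} {v : Fin (n.M i) → ℂ} : w.2.1 i v = 0 ↔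
    ∃ t : ε → ℂ, ∑ e, t e • (w.1.p (nq e false) i - w.1.p (nq e true) i) = v := by
  refine ⟨fun hv => (Submodule.mem_span_range_iff_exists_fun ℂ).1 (by_contra fun b => ?_), ?_⟩
  · obtain ⟨c, A, π, u, ξ, ξ', a⟩ := h.exists_gd
    obtain ⟨l, d, e⟩ := Submodule.exists_dual_map_eq_bot_of_notMem b inferInstance
    obtain ⟨l', f⟩ := a.cr.full.span i (fun y => l.toContinuousLinearMap (π y i))
      (AC.mem_H0_glue.2 ⟨lin_mem a.cr'.par.sec i _, fun q => by
        rw [a.mark, a.mark, ← sub_eq_zero, ← map_sub]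
        exact (Submodule.eq_bot_iff _).1 e _ ⟨_, Submodule.subset_span ⟨q, rfl⟩, rfl⟩⟩)
    have k : l.toContinuousLinearMap - l' ∘L w.2.1 i = 0 := a.cr'.full.eq_zero
      (Int.natCast_inj.1 ((a.cr'.par.finrank_one a.cr'.cur i).trans (ok.tight'.eq h.mem' i).symm))
      fun y => sub_eq_zero.2 (f y)
    exact d ((DFunLike.congr_fun (sub_eq_zero.1 k) v).trans
      ((congrArg l' hv).trans (map_zero l')))
  · rintro ⟨t, rfl⟩
    rw [map_sum]
    exact Finset.sum_eq_zero fun q _ => by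
      rw [map_smul, map_sub]
      exact smul_eq_zero_of_right _ (sub_eq_zero.2 (congrFun (h.node q) i))

/-- the image of `r` is given by the matching conditions -/
theorem Gl.agr_iff (hc : ch.Cuts) (h : Gl x w) {l : Option J} {v : (ch.re n).E l} :
    Agr w.1 l v ↔ v ∈ range (w.2.2 l) := by
  obtain ⟨c, A, π, u, ξ, ξ', a⟩ := h.exists_gd
  have k : ∀ q, (w.1.p q, u (c.p q)) ∈ gr w.1 := fun q => a.mark q ▸ a.cr'.gr _
  refine ⟨fun b => ?_, ?_⟩
  · obtain ⟨v', hv⟩ := a.cr.u_surj (hc.ne l)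
      (AC.mem_H0_glue.2 ⟨a.cr'.u_mem l v, fun q => b q _ _ (k _) (k _)⟩)
    exact ⟨v', a.cr'.u_ext hv⟩
  · rintro ⟨v, rfl⟩ q u₁ u₂ h₁ h₂
    rw [gr_unique h₁ (k _) (h.mem'.1 l), gr_unique h₂ (k _) (h.mem'.1 l)]
    exact (AC.mem_H0_glue.1 (a.cr.u_mem l v)).2 q

/-- all admissible maps are labels -/
theorem Gl.change (ok : GOk ch n) (h : Gl x w) {w' : ch.Lb n (Mk ν (κ ⊕ ε))} (e : w'.1 = w.1)
    (hφ : ∀ i, Surjective (w'.2.1 i))
    (hk : ∀ e, apV w'.2.1 (w.1.p (nq e false)) = apV w'.2.1 (w.1.p (nq e true)))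
    (hr : ∀ l, Injective (w'.2.2 l)) (ha : ∀ l v, Agr w.1 l (w'.2.2 l v)) :
    ∃ x', Gl x' w' ∧ ∀ j, Mt x w j → Mt x' w' j := by
  choose g hg eg using fun i => GBK.exists_left (h.surj i) (hφ i) fun v hv => by
    obtain ⟨t, rfl⟩ := (h.ker_iff ok).1 hv
    rw [map_sum]
    exact Finset.sum_eq_zero fun q _ => by
      rw [map_smul, map_sub]
      exact smul_eq_zero_of_right _ (sub_eq_zero.2 (congrFun (hk q) i))
  choose r hr' er using fun l => GBK.exists_right (h.inj l) (hr l) fun v =>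
    (h.agr_iff ok.cuts).1 (ha l v)
  let s : ch.A (Mk ν κ) := (g, fun l => Ring.inverse (r l), 1)
  have hs : IsUnit s := Cv.isUnit_iff.2 ⟨hg, fun l => (hr' l).ringInverse, fun _ _ => one_ne_zero⟩
  have k : Ch.actLb 1 s (1 : (ch.re n).A (Mk ν (κ ⊕ ε))) w = w' := by
    refine Prod.ext (((congrArg _ (scl_one _)).trans (act_one _)).trans e.symm)
      (Prod.ext (funext fun i => ContinuousLinearMap.ext fun v => ?_)
        (funext fun l => ContinuousLinearMap.ext fun v => ?_))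
    · change g i (w.2.1 i (Ring.inverse (1 : _ →L[ℂ] _) v)) = _
      rw [Ring.inverse_one, eg]
      rfl
    · change w.2.2 l (Ring.inverse (Ring.inverse (r l)) v) = _
      rw [Ring.inverse_inverse (hr' l), er]
  exact ⟨Ch.act s (scl 1 x), k ▸ h.actLb' hs isUnit_one (fun _ => rfl) (fun _ => rfl) 1,
    fun j b => k ▸ b.actLb hs isUnit_one 1⟩

end Ch

end Vale.Agent.P269
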