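import Vale.Agent.P269.Spl.Defs
import Vale.Agent.P269.Holo.Set2

/-!
# Locally analytic and locally constructible conditions
-/

namespace Vale.Agent.P269

open Set Function Topology Filter Holo

variable {W W' E : Type} [NormedAddCommGroup W] [NormedSpace ℂ W] [NormedAddCommGroup W']
  [NormedSpace ℂ W'] [NormedAddCommGroup E] [NormedSpace ℂ E] [FiniteDimensional ℂ E]
  {T T' M : Set W} {x : W} {p q : W → Prop}

/-- Near `x` the condition `p` on `T` is given by analytic equations. -/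
def AnAt (T : Set W) (x : W) (p : W → Prop) : Prop :=
  ∃ (s : ℕ) (g : W → Fin s → ℂ), AnalyticAt ℂ g x ∧ ∀ᶠ y in 𝓝 x, y ∈ T → (p y ↔ g y = 0)

/-- Near `x` the condition `p` on `T` is given by analytic equations and one inequation. -/
def LcAt (T : Set W) (x : W) (p : W → Prop) : Prop :=
  ∃ (s : ℕ) (g : W → Fin s → ℂ) (f : W → ℂ), AnalyticAt ℂ g x ∧ AnalyticAt ℂ f x ∧
    ∀ᶠ y in 𝓝 x, y ∈ T → (p y ↔ g y = 0 ∧ f y ≠ 0)

namespace AnAt

theorem congr (h : AnAt T x p) (e : ∀ᶠ y in 𝓝 x, y ∈ T → (q y ↔ p y)) : AnAt T x q :=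
  let ⟨s, g, a, b⟩ := h
  ⟨s, g, a, by filter_upwards [b, e] with y c d hy using (d hy).trans (c hy)⟩

theorem mono (h : AnAt T x p) (e : ∀ᶠ y in 𝓝 x, y ∈ T' → y ∈ T) : AnAt T' x p :=
  let ⟨s, g, a, b⟩ := h
  ⟨s, g, a, by filter_upwards [b, e] with y c d hy using c (d hy)⟩

theorem of_hol {f : W → E} (h : HolOn T f x) : AnAt T x fun y => f y = 0 :=
  let ⟨Φ, a, b⟩ := h
  let e : E ≃L[ℂ] Fin (Module.finrank ℂ E) → ℂ := .ofFinrankEq (Module.finrank_fin_fun ℂ).symm
  ⟨_, fun y => e (Φ y), (e.analyticAt _).comp a, b.mono fun y c hy => by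
    simp only [c hy, map_eq_zero_iff _ e.injective]⟩

theorem comp {S : Set W'} {φ : W → W'} {p : W' → Prop} (h : AnAt S (φ x) p) (hφ : AnalyticAt ℂ φ x)
    (e : ∀ᶠ y in 𝓝 x, y ∈ T → φ y ∈ S) : AnAt T x fun y => p (φ y) :=
  let ⟨s, g, a, b⟩ := h
  ⟨s, fun y => g (φ y), a.comp hφ, by
    filter_upwards [hφ.continuousAt.eventually b, e] with y c d hy using c (d hy)⟩

theorem all {α : Type} [Finite α] {p : α → W → Prop} (h : ∀ a, AnAt T x (p a)) :
    AnAt T x fun y => ∀ a, p a y := by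
  have := Fintype.ofFinite α
  choose s g a b using h
  exact (of_hol (f := fun y a => g a y) (.of_an (analyticAt_pi_iff.2 a))).congr
    ((eventually_all.2 b).mono fun y c hy => (forall_congr' fun a => c a hy).trans funext_iff.symm)

theorem imp {r : Prop} (h : r → AnAt T x p) : AnAt T x fun y => r → p y :=
  (all fun a : PLift r => h a.down).congr
    (.of_forall fun _ _ => ⟨fun a b => a b.down, fun a b => a ⟨b⟩⟩)

theorem ev_not (h : AnAt T x p) (hx : x ∈ T) (h0 : ¬p x) : ∀ᶠ y in 𝓝 x, y ∈ T → ¬p y :=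
  let ⟨_, _, a, b⟩ := h
  by filter_upwards [b, a.continuousAt.eventually_ne (mt (b.self_of_nhds hx).2 h0)] with y c d hy
    using mt (c hy).1 d

theorem and' (hx : x ∈ T) (h : AnAt T x p) (h' : p x → AnAt {y ∈ T | p y} x q) :
    AnAt T x fun y => p y ∧ q y := by
  by_cases h0 : p x
  · obtain ⟨s, g, a, b⟩ := h
    obtain ⟨s', g', a', b'⟩ := h' h0
    refine (of_hol (.of_an (a.prod a'))).congr ?_
    filter_upwards [b, b'] with y c d hy
    rw [Prod.mk_eq_zero, ← c hy]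
    exact and_congr_right fun e => d ⟨hy, e⟩
  · exact h.congr ((h.ev_not hx h0).mono fun y a hy => and_iff_left_of_imp fun b => (a hy b).elim)

theorem and (hx : x ∈ T) (h : AnAt T x p) (h' : AnAt T x q) : AnAt T x fun y => p y ∧ q y :=
  h.and' hx fun _ => h'.mono (.of_forall fun _ a => a.1)

theorem lc (hx : x ∈ T) (h : AnAt T x p) {f : W → ℂ} (h' : p x → HolOn {y ∈ T | p y} f x) :
    LcAt T x fun y => p y ∧ f y ≠ 0 := by
  by_cases h0 : p x
  · obtain ⟨s, g, a, b⟩ := h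
    obtain ⟨Φ, a', b'⟩ := h' h0
    refine ⟨s, g, Φ, a, a', ?_⟩
    filter_upwards [b, b'] with y c d hy
    rw [← c hy]
    exact and_congr_right fun e => by rw [d ⟨hy, e⟩]
  · exact ⟨0, 0, 0, analyticAt_const, analyticAt_const, (h.ev_not hx h0).mono fun y a hy =>
      iff_of_false (fun b => a hy b.1) fun b => b.2 rfl⟩

end AnAt

theorem locAn_of (h : ∀ x ∈ T, ∃ (α : Type) (_ : Finite α) (p : α → W → Prop),
    (∀ a, LcAt T x (p a)) ∧ ∀ᶠ y in 𝓝 x, y ∈ T → (y ∈ M ↔ ∃ a, p a y)) : LocAn T M := by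
  classical
  rintro ⟨x, hx⟩
  obtain ⟨α, _, p, a, b⟩ := h x hx
  obtain ⟨r, ⟨e⟩⟩ := Finite.exists_equiv_fin α
  have := Fintype.ofFinite α
  choose s g f c d k using a
  let L : (∀ a, Fin (s a) → ℂ) ≃L[ℂ] Fin (Module.finrank ℂ (∀ a, Fin (s a) → ℂ)) → ℂ :=
    .ofFinrankEq (Module.finrank_fin_fun ℂ).symm
  refine ⟨r, _, fun i y => L (Pi.single (e.symm i) (g _ y.1)), fun i y => f (e.symm i) y.1,
    fun i => ⟨.of_an (Φ := fun y => L (Pi.single (e.symm i) (g _ y))) ((L.analyticAt _).comp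
      (((ContinuousLinearMap.single ℂ (fun a => Fin (s a) → ℂ) _).analyticAt _).comp (c _))),
      .of_an (d _)⟩, (ev_sub hx (p := fun y => y ∈ M ↔ ∃ i, L (Pi.single (e.symm i) (g _ y)) = 0 ∧
        f (e.symm i) y ≠ 0)).2 ?_⟩
  filter_upwards [b, eventually_all.2 k] with y u v hy
  simp only [u hy, v _ hy, map_eq_zero_iff _ L.injective, Pi.single_eq_zero_iff]
  exact e.symm.surjective.exists

theorem locAn_of_not (h : ∀ y ∈ T, y ∉ M) : LocAn T M :=
  locAn_of fun _ _ => ⟨Empty, inferInstance, Empty.elim, Empty.rec _,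
    .of_forall fun y a => iff_of_false (h y a) fun ⟨b, _⟩ => b.elim⟩

set_option linter.unusedVariables false in
theorem LocAn.inter {W : Type} [NormedAddCommGroup W] [NormedSpace ℂ W] {T M O : Set W}
    (h : LocAn T M) (hO : IsOpen O) : LocAn (T ∩ O) (M ∩ O) := fun x => by
  obtain ⟨r, s, g, f, a, b⟩ := h ⟨x.1, x.2.1⟩
  have c : ContinuousAt (inclusion (inter_subset_left (s := T) (t := O))) x :=
    (continuous_inclusion _).continuousAt
  exact ⟨r, s, fun i y => g i (inclusion inter_subset_left y),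
    fun i y => f i (inclusion inter_subset_left y), fun i => ⟨(a i).1.comp c .self,
      (a i).2.comp c .self⟩, (c.eventually b).mono fun y d => (and_iff_left y.2.2).trans d⟩

end Vale.Agent.P269
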