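import Vale.Agent.P269.Spl.LocA
import Vale.Agent.P269.Spl.DictC

/-!
# Split maps in terms of orders of vanishing and degrees
-/

set_option linter.unusedSectionVars false

namespace Vale.Agent.P269

open Set Function Topology Filter Holo Base Cv

variable {S Λ R J K ι ν κ β : Type} [Fintype S] [Fintype Λ] [Fintype R] [Fintype J]
  [Fintype K] [Fintype ι] [DecidableEq ι] [Fintype ν] [Fintype κ] [Fintype β]

open Classical in
/-- a section with the maximal number of zeros at the points `p` has no other zeros -/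
theorem Cv.ord_eq_of_deg {X : Type} [TopologicalSpace X] [T2Space X] [CompactSpace X] {R : RS X}
    {L : LB R} {s : X → ℂ} (hs : s ∈ L.Γ) {Y : Set X} (hY : IsClopen Y) (g : Y ⊆ Gen s)
    {p : β → X} (hi : Injective p) {u : β → ℤ} (h0 : ∀ k, p k ∈ Y → 0 ≤ u k)
    (h1 : ∀ k, ((u k).toNat : ℕ∞) ≤ L.ord s (p k)) (hd : degOn L Y = ∑ k with p k ∈ Y, u k) :
    (∀ k, p k ∈ Y → L.ord s (p k) = (u k).toNat) ∧ ∀ z ∈ Y, (∀ k, z ≠ p k) → s z ≠ 0 := by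
  let A := (Finset.univ.filter fun k => p k ∈ Y).image p
  let Z := A ∪ (finite_zeros_on hY (fun x _ => hs x) g).toFinset
  have hA : ∀ k, p k ∈ Y → p k ∈ A := fun k a => Finset.mem_image_of_mem _ (by simpa using a)
  have hZ : ∀ y ∈ Z, y ∈ Y := fun y a => (Finset.mem_union.1 a).elim (fun a => by
    obtain ⟨k, e, rfl⟩ := Finset.mem_image.1 a
    exact (Finset.mem_filter.1 e).2) fun a => ((Finite.mem_toFinset _).1 a).1
  have t := fun y (a : y ∈ Y) => ENat.natCast_toNat ((hs y).ord_ne_top.2 (g a))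
  let f : X → ℕ := extend p (fun k => (u k).toNat) 0
  have f0 : ∀ y, (∀ k, y ≠ p k) → f y = 0 := fun y a =>
    extend_apply' _ _ _ fun ⟨k, e⟩ => a k e.symm
  have f1 : ∀ k, f (p k) = (u k).toNat := hi.extend_apply _ _
  have e : ∑ y ∈ Z, f y = ∑ y ∈ Z, (L.ord s y).toNat := by
    refine Nat.cast_injective (R := ℤ) ?_
    rw [← degOn_eq_sum hY (fun x _ => hs x) g (Z := Z) (fun y a b d => b (by simp [Z, a, d])) hZ,
      hd, ← Finset.sum_subset Finset.subset_union_left fun y a b =>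
        f0 y fun k e => b (e ▸ hA k (e ▸ hZ y a)), Finset.sum_image hi.injOn, Nat.cast_sum]
    exact Finset.sum_congr rfl fun k a => by
      rw [f1, Int.toNat_of_nonneg (h0 k (Finset.mem_filter.1 a).2)]
  have k := (Finset.sum_eq_sum_iff_of_le fun y a => ?_).1 e
  · refine ⟨fun n a => by rw [← f1, k _ (Finset.mem_union_left _ (hA n a)), t _ a],
      fun z a b d => ?_⟩
    have := t z a
    rw [← k z (by simp [Z, a, d]), f0 z b] at this
    exact (LB.ord_eq_zero (hs z)).1 this.symm d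
  · by_cases b : ∀ k, y ≠ p k
    · exact (f0 y b).trans_le (Nat.zero_le _)
    · obtain ⟨k, rfl⟩ : ∃ k, y = p k := by simpa using b
      exact (f1 k).trans_le (ENat.natCast_le_natCast.1 ((h1 k).trans_eq (t _ (hZ _ a)).symm))

namespace AM

variable {w d : R → ℤ} {b c : J} {a : ℤ} {U : Ch.Mk ν κ → ℤ} {T : Set (Ch.Mk ν κ)}
  {m m' : AM Λ R J ν κ} {Y : Set m.X} {Y' : Set m'.X} {z : β → m.X}

open Classical in
variable (m w U a d T Y) in
/-- The numerical conditions on the part on which `b` does not vanish. -/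
structure Ty : Prop where
  sat : m.Sat Y
  ω : degOn m.ω Y = a
  L : ∀ r, degOn (m.L r) Y = d r
  mk' : ∀ n, m.p n ∈ Y ↔ n ∈ T
  d1 : degOn (bz m.L w) Y = ∑ k with k ∈ T, U k
  d2 : degOn (bz m.L w) Yᶜ = ∑ k with k ∉ T, U k
  pos : ∀ n ∈ T, 0 ≤ U n
  neg : ∀ n ∉ T, U n ≤ 0

theorem Ty.of (h : m.Ty w d a U T Y) (hs : m'.Sat Y') (e : degOn m'.ω Y' = degOn m.ω Y)
    (f : ∀ r, degOn (m'.L r) Y' = degOn (m.L r) Y) (g : ∀ r, degOn (m'.L r) Y'ᶜ = degOn (m.L r) Yᶜ)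
    (k : ∀ n, m'.p n ∈ Y' ↔ m.p n ∈ Y) : m'.Ty w d a U T Y' :=
  ⟨hs, e.trans h.ω, fun r => (f r).trans (h.L r), fun n => (k n).trans (h.mk' n),
    by simpa only [degOn_bz, f] using h.d1, by simpa only [degOn_bz, g] using h.d2, h.pos, h.neg⟩

theorem sub_gen {L : LB m.R} {s : m.X → ℂ} (hs : s ∈ L.Γ) (hY : IsClopen Y)
    (hit : ∀ V, IsClopen V → V.Nonempty → ∃ k, z k ∈ V) (h : ∀ k, z k ∈ Y → s (z k) ≠ 0) :
    Y ⊆ Gen s := fun y a => by_contra fun e =>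
  let ⟨k, f⟩ := hit _ (hY.diff (isClopen_gen hs)) ⟨y, a, e⟩
  f.2 ((hs _).mem_gen (h k f.1))

open Classical in
theorem spT_iff (h : m.Nb w b c) (hz : ∀ k, m.Um (z k))
    (hit : ∀ V, IsClopen V → V.Nonempty → ∃ k, z k ∈ V) : m.SpT w b c U a d T ↔
      (∀ n, ((U n).toNat : ℕ∞) ≤ (bz m.L w).ord (m.y b) (m.p n)) ∧
      (∀ n, ((-U n).toNat : ℕ∞) ≤ (bz m.L (-w)).ord (m.y c) (m.p n)) ∧
      ∃ Y, m.Ty w d a U T Y ∧ ∀ k, m.y (if z k ∈ Y then b else c) (z k) ≠ 0 := by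
  refine ⟨fun ⟨s, a1, a2, a3⟩ => ⟨fun n => ?_, fun n => ?_, _, ⟨s.sat h, a1, a2, a3,
    by simpa only [a3] using (s.deg h).1, by simpa only [a3] using (s.deg h).2,
    fun n e => (s.ord_b h ((a3 n).2 e)).1, fun n e => (s.ord_c h (mt (a3 n).1 e)).1⟩, fun k => ?_⟩,
    fun ⟨o1, o2, Y, t, f⟩ => ?_⟩
  · by_cases e : m.p n ∈ m.sb b
    · exact (s.ord_b h e).2.ge
    · simp [Int.toNat_of_nonpos (s.ord_c h e).1]
  · by_cases e : m.p n ∈ m.sb b
    · simp [Int.toNat_of_nonpos (neg_nonpos.2 (s.ord_b h e).1)]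
    · exact (s.ord_c h e).2.ge
  · obtain ⟨B, l⟩ := s.1
    split_ifs with e
    exacts [l.b_ne h e (hz k), l.symm.b_ne h.symm ((s.sb_c h).ge e) (hz k)]
  have p1 := fun n (e : m.p n ∈ Y) => t.pos n ((t.mk' n).1 e)
  have p2 := fun n (e : m.p n ∉ Y) => t.neg n (mt (t.mk' n).2 e)
  obtain ⟨b1, b2⟩ := ord_eq_of_deg h.b_mem.1 t.sat.1 (sub_gen h.b_mem.1 t.sat.1 hit
    fun k e => by simpa only [if_pos e] using f k) m.inj p1 o1 (by simpa only [t.mk'] using t.d1)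
  obtain ⟨c1, c2⟩ := ord_eq_of_deg (u := -U) h.c_mem.1 t.sat.1.compl (sub_gen h.c_mem.1
    t.sat.1.compl hit fun k e => by simpa only [if_neg e] using f k) m.inj
    (fun n e => neg_nonneg.2 (p2 n e)) o2 (by
      simp only [DA.bz_neg, degOn_inv, t.d2, mem_compl_iff, t.mk', Pi.neg_apply,
        Finset.sum_neg_distrib])
  obtain ⟨s, e⟩ := spl_of h t.sat (fun n e => ⟨p1 n e, b1 n e⟩) (fun n e => ⟨p2 n e, c1 n e⟩) b2 c2
  exact ⟨s, e ▸ t.ω, e ▸ t.L, e ▸ t.mk'⟩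

end AM

namespace Ch

variable {ch : Ch ι J} {W : Wt S Λ R J} {ℓ : R → ι → ℤ} {j : J} {A A' : Set J}
  {x x' : ch.WF ν κ Λ} {m m' : AM Λ R J ν κ} {B : ι → LB m.R} {π : m.X → V ch.M} {u s}
  {B' : ι → LB m'.R} {π' : m'.X → V ch.M} {u' s'}

theorem RepD.mer_iff (h : RepD ℓ A x m B π u s) (hw : ∀ j i, ch.wd j i = ∑ r, W.w j r * ℓ r i)
    (hj : j ∈ A) (N : Mk ν κ → ℕ) :
    Mer ch.o (crv x.2) (ch.wd j) x.2.p (fun n => N n) (fun c => fld x.2 c j) ↔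
      ∀ n, (N n : ℕ∞) ≤ (bz m.L (W.w j)).ord (m.y j) (m.p n) := by
  have a : Sc x.2 j := h.cr.exists_ind_iff.1 ⟨_, h.ind j hj⟩
  rw [mer_fld_iff h.cr.mem a (γ := fun n => br B π (m.p n))
    fun n => ⟨h.cr.par.isBranch _, by rw [br_zero]; exact (h.cr.mark n).symm⟩]
  refine forall_congr' fun n => ?_
  rw [dv_iff_le (an_fld h.cr.mem a (h.cr.par.isBranch _)), h.cr.order_br (h.ind j hj),
    (h.eqv_wd hw j).ord]

theorem RepD.fld_ne (h : RepD ℓ A x m B π u s) (hj : j ∈ A) {z : m.X} {y : V ch.M}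
    (e : Base.Orb (π z) y) : fld x.2 y j ≠ 0 ↔ m.y j z ≠ 0 := by
  obtain ⟨t, a, rfl⟩ := e
  rw [h.cr.fld_smul (h.ind j hj) z a, mul_ne_zero_iff_left (prod_zpow_ne a _)]

theorem RepD.ty (h : RepD ℓ A x m B π u s) (h' : RepD ℓ A' x' m' B' π' u' s') (hk : ch.k ≠ 0)
    {Y : Set m.X} {Y' : Set m'.X} (hs : m'.Sat Y') (e : ∀ o, degOn (B' o) Y' = degOn (B o) Y)
    (k : ∀ n, m'.p n ∈ Y' ↔ m.p n ∈ Y) {w d a U T} (t : m.Ty w d a U T Y) : m'.Ty w d a U T Y' := by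
  have e' : ∀ o, degOn (B' o) Y'ᶜ = degOn (B o) Yᶜ := fun o => add_left_cancel (a := degOn (B o) Y)
    (by rw [degOn_add_compl t.sat.1, ← e, degOn_add_compl hs.1, h.cr.deg_eq, h'.cr.deg_eq])
  refine t.of hs (mul_left_cancel₀ (Nat.cast_ne_zero.2 hk) ?_) (fun r => ?_) (fun r => ?_) k
  · simp only [← degOn_pow, ← h.crep.eqv.degOn, ← h'.crep.eqv.degOn, degOn_bz, e]
  · simp only [← (h.L r).degOn, ← (h'.L r).degOn, degOn_bz, e]
  · simp only [← (h.L r).degOn, ← (h'.L r).degOn, degOn_bz, e']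

end Ch

end Vale.Agent.P269
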