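import Vale.Agent.P269.Spl.DictC
import Vale.Agent.P269.Spl.LocA
import Vale.Agent.P269.Spl.LocT
import Vale.Agent.P269.Spl.Spec
import Vale.Agent.P269.Spl.Type
import Vale.Agent.P269.Spl.Ex
import Vale.Agent.P269.Spl.Ver
import Vale.Agent.P269.Bas.DegN

/-!
# The special fibre near a split map
-/

set_option linter.unusedSectionVars false

namespace Vale.Agent.P269

open Set Function Topology Filter Holo Base Cv

variable {S Λ₀ R J K ι ν κ ε : Type} [Fintype S] [Fintype Λ₀] [Fintype R] [Fintype J]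
  [Fintype K] [Fintype ι] [DecidableEq ι] [Fintype ν] [Fintype κ] [Fintype ε] [DecidableEq R]
  {F : Fam S (Option Λ₀) R J K} {r : R} {b c : J} {B₀ : Set (Λ₀ → ℂ)} {Ω : Set ℂ}

theorem Fam.Deg.nodal (hF : F.Deg r b c B₀ Ω) : (F.sub (slab B₀ 0) ∅).Nodal b c :=
  ⟨hF.ne, hF.mov, rfl, fun l hl y => by
    change (l, y) ∈ F.E ↔ _
    rw [hF.E, ← show l none = 0 from hl.2]
    rfl⟩

theorem Fam.Deg.dg (hF : F.Deg r b c B₀ Ω) {k D : ℕ} (hk : 2 ≤ k) (hD : F.BigD k D) (g : ℤ)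
    (d : R → ℤ) : (F.sch ν κ k D g d).Dg F.toWt ℓs (some r) b c := by
  refine ⟨⟨chart_a_ne g _ d (by have := hD.le; omega), fun _ => hD.le, (by omega : k ≠ 0),
    Fam.chart_tight, by rw [sum_χ g _ d hD]; exact one_ne_zero, (Option.some_ne_none r).symm, hF.ne,
    ?_, ?_, ?_⟩, fun e => ?_, Fam.chart_lat hD⟩
  · rw [chart_wd, hF.wb]
    funext o
    cases o <;> simp [Tgt.hat, Pi.single_apply, Fam.chart, Tgt.chart]
  · rw [chart_wd, chart_wd, hF.wb, hF.wc]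
    funext o
    cases o <;> simp [Tgt.hat]
  · simp [chart_χ g _ d hD, Tgt.hat, hF.θ]
  · have := Int.eq_one_of_mul_eq_one_right (Int.natCast_nonneg k) ((add_zero _).symm.trans e)
    omega

namespace Ch

variable {ch : Ch ι J} {ℓ : R → ι → ℤ} {i : ι} {u : ε → ℕ} {x x₀ : ch.WF ν κ (Option Λ₀)}
  {a : ℤ} {d : R → ℤ} {T : Set (Mk ν κ)}

theorem mem_adm_deg (hF : F.Deg r b c B₀ Ω) :
    x ∈ ch.adm ν κ F ↔ x.1 ∈ F.B ∧ Bc x.2 b c (x.1 none) := by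
  have hb : b ∉ F.mov := hF.not_mov.2 (.inl rfl)
  have hc : c ∉ F.mov := hF.not_mov.2 (.inr rfl)
  have e : ∀ y, (x.1, y) ∈ F.E ↔ y b * y c = x.1 none := fun y => by rw [hF.E]; rfl
  refine ⟨fun ⟨h1, h2, h3, _, h5⟩ => ⟨h1.1, (mem_baseF.1 h1).2, h2 b hb, h2 c hc,
    fun y hy => (e _).1 (h3 y hy), h5 b hb, h5 c hc⟩, fun ⟨h1, h2⟩ =>
    ⟨mem_baseF.2 ⟨h1, h2.mem⟩, fun j hj => ?_, fun y hy => (e _).2 (h2.mul y hy),
      fun j hj => absurd hj (hF.zer ▸ notMem_empty j), fun j hj => ?_⟩⟩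
  · obtain rfl | rfl := hF.not_mov.1 hj
    exacts [h2.scb, h2.scc]
  · obtain rfl | rfl := hF.not_mov.1 hj
    exacts [h2.mtb, h2.mtc]

theorem lf_adm (hF : F.Deg r b c B₀ Ω) (hx : x ∈ ch.adm ν κ F) (ht : x.1 none = 0) :
    x ∈ ch.adm ν κ (F.sub (slab B₀ 0) ∅) :=
  (mem_adm_nodal hF.nodal).2 ⟨⟨(hF.B ▸ hx.1.1).1, ht⟩, ht ▸ ((mem_adm_deg hF).1 hx).2⟩

variable (hc : ch.Dg F.toWt ℓ i b c) (hF : F.Deg r b c B₀ Ω)
include hc hF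

theorem Dg.mem_main (hx : x ∈ ch.adm ν κ F) (ht : x.1 none ≠ 0) : x ∈ ch.main κ F 0 := by
  refine ⟨hx, fun j hj _ γ hγ => ?_⟩
  have k := ((mem_adm_deg hF).1 hx).2.mul _ hγ.mem.self_of_nhds ▸ ht
  simp only [Pi.zero_apply, ite_self, Finset.sum_const_zero, Nat.cast_zero]
  refine analyticOrderAt_eq_zero.2 (.inr ?_)
  obtain rfl | rfl := hF.not_mov.1 hj
  exacts [left_ne_zero_of_mul k, right_ne_zero_of_mul k]

theorem Dg.crv_eq (hx : x ∈ ch.main κ F 0) (ht : x.1 none = 0) : crv x.2 = ∅ := by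
  refine eq_empty_of_forall_notMem fun y hy => ?_
  have k : ∀ j ∉ F.mov, fld x.2 y j ≠ 0 := fun j hj => fld_ne hx.1.1.2.1 (hx.1.2.1 j hj)
    ((mem_main_iff.1 hx).2 j hj (hF.zer ▸ notMem_empty j)) hy fun m _ => by cases m <;> rfl
  exact mul_ne_zero (k b (hF.not_mov.2 (.inl rfl))) (k c (hF.not_mov.2 (.inr rfl)))
    ((((mem_adm_deg hF).1 hx.1).2.mul y hy).trans ht)

theorem Dg.cyc_adm : ch.cyc κ F 0 ⊆ ch.adm ν κ F := fun x hx =>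
  (mem_adm_deg hF).2 ⟨hx.2.1, bc_closed hc.toDgC (mem_baseF.1 hx.2).2
    (map_mem_closure (f := fun y : ch.WF ν κ (Option Λ₀) => (y.2, y.1 none)) (by fun_prop) hx.1
      fun _ a => ((mem_adm_deg hF).1 a.1).2)⟩

/-- the points of the special fibre are split maps or have ghosts -/
theorem Dg.cyc_type (hx : x ∈ ch.cyc κ F 0) (ht : x.1 none = 0) {m : AM (Option Λ₀) R J ν κ}
    (hm : Rep ℓ F.movᶜ x m) : ∃ (s : ℕ) (u : Fin s → ℕ) (n : Fin s × Bool → m.X) (hn : m.Nds n),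
      (∀ e, u e ≠ 0) ∧ ((m.cut hn).SpU (F.w b) b c (extU 0 u) ∨
        (m.cut hn).GhN (F.w b) b c (extU 0 u)) := by
  have h0 := lf_adm hF (hc.cyc_adm hF hx) ht
  have nb := Dg.nb (F := F.sub (slab B₀ 0) ∅) hc hF.nodal h0 hm
  obtain ⟨U, h1, h2⟩ := mem_closure_iff_ultrafilter.1 hx.1
  have h3 : ∀ᶠ q in U.toFilter, q ∈ ch.main κ F 0 := h1
  have t1 : Tendsto Prod.snd U.toFilter (𝓝 x.2) := continuousAt_snd.mono_left h2
  suffices ∃ (s : ℕ) (u : Fin s → ℕ) (n : Fin s × Bool → m.X) (hn : m.Nds n),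
      (∀ e, u e ≠ 0) ∧ ∃ B, (m.cut hn).Lv (F.w b) b c (extU 0 u) B by
    obtain ⟨s, u, n, hn, hu, hB⟩ := this
    refine ⟨s, u, n, hn, hu, (_root_.em _).imp (fun e => ⟨nb.cut hn, hB, e⟩) fun e =>
      ⟨nb.cut hn, hB, ?_⟩⟩
    simpa only [not_forall, not_or, not_not, exists_prop] using e
  rcases U.em fun q => q.1 none = 0 with h4 | h4
  · have : IsEmpty m.X := ⟨fun z => by
      obtain ⟨B, π, _, _, d⟩ := hm.exists_data hx.2.2.1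
      obtain ⟨z₀, hz, -⟩ := d.cr.par.mem z
      obtain ⟨w, a, -⟩ := hc.cuts'.exists_gr (h3.mono fun _ e => e.1.1.2.1) hx.2.2.1 t1 hz
      obtain ⟨q, ⟨e1, e2⟩, e3⟩ := ((h3.and h4).and a).exists
      exact (hc.crv_eq hF e1 e2).le ⟨_, e3, rfl⟩⟩
    exact ⟨0, Fin.elim0, fun e => e.1.elim0, ⟨fun e => e.1.elim0, fun e => e.elim0⟩,
      fun e => e.elim0, 0, zero_mem _, isEmptyElim, fun _ _ _ => rfl, isEmptyElim, isEmptyElim⟩
  · exact type_lim hc t1 (t := fun q => q.1 none)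
      ((((continuous_apply none).comp continuous_fst).tendsto' _ _ ht).mono_left h2)
      ((h3.and h4).mono fun _ e => ⟨((mem_adm_deg hF).1 e.1.1).2, e.2⟩)
      ((mem_adm_nodal hF.nodal).1 h0).2 (hm.mono (hF.mov ▸ (compl_compl _).ge))

variable (hu : ∀ e, u e ≠ 0)
include hu

theorem Dg.lf_gd {m : AM (Option Λ₀) R J ν κ} {B π u₀ s} (h : RepD ℓ F.movᶜ x m B π u₀ s)
    {n : ε × Bool → m.X} {hn : m.Nds n} (hs : (m.cut hn).SpU (F.w b) b c (extU 0 u)) :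
    ∃ (σ : ε → ℂ × ℂ → V ch.M) (α α' : ε → ℂ), Axes B π n σ ∧
      Gd x.2 b c u (fun e z => σ e (z, 0)) (fun e z => σ e (0, z)) α α' := by
  classical
  obtain ⟨γ, δ, h1, -⟩ := h.exists_cross hn
  have ax : Axes B π n fun e z => if z.2 = 0 then γ e z.1 else δ e z.2 := fun e =>
    ⟨by simpa only [if_true] using (h1 e).2.1, (funext fun z => ite_eq_right_iff.2 fun k =>
      (h1 e).1.2.2.2.1.symm.trans (congrArg _ k.symm) : (fun z => if z = 0 then γ e 0 else δ e z) =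
        δ e) ▸ (h1 e).2.2⟩
  obtain ⟨α, α', g⟩ := gd_of_spl hc (hF.not_mov.2 (.inl rfl)) (hF.not_mov.2 (.inr rfl)) h hn ax
    hs.1.of_cut hu hs.2
  exact ⟨_, α, α', ax, g⟩

theorem Dg.isNode_of_ct
    (hx : x ∈ ch.locP (F.sub (slab B₀ 0) ∅) ℓ (AM.Ct (AM.SpU (F.w b) b c (extU 0 u))))
    {y : V ch.M} (hy : y ∈ crv x.2) (hb : fld x.2 y b = 0) (hc' : fld x.2 y c = 0) :
    IsNode ch.o (crv x.2) y := by
  obtain ⟨h0, m, hm, n, hn, hs⟩ := hx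
  obtain ⟨B, π, _, _, d⟩ := hm.exists_data h0.1.2.1
  obtain ⟨σ, α, α', -, g⟩ := hc.lf_gd hF hu d hs
  exact g.isNode hy hb hc'

/-- the local model at a split map -/
theorem Dg.exists_lm {m₀ : AM (Option Λ₀) R J ν κ} {B π u₀ s}
    (hx : x₀ ∈ ch.adm ν κ (F.sub (slab B₀ 0) ∅)) (h : RepD ℓ F.movᶜ x₀ m₀ B π u₀ s)
    {n₀ : ε × Bool → m₀.X} {hn : m₀.Nds n₀}
    (hs : (m₀.cut hn).SpN (F.w b) b c (extU 0 u) a d (extT ε T)) :
    ∃ (h₀ : x₀.2 ∈ ch.bm ν κ) (n : ℕ) (Ψ : PV n ε → (ch.flat hc.ne).W (Mk ν κ)) (k : _) (σ' : _)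
      (σ : _) (α α' : ε → ℂ), Lm b c ⟨_, h₀⟩ Ψ k σ' σ u α α' ∧
      (n + Fintype.card ε : ℤ) = 3 * ch.g - 3 + Fintype.card (Mk ν κ) +
        (Fintype.card ι - 2) * (ch.g - 1) + (∑ j with j ≠ i, ch.M j * ch.M j : ℕ) +
        Fintype.card (Mk ν κ) * (Fintype.card ι - 1) - Fintype.card κ ∧
      Axes B π n₀ (fun e z => σ e (x₀.2, z)) ∧
      (∀ᶠ x in 𝓝 x₀, x ∈ ch.cyc κ F 0 → (x.2, x.1 none) ∈ Md b c u k σ) ∧
      ∀ᶠ x in 𝓝 x₀, x ∈ ch.adm ν κ (F.sub (slab B₀ 0) ∅) →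
        (∀ y ∈ crv x.2, fld x.2 y b = 0 → fld x.2 y c = 0 → IsNode ch.o (crv x.2) y) →
        (k x.2).2 = 0 ∧ ∀ (m : AM (Option Λ₀) R J ν κ) (B π u₀ s), RepD ℓ F.movᶜ x m B π u₀ s →
          (∃ n : ε × Bool → m.X, m.Nds n ∧ Axes B π n fun e z => σ e (x.2, z)) ∧
          ∀ (n : ε × Bool → m.X) (hn : m.Nds n), Axes B π n (fun e z => σ e (x.2, z)) →
            (m.cut hn).SpN (F.w b) b c (extU 0 u) a d (extT ε T) := by
  have hb : b ∈ F.movᶜ := hF.not_mov.2 (.inl rfl)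
  have hc' : c ∈ F.movᶜ := hF.not_mov.2 (.inr rfl)
  obtain ⟨h1, h2⟩ := (mem_adm_nodal hF.nodal).1 hx
  obtain ⟨σ₀, _, _, ax, g⟩ := hc.lf_gd hF hu h ⟨hs.1, hs.2.1⟩
  obtain ⟨n, Ψ, k, σ', σ, α, α', H, h3, h4⟩ :=
    Gd.exists_lm (h := hc.ne) (x₀ := ⟨x₀.2, h2.mem⟩) hc.toDgC hc.m_ne h2 g
  have sd := hc.eventually_sd hb hc' h2.mem.1 h.rep hs.1.of_cut (fun z e => by
    have := m₀.R.neBot z
    obtain ⟨y, e1, e2⟩ := ((AM.ev_um (m := m₀.cut hn) z).and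
      (e.filter_mono nhdsWithin_le_nhds)).exists
    exact (hs.2.1.2 y e1).elim (· e2.1) (· e2.2)) (AM.sd_cut.1 hs.2.2).1
  have gd := continuousAt_snd.eventually H.eventually_gd
  have t0 : Tendsto (fun x : ch.WF ν κ (Option Λ₀) => (x.2, x.1 none)) (𝓝 x₀) (𝓝 (x₀.2, 0)) :=
    Continuous.tendsto' (by fun_prop) _ _ (Prod.ext rfl h1.2)
  refine ⟨h2.mem, n, Ψ, k, σ', σ, α, α', H, h3,
    fun e => ⟨(ax e).1.trans (h4 e).1, (ax e).2.trans (h4 e).2⟩, ?_, ?_⟩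
  · filter_upwards [sd, gd, t0.eventually H.eventually_ne] with x e1 e2 e3 e4
    have e5 := hc.cyc_adm hF e4
    have e6 := ((mem_adm_deg hF).1 e5).2
    by_cases ht : x.1 none = 0
    · obtain ⟨m, hm⟩ := hc.lat.exists_rep_adm e5
      obtain ⟨s, v, n', hn', hv, e7 | e7⟩ := hc.cyc_type hF e4 ht hm
      · obtain ⟨e8, β, β', e9⟩ := e2 (ht ▸ e6) fun y =>
          hc.isNode_of_ct hF hv ⟨lf_adm hF e5 ht, m, hm, n', hn', e7⟩
        exact ⟨_, e6, .inr ⟨ht, e8, β, β', e9, rfl⟩⟩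
      · obtain ⟨z, hz⟩ := e7.2.exists_ev e7.1
        exact absurd hz ((e1 e6.mem.1 m hm e7.1.of_cut).2 z)
    · exact ⟨fun e => x.1 none / (k x.2).2 e ^ u e, e6, .inl ⟨ht, fun e =>
        div_mul_cancel₀ _ (pow_ne_zero _ (e3 e6 ht e))⟩⟩
  · filter_upwards [sd, gd] with x e1 e2 e3 e4
    obtain ⟨e5, β, β', e6⟩ := e2 ((mem_adm_nodal hF.nodal).1 e3).2 e4
    refine ⟨e5, fun m B π u₀ s e7 => ⟨e7.exists_axes e6.cross e6.inj, fun n hn ax => ?_⟩⟩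
    have nb := Dg.nb (F := F.sub (slab B₀ 0) ∅) hc hF.nodal e3 e7.rep
    have e8 := spl_of_gd hc hb hc' e7 hn ax nb e6
    obtain ⟨_, _, _, e9⟩ := e8.exists_spT nb hu
    exact ⟨nb.cut hn, e8, AM.sd_cut.2 ⟨(e1 e3.1.2.1 m e7.rep nb).1, (AM.sd_cut.1 e9.2).2⟩⟩

variable (hx : x₀ ∈ ch.locP (F.sub (slab B₀ 0) ∅) ℓ
  (AM.Ct (AM.SpN (F.w b) b c (extU 0 u) a d (extT ε T))))
include hx

/-- split maps can be smoothed -/
theorem Dg.mem_cyc : x₀ ∈ ch.cyc κ F 0 := by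
  classical
  obtain ⟨h0, m, hm, n₀, hn, hs⟩ := hx
  obtain ⟨B, π, _, _, e⟩ := hm.exists_data h0.1.2.1
  obtain ⟨h₀, n, Ψ, k, σ', σ, α, α', H, -⟩ := hc.exists_lm hF hu h0 e hs
  obtain ⟨D, hD⟩ := H.vs.exists_cd H.dg H.gd
  have h1 := hF.slab_sub hF.zero h0.1.1
  refine ⟨mem_closure_iff_nhds.2 fun O hO => ?_, mem_baseF.2 ⟨h1, h₀⟩⟩
  obtain ⟨O₁, a1, O₂, a2, a3⟩ := mem_nhds_prod_iff.1 hO
  have b1 : Tendsto (fun t : ℂ => (D.co b c k x₀.2, α * α',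
      fun e => (t / (α * α') e) ^ (u e : ℂ)⁻¹, t)) (𝓝 0) (𝓝 (D.co b c k x₀.2, α * α', 0, 0)) := by
    refine tendsto_const_nhds.prodMk_nhds (tendsto_const_nhds.prodMk_nhds
      ((tendsto_pi_nhds.2 fun e => ?_).prodMk_nhds tendsto_id))
    have := (Complex.continuousAt_cpow_zero_of_re_pos (z := (u e : ℂ)⁻¹) (by
      simpa [← Complex.ofReal_natCast, ← Complex.ofReal_inv] using Nat.pos_of_ne_zero (hu e))).tendsto
    rw [Complex.zero_cpow (inv_ne_zero (Nat.cast_ne_zero.2 (hu e)))] at this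
    exact this.comp (((continuous_id.div_const _).tendsto' 0 0 (zero_div _)).prodMk_nhds
      tendsto_const_nhds)
  have b2 : Tendsto (fun t : ℂ => update x₀.1 none t) (𝓝 0) (𝓝 x₀.1) :=
    (continuous_const.update none continuous_id).tendsto' _ _ (update_eq_self_iff.2 h0.1.1.2.symm)
  obtain ⟨t, ⟨b3, b4, b5⟩, b6⟩ := ((((b1.eventually (H.exists_smooth hD (H.gd.m_eq H.dg) a2)).and
    ((b2.eventually a1).and (hF.opn.mem_nhds hF.zero))).filter_mono nhdsWithin_le_nhds).and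
      (self_mem_nhdsWithin (s := {0}ᶜ))).exists
  obtain ⟨y, c1, c2, -⟩ := b3 b6 fun e => by
    rw [Complex.cpow_nat_inv_pow _ (hu e)]
    exact mul_div_cancel₀ _ (mul_ne_zero (H.gd.vzb e).1 (H.gd.vzc e).1)
  exact ⟨(update x₀.1 none t, y), a3 ⟨b4, c1⟩, hc.mem_main hF ((mem_adm_deg hF).2
    ⟨hF.B ▸ ⟨h0.1.1.1, b5⟩, c2⟩) b6⟩

/-- the strata of split maps are open in the special fibre -/
theorem Dg.eventually_ct : ∀ᶠ x in 𝓝 x₀, x ∈ ch.cyc κ F 0 → x.1 none = 0 →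
    x ∈ ch.locP (F.sub (slab B₀ 0) ∅) ℓ
      (AM.Ct (AM.SpN (F.w b) b c (extU 0 u) a d (extT ε T))) := by
  obtain ⟨h0, m₀, hm, n₀, hn, hs⟩ := hx
  obtain ⟨B, π, _, _, e⟩ := hm.exists_data h0.1.2.1
  obtain ⟨h₀, n, Ψ, k, σ', σ, α, α', -, -, -, h1, h2⟩ := hc.exists_lm hF hu h0 e hs
  filter_upwards [h1, h2] with x e1 e2 e3 ht
  have e4 := lf_adm hF (hc.cyc_adm hF e3) ht
  obtain ⟨_, -, ⟨e5, -⟩ | ⟨-, -, _, _, e5, -⟩⟩ := e1 e3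
  · exact absurd ht e5
  obtain ⟨m, hm⟩ := hc.lat.exists_rep_adm (hc.cyc_adm hF e3)
  obtain ⟨B, π, _, _, e6⟩ := hm.exists_data e4.1.2.1
  obtain ⟨⟨n, hn, ax⟩, e7⟩ := (e2 e4 fun _ => e5.isNode).2 m _ _ _ _ e6
  exact ⟨e4, m, hm, n, hn, e7 n hn ax⟩

end Ch

end Vale.Agent.P269
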