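import Vale.Agent.P269.Spl.Defs
import Vale.Agent.P269.Holo.Osg

/-!
# Local product structure near a free point, product charts
-/

namespace Vale.Agent.P269.MultB

open P291Z Set Function Topology Filter Holo Module Orb

section top

variable {X X' Y Y' : Type} [TopologicalSpace X] [TopologicalSpace X'] [TopologicalSpace Y]
  [TopologicalSpace Y'] {n r : ℕ}

theorem posGerm_of_li {θ : (Fin n → ℂ) → Fin n → ℂ} (h0 : θ 0 = 0) (h : AnalyticAt ℂ θ 0)
    (hi : Osg.LI θ 0) : PosGerm θ :=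
  posGerm_of_hasFDerivAt h0 (h.eventually_analyticAt.mono fun _ h => h.continuousAt)
    h.differentiableAt.hasFDerivAt (osgood rfl h hi).1

theorem li_of_lh {f : X → Y} {x : X} (h : LH f x) : Osg.LI f x :=
  let ⟨g, _, _, h1, _⟩ := h.exists_inv
  Osg.LI.of_left g h1

theorem li_congr {Z : Type} {f f' : X → Z} {x : X} (h : Osg.LI f x) (e : ∀ᶠ y in 𝓝 x, f' y = f y) :
    Osg.LI f' x :=
  let ⟨_, h1, h2⟩ := h
  ⟨_, inter_mem h1 e, fun _ ha _ hb hab => h2 ha.1 hb.1 (ha.2.symm.trans (hab.trans hb.2))⟩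

theorem li_of_comp {Z Z' : Type} {f : X → Z} {g : Z → Z'} {x : X}
    (h : Osg.LI (fun y => g (f y)) x) : Osg.LI f x :=
  let ⟨U, h1, h2⟩ := h
  ⟨U, h1, fun _ ha _ hb hab => h2 ha hb (congrArg g hab)⟩

theorem li_comp {Z Z' : Type} {f : X → Z} {g : Z → Z'} {x : X} (h : Osg.LI f x)
    (hg : Injective g) : Osg.LI (fun y => g (f y)) x :=
  let ⟨U, h1, h2⟩ := h
  ⟨U, h1, fun _ ha _ hb hab => h2 ha hb (hg hab)⟩

theorem cnt_comp {Φ : X → Y} {k : X' → X} {x : X'} {m : ℕ} {P : X → Prop} {P' : X' → Prop}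
    (h : Cnt Φ (k x) m P) (hk : LH k x) (hP : ∀ᶠ y in 𝓝 x, P (k y) → P' y) {e : Y → Y'}
    (he : Continuous e) (hi : Injective e) : Cnt (fun y => e (Φ (k y))) x m P' := by
  classical
  obtain ⟨g, h1, h2, h3, h4⟩ := hk.exists_inv
  obtain ⟨V₀, h5, h6⟩ := h
  have h7 : Tendsto g (𝓝 (k x)) (𝓝 x) := h2.cont.tendsto.mono_right (by rw [h1])
  refine ⟨_, inter_mem (hk.cont h5) h3, fun V hV => (he.tendsto _).frequently
    ((h6 _ (inter_mem (h7 hV) (h4.and (h7.eventually hP)))).mono ?_)⟩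
  rintro w ⟨F, k1, k2, k3⟩
  refine ⟨F.image g, ?_, fun y hy e => Finset.mem_image.2 ⟨k y, k2 _ hy.1 (hi e), hy.2⟩, ?_⟩
  · rw [Finset.card_image_of_injOn fun a ha b hb e => by
      rw [← (k3 a ha).1.2.1, e, (k3 b hb).1.2.1], k1]
  · intro y hy
    obtain ⟨z, hz, rfl⟩ := Finset.mem_image.1 hy
    obtain ⟨⟨a, b, c⟩, d, f⟩ := k3 z hz
    exact ⟨a, congrArg e ((congrArg Φ b).trans d), c (b.symm ▸ f)⟩

theorem locDiv_congr {θ θ' : Coch X} {s : X → ℂ} {x : X} (h : LocDiv θ s x)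
    (e : θ' - θ ∈ Van x) : LocDiv θ' s x := by
  obtain ⟨c, hc⟩ := h
  refine ⟨c, (hc.and (eventually_van e)).mono fun y hy => ⟨?_, hy.1.2⟩⟩
  have := (Van y).add_mem hy.2 hy.1.1
  rwa [sub_sub θ, sub_add_sub_cancel, ← sub_sub] at this

variable [Nice X] {ψ : (Fin n → ℂ) → X}

omit [Nice X] in
theorem exists_open (h : LH ψ 0) :
    ∃ U : Set (Fin n → ℂ), IsOpen U ∧ 0 ∈ U ∧ IsOpenEmbedding fun z : U => ψ z := by
  obtain ⟨U', h1, h2⟩ := (isLocalHomeomorphOn_iff_isOpenEmbedding_restrict _).1 h 0 rfl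
  exact ⟨interior U', isOpen_interior, mem_interior_iff_mem_nhds.2 h1, h2.comp
    (IsOpenEmbedding.inclusion interior_subset (isOpen_interior.preimage continuous_subtype_val))⟩

theorem gch_of_lh (h : LH ψ 0) : GCh ψ :=
  let ⟨_, h1, h2, h3⟩ := exists_open h
  gch_of_isOpenEmbedding h1 h2 h3

theorem ev_eq_zero (h : LH ψ 0) (β : BM X) {a : Coch X} (h1 : supp (δ a) = ∅)
    (h2 : supp a ⊆ {ψ 0}) (h3 : LocCo (pull ψ a) 0) : ev β a = 0 := by
  obtain ⟨U, k1, k2, k3⟩ := exists_open h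
  have k4 := h3.cohom_open (U := U) fun z hz h0 => Van.pull
    ((k1.isOpenEmbedding_subtypeVal.continuousAt_iff (x := ⟨z, hz⟩)).1 k3.continuous.continuousAt)
    fun h' => h0 (congrArg Subtype.val (k3.injective (a₁ := ⟨z, hz⟩) (a₂ := ⟨0, k2⟩) (h2 h')))
  rw [zero_smul, map_zero, pull_pull] at k4
  rw [← ev_res k3 β (Zc_of_pt h1 h2) (h2.trans (singleton_subset_iff.2 ⟨⟨0, k2⟩, rfl⟩)), ev_eq]
  refine (congrArg _ (cls_eq_of_cohom ((isCompact_singleton (x := (⟨0, k2⟩ : U))).of_isClosed_subset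
    (isClosed_eq continuous_subtype_val continuous_const) fun z hz => Subtype.ext hz) k4)).trans ?_
  rw [cls_zero, map_zero]

theorem val_of_one (h : LH ψ 0) {β : BM X} {a : Coch X} (h1 : supp (δ a) = ∅)
    (h2 : supp a ⊆ {ψ 0}) (h3 : LocCo (pull ψ a) 1) (e : ev β a = 1) : Val β ψ 1 := by
  intro b c k1 k2 k3
  have k4 := (Zc _).smul_mem (-c) (Zc_of_pt h1 h2)
  have k5 := ev_eq_zero h β ((Zc _).add_mem (Zc_of_pt k1 k2) k4).2
    ((supp_add _ _).trans (union_subset k2 ((supp_smul _ _).trans h2))) (by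
      have := k3.add (h3.smul (-c))
      rwa [← map_smul, ← map_add, mul_one, add_neg_cancel] at this)
  rw [ev_add β (Zc_of_pt k1 k2) k4, ev_smul β _ (Zc_of_pt h1 h2), e] at k5
  linear_combination k5

/-- The product of a translation of `ℂ^r` and a chart. -/
def pch (b : Fin r → ℂ) (ψ : (Fin n → ℂ) → Y) (z : Fin (r + n) → ℂ) : (Fin r → ℂ) × Y :=
  ((fun i => z (Fin.castAdd n i)) + b, ψ fun i => z (Fin.natAdd r i))

omit [TopologicalSpace Y] in
theorem pch_zero (b : Fin r → ℂ) (ψ : (Fin n → ℂ) → Y) : pch b ψ 0 = (b, ψ 0) :=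
  Prod.ext (zero_add b) rfl

theorem lh_pch (b : Fin r → ℂ) {ψ : (Fin n → ℂ) → Y} (h : LH ψ 0) : LH (pch b ψ) 0 :=
  LH.comp' (g := Prod.map (Homeomorph.addRight b) ψ) (((Homeomorph.addRight b).lh 0).prodMap h)
    ((isHomeomorph_append (E := ℂ) r n).isOpenEmbedding.lh 0) rfl

theorem isHomeomorph_prod : IsHomeomorph fun x : X' × Y => (x.1, x.2) := IsHomeomorph.id

/-- the product of cocycles with support at a point -/
theorem exists_prod {o : BM (Fin r → ℂ)} {b : Fin r → ℂ} (ho : Val o (fun z => z + b) 1)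
    {a : Coch X} {c : ℂ} (h1 : supp (δ a) = ∅) (h2 : supp a ⊆ {ψ 0}) (h3 : IsDeg (2 * n) a)
    (h4 : LocCo (pull ψ a) c) : ∃ a', supp (δ a') = ∅ ∧ supp a' ⊆ {pch b ψ 0} ∧
      LocCo (pull (pch b ψ) a') c ∧ ∀ β, ev (cross Prod.fst Prod.snd o β) a' = ev β a := by
  obtain ⟨t, k1, k2, -⟩ := exists_pt_cocycle b
  have k3 := Zc_of_pt k1.cocycle k1.supp
  refine ⟨pull Prod.fst t * pull Prod.snd a,
    (cross_Zc (IsPr.of_isHomeomorph isHomeomorph_prod) k3 (Zc_of_pt h1 h2)).2, fun y hy => ?_, ?_,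
    fun β => ?_⟩
  · rw [pch_zero]
    exact Prod.ext (k1.supp (supp_pull continuous_fst _ (supp_mul _ _ hy).1))
      (h2 (supp_pull continuous_snd _ (supp_mul _ _ hy).2))
  · have := k2.cross h4 (h3.pull _)
    rw [one_mul, pull_pull, pull_pull] at this
    rwa [map_mul, pull_pull, pull_pull]
  · have := ho t 1 k1.cocycle (by simpa only [zero_add] using k1.supp) k2
    rw [cross_spec isHomeomorph_prod o β t k3 a (Zc_of_pt h1 h2), ← one_mul (ev o t), this, one_mul]

theorem val_cross {o : BM (Fin r → ℂ)} {b : Fin r → ℂ} (ho : Val o (fun z => z + b) 1)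
    (h : LH ψ 0) {β : BM X} (hβ : Val β ψ 1) :
    Val (cross Prod.fst Prod.snd o β) (pch b ψ) 1 := by
  obtain ⟨a, h1, h2⟩ := (gch_of_lh h).gen
  obtain ⟨a', k1, k2, k3, k4⟩ := exists_prod ho h1.cyc h1.pt h1.deg h2
  exact val_of_one (lh_pch b h) k1 k2 k3
    ((k4 β).trans ((one_mul _).symm.trans (hβ a 1 h1.cyc h1.pt h2)))

theorem lgys_prod [Nice X'] [Nice Y] {i : Y → X} (hi : IsClosedEmbedding i) {θ : Coch X}
    (hθ : LCo (range i) θ) (hd : IsDeg 2 θ) (o : BM X') (β : BM X) :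
    lgys (Prod.map id i) (pull Prod.snd θ) (cross Prod.fst Prod.snd o β) =
      cross Prod.fst Prod.snd o (lgys i θ β) := by
  have := lgys_cross (f := Prod.map id i) isHomeomorph_prod isHomeomorph_prod (fun _ => rfl)
    (fun _ => rfl) IsClosedEmbedding.id hi (d := 0) (e := 1)
    (LCo.of_supp cocycle_one (by rw [range_id]; exact subset_univ _)) hθ isDeg_one hd o β
  rwa [map_one, one_mul, lgys_eq_gys IsClosedEmbedding.id cocycle_one
    (by rw [range_id]; exact subset_univ _), gys_id_eq_cap cocycle_one, hcls_one, cap_one] at this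

end top

variable {A W : Type} [NormedRing A] [NormedAlgebra ℂ A] [NormedAddCommGroup W] [NormedSpace ℂ W]
  [FiniteDimensional ℂ A] [FiniteDimensional ℂ W] {act : A → W → W} {S : Set W} [IsAct act S]
  [ProperSMul Aˣ (Sp act S)]

/-- **local product structure** near a point with trivial stabiliser -/
theorem exists_sec {x : Sp act S} (hx : Fre act x.val) :
    ∃ (k : (Fin (finrank ℂ A) → ℂ) × Quo act S → Sp act S) (F : (Fin (finrank ℂ A) → ℂ) × W → W),
      k (0, x.mk) = x ∧ LH k (0, x.mk) ∧ (∀ᶠ y in 𝓝 (0, x.mk), (k y).mk = y.2) ∧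
        AnalyticAt ℂ F (0, x.val) ∧
        ∀ᶠ q in 𝓝 ((0 : Fin (finrank ℂ A) → ℂ), x), (k (q.1, q.2.mk)).val = F (q.1, q.2.val) := by
  have := FiniteDimensional.complete ℂ A
  have := FiniteDimensional.complete ℂ W
  have hf := Sp.free_iff.1 hx
  obtain ⟨l₀, hl⟩ := ContinuousLinearMap.HasLeftInverse.of_injective_of_finiteDimensional
    (Sp.inf_injective (Eventually.of_forall hf))
  let L : A ≃L[ℂ] (Fin (finrank ℂ A) → ℂ) := ContinuousLinearEquiv.ofFinrankEq (by simp)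
  let l : W →L[ℂ] (Fin (finrank ℂ A) → ℂ) := L.toContinuousLinearMap.comp l₀
  let E : A × W → W := fun q => act (expU q.1) q.2
  have e0 : ∀ y : Sp act S, E (0, y.val) = y.val := fun y => by
    simp only [E, isExp_expU.zero]
    exact IsAct.one _ y.val_mem
  have hE : AnalyticAt ℂ E (0, x.val) :=
    AnalyticAt.comp_of_eq (g := fun p : A × W => act p.1 p.2)
      (f := fun q : A × W => (NormedSpace.exp q.1, q.2)) (IsAct.an 1 isUnit_one _ x.val_mem)
      (((exp_an _).comp analyticAt_fst).prod analyticAt_snd) (by simp)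
  let H : A × W → (Fin (finrank ℂ A) → ℂ) × W := fun q => (l (E q - x.val), q.2)
  have hH : AnalyticAt ℂ H (0, x.val) :=
    ((l.analyticAt _).comp (hE.sub analyticAt_const)).prod analyticAt_snd
  have h0 : H (0, x.val) = (0, x.val) := by simp only [H, e0, sub_self, map_zero]
  obtain ⟨-, g, g1, g2, g3, g4⟩ := ift hH (bijective_of_injective _ (by
    rw [HasFDerivAt.fderiv (f := H) ((l.hasFDerivAt.comp _
      (hE.differentiableAt.hasFDerivAt.sub_const x.val)).prodMk hasFDerivAt_snd),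
      injective_iff_map_eq_zero]
    rintro ⟨a, w⟩ h
    obtain ⟨h1, h2⟩ := Prod.ext_iff.1 h
    obtain rfl : w = 0 := h2
    have h3 : L (l₀ (fderiv ℂ E (0, x.val) (a, 0))) = 0 := h1
    rw [← fderiv_inl hE, L.map_eq_zero_iff] at h3
    exact Prod.ext ((hl a).symm.trans h3) rfl) (by simp))
  rw [h0] at g1 g2 g4
  let τ : Sp act S → Fin (finrank ℂ A) → ℂ := fun y => l (y.val - x.val)
  have hτ : Continuous τ := l.continuous.comp (Sp.continuous_val.sub continuous_const)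
  have τ0 : τ x = 0 := by simp only [τ, sub_self, map_zero]
  let ν : (Fin (finrank ℂ A) → ℂ) × Sp act S → _ := fun q => (q.1, q.2.val)
  have hν : Continuous ν := continuous_fst.prodMk (Sp.continuous_val.comp continuous_snd)
  let μ : (Fin (finrank ℂ A) → ℂ) × Sp act S → Sp act S := fun q => expU (g (ν q)).1 • q.2
  let p : Sp act S → (Fin (finrank ℂ A) → ℂ) × Quo act S := fun y => (τ y, y.mk)
  have hp : Continuous p := hτ.prodMk Sp.continuous_mk
  have m1 : ∀ᶠ q in 𝓝 (0, x), ContinuousAt μ q :=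
    ((hν.tendsto (0, x)).eventually g1.eventually_analyticAt).mono fun q hq =>
      (isExp_expU.cont.continuousAt.comp (hq.continuousAt.comp hν.continuousAt).fst).smul
        continuousAt_snd
  have m2 : ∀ᶠ q in 𝓝 (0, x), p (μ q) = (q.1, q.2.mk) :=
    ((hν.tendsto (0, x)).eventually g4).mono fun q hq => by
      obtain ⟨h1, h2⟩ := Prod.ext_iff.1 hq
      refine Prod.ext (Eq.trans ?_ h1) (Sp.mk_smul _ _)
      exact congrArg (fun w => l (act (expU (g (ν q)).1) w - x.val)) h2.symm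
  rw [nhds_prod_eq] at g3
  obtain ⟨Pa, ha, Pw, hw, g5⟩ := eventually_prod_iff.1 g3
  have hw' := (Sp.continuous_val.tendsto x).eventually hw
  have g6 : ∀ a (y : Sp act S), Pa a → Pw y.val → (g (τ (expU a • y), y.val)).1 = a :=
    fun a y h1 h2 => congrArg Prod.fst (g5 h1 h2)
  have g7 : ∀ y : Sp act S, Pw y.val → (g (τ y, y.val)).1 = 0 := fun y hy => by
    have := g6 0 y ha.self_of_nhds hy
    rwa [isExp_expU.zero, one_smul] at this
  have m3 : ∀ y : Sp act S, Pw y.val → μ (τ y, y) = y := fun y hy => by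
    simp only [μ, ν, g7 y hy, isExp_expU.zero, one_smul]
  have t1 : Tendsto (fun y => (τ y, y)) (𝓝 x) (𝓝 (0, x)) :=
    (hτ.prodMk continuous_id).tendsto' _ _ (by rw [τ0]; rfl)
  have hlh : LH p x := by
    refine LH.of_open_inj (Eventually.of_forall fun _ => hp.continuousAt) ?_ ?_
    · filter_upwards [hw', t1.eventually m1, t1.eventually m2.eventually_nhds] with y a b c
      have h1 := (IsOpenQuotientMap.id.prodMap Sp.isOpenQuotientMap_mk).map_nhds_eq (τ y, y)
      have h2 : Tendsto μ (𝓝 (τ y, y)) (𝓝 y) := by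
        have := b.tendsto
        rwa [m3 y a] at this
      exact h1.ge.trans ((tendsto_map.comp h2).congr' c)
    · have h1 : ∀ᶠ u in 𝓝 (1 : Aˣ), ∃ a, Pa a ∧ expU a = u := by
        rw [← isExp_expU.map_nhds, eventually_map]
        exact ha.mono fun a h => ⟨a, h, rfl⟩
      filter_upwards [eventually_of_proper_free hf h1, tendsto_fst.eventually hw'] with q a b e
      obtain ⟨h2, h3⟩ := Prod.ext_iff.1 e
      obtain ⟨u, hu⟩ := Sp.mk_eq_iff.1 h3
      obtain ⟨c, h4, rfl⟩ := a u hu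
      have h5 := g6 c q.1 h4 b
      rw [hu, ← show τ q.1 = τ q.2 from h2, g7 _ b] at h5
      rw [← hu, ← h5, isExp_expU.zero, one_smul]
  obtain ⟨k, k1, k2, k3, k4⟩ := hlh.exists_inv
  rw [show p x = (0, x.mk) from Prod.ext τ0 rfl] at k1 k2 k4
  have t2 : Tendsto μ (𝓝 (0, x)) (𝓝 x) := by
    have := m1.self_of_nhds.tendsto
    rwa [← τ0, m3 x hw.self_of_nhds, τ0] at this
  refine ⟨k, fun q => E ((g q).1, q.2), k1, k2, k4.mono fun y hy => congrArg Prod.snd hy,
    hE.comp_of_eq ((analyticAt_fst.comp g1).prod analyticAt_snd) (by rw [g2]), ?_⟩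
  filter_upwards [m2, t2.eventually k3] with q a b
  rw [← a, b]
  rfl

end Vale.Agent.P269.MultB
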