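import Vale.Agent.P269.Spl.Cyc
import Vale.Agent.P269.Spl.MultA
import Vale.Agent.P269.Spl.MultB0

/-!
# Multiplicities on cycles, computed before taking the quotient
-/

namespace Vale.Agent.P269

open P291Z Set Function Topology Filter Holo Module Orb MultB

variable {A W P : Type} [NormedRing A] [NormedAlgebra ℂ A] [NormedAddCommGroup W] [NormedSpace ℂ W]
  [NormedAddCommGroup P] [NormedSpace ℂ P] [FiniteDimensional ℂ A] [FiniteDimensional ℂ W]
  [FiniteDimensional ℂ P] {act : A → W → W} {S M Z : Set W} {d : ℕ}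

omit [FiniteDimensional ℂ W] in
theorem MultB.an_pch {r n : ℕ} {b : Fin r → ℂ} {ξ : (Fin n → ℂ) → W} (hξ : AnalyticAt ℂ ξ 0)
    {F : (Fin r → ℂ) × W → W} (hF : AnalyticAt ℂ F (b, ξ 0)) :
    AnalyticAt ℂ (fun z => F (pch b ξ z)) 0 :=
  hF.comp_of_eq (f := pch b ξ) (((analyticAt_pi_iff.2 fun i =>
    (ContinuousLinearMap.proj (R := ℂ) (φ := fun _ => ℂ) (Fin.castAdd n i)).analyticAt _).add
      analyticAt_const).prod (hξ.comp_of_eq (analyticAt_pi_iff.2 fun i =>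
        (ContinuousLinearMap.proj (R := ℂ) (φ := fun _ => ℂ) (Fin.natAdd r i)).analyticAt _) rfl))
    (pch_zero b ξ)

theorem MultB.tendsto_pch {Y : Type} [TopologicalSpace Y] {r n : ℕ} (b : Fin r → ℂ)
    {ξ : (Fin n → ℂ) → Y} (hξ : ContinuousAt ξ 0) : Tendsto (pch b ξ) (𝓝 0) (𝓝 (b, ξ 0)) := by
  rw [← pch_zero]
  have := (isHomeomorph_append (E := ℂ) r n).continuous.continuousAt (x := 0)
  exact ContinuousAt.prodMk (this.fst.add continuousAt_const) (hξ.comp_of_eq this.snd rfl)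

theorem MultB.an_append {E : Type} [NormedAddCommGroup E] [NormedSpace ℂ E] {n m : ℕ} {x : E}
    {f : E → Fin n → ℂ} {g : E → Fin m → ℂ} (hf : AnalyticAt ℂ f x) (hg : AnalyticAt ℂ g x) :
    AnalyticAt ℂ (fun v => Fin.append (f v) (g v)) x :=
  analyticAt_pi_iff.2 fun i => by
    refine Fin.addCases (fun i => ?_) (fun i => ?_) i
    · simpa only [Fin.append_left] using analyticAt_pi_iff.1 hf i
    · simpa only [Fin.append_right] using analyticAt_pi_iff.1 hg i

/-- **multiplicities**, for a general class `β` -/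
theorem MultB.mult [IsAct act S] [IsAct act Z] (ho : Orb.Orb Aˣ (Sp act S))
    (hS : IsLocallyClosed S) {β : BM (Quo act S)} (hβ : BM.IsDeg (2 * (d + 1 : ℕ)) β) (e : Z ⊆ S)
    (hZ : Clo Z S) {θ : Coch (Quo act S)} (hθ : LCo (range (Quo.incl act e)) θ) (hd : IsDeg 2 θ)
    {x : Sp act Z} (hx : Fre act x.val) (hP : finrank ℂ P = finrank ℂ A + d)
    {φ : Sp act S → P} {s : Sp act S → ℂ}
    (hc : ∀ᶠ y in 𝓝 (Sp.incl act e x), ContinuousAt φ y ∧ ContinuousAt s y ∧ (y.val ∈ Z ↔ s y = 0))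
    (hs : LocDiv (pull Sp.mk θ) s (Sp.incl act e x))
    (h1 : HolAt Sp.val (fun z => φ (Sp.incl act e z)) x)
    (h2 : ∃ U ∈ 𝓝 x, InjOn (fun z => φ (Sp.incl act e z)) U) {m : ℕ}
    (h3 : Cnt (fun y => (φ y, s y)) (Sp.incl act e x) m fun y =>
      (∃ ξ : (Fin (d + 1) → ℂ) → Sp act S, IsSlice Aˣ Sp.val ξ ∧ ξ 0 = y ∧ Val β (Sp.mk ∘ ξ) 1) ∧
      HolAt Sp.val (fun z => (φ z, s z)) y ∧ ∃ U ∈ 𝓝 y, InjOn (fun z => (φ z, s z)) U) :
    haveI := nice_of_orb ho
    PtVal (Orb.lgys (Quo.incl act e) θ β) d x m := by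
  have := FiniteDimensional.complete ℂ W
  have := nice_of_orb ho
  have := ho.proper
  have := ho.nice
  have hoZ := orb_mono ho e (by obtain ⟨C, h, rfl⟩ := hZ; exact hS.inter h.isLocallyClosed)
  have := nice_of_orb hoZ
  have := hoZ.proper
  have hi := Quo.isClosedEmbedding_incl (act := act) e hZ
  rintro ζ hζ rfl a c a1 a2 a3
  obtain ⟨k, F, k1, k2, k3, k4, k5⟩ := exists_sec (x := Sp.incl act e (ζ 0)) hx
  obtain ⟨o, o1, o2⟩ := exists_fund_pi (finrank ℂ A)
  let L : P ≃L[ℂ] (Fin (finrank ℂ A + d) → ℂ) := ContinuousLinearEquiv.ofFinrankEq (by simp [hP])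
  have hZ' : ∀ y : Sp act S, y.mk ∈ range (Quo.incl act e) ↔ y.val ∈ Z := fun y =>
    ⟨fun ⟨z, hz⟩ => by
      obtain ⟨z, rfl⟩ := Sp.surjective_mk z
      obtain ⟨g, rfl⟩ := Sp.mk_eq_iff.1 ((Sp.mk_incl e z).trans hz)
      exact (g • z).val_mem, fun h => ⟨(Sp.of act _ h).mk, rfl⟩⟩
  have hψ : LH (Sp.mk ∘ ζ) 0 :=
    LH.quot Sp.isOpenQuotientMap_mk (fun _ _ => Sp.mk_eq_iff) hζ.1 (Sp.free_iff.1 hx)
  have hγ := lgys_deg hβ (Quo.incl act e) hd
  rw [show 2 * ((d + 1 : ℕ) : ℤ) - 2 = 2 * d by push_cast; ring] at hγ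
  obtain ⟨a', b1, b2, b3, b4⟩ := exists_prod (ψ := Sp.mk ∘ ζ) (o2 0) (cocycle_comp a1 (2 * d))
    ((supp_comp _ _).trans a2) (isDeg_comp _ _) (by rw [← comp_pull]; exact a3.comp)
  rw [← ev_comp hγ (Zc_of_pt a1 a2), ← b4, ← lgys_prod hi hθ hd]
  set x₀ := Sp.incl act e (ζ 0)
  have e0 : Prod.map id (Quo.incl act e) (pch (0 : Fin (finrank ℂ A) → ℂ) (Sp.mk ∘ ζ) 0) =
      (0, x₀.mk) := by rw [pch_zero]; rfl
  have t0 : Tendsto k (𝓝 (0, x₀.mk)) (𝓝 x₀) := k2.cont.tendsto.mono_right (by rw [k1])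
  have hr : range (Prod.map id (Quo.incl act e) : (Fin (finrank ℂ A) → ℂ) × _ → _) =
      Prod.snd ⁻¹' range (Quo.incl act e) := by
    rw [range_prodMap, range_id, univ_prod]
  have hi' : IsClosedEmbedding (Prod.map id (Quo.incl act e) : (Fin (finrank ℂ A) → ℂ) × _ → _) :=
    ⟨IsEmbedding.id.prodMap hi.isEmbedding, hr ▸ hi.isClosed_range.preimage continuous_snd⟩
  refine ev_lgys_of_cnt (n := finrank ℂ A + d) (φ := fun y => L (φ (k y) - φ x₀))
    (s := fun y => s (k y)) ?_ hi' (by rw [hr]; exact hθ.pull continuous_snd) (hd.pull _)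
    (lh_pch 0 hψ) ?_ ?_ ?_ ?_ b1 b2 b3
  · have := BM.IsDeg.cross isHomeomorph_prod o1 hβ
    rwa [show 2 * (finrank ℂ A : ℤ) + 2 * ((d + 1 : ℕ) : ℤ) = 2 * ((finrank ℂ A + d + 1 : ℕ) : ℤ) by
      push_cast; ring] at this
  · rw [e0]
    filter_upwards [t0.eventually hc, k2.eventually_cont, k3] with y c1 c2 c3
    refine ⟨L.continuous.continuousAt.comp ((c1.1.comp c2).sub continuousAt_const),
      c1.2.1.comp c2, ?_⟩
    rw [hr, mem_preimage, ← c3, hZ', c1.2.2]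
  · rw [e0]
    refine locDiv_congr (LocDiv.pull (f := k) (by rwa [k1]) k2.eventually_cont) ?_
    rw [pull_pull]
    exact van_pull_congr (k3.mono fun _ h => h.symm) θ
  · classical
    let j := Prod.map id (Quo.incl act e) ∘ pch (0 : Fin (finrank ℂ A) → ℂ) (Sp.mk ∘ ζ)
    have j1 : ContinuousAt j 0 := (continuous_id.prodMap hi.continuous).continuousAt.comp
      (lh_pch 0 hψ).cont
    have j0 : j 0 = (0, x₀.mk) := e0
    have j2 : Tendsto j (𝓝 0) (𝓝 (0, x₀.mk)) := j1.tendsto.mono_right (by rw [j0])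
    let u := fun z => if h : (k (j z)).val ∈ Z then Sp.of act _ h else ζ 0
    have u1 : ∀ᶠ z in 𝓝 0, Sp.incl act e (u z) = k (j z) := (j2.eventually k3).mono fun z hz => by
      have : (k (j z)).val ∈ Z := (hZ' _).1 ⟨(pch 0 (Sp.mk ∘ ζ) z).2, hz.symm⟩
      simp only [u, dif_pos this]
      rfl
    have u0 : u 0 = ζ 0 := (Sp.isEmbedding_incl e).injective (by rw [u1.self_of_nhds, j0, k1])
    have u2 : ContinuousAt u 0 := (Sp.isEmbedding_incl e).isInducing.continuousAt_iff.2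
      ((k2.cont.comp_of_eq j1 j0).congr (u1.mono fun _ h => h.symm))
    have u3 : AnalyticAt ℂ (fun z => (u z).val) 0 := (an_pch hζ.2.1 k4).congr (by
      filter_upwards [u1, (tendsto_pch 0 ((Sp.isEmbedding_incl e).continuous.continuousAt.comp
        hζ.cont)).eventually k5] with z c1 c2
      exact c2.symm.trans (congrArg Sp.val c1).symm)
    have u4 : Osg.LI u 0 := li_of_comp (g := Sp.incl act e) (li_congr
      (Osg.LI.comp (g := k) (f := j) (by rw [j0]; exact li_of_lh k2)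
        (li_comp (g := Prod.map id (Quo.incl act e)) (li_of_lh (lh_pch 0 hψ)) hi'.injective) j1) u1)
    refine (posGerm_of_li (θ := fun z => L (φ (Sp.incl act e (u z)) - φ x₀))
      (by rw [u0, sub_self, map_zero]) ((L.analyticAt _).comp
        ((HolAt.an_comp (by rwa [u0]) u2 u3).sub analyticAt_const))
      (li_comp (g := fun p => L (p - φ x₀)) (Osg.LI.comp (g := fun z => φ (Sp.incl act e z))
        (by rwa [u0]) u4 u2) (L.injective.comp sub_left_injective))).congr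
      (u1.mono fun z hz => by rw [hz]; rfl)
  · rw [e0]
    rw [← k1] at h3
    refine cnt_comp (e := Prod.map (fun p => L (p - φ x₀)) id) h3 k2 ?_ (by fun_prop)
      ((L.injective.comp sub_left_injective).prodMap injective_id)
    have t1 : Tendsto (fun y => (y.1, k y)) (𝓝 (0, x₀.mk)) (𝓝 (0, x₀)) :=
      continuousAt_fst.tendsto.prodMk_nhds t0
    filter_upwards [k2.eventually, k3, t0.eventually (eventually_fre ho hx),
      t1.eventually k5.eventually_nhds, (((continuous_id.prodMap Sp.continuous_val).tendsto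
        _).comp t1).eventually k4.eventually_analyticAt] with y c1 c2 c3 c4 c5
    rintro ⟨⟨ξ, d1, d2, d3⟩, d4, d5⟩
    have d6 : LH (Sp.mk ∘ ξ) 0 := LH.quot Sp.isOpenQuotientMap_mk (fun _ _ => Sp.mk_eq_iff) d1.1
      (Sp.free_iff.1 (by rwa [d2]))
    have d7 : pch y.1 (Sp.mk ∘ ξ) 0 = y := by rw [pch_zero, comp_apply, d2, c2]
    have d8 := lh_pch y.1 d6
    have d9 : LH (fun z => k (pch y.1 (Sp.mk ∘ ξ) z)) 0 := LH.comp' c1 d8 d7
    have d10 : AnalyticAt ℂ (fun z => (k (pch y.1 (Sp.mk ∘ ξ) z)).val) 0 :=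
      (an_pch d1.2.1 (by rw [comp_apply, d2]; exact c5)).congr (by
        have := tendsto_pch y.1 d1.cont
        rw [d2] at this
        filter_upwards [this.eventually c4] with z hz using hz.symm)
    have d11 := HolAt.an_comp (u := fun z => k (pch y.1 (Sp.mk ∘ ξ) z)) (by rwa [d7]) d9.cont d10
    refine ⟨pch y.1 (Sp.mk ∘ ξ), d7, d8.cont, val_cross (o2 _) d6 d3, posGerm_of_li ?_
      (an_append (((L.analyticAt _).comp ((analyticAt_fst.comp d11).sub analyticAt_const)).sub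
        analyticAt_const) (analyticAt_pi_iff.2 fun _ => (analyticAt_snd.comp d11).sub
          analyticAt_const))
      (li_comp (g := fun p : P × ℂ => Fin.append (L (p.1 - φ x₀) - L (φ (k y) - φ x₀))
        fun _ : Fin 1 => p.2 - s (k y)) (Osg.LI.comp (g := fun z => (φ z, s z)) (by rwa [d7])
          (li_of_lh d9) d9.cont) fun p q h => ?_)⟩
    · rw [d7, sub_self, sub_self]
      exact append_zero
    · obtain ⟨h4, h5⟩ := Prod.ext_iff.1 ((isHomeomorph_append _ _).injective.eq_iff.2 h)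
      simp only [Fin.append_left, Fin.append_right] at h4 h5
      exact Prod.ext (sub_left_injective (L.injective (sub_left_injective h4)))
        (sub_left_injective (congrFun h5 0))

theorem Cyc.mult [IsAct act S] [IsAct act Z] (ho : Orb.Orb Aˣ (Sp act S))
    (h : Cyc act S M (d + 1)) (e : Z ⊆ S) (hZ : Clo Z S) {θ : Coch (Quo act S)}
    (hθ : LCo (range (Quo.incl act e)) θ) (hd : IsDeg 2 θ) {x : Sp act Z} (hx : Fre act x.val)
    (_hm : IsMfd Sp.val (finrank ℂ A + d) x) (hP : finrank ℂ P = finrank ℂ A + d)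
    {φ : Sp act S → P} {s : Sp act S → ℂ}
    (hc : ∀ᶠ y in 𝓝 (Sp.incl act e x), ContinuousAt φ y ∧ ContinuousAt s y ∧ (y.val ∈ Z ↔ s y = 0))
    (hs : LocDiv (pull Sp.mk θ) s (Sp.incl act e x))
    (h1 : HolAt Sp.val (fun z => φ (Sp.incl act e z)) x)
    (h2 : ∃ U ∈ 𝓝 x, InjOn (fun z => φ (Sp.incl act e z)) U) {m : ℕ}
    (h3 : Cnt (fun y => (φ y, s y)) (Sp.incl act e x) m fun y => y.val ∈ M ∧
      HolAt Sp.val (fun z => (φ z, s z)) y ∧ ∃ U ∈ 𝓝 y, InjOn (fun z => (φ z, s z)) U) :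
    haveI := nice_of_orb ho
    PtVal (Orb.lgys (Quo.incl act e) θ (fnd act S (d + 1))) d x m := by
  refine MultB.mult ho h.lc (h.deg ho) e hZ hθ hd hx hP hc hs h1 h2 (cnt_comp (k := id) (e := id)
    h3 (LH.id _) ((eventually_fre ho hx).mono fun y hy hy' => ⟨?_, hy'.2⟩) continuous_id
    injective_id)
  obtain ⟨U, h4, h5⟩ := h.opn
  obtain ⟨ξ, h6, rfl⟩ := exists_isSlice ho (x := y) ((isMfd_of_nhdsWithin hy'.1 h.sub (by
    rw [h5] at hy' ⊢
    exact inter_mem_nhdsWithin _ (h4.mem_nhds hy'.1.2))).1 (h.mfd _))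
  have := h.val ho h6
  rw [stab_eq_one (Sp.free_iff.1 hy), Nat.cast_one] at this
  exact ⟨ξ, h6, rfl, this⟩

end Vale.Agent.P269
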