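import Vale.Agent.P269.Base.DrB

/-!
# Locally constant functions on curves, values at removable singularities
-/

set_option linter.unusedSectionVars false

namespace Vale.Agent.P269.Base

open Set Function Topology Filter Holo

variable {ι : Type} [Fintype ι] {M : ι → ℕ} {α α' β : Type*} [Finite β] {o : ι} {χ : ι → ℤ}
  {u u' : β → ℤ} {a : α} {k : β}

section one

variable {C : Set (V M)} {c : V M} {z : β → V M} {f f' g : V M → ℂ} {e : V M → α} {γ : ℂ → V M}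

/-- `e` is invariant and locally constant on `C`. -/
structure Lc (C : Set (V M)) (e : V M → α) : Prop where
  inv : ∀ s : ι → ℂ, (∀ i, s i ≠ 0) → ∀ c ∈ C, e (s • c) = e c
  loc : ∀ c ∈ C, ∀ᶠ c' in 𝓝[C] c, e c' = e c

namespace Lc

theorem comp (h : Lc C e) (φ : α → α') : Lc C fun c => φ (e c) :=
  ⟨fun s hs c hc => congrArg φ (h.inv s hs c hc), fun c hc => (h.loc c hc).mono fun _ => congrArg φ⟩

theorem prod {e' : V M → α'} (h : Lc C e) (h' : Lc C e') : Lc C fun c => (e c, e' c) :=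
  ⟨fun s hs c hc => Prod.ext (h.inv s hs c hc) (h'.inv s hs c hc),
    fun c hc => ((h.loc c hc).and (h'.loc c hc)).mono fun _ b => Prod.ext b.1 b.2⟩

theorem br (h : Lc C e) (hγ : IsBranch o C γ) : ∀ᶠ t in 𝓝 0, e (γ t) = e (γ 0) :=
  hγ.tendsto.eventually (h.loc _ hγ.mem.self_of_nhds)

theorem br' (h : Lc C e) (hγ : IsBranch o C γ) (hc : c ∈ C) (hk : Orb c (γ 0)) :
    ∀ᶠ t in 𝓝[≠] 0, e (γ t) = e c :=
  let ⟨s, hs, b⟩ := hk
  ((h.br hγ).filter_mono nhdsWithin_le_nhds).mono fun _ d => d.trans (b ▸ h.inv s hs c hc)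

theorem triv {φ : V M → ℂ} (h : Lc C φ) (h0 : ∀ c, φ c ≠ 0) : Triv o C 0 z 0 φ :=
  have k : ∀ γ, IsBranch o C γ → AnalyticAt ℂ (fun t => φ (γ t)) 0 := fun _ hγ =>
    analyticAt_const.congr ((h.br hγ).mono fun _ => Eq.symm)
  .of_ord (fun s hs c hc => by rw [h.inv s hs c hc, chz_zero, one_mul]) (fun γ b _ => k γ b)
    (fun c _ _ => h0 c) fun _ γ b _ => ⟨_, h0 _, .of_an (k γ b)⟩

variable [DecidableEq α]

theorem mer (h : Lc C e) (hf : Mer o C χ z u f) (hz : ∀ k, z k ∈ C)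
    (hu : ∀ k, e (z k) = a → u' k ≤ u k) : Mer o C χ z u' fun c => if e c = a then f c else 0 := by
  refine ⟨fun s hs c hc => ?_, fun γ hγ ho => ?_, fun k γ hγ hk => ?_⟩
  · rw [h.inv s hs c hc, hf.hom s hs c hc, mul_ite, mul_zero]
  · refine AnalyticAt.congr (f := fun t => if e (γ 0) = a then f (γ t) else 0) ?_
      ((h.br hγ).mono fun t b => by simp only [b])
    split_ifs
    exacts [hf.reg γ hγ ho, analyticAt_const]
  · by_cases b : e (z k) = a
    · obtain ⟨x, hx⟩ := hf.ord k γ hγ hk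
      exact (hx.mono (hu k b)).imp fun _ d => d.congr
        ((h.br' hγ (hz k) hk).mono fun t d => (if_pos (d.trans b)).symm)
    · exact ((Mer.zero (χ := χ) (u := u')).ord k γ hγ hk).imp fun _ d => d.congr
        ((h.br' hγ (hz k) hk).mono fun t d => (if_neg (d ▸ b)).symm)

theorem nonneg (h : Lc C e) (hC : Nod o C) (hz : Spt o C z) (hg : Mer o C χ z 0 g)
    (hf : Triv o C χ z u f) (hh : ∀ c ∈ C, Off z c → g c = if e c = a then f c else 0)
    (b : e (z k) = a) : 0 ≤ u k := by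
  obtain ⟨γ, hγ⟩ := hC.exists_loc (hz.mem k)
  have hk : Orb (z k) (γ true 0) := (hγ.zero true).symm ▸ .refl _
  obtain ⟨x, hx⟩ := hg.ord k _ (hγ.br true) hk
  refine not_lt.1 fun d => hf.exact k _ _ (hγ.br true) hk ((hx.lt d).congr ?_) rfl
  filter_upwards [h.br' (hγ.br true) (hz.mem k) hk, (hγ.br true).eventually_off' (z := z) hC]
    with t d1 d2
  rw [hh _ d2.1 d2.2, if_pos (d1.trans b)]

end Lc

theorem Spt.ev_off (hz : Spt o C z) (hC : Nod o C) (hγ : IsBranch o C γ) (hk : Orb (z k) (γ 0))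
    {p : V M → Prop} (h1 : ∀ s : ι → ℂ, (∀ i, s i ≠ 0) → ∀ c ∈ C, p c → p (s • c))
    (h2 : ∀ᶠ t in 𝓝[≠] 0, p (γ t)) : ∀ᶠ y in 𝓝[C] γ 0, Off z y → p y := by
  refine (hC.loc_of_branch hγ fun b => hz.sm k (hC.isNode_orb b hk.symm)).ev _ fun _ => ?_
  filter_upwards [ev_ne_one, continuousAt_snd.tendsto.eventually
    (hγ.mem.and (eventually_nhdsWithin_iff.1 h2))] with w b1 b2 b3
  exact h1 _ b1 _ b2.1 (b2.2 fun b4 => b3 k (hk.trans (by rw [show w.2 = 0 from b4]; exact .smul _ b1)))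

/-- A section that agrees with a trivialisation where it does not vanish. -/
theorem exists_lc (hC : Nod o C) (hz : Spt o C z) (hg : Mer o C χ z u g) (hf : Triv o C χ z u' f)
    (h : ∀ c ∈ C, Off z c → g c ≠ 0 → g c = f c) :
    ∃ p : V M → Prop, Lc C p ∧ ∀ c ∈ C, Off z c → (p c → g c = f c) ∧ (¬p c → g c = 0) := by
  let P : (V M → ℂ) → V M → Prop := fun r c => ∀ᶠ y in 𝓝[C] c, Off z y → g y = r y
  have k1 : ∀ c ∈ C, P f c ∨ P 0 c := fun c hc => by
    by_cases ho : Off z c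
    · obtain ⟨q, q1, q2⟩ := hg.hol hC hc ho
      obtain ⟨r, r1, r2⟩ := hf.toMer.hol hC hc ho
      by_cases h0 : g c = 0
      · refine .inr ?_
        filter_upwards [q2, r2, self_mem_nhdsWithin, mem_nhdsWithin_of_mem_nhds
          ((q1.sub r1).continuousAt.eventually_ne (y := 0) (by
            rw [Pi.sub_apply, ← q2.self_of_nhdsWithin hc, ← r2.self_of_nhdsWithin hc, h0, zero_sub]
            exact neg_ne_zero.2 (hf.ne c hc ho)))] with y b1 b2 b3 b4 b5
        exact by_contra fun b6 => b4 (sub_eq_zero.2 (b1.symm.trans ((h y b3 b5 b6).trans b2)))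
      · refine .inl ?_
        filter_upwards [q2, self_mem_nhdsWithin, mem_nhdsWithin_of_mem_nhds
          (q1.continuousAt.eventually_ne (q2.self_of_nhdsWithin hc ▸ h0))] with y b1 b2 b3 b4
        exact h y b2 b4 (b1 ▸ b3)
    obtain ⟨k, hk⟩ := not_forall_not.1 ho
    obtain ⟨γ, hγ⟩ := hC.exists_loc hc
    obtain rfl := hγ.zero true
    obtain ⟨_, G, b1, -, b2⟩ := hg.ord k _ (hγ.br true) hk
    refine b1.eventually_eq_zero_or_eventually_ne_zero.symm.imp (fun b => ?_) fun b =>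
      hz.ev_off hC (hγ.br true) hk (fun s hs c hc b => by
        rw [hg.hom s hs c hc, b, Pi.zero_apply, mul_zero, Pi.zero_apply]) ?_
    · refine hz.ev_off hC (hγ.br true) hk (fun s hs c hc b => by
        rw [hg.hom s hs c hc, hf.hom s hs c hc, b]) ?_
      filter_upwards [b, b2, self_mem_nhdsWithin, (hγ.br true).eventually_off' (z := z) hC]
        with t d1 d2 d3 d4
      exact h _ d4.1 d4.2 (d2 ▸ mul_ne_zero (zpow_ne_zero _ d3) d1)
    · filter_upwards [mem_nhdsWithin_of_mem_nhds b, b2] with t d1 d2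
      rw [d2, d1, mul_zero, Pi.zero_apply]
  have k2 : ∀ c ∈ C, P f c → ¬P 0 c := fun c hc b1 b2 =>
    let ⟨y, d1, d2, d3, d4⟩ := ((hC.frequently_not_orb z hc).and_eventually
      (b1.and (b2.and self_mem_nhdsWithin))).exists
    hf.ne y d4 d1 ((d2 d1).symm.trans (d3 d1))
  have k3 : ∀ r : V M → ℂ, (∀ s : ι → ℂ, (∀ i, s i ≠ 0) → ∀ c ∈ C, r (s • c) = chz χ s * r c) →
      ∀ s : ι → ℂ, (∀ i, s i ≠ 0) → ∀ c, P r (s • c) → P r c := fun r hr s hs c b => by
    filter_upwards [(tendsto_nhdsWithin_iff.2 ⟨(tendsto_smul tendsto_const_nhds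
      tendsto_id).mono_left nhdsWithin_le_nhds, eventually_mem_nhdsWithin.mono
        (hC.cone s hs)⟩).eventually b, self_mem_nhdsWithin] with y d1 d2 d3
    exact mul_left_cancel₀ (chz_ne_zero hs) ((hg.hom s hs y d2).symm.trans
      ((d1 (d3.orb (.smul y hs))).trans (hr s hs y d2)))
  refine ⟨P f, ⟨fun s hs c hc => propext ⟨k3 f hf.hom s hs c, fun b => (k1 _ (hC.cone s hs c
    hc)).resolve_right fun d => k2 c hc b (k3 0 (by simp) s hs c d)⟩, fun c hc => ?_⟩,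
    fun c hc ho => ⟨fun b => b.self_of_nhdsWithin hc ho, fun b =>
      ((k1 c hc).resolve_left b).self_of_nhdsWithin hc ho⟩⟩
  rcases k1 c hc with b | b
  · exact (eventually_eventually_nhdsWithin.2 b).mono fun _ d => propext (iff_of_true d b)
  · filter_upwards [eventually_eventually_nhdsWithin.2 b, self_mem_nhdsWithin] with y d1 d2
    exact propext (iff_of_false (k2 y d2 · d1) (k2 c hc · b))

/-- The limit of `f` at `c`. -/
noncomputable def lv (o : ι) (C : Set (V M)) (f : V M → ℂ) (c : V M) : ℂ :=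
  Classical.epsilon fun x => ∀ γ, IsBranch o C γ → γ 0 = c → Vz 0 (fun t => f (γ t)) x

theorem lv_eq (hC : Nod o C) (hz : Spt o C z)
    (hom : ∀ s : ι → ℂ, (∀ i, s i ≠ 0) → ∀ c ∈ C, f (s • c) = chz χ s * f c) (hγ : IsBranch o C γ)
    {s : ι → ℂ} (hs : ∀ i, s i ≠ 0) (hk : z k = s • γ 0) {x : ℂ}
    (h : Vz 0 (fun t => f (γ t)) x) : lv o C f (z k) = chz χ s * x := by
  have b : ∀ δ, IsBranch o C δ → δ 0 = z k → Vz 0 (fun t => f (δ t)) (chz χ s * x) :=
    fun δ b1 b2 => by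
      obtain ⟨r, -, b3⟩ := hC.vz hom hγ b1 (b2 ▸ hz.sm k) hs (b2.trans hk)
      simpa using b3 0 x h
  obtain ⟨δ, hδ⟩ := hC.exists_loc (hz.mem k)
  exact (Classical.epsilon_spec (p := fun x => ∀ γ, IsBranch o C γ → γ 0 = z k →
    Vz 0 (fun t => f (γ t)) x) ⟨_, b⟩ _ (hδ.br true) (hδ.zero true)).unique
      (b _ (hδ.br true) (hδ.zero true))

theorem lv_eq' (hC : Nod o C) (hz : Spt o C z)
    (hom : ∀ s : ι → ℂ, (∀ i, s i ≠ 0) → ∀ c ∈ C, f (s • c) = chz χ s * f c) (hγ : IsBranch o C γ)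
    (hk : γ 0 = z k) {x : ℂ} (h : Vz 0 (fun t => f (γ t)) x) : lv o C f (z k) = x := by
  rw [lv_eq (s := 1) hC hz hom hγ (fun _ => one_ne_zero) (by rw [one_smul, hk]) h, chz_one, one_mul]

theorem lv_congr (hC : Nod o C) (h : ∀ c ∈ C, Off z c → f c = f' c) : lv o C f c = lv o C f' c :=
  congrArg Classical.epsilon (funext fun _ => propext (forall₃_congr fun _ b _ =>
    ⟨(·.congr ((b.eventually_off' hC).mono fun _ d => h _ d.1 d.2)),
      (·.congr ((b.eventually_off' hC).mono fun _ d => (h _ d.1 d.2).symm))⟩))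

theorem Mer.exists_lv (h : Mer o C χ z u f) (hC : Nod o C) (hz : Spt o C z) (hk : u k = 0) :
    ∃ γ, IsBranch o C γ ∧ γ 0 = z k ∧ Vz 0 (fun t => f (γ t)) (lv o C f (z k)) := by
  obtain ⟨γ, hγ⟩ := hC.exists_loc (hz.mem k)
  obtain ⟨x, hx⟩ := h.ord k _ (hγ.br true) ((hγ.zero true).symm ▸ .refl _)
  rw [hk] at hx
  exact ⟨_, hγ.br true, hγ.zero true, lv_eq' hC hz h.hom (hγ.br true) (hγ.zero true) hx ▸ hx⟩

theorem Triv.lv_ne (h : Triv o C χ z u f) (hC : Nod o C) (hz : Spt o C z) (hk : u k = 0) :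
    lv o C f (z k) ≠ 0 :=
  let ⟨γ, b1, b2, b3⟩ := h.toMer.exists_lv hC hz hk
  h.exact k γ _ b1 (b2 ▸ .refl _) (hk ▸ b3)

theorem Triv.lv_inv (h : Triv o C χ z u f) (hC : Nod o C) (hz : Spt o C z) (hk : u k = 0) :
    lv o C (fun c => (f c)⁻¹) (z k) = (lv o C f (z k))⁻¹ :=
  let ⟨_, b1, b2, b3⟩ := h.toMer.exists_lv hC hz hk
  lv_eq' hC hz h.inv.hom b1 b2 (b3.inv (h.lv_ne hC hz hk))

theorem Mer.lv_mul (h : Mer o C χ z u f) (hC : Nod o C) (hz : Spt o C z) (hk : u k = 0)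
    {φ : V M → ℂ} (hφ : Lc C φ) :
    lv o C (fun c => φ c * f c) (z k) = φ (z k) * lv o C f (z k) :=
  let ⟨_, b1, b2, b3⟩ := h.exists_lv hC hz hk
  lv_eq' (χ := χ) hC hz (fun s hs c hc => by rw [hφ.inv s hs c hc, h.hom s hs c hc, mul_left_comm])
    b1 b2 ((b3.const_mul (φ (z k))).congr ((hφ.br' b1 (hz.mem k) (b2 ▸ .refl _)).mono
      fun t d => by rw [d]))

theorem Mer.lv_smul (h : Mer o C χ z u f) (hC : Nod o C) (hz : Spt o C z) (hk : u k = 0)
    {y : β → V M} (hy : Spt o C y) {s : ι → ℂ} (hs : ∀ i, s i ≠ 0) (b : y k = s • z k) :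
    lv o C f (y k) = chz χ s * lv o C f (z k) :=
  let ⟨_, b1, b2, b3⟩ := h.exists_lv hC hz hk
  lv_eq hC hy h.hom b1 hs (b2 ▸ b) b3

/-- the value at a special point -/
theorem Lc.val [DecidableEq α] (h : Lc C e) (hC : Nod o C) (hz : Spt o C z)
    (hg : ∀ γ, IsBranch o C γ → AnalyticAt ℂ (fun t => g (γ t)) 0) (hf : Mer o C χ z u f)
    (hh : ∀ c ∈ C, Off z c → g c = if e c = a then f c else 0) (hu : e (z k) = a → 0 ≤ u k) :
    g (z k) = if e (z k) = a ∧ u k = 0 then lv o C f (z k) else 0 := by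
  obtain ⟨γ, hγ⟩ := hC.exists_loc (hz.mem k)
  have h1 := hγ.br true
  have hk : Orb (z k) (γ true 0) := (hγ.zero true).symm ▸ .refl _
  have h2 : Vz 0 (fun t => if e (z k) = a then f (γ true t) else 0) (g (z k)) := by
    refine (hγ.zero true ▸ Vz.of_an (hg _ h1)).congr ?_
    filter_upwards [h.br' h1 (hz.mem k) hk, h1.eventually_off' (z := z) hC] with t d1 d2
    rw [hh _ d2.1 d2.2, d1]
  by_cases b : e (z k) = a
  · simp only [b, if_true, true_and] at h2 ⊢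
    split_ifs with d
    · exact (lv_eq' hC hz hf.hom h1 (hγ.zero true) h2).symm
    · exact (hf.ord k _ h1 hk).elim fun _ d' => h2.unique (d'.lt ((hu b).lt_of_ne' d))
  · simp only [b, if_false, false_and] at h2 ⊢
    exact h2.unique (.of_an (p := fun _ => 0) analyticAt_const)

end one

variable {T P : Type*} [TopologicalSpace T] [NormedAddCommGroup P] [NormedSpace ℂ P]
  [FiniteDimensional ℂ P] {C : T → Set (V M)} {π : T → P} {t₀ : T} {σ : β → P × ℂ → V M}
  {f : T → V M → ℂ} {e : V M → α}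

theorem FMer.ite [DecidableEq α] (h : FMer o C π t₀ χ σ u f) (hf : LocFam o C π t₀)
    (hσ : Pts o C π t₀ σ) (e1 : ∀ s : ι → ℂ, (∀ i, s i ≠ 0) → ∀ c, e (s • c) = e c)
    (e2 : ∀ c ∈ C t₀, ∀ᶠ c' in 𝓝 c, e c' = e c) (hu : ∀ k, e (σ k (π t₀, 0)) = a → u' k ≤ u k) :
    FMer o C π t₀ χ σ u' fun t c => if e c = a then f t c else 0 := by
  refine mono (u := fun k => if e (σ k (π t₀, 0)) = a then u k else u' k)
    ⟨h.hom.mono fun t b s hs c hc => by rw [e1 s hs, b s hs c hc, mul_ite, mul_zero],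
      fun c hc ho => ?_, fun k => ?_⟩ fun k => ?_
  · have d := (continuousAt_snd (p := (t₀, c))).eventually (e2 c hc)
    by_cases b : e c = a
    · obtain ⟨Φ, h1, h2⟩ := h.reg c hc ho
      exact ⟨Φ, h1, (h2.and d).mono fun q d1 d2 => (if_pos (d1.2.trans b)).trans (d1.1 d2)⟩
    · exact ⟨fun _ => 0, analyticAt_const, d.mono fun q d1 _ => if_neg (d1 ▸ b)⟩
  · have d := ((hσ.chart k).tendsto hf.cont.self_of_nhds).eventually (e2 _ (hσ.mem k))
    by_cases b : e (σ k (π t₀, 0)) = a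
    · obtain ⟨Φ, h1, h2⟩ := h.ord k
      exact ⟨Φ, h1, (h2.and d).mono fun q d1 d2 => by rw [if_pos b, if_pos (d1.2.trans b), d1.1 d2]⟩
    · exact ⟨fun _ => 0, analyticAt_const, d.mono fun q d1 _ => by rw [if_neg (d1 ▸ b), mul_zero]⟩
  · dsimp only
    split_ifs with b
    exacts [hu k b, le_rfl]

theorem FMer.holAt_lv (h : FMer o C π t₀ χ σ u f) (hf : LocFam o C π t₀) (hσ : Pts o C π t₀ σ)
    (hk : u k = 0) : HolAt π (fun t => lv o (C t) (f t) (ctr σ (π t) k)) t₀ := by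
  obtain ⟨g, g1, g2⟩ := h.ord k
  refine ⟨fun p => g (p, 0), g1.comp_of_eq (analyticAt_id.prod analyticAt_const) rfl, ?_⟩
  filter_upwards [h.hom, hf.eventually, hσ.eventually hf, (tendsto_inl t₀ (0 : ℂ)).eventually
    (((tendsto_pm hf.cont.self_of_nhds 0).eventually g1.eventually_analyticAt).and
      g2.eventually_nhds)] with t k1 k2 k3 k4
  exact lv_eq' k2.nod (k3.spt k2) k1 (k3.isBranch k2 k) rfl (hk ▸ FMer.vz k4.1 k4.2)

end Vale.Agent.P269.Base
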