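import Vale.Agent.P269.Spl.StrB
import Vale.Agent.P269.Spl.Geo

/-!
# Graph conditions, matching conditions
-/

set_option linter.unusedSectionVars false

namespace Vale.Agent.P269.Ch

open Set Function Topology Filter Holo Base

variable {J ι ν κ E O α : Type} [Fintype J] [Fintype ι] [DecidableEq ι] [Fintype ν] [Fintype κ]
  [Fintype E] [Fintype O] {ch : Ch ι J} {l : Option J}

section

variable {A : Type*} [NormedAddCommGroup A] [NormedSpace ℂ A] [FiniteDimensional ℂ A] {S Z : Set A}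
  {x : A} {m : ℕ}

/-- Matching conditions for equivariant functions. -/
theorem mfd_mt (h : MfdAt S m x) {X : O → ι → ℤ} (hi : LinearIndependent ℤ X) {n : E → ν}
    {o : E → O} (h1 : Injective fun e => (n e, o e)) {g g' : A → E → ℂ} (hg : HolOn S g x)
    (hg' : HolOn S g' x) (harc : ∀ τ : ℂ → ν → ι → ℂ, AnalyticAt ℂ τ 0 → τ 0 = 1 →
      (∀ ε, ∀ a ∉ range n, τ ε a = 1) → ∃ c, Arc S x c ∧ ∀ᶠ ε in 𝓝 0, g (c ε) = g x ∧
        ∀ e, g' (c ε) e = chz (X (o e)) (τ ε (n e)) * g' x e) (hne : ∀ e, g' x e ≠ 0)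
    (hZ : ∀ᶠ s in 𝓝 x, s ∈ Z ↔ s ∈ S ∧ g s = g' s) (hx : g x = g' x) :
    ∃ d, d + Fintype.card E = m ∧ MfdAt Z d x := by
  classical
  have := FiniteDimensional.complete ℂ A
  obtain ⟨v, hv⟩ := exists_dualC hi
  refine (h.sub' (Z := Z) (f := fun s => g s - g' s) ((hg.prod hg').comp_an
    (G := fun z : (E → ℂ) × (E → ℂ) => z.1 - z.2) h.1 (analyticAt_fst.sub analyticAt_snd))
    (sub_eq_zero.2 hx) (span_of_det (D := Matrix.diagonal fun e => -g' x e) ?_ fun e => ?_)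
    (by simpa only [sub_eq_zero] using hZ)).imp fun n b => ⟨by simpa using b.1, b.2⟩
  · rw [Matrix.det_diagonal]
    exact Finset.prod_ne_zero_iff.2 fun e _ => neg_ne_zero.2 (hne e)
  let τ : ℂ → ν → ι → ℂ := fun ε a i => Complex.exp ((if a = n e then v (o e) i else 0) * ε)
  obtain ⟨c, hc, h5⟩ := harc τ (analyticAt_pi_iff.2 fun n => analyticAt_pi_iff.2 fun i => by
    fun_prop) (funext₂ fun n i => by simp [τ]) fun ε a b => funext fun i => by
      simp [τ, show a ≠ n e from fun d => b ⟨e, d.symm⟩]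
  refine ⟨c, hc, HasDerivAt.deriv (hasDerivAt_pi.2 fun e' => ?_)⟩
  have h6 : ∀ ε, chz (X (o e')) (τ ε (n e')) = Complex.exp ((if e = e' then 1 else 0) * ε) :=
    fun ε => by
      simp only [τ, chz_exp, ← mul_assoc, ← Finset.sum_mul, ← h1.eq_iff, Prod.mk.injEq]
      by_cases b : n e' = n e
      · simp [b, hv]
      · simp [b, Ne.symm b]
  refine HasDerivAt.congr_of_eventuallyEq ((((((hasDerivAt_id' (0 : ℂ)).const_mul
    (if e = e' then 1 else 0)).cexp.mul_const (g' x e')).const_sub (g x e')).congr_deriv ?_))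
    (h5.mono fun ε b => by simp only [Pi.sub_apply, b.1, b.2, h6])
  by_cases h7 : e = e' <;> simp [h7]

open Classical in
/-- Graph conditions: the fields in `D` are induced by given families of sections. -/
theorem mfd_graph (ha : ∀ l, ch.a l ≠ 0) (h : MfdAt S m x) {q : A → ch.W ν}
    (hq : HolAt (Subtype.val : S → A) (fun t => q t.1) ⟨x, h.1⟩) (hb : ∀ s ∈ S, q s ∈ ch.base ν)
    (hf : LocFam ch.o (fun t : S => crv (q t.1)) Subtype.val ⟨x, h.1⟩) {σ}
    (hσ : Pts ch.o (fun t : S => crv (q t.1)) Subtype.val ⟨x, h.1⟩ σ)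
    (hp : ∀ᶠ t : S in 𝓝 ⟨x, h.1⟩, ctr σ t.1 = (q t.1).p) (D : Set J) {g : A → J → V ch.M → ℂ}
    (hg : ∀ j ∉ D, FMer ch.o (fun t : S => crv (q t.1)) Subtype.val ⟨x, h.1⟩ (ch.wd j) σ 0
      fun t => g t.1 j) (h0 : ∀ j ∉ D, IndOff (q x) j ((q x).X j) (q x).p (g x j))
    (harc : ∀ Y : ℂ → ch.Fld, Arc (ch.base ν) (q x) (fun ε => setX (q x) (Y ε)) →
      ∃ c, Arc S x c ∧ ∀ᶠ ε in 𝓝 0, q (c ε) = setX (q x) (Y ε) ∧
        ∀ j ∉ D, ∀ y ∈ crv (q x), Off (q x).p y → g (c ε) j y = g x j y) :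
    ∃ d, d + ∑ j with j ∉ D, Module.finrank ℂ (Tens ch.M (ch.b j)) * ch.h (some j) = m ∧
      MfdAt {s | s ∈ S ∧ ∀ j ∉ D, IndOff (q s) j ((q s).X j) (q s).p (g s j)} d x := by
  have := FiniteDimensional.complete ℂ A
  let X : A → ∀ j, Tens ch.M (ch.b j) →L[ℂ] ch.E (some j) := fun s j =>
    epsilon fun X => IndOff (q s) j X (q s).p (g s j)
  have a7 : ∀ᶠ s in 𝓝 x, s ∈ S → ∀ j ∉ D, IndOff (q s) j (X s j) (q s).p (g s j) := by
    refine (ev_sub h.1).1 <| eventually_all.2 fun j => eventually_imp_distrib_left.2 fun hj => ?_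
    filter_upwards [(hg j hj).eventually_mer hf hσ, hp] with t b1 b2
    exact epsilon_spec (exists_indOff (hb _ t.2) (ha _) (spt_p (hb _ t.2)) (b2 ▸ b1) le_rfl)
  let e : A → ∀ j : {j // j ∉ D}, Tens ch.M (ch.b j) →L[ℂ] ch.E (some j.1) := fun s j =>
    (q s).X j - X s j
  have he : ∀ᶠ s in 𝓝 x, s ∈ S →
      (e s = 0 ↔ ∀ j ∉ D, IndOff (q s) j ((q s).X j) (q s).p (g s j)) := a7.mono fun s b hs =>
    funext_iff.trans (Subtype.forall.trans (forall₂_congr fun j hj => (sub_eq_zero (b := X s j)).trans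
      ⟨fun d => d ▸ b hs j hj, fun d => d.unique (hb s hs) (b hs j hj)⟩))
  obtain ⟨d, h3, h4⟩ := h.sub' (f := e)
    (Z := {s | s ∈ S ∧ ∀ j ∉ D, IndOff (q s) j ((q s).X j) (q s).p (g s j)})
    (.pi fun j => (holOn_iff h.1).2 ((hq.comp_an (W.an_X analyticAt_id j.1)).sub
      (holAt_X hf hq (.of_forall fun t => hb _ t.2) (ha _) hσ (hg j j.2) (by
        filter_upwards [(ev_sub h.1).2 a7, hp] with t b1 b2 using b2 ▸ b1 j j.2))))
    ((he.self_of_nhds h.1).2 h0) (fun v _ => Submodule.subset_span (by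
      let Y : ℂ → ch.Fld := fun ε j => (q x).X j + ε • if h : j ∈ D then 0 else v ⟨j, h⟩
      obtain ⟨c, h5, h6⟩ := harc Y
        ⟨W.an_iff.2 ⟨fun _ => analyticAt_const, fun _ => analyticAt_const, analyticAt_const,
          fun _ => analyticAt_const.add (an_smul_clm analyticAt_id analyticAt_const)⟩,
          W.ext (fun _ => rfl) (fun _ => rfl) rfl fun j =>
            (congrArg ((q x).X j + ·) (zero_smul ℂ _)).trans (add_zero _),
          .of_forall fun _ => hb x h.1⟩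
      refine ⟨c, h5, (EventuallyEq.deriv_eq (f := fun ε => ε • v) ?_).trans (deriv_smul_id v)⟩
      filter_upwards [h5.ev a7, h6] with ε b1 b2
      refine funext fun j => ?_
      have b3 := b1 j j.2
      rw [b2.1] at b3
      refine (congrArg₂ (· - ·) (congrArg (·.X j) b2.1) (IndOff.unique (x := q x) (hb x h.1)
        (fun y w d1 d2 μ => b2.2 j j.2 y ⟨_, d1, rfl⟩ d2 ▸ b3 y w d1 d2 μ) (h0 j j.2))).trans ?_
      exact (add_sub_cancel_left ((q x).X j) _).trans (congrArg (ε • ·) (dif_neg j.2))))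
    (he.mono fun s b => and_congr_right fun hs => (b hs).symm)
  refine ⟨d, ?_, h4⟩
  rw [finrank_pi_clm] at h3
  rw [Finset.sum_subtype (p := (· ∉ D)) _ (by simp)]
  simpa using h3

end

/-- The parts on which a field vanishes do not change. -/
theorem ev_kind [DecidableEq α] {A : Type*} [TopologicalSpace A] {s₀ : A} {q : A → ch.W ν}
    (hq : ContinuousAt q s₀) {w : A → κ → ℂ} (hw : ContinuousAt w s₀) (hx : q s₀ ∈ ch.base ν)
    {j : J} {y : κ → ch.W ν → V ch.M} (hy : EvB (q s₀) (ch.wd j) 0 y) (hs : Sc (q s₀) j)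
    {e : V ch.M → α} {a : α} (e2 : ∀ᶠ x in 𝓝 (q s₀), x ∈ ch.base ν → Lc (crv x) e ∧
      (∀ k, e (y k x) = e (y k (q s₀))) ∧ ∀ n, e (x.p n) = e ((q s₀).p n))
    (h0 : ∀ k, w s₀ k ≠ 0 ∧
      fld (q s₀) (y k (q s₀)) j = if e (y k (q s₀)) = a then w s₀ k else 0) {U : ν → ℤ}
    (hU : ∀ n, e ((q s₀).p n) = a → 0 ≤ U n) :
    ∀ᶠ s in 𝓝 s₀, q s ∈ ch.base ν → Sc (q s) j → ∀ f, Mer ch.o (crv (q s)) (ch.wd j) (q s).p U f →
      (∀ k, f (y k (q s)) = w s k) →
      (∀ c ∈ crv (q s), Off (q s).p c → fld (q s) c j ≠ 0 → fld (q s) c j = f c) →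
      ∀ c ∈ crv (q s), Off (q s).p c → fld (q s) c j = if e c = a then f c else 0 := by
  have k1 : ∀ k, ∀ᶠ s in 𝓝 s₀, y k (q s) ∈ crv (q s) → Sc (q s) j →
      fld (q s) (y k (q s)) j ≠ if e (y k (q s₀)) = a then 0 else w s k := fun k => by
    have b := ((hy.ev.self_of_nhds hx).1 k).1
    obtain ⟨Φ, b1, b2⟩ := exists_an_fld hx.1 (crv_ne b) j
    have b3 : Tendsto (fun s => (q s, y k (q s))) (𝓝 s₀) (𝓝 _) :=
      hq.prodMk ((hy.an k).continuousAt.comp hq)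
    have b4 : Tendsto (fun s => if e (y k (q s₀)) = a then 0 else w s k) (𝓝 s₀)
        (𝓝 (if e (y k (q s₀)) = a then 0 else w s₀ k)) := by
      split_ifs
      exacts [tendsto_const_nhds, continuousAt_pi.1 hw k]
    filter_upwards [b3.eventually b2, ((b1.continuousAt.tendsto.comp b3).sub b4).eventually_ne
      (b₂ := 0) (by
        rw [← b2.self_of_nhds b (hs _ b), (h0 k).2]
        split_ifs <;> simp [(h0 k).1])] with s d1 d2 d3 d4
    exact d1 d3 (d4 _ d3) ▸ sub_ne_zero.1 d2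
  filter_upwards [eventually_all.2 k1, hq.eventually e2, hq.eventually hy.ev,
    hq.eventually hy.ev_eq] with s b1 b2 b3 b4 hb hs f f1 f2 f3
  obtain ⟨d1, d2, d3⟩ := b2 hb
  refine b4 hb _ _ (mer_fld hb hs) (d1.mer f1 (spt_p hb).mem fun n d => hU n (d3 n ▸ d))
    fun k => ?_
  obtain ⟨d4, d5⟩ := (b3 hb).1 k
  have d6 := b1 k d4 hs
  rw [d2]
  split_ifs at d6 ⊢
  exacts [f3 _ d4 d5 d6, by_contra fun d => d6 ((f3 _ d4 d5 d).trans (f2 k))]

end Vale.Agent.P269.Ch
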