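import Vale.Agent.P269.Spl.StrD
import Vale.Agent.P269.Spl.DictC
import Vale.Agent.P269.Spl.Dim

/-!
# The split stratum is a manifold, the ghost stratum is small
-/

set_option linter.unusedSectionVars false

namespace Vale.Agent.P269

open Set Function Topology Filter Holo Base Cv

theorem Holo.MfdAt.dimLt {W : Type} [NormedAddCommGroup W] [NormedSpace ℂ W] [FiniteDimensional ℂ W]
    {M : Set W} {n : ℕ} {a : W} (h : MfdAt M n a) : ∃ V ∈ 𝓝 a, DimLt (n + 1) (M ∩ V) := by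
  have := FiniteDimensional.complete ℂ W
  obtain ⟨V, h1, h2, h3⟩ := eventually_nhds_iff.1 h.eventually
  exact ⟨V, h2.mem_nhds h3, .of_mfd' fun x => ((h1 x x.2.2 x.2.1).congr
    (mem_of_superset (h2.mem_nhds x.2.2) fun _ a => (and_iff_left a).symm)).2⟩

variable {S Λ R J K ι ν κ β : Type} [Fintype S] [Fintype Λ] [Fintype R] [Fintype J]
  [Fintype K] [Fintype ι] [DecidableEq ι] [Fintype ν] [Fintype κ] [Fintype β]

namespace Ch

variable {ch : Ch ι J} {F : Fam S Λ R J K} {ℓ : R → ι → ℤ} {i : ι} {b c : J} {U : Mk ν κ → ℤ}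
  {b' : ℕ}

/-- There are no ghost components. -/
def Ng (x : ch.W (Mk ν κ)) (b c : J) : Prop :=
  ∀ y ∈ crv x, Off x.p y → fld x y b ≠ 0 ∨ fld x y c ≠ 0

section dict

variable {A : Set J} {x : ch.WF ν κ Λ} {m : AM Λ R J ν κ} {B : ι → LB m.R} {π : m.X → V ch.M} {u s}

theorem RepD.all_iff (h : RepD ℓ A x m B π u s) {p : V ch.M → Prop}
    (hp : ∀ t : ι → ℂ, (∀ i, t i ≠ 0) → ∀ y ∈ crv x.2, p y → p (t • y)) :
    (∀ y ∈ crv x.2, Off x.2.p y → p y) ↔ ∀ z, m.Um z → p (π z) := by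
  have k := fun z => h.cr.par.off_iff (x := z) fun n => ⟨m.sm n, h.crep.orb n⟩
  refine ⟨fun a z d => a _ (h.cr.par.mem z) ((k z).2 d), fun a y d d' => ?_⟩
  obtain ⟨z, t, ht, rfl⟩ := h.mem_crv.1 d
  exact hp t ht _ (h.cr.par.mem z) (a z ((k z).1 (d'.orb (Orb.smul _ ht).symm)))

theorem RepD.lq_iff (hc : ch.Dg F.toWt ℓ i b c) (h : RepD ℓ A x m B π u s) (hb : b ∈ A)
    (hc' : c ∈ A) (h0 : Bc x.2 b c 0) :
    ((∃ L, m.Lv (F.w b) b c U L) ↔ ∃ f, Lq x.2 b c U f) ∧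
      ((∀ z, m.Um z → m.y b z ≠ 0 ∨ m.y c z ≠ 0) ↔ Ng x.2 b c) := by
  have hp := h.cr.par
  have hy : ∀ n, Sm m.N (m.p n) ∧ Base.Orb (π (m.p n)) (x.2.p n) := fun n => ⟨m.sm n, h.crep.orb n⟩
  have e1 := h.cr.fld_π (h.ind b hb)
  have e2 := h.cr.fld_π (h.ind c hc')
  have e3 := fun {L} => ((h.eqv_wd (W := F.toWt) hc.lat.wd b).mul
    (Eqv.refl (∏ n, m.R.pt (m.p n) ^ U n)⁻¹)).H0 (N := m.N) (s := L)
  simp only [← div_eq_mul_inv] at e3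
  have k : ∀ L f, Mer ch.o (crv x.2) (ch.wd b) x.2.p U f → (∀ z, m.Um z → L z = f (π z)) →
      (∀ n, Vz (U n) (fun t => f (br B π (m.p n) t)) (L (m.p n))) →
      L ∈ H0 m.N (bz B (ch.wd b) / ∏ n, m.R.pt (m.p n) ^ U n) →
      (m.Lv (F.w b) b c U L ↔ Lq x.2 b c U f) := fun L f f1 f2 f3 f4 => by
    have k1 := hp.triv_iff m.inj hy f1 f2 f3
    have k2 : ∀ n, U n = 0 → lv ch.o (crv x.2) f (x.2.p n) =
        chz (ch.wd b) (s (n.map id Prod.fst)) * L (m.p n) := fun n a =>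
      lv_eq hp.nod (spt_p h0.mem.1) f1.hom (hp.isBranch _) (h.ne _)
        (by rw [br_zero]; exact h.mark n) (a ▸ f3 n)
    have k3 := h.all_iff (p := fun y => fld x.2 y b ≠ 0 → fld x.2 y b = f y) fun t ht y a d => by
      rw [Ch.fld_smul a (h0.scb y a) ht, f1.hom t ht y a]
      exact fun d' => congrArg _ (d (right_ne_zero_of_mul d'))
    have k4 := h.all_iff (p := fun y => fld x.2 y c ≠ 0 → fld x.2 y c = (f y)⁻¹)
      fun t ht y a d => by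
        rw [Ch.fld_smul a (h0.scc y a) ht, f1.hom t ht y a, hc.wc, chz_neg, mul_inv]
        exact fun d' => congrArg _ (d (right_ne_zero_of_mul d'))
    simp only [e1, e2] at k3 k4
    refine ⟨fun l => ⟨h0, k1.2 l.ne, fun q a a' => by rw [k2 _ a, k2 _ a', l.mt q a a']; rfl,
      k3.2 fun z a d => (l.eqb z a d).symm.trans (f2 z a),
      k4.2 fun z a d => f2 z a ▸ eq_inv_of_mul_eq_one_right (l.eqc z a d)⟩,
      fun l => ⟨e3.1 f4, k1.1 l.triv, fun q a a' => mul_left_cancel₀ (chz_ne_zero (h.ne _))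
        ((k2 _ a).symm.trans ((l.mt q a a').trans (k2 _ a'))),
        fun z a d => (f2 z a).trans (k3.1 l.eqb z a d).symm, fun z a d => ?_⟩⟩
    rw [k4.1 l.eqc z a d, ← f2 z a, mul_inv_cancel₀ (k1.1 l.triv z)]
  refine ⟨⟨fun ⟨L, l⟩ => ?_, fun ⟨f, l⟩ => ?_⟩, ?_⟩
  · obtain ⟨f, f1, f2, f3⟩ := hp.exists_mer m.inj hy (e3.2 l.mem)
    exact ⟨f, (k L f f1 f2 f3 (e3.2 l.mem)).1 l⟩
  · obtain ⟨L, f1, f2, f3⟩ := hp.exists_sec m.inj hy l.triv.toMer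
    exact ⟨L, (k L f l.triv.toMer f2 f3 f1).2 l⟩
  · simp only [← e1, ← e2]
    refine (h.all_iff (p := fun y => fld x.2 y b ≠ 0 ∨ fld x.2 y c ≠ 0)
      fun t ht y a => Or.imp (fun d => ?_) fun d => ?_).symm
    · exact Ch.fld_smul a (h0.scb y a) ht ▸ mul_ne_zero (chz_ne_zero ht) d
    · exact Ch.fld_smul a (h0.scc y a) ht ▸ mul_ne_zero (chz_ne_zero ht) d

variable (hc : ch.Dg F.toWt ℓ i b c) (hN : F.Nodal b c)
include hc hN

theorem Rep.lq_iff (hx : x ∈ ch.adm ν κ F) (h : Rep ℓ F.movᶜ x m) :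
    ((∃ L, m.Lv (F.w b) b c U L) ↔ ∃ f, Lq x.2 b c U f) ∧
      ((∀ z, m.Um z → m.y b z ≠ 0 ∨ m.y c z ≠ 0) ↔ Ng x.2 b c) :=
  let ⟨_, _, _, _, d⟩ := h.exists_data hx.1.2.1
  d.lq_iff hc ((dc_mov hN).2 (.inl rfl)) ((dc_mov hN).2 (.inr rfl)) ((mem_adm_nodal hN).1 hx).2

theorem mem_spU : x ∈ ch.locP F ℓ (AM.SpU (F.w b) b c U) ↔
    x ∈ F.B ×ˢ {x | (∃ f, Lq x b c U f) ∧ Ng x b c} := by
  refine ⟨fun ⟨a, m, d, e⟩ => ⟨a.1.1, (d.lq_iff hc hN a).1.1 e.2.1, (d.lq_iff (U := U) hc hN a).2.1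
    e.2.2⟩, fun ⟨a, ⟨f, l⟩, e⟩ => ?_⟩
  have k := (mem_adm_nodal hN).2 ⟨a, l.toBc⟩
  obtain ⟨m, d⟩ := hc.lat.exists_rep_adm k
  exact ⟨k, m, d, hc.nb hN k d, (d.lq_iff hc hN k).1.2 ⟨f, l⟩, (d.lq_iff (U := U) hc hN k).2.2 e⟩

theorem mem_ghN (h : x ∈ ch.locP F ℓ (AM.GhN (F.w b) b c U)) :
    x.1 ∈ F.B ∧ (∃ f, Lq x.2 b c U f) ∧ ¬Ng x.2 b c :=
  let ⟨a, _, d, _, e, z, e1, e2, e3⟩ := h
  ⟨a.1.1, (d.lq_iff hc hN a).1.1 e, fun k =>
    ((d.lq_iff (U := U) hc hN a).2.2 k z e1).elim (· e2) (· e3)⟩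

end dict

section

variable {x : ch.W (Mk ν κ)} {f : V ch.M → ℂ} {e : V ch.M → Option Bool}
  {y : β → ch.W (Mk ν κ) → V ch.M}

/-- one of the evaluation points lies on a ghost component -/
theorem Kq.exists_gh (h : Kq x b c U f e) (hy : EvB x (ch.wd b) U y) (hg : ¬Ng x b c) :
    ∃ k, e (y k x) = none := by
  refine by_contra fun k => hg fun z a a' => by_contra fun d => h.triv.ne z a a' ?_
  have := (hy.ev.self_of_nhds h.mem).2 _ (h.lc.mer (a := none) h.triv.toMer (spt_p h.mem).mem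
    fun _ _ => le_rfl) (fun j => if_neg fun d => k ⟨j, d⟩) z a a'
  rwa [if_pos ((h.none_iff a a').2 (by simpa using d))] at this

theorem mfd_spW (hc : ch.DgC i b c) (hm : ch.m ch.o ≠ 1) {A : Set J}
    (hA : ∀ j, j ∉ A ↔ j = b ∨ j = c) (h : Lq x b c U f) (hg : Ng x b c) : ∃ d : ℕ,
      (∀ b' : ℕ, ((b' + d : ℕ) : ℤ) = ch.dS S A b' U) ∧
      MfdAt {x | (∃ f, Lq x b c U f) ∧ Ng x b c} d x := by
  classical
  have hb := h.mem.1
  obtain ⟨r, y, hy⟩ := exists_ev3 (b := b) (c := c) (U := U) hc.cut hb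
  obtain ⟨d, h1, h2⟩ := mfd_LS (S := S) hc hm hA h hy
  obtain ⟨e, -, -, e3, e4⟩ := h.exists_e hc hy
  have e5 := e4.self_of_nhds f h fun _ => rfl
  have k0 := (hy.f.ev.self_of_nhds hb).1
  have hx : x ∈ {x | (∃ f, Lq x b c U f) ∧ Ng x b c} := ⟨⟨f, h⟩, hg⟩
  have k1 := fun k j (hj : ∀ s g, Lq s b c U g → Sc s j) => holOn_fld (S := {x | ∃ f, Lq x b c U f})
    (q := id) ⟨f, h⟩ (.of_an analyticAt_id) hb.1 (j := j) (.of_an (hy.f.an k))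
    (hy.f.ev.mono fun s a ⟨g, l⟩ => ⟨((a l.mem.1).1 k).1, hj s g l _ ((a l.mem.1).1 k).1⟩)
  let sd : Fin r → Bool := fun k => decide (fld x (y k x) b ≠ 0)
  have k2 : ∀ k, sd k = false → fld x (y k x) c ≠ 0 := fun k a =>
    (hg _ (k0 k).1 (k0 k).2).resolve_left (of_decide_eq_false a)
  have k3 : ∀ᶠ s in 𝓝 x, ∀ g, Lq s b c U g → ∀ k, g (y k s) = bv s b c (sd k) (y k s) := by
    have : ∀ k, ∀ᶠ s in 𝓝 x, (∃ f, Lq s b c U f) → fld s (y k s) (if sd k then b else c) ≠ 0 :=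
      fun k => by
        cases a : sd k
        · exact (k1 k c fun _ _ l => l.scc).ev ⟨f, h⟩ (eventually_ne_nhds (k2 k a))
        · exact (k1 k b fun _ _ l => l.scb).ev ⟨f, h⟩ (eventually_ne_nhds (of_decide_eq_true a))
    filter_upwards [eventually_all.2 this, hy.f.ev] with s a1 a2 g l k
    have a3 := a1 k ⟨g, l⟩
    obtain ⟨a4, a5⟩ := (a2 l.mem.1).1 k
    cases a : sd k <;> rw [a] at a3
    exacts [inv_eq_iff_eq_inv.1 (l.eqc _ a4 a5 a3).symm, (l.eqb _ a4 a5 a3).symm]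
  refine ⟨d, h1, h2.iso' (F := Prod.snd) (G := fun s => (fun _ k => bv s b c (sd k) (y k s), s))
    (.of_an analyticAt_snd) (.prod (.pi fun _ => .pi fun k => .mono ?_
      (.of_forall fun _ a => a.1)) (.of_an analyticAt_id)) ?_ ?_⟩
  · cases a : sd k
    · exact (k1 k c fun _ _ l => l.scc).comp_an ⟨f, h⟩ (analyticAt_inv (k2 k a))
    · exact k1 k b fun _ _ l => l.scb
  · filter_upwards [e4, continuousAt_snd.eventually (k3.and (e3.and hy.f.eventually))]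
      with s a1 ⟨a2, a3, a4⟩ ⟨g, l, a5⟩
    refine ⟨⟨⟨g, l⟩, by_contra fun a6 => ?_⟩,
      Prod.ext (funext₂ fun _ k => (a2 g l k).symm.trans (a5 k)) rfl⟩
    obtain ⟨k, a7⟩ := (a1 g l a5).exists_gh a4 a6
    have := (e5.none_iff (k0 k).1 (k0 k).2).1 ((a3 l.mem.1).2.1 k ▸ a7)
    exact (hg _ (k0 k).1 (k0 k).2).elim (· this.1) (· this.2)
  · exact k3.mono fun s a ⟨⟨g, l⟩, _⟩ => ⟨⟨g, l, a g l⟩, rfl⟩

/-- normalising the level structure at a point of a ghost component -/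
theorem mfd_slice (hc : ch.DgC i b c) (hm : ch.m ch.o ≠ 1) {A : Set J}
    (hA : ∀ j, j ∉ A ↔ j = b ∨ j = c) {s : (Unit → β → ℂ) × ch.W (Mk ν κ)} (hs : s ∈ LS b c U y)
    (hy : Ev3 s.2 b c U y) {k : β} (h1 : s.1 () k = 1)
    (h2 : fld s.2 (y k s.2) b = 0 ∧ fld s.2 (y k s.2) c = 0) : ∃ d : ℕ,
      (∀ b' : ℕ, ((b' + d + 1 : ℕ) : ℤ) = ch.dS S A b' U) ∧
      MfdAt {t | t ∈ LS b c U y ∧ t.1 () k = 1} d s := by
  obtain ⟨f, h, hf⟩ := hs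
  obtain ⟨d, h3, h4⟩ := mfd_LS (S := S) hc hm hA h hy
  obtain ⟨e, h5⟩ := h.exists_kq hc.wc
  obtain ⟨h6, h7⟩ := (hy.f.ev.self_of_nhds h.mem.1).1 k
  have h8 : (fun (_ : Unit) k => f (y k s.2), s.2) = s := Prod.ext (funext₂ fun _ => hf) rfl
  have h11 : AnalyticAt ℂ (fun t : (Unit → β → ℂ) × ch.W (Mk ν κ) => t.1 () k) s :=
    analyticAt_pi_iff.1 (analyticAt_pi_iff.1 analyticAt_fst () : AnalyticAt ℂ (·.1 ()) s) k
  rw [h8] at h4
  obtain ⟨n, h9, h10⟩ := h4.sub' (Z := {t | t ∈ LS b c U y ∧ t.1 () k = 1})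
    (f := fun t => t.1 () k - 1) (.of_an (h11.sub analyticAt_const)) (sub_eq_zero.2 h1)
    (fun v _ => Submodule.subset_span ⟨fun ε => (fun _ j =>
      (if e (y j s.2) = none then 1 + ε * v else 1) * f (y j s.2), s.2),
      ⟨(analyticAt_pi_iff.2 fun _ => analyticAt_pi_iff.2 fun j => by
        split_ifs <;> fun_prop).prod analyticAt_const, by simpa using h8,
        (ContinuousAt.eventually_ne (g := fun ε : ℂ => 1 + ε * v) (by fun_prop) (by simp)).mono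
          fun ε a => ⟨_, h5.scale h a, fun _ => rfl⟩⟩, by
      simp [(h5.none_iff h6 h7).2 h2, hf, h1]⟩)
    (.of_forall fun _ => by simp only [sub_eq_zero, mem_ofPred_eq])
  exact ⟨n, fun b' => by rw [← h3, ← h9, Module.finrank_self, add_assoc], h10⟩

end

theorem mfd_spU (hc : ch.Dg F.toWt ℓ i b c) (hN : F.Nodal b c) {x : ch.WF ν κ Λ}
    (hx : x ∈ ch.locP F ℓ (AM.SpU (F.w b) b c U)) (hB : MfdAt F.B b' x.1) :
    ∃ n : ℕ, (n : ℤ) = ch.dS S F.mov b' U ∧ MfdAt (ch.locP F ℓ (AM.SpU (F.w b) b c U)) n x := by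
  obtain ⟨-, ⟨f, h⟩, hg⟩ := (mem_spU hc hN).1 hx
  obtain ⟨d, h1, h2⟩ := mfd_spW (S := S) hc.toDgC hc.m_ne (fun _ => dc_mov hN) h hg
  exact ⟨_, h1 b', (hB.prod h2).congr (.of_forall fun _ => (mem_spU hc hN).symm)⟩

theorem dimLt_gh (hc : ch.Dg F.toWt ℓ i b c) (hN : F.Nodal b c) (hB : ∀ l ∈ F.B, MfdAt F.B b' l)
    {n : ℕ} (hn : ch.dS S F.mov b' U ≤ n) : DimLt n (ch.locP F ℓ (AM.GhN (F.w b) b c U)) := by
  refine .of_locally fun x hx => ?_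
  obtain ⟨r, y, hy⟩ := exists_ev3 (b := b) (c := c) (U := U) hc.cut hx.1.1.2.1
  let T : Fin r → Set ((Λ → ℂ) × (Unit → Fin r → ℂ) × ch.W (Mk ν κ)) := fun k =>
    {z | z ∈ F.B ×ˢ {t | t ∈ LS b c U y ∧ t.1 () k = 1} ∧ Ev3 z.2.2 b c U y ∧
      fld z.2.2 (y k z.2.2) b = 0 ∧ fld z.2.2 (y k z.2.2) c = 0}
  have h1 : ∀ k, DimLt n (T k) := fun k => .of_locally fun z hz => by
    obtain ⟨d, a1, a2⟩ := mfd_slice (S := S) hc.toDgC hc.m_ne (fun _ => dc_mov hN) hz.1.2.1 hz.2.1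
      hz.1.2.2 hz.2.2
    obtain ⟨V, a3, a4⟩ := ((hB _ hz.1.1).prod a2).dimLt
    exact ⟨V, a3, (a4.le (Nat.cast_le.1 ((a1 b').trans_le hn))).mono
      (inter_subset_inter_left _ fun _ a => a.1)⟩
  refine ⟨_, continuousAt_snd.eventually hy.eventually, (DimLt.iUnion fun k => (h1 k).image_an
    (f := fun z => (z.1, z.2.2)) fun _ _ => analyticAt_fst.prod
      (analyticAt_snd.comp analyticAt_snd)).mono fun s ⟨a1, a2⟩ => ?_⟩
  obtain ⟨a3, ⟨f, h⟩, a4⟩ := mem_ghN hc hN a1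
  obtain ⟨e, a5⟩ := h.exists_kq hc.wc
  obtain ⟨k, a6⟩ := a5.exists_gh a2.f a4
  obtain ⟨a7, a8⟩ := (a2.f.ev.self_of_nhds h.mem.1).1 k
  have a9 := h.triv.ne _ a7 a8
  exact mem_iUnion.2 ⟨k, (s.1, fun _ j => (if e (y j s.2) = none then (f (y k s.2))⁻¹ else 1) *
    f (y j s.2), s.2), ⟨⟨a3, ⟨_, a5.scale h (inv_ne_zero a9), fun _ => rfl⟩, by simp [a6, a9]⟩, a2,
      (a5.none_iff a7 a8).1 a6⟩, rfl⟩

end Ch

end Vale.Agent.P269
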