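import Vale.Agent.P269.Spl.Ty2
import Vale.Agent.P269.Spl.NFQA

/-!
# The factors of the contribution of one type
-/

set_option linter.unusedSectionVars false

namespace Vale.Agent.P269

open P291Z Set Function Topology Filter

namespace Trm

variable {S Λ R J ν ν' κ κ' V V' : Type} [Fintype S] [Fintype Λ] [Fintype R] [Fintype J]
  [AddCommGroup V] [Module ℂ V] [AddCommGroup V'] [Module ℂ V'] {W : Wt S Λ R J}
  {A A' : Set ((Λ → ℂ) × (J → ℂ))} {r a b a₁ a₂ b₁ b₂ : ℕ}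

/-- The lists agree up to moving even factors. -/
def Eqv (fs fs' : List (Fac W ν κ)) : Prop :=
  fs.Perm fs' ∧ fs.filter Fac.od = fs'.filter Fac.od

/-- The factors of the persistent nodes. -/
def nd (W : Wt S Λ R J) (ν : Type) (L : List (κ × ℕ × ℕ)) : List (Fac W ν κ) :=
  L.flatMap fun x => List.replicate x.2.1 (.psi (.inr (x.1, false))) ++
    List.replicate x.2.2 (.psi (.inr (x.1, true))) ++ [.dg x.1]

theorem mem_nd {L : List (κ × ℕ × ℕ)} {f : Fac W ν κ} (h : f ∈ nd W ν L) :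
    (∃ n, f = .psi n) ∨ ∃ q, f = .dg q := by
  simp only [nd, List.mem_flatMap, List.mem_append, List.mem_replicate, List.mem_singleton] at h
  obtain ⟨x, -, (h | h) | h⟩ := h
  exacts [.inl ⟨_, h.2⟩, .inl ⟨_, h.2⟩, .inr ⟨_, h⟩]

theorem od_nd (L : List (κ × ℕ × ℕ)) : (nd W ν L).filter Fac.od = [] :=
  List.filter_eq_nil_iff.2 fun f h => by
    rcases mem_nd h with ⟨_, rfl⟩ | ⟨_, rfl⟩ <;> exact Bool.false_ne_true

theorem dg_mem_nd {L : List (κ × ℕ × ℕ)} (h : LG.Enum L) (q : κ) : .dg q ∈ nd W ν L := by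
  obtain ⟨x, a, rfl⟩ := List.mem_map.1 (h.2 q)
  exact List.mem_flatMap.2 ⟨x, a, List.mem_append_right _ (List.mem_singleton_self _)⟩

theorem nd_re (f : ν → ν') (g : κ → κ') (L : List (κ × ℕ × ℕ)) :
    (nd W ν L).map (Fac.re f g) = nd W ν' (L.map (Prod.map g id)) := by
  simp [nd, List.map_flatMap, List.flatMap_map, Fac.re]

variable (A A') in
/-- The space that carries the class of a label. -/
def sp : (ν × ℕ) ⊕ Fin r × Bool → Set ((Λ → ℂ) × (J → ℂ)) := Sum.elim (fun _ => A) fun _ => A'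

variable (w : V →ₗ[ℂ] H (W.X A)) (i : V' →ₗ[ℂ] H (W.X A'))

/-- The class of a label. -/
noncomputable def cls : ∀ a : (ν × ℕ) ⊕ Fin r × Bool, V × V' →ₗ[ℂ] H (W.X (sp A A' a))
  | .inl _ => w ∘ₗ LinearMap.fst ℂ V V'
  | .inr _ => i ∘ₗ LinearMap.snd ℂ V V'

variable (κ) in
/-- The insertions. -/
noncomputable def ins (L : List (((ν × ℕ) ⊕ Fin r × Bool) × V × V')) :
    List (Fac W (ν ⊕ Fin r × Bool) κ) :=
  W.fsG (fun a => .inl (a.map Prod.fst id)) (Sum.elim Prod.snd 0) (sp A A') (cls w i) L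

theorem ins_append (L L' : List (((ν × ℕ) ⊕ Fin r × Bool) × V × V')) :
    ins κ w i (L ++ L') = ins κ w i L ++ ins κ w i L' := List.flatMap_append

theorem eqv_uns (L₁ : List (ν × ℕ × V)) (L₂ : List (κ × ℕ × ℕ)) (x y : Fin r → V') :
    Eqv ((W.fsL A (L₁.map (Prod.map id (Prod.map id w))) L₂).map (Fac.re Sum.inl id) ++
      (List.finRange r).flatMap fun e =>
        [.ev (.inl (.inr (e, false))) A' (i (x e)), .ev (.inl (.inr (e, true))) A' (i (y e))])
      (ins κ w i (uns L₁ x y) ++ nd W (ν ⊕ Fin r × Bool) L₂) := by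
  have e₁ : (W.fsL A (L₁.map (Prod.map id (Prod.map id w))) L₂).map (Fac.re Sum.inl id) =
      ins κ w i (L₁.map fun z => (.inl (z.1, z.2.1), z.2.2, 0)) ++
        nd W (ν ⊕ Fin r × Bool) L₂ := by
    rw [Wt.fsL, List.map_append]
    refine congrArg₂ _ ?_ ((nd_re _ _ _).trans (congrArg _ (List.map_id _)))
    simp only [ins, Wt.fsG, List.map_flatMap, List.flatMap_map, List.map_append, List.map_replicate]
    rfl
  have e₂ : ((List.finRange r).flatMap fun e =>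
      [.ev (.inl (.inr (e, false))) A' (i (x e)), .ev (.inl (.inr (e, true))) A' (i (y e))]) =
      ins κ w i ((List.finRange r).flatMap fun e =>
        [(.inr (e, false), 0, x e), ((.inr (e, true) : (ν × ℕ) ⊕ _), 0, y e)]) := by
    rw [ins, Wt.fsG, List.flatMap_assoc]
    rfl
  rw [e₁, e₂, uns, ins_append]
  refine ⟨?_, by simp only [List.filter_append, od_nd, List.append_nil]⟩
  rw [List.append_assoc, List.append_assoc]
  exact List.perm_append_comm.append_left _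

variable (v : Fin a → ℕ × V) (n : Fin b → ℕ × ℕ) (μ : Fin r → ℕ) (h : Fin r → V')

/-- The factors of one part. -/
noncomputable abbrev prt : List (Fac W (Fin a ⊕ Fin r) (Fin b)) :=
  (W.fsC W.ex0 A A' (fun j => Prod.map id w (v j)) n fun e => Prod.map id i (μ e, h e)).tail.tail

theorem prt_re (φ : Fin a → ν) (ψ : Fin b → κ) (s : Bool) :
    (prt w i v n μ h).map (Fac.re (Sum.map φ (·, s)) ψ) =
      ins κ w i (.ofFn fun j => (.inl (φ j, (v j).1), (v j).2, 0)) ++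
        nd W _ (.ofFn fun q => (ψ q, n q)) ++ ins κ w i (.ofFn fun e => (.inr (e, s), 0, h e)) := by
  simp only [prt, Wt.fsC, List.tail_cons, List.map_append, ins, Wt.fsG, nd, List.flatMap_def,
    List.map_flatten, List.map_ofFn, comp_def, List.map_replicate]
  refine congrArg₂ _ rfl ?_
  rw [← List.flatMap_singleton' (List.ofFn _), List.flatMap_def, List.map_ofFn]
  rfl

theorem mem_prt {f} (hf : f ∈ prt w i v n μ h) : f.NoTw := by
  simp only [prt, Wt.fsC, List.tail_cons, List.mem_append, List.mem_flatten, List.mem_ofFn,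
    exists_exists_eq_and, List.mem_replicate, List.mem_singleton] at hf
  rcases hf with (⟨_, ⟨_, rfl⟩ | rfl⟩ | ⟨_, (⟨_, rfl⟩ | ⟨_, rfl⟩) | rfl⟩) | ⟨_, rfl⟩ <;> trivial

theorem eqv_srt (φ : Fin a₁ ⊕ Fin a₂ ≃ ν) {ψ : Fin b₁ ⊕ Fin b₂ ≃ κ} {L₂ : List (κ × ℕ × ℕ)}
    {n₁ : Fin b₁ → ℕ × ℕ} {n₂ : Fin b₂ → ℕ × ℕ}
    (e : L₂.Perm ((List.ofFn fun i => (ψ (.inl i), n₁ i)) ++ List.ofFn fun i => (ψ (.inr i), n₂ i)))
    (v₁ : Fin a₁ → ℕ × V) (v₂ : Fin a₂ → ℕ × V) (h₁ h₂ : Fin r → V') :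
    Eqv (ins κ w i (srt φ v₁ v₂ h₁ h₂) ++ nd W _ L₂)
      ((prt w i v₁ n₁ μ h₁).map (Fac.re (mixE φ _ ∘ .inl) (ψ ∘ .inl)) ++
        (prt w i v₂ n₂ μ h₂).map (Fac.re (mixE φ _ ∘ .inr) (ψ ∘ .inr))) := by
  refine Eq.mpr (congrArg _ (congrArg₂ _ (prt_re w i v₁ n₁ μ h₁ (φ ∘ .inl) _ true)
    (prt_re w i v₂ n₂ μ h₂ (φ ∘ .inr) _ false))) ?_
  rw [srt, ins_append, ins_append, ins_append]
  refine ⟨((e.flatMap_right _).append_left _).trans ?_,
    by simp only [List.filter_append, od_nd, List.append_nil]; rfl⟩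
  rw [List.flatMap_append]
  refine Multiset.coe_eq_coe.1 ?_
  simp only [← Multiset.coe_add, nd, comp_apply]
  abel

end Trm

end Vale.Agent.P269
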