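import Vale.Agent.P269.Spl.CyA

/-!
# The nodes on the divisor are replaced by pairs of marked points
-/

set_option linter.unusedSectionVars false

namespace Vale.Agent.P269

open P291Z Set Function Topology Filter Module

variable {S Λ Λ₀ R J K ι ν κ α : Type} [Fintype S] [Fintype Λ] [Fintype Λ₀] [Fintype R] [Fintype J]
  [Fintype K] [Fintype ι] [DecidableEq ι] [Fintype ν] [Fintype κ]

/-- Labelled insertions at ordinary points and at the branches of the nodes on the divisor. -/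
noncomputable def Wt.fsK (F : Wt S Λ R J) {A A' : Set ((Λ → ℂ) × (J → ℂ))} {V V' ε : Type}
    [AddCommGroup V] [Module ℂ V] [AddCommGroup V'] [Module ℂ V'] (w : V →ₗ[ℂ] H (F.X A))
    (w' : V' →ₗ[ℂ] H (F.X A')) (L : List (((ν × ℕ) ⊕ ε) × V × V')) : List (Fac F (ν ⊕ ε) κ) :=
  F.fsG (fun a => .inl (a.map Prod.fst id)) (Sum.elim Prod.snd 0) (Sum.elim (fun _ => A) fun _ => A')
    (Sum.rec (fun _ => w ∘ₗ .fst _ _ _) fun _ => w' ∘ₗ .snd _ _ _) L

namespace TrmA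

variable {F : Wt S Λ R J} {A : Set ((Λ → ℂ) × (J → ℂ))} {L₂ : List (κ × ℕ × ℕ)}

theorem od_fsL {f : Fac F ν κ} (h : f ∈ F.fsL A [] L₂) : f.od = false := by
  obtain ⟨x, -, hx⟩ := List.mem_flatMap.1 h
  rcases List.mem_append.1 hx with a | a
  · rcases List.mem_append.1 a with a | a <;> rw [List.eq_of_mem_replicate a] <;> rfl
  · rw [List.mem_singleton.1 a]; rfl

theorem filter_fsL : (F.fsL A [] L₂ : List (Fac F ν κ)).filter Fac.od = [] :=
  List.filter_eq_nil_iff.2 fun _ a => Bool.eq_false_iff.1 (od_fsL a)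

theorem at_of_od {ch : Ch ι J} {Z : Set (ch.WF ν κ Λ)} {f : Fac F ν κ} (h : f.od = false) :
    f.At Z := by
  cases f
  exacts [trivial, (nomatch h), (nomatch h), trivial, trivial]

theorem dg_fsL (h₂ : LG.Enum L₂) (q : κ) : (.dg q : Fac F ν κ) ∈ F.fsL A [] L₂ := by
  obtain ⟨x, a, rfl⟩ := List.mem_map.1 (h₂.2 q)
  exact List.mem_flatMap.2 ⟨x, a, List.mem_append_right _ (.head _)⟩

theorem map_fsL {ν' : Type} (φ : ν → ν') (L₁ : List (ν × ℕ × H (F.X A))) :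
    (F.fsL A L₁ L₂).map (Fac.re φ id) =
      (L₁.flatMap fun x => List.replicate x.2.1 (.psi (.inl (φ x.1))) ++
        [.ev (.inl (φ x.1)) A x.2.2]) ++ F.fsL A [] L₂ := by
  simp only [Wt.fsL, List.map_append, List.map_flatMap, List.map_replicate, List.map_singleton,
    List.flatMap_nil, List.nil_append]
  rfl

theorem ok_sub {F : Fam S Λ R J K} {B : Set (Λ → ℂ)} {Z : Set J} (hB : B ⊆ F.B) (hZ : F.zer ⊆ Z)
    {u : ν → J → ℕ} {f : Fac F.toWt ν κ} (h : f.Ok F u) : f.Ok (F.sub B Z) u := by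
  cases f
  exacts [trivial, fun _ a => h ⟨Fam.cone_sub hB hZ a.1, a.2⟩, hB.trans h, trivial, trivial]

end TrmA

open TrmA

namespace Fam.DgS

variable [DecidableEq R] {k : ℕ} {g : ℤ} {d : R → ℤ} {n₀ : ℕ} {F : Fam S (Option Λ₀) R J K} {i : R}
  {b c : J} {B₀ : Set (Λ₀ → ℂ)} {Ω : Set ℂ} {K₀ : Set K} {τ : STy R (ν ⊕ κ)}
  (h : F.DgS i b c B₀ Ω k K₀ n₀)
include h

theorem trmA (hG : St.GLn) (hN : St.NDn) {a a' : α → H (F.X (F.sub (slab B₀ 0) {b, c}).cone)}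
    [Fintype α] (hc : (F.sub (slab B₀ 0) {b, c}).IsCas a a') {fs : List (Fac F.toWt ν κ)}
    (hf : F.Fs 0 fs) : ∀ᶠ E in atTop, τ.n * (F.sp0 B₀).intQ k E g d (τ.C (F.w b) b c) fs =
      ∑ t : Fin τ.r → α, (F.sp0 B₀).intQ k E (g - τ.r) d (τ.P (F.w b) b c)
        (fs.map (Fac.re .inl id) ++ (List.finRange τ.r).flatMap fun e =>
          [.ev (.inl (.inr (e, false))) _ (a (t e)), .ev (.inl (.inr (e, true))) _ (a' (t e))]) := by
  classical
  have f : (F.sp0 B₀).Fs 0 fs :=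
    ⟨fun f e => ⟨ok_sub h.slab_sub (h.dgn.zer_sub _) (hf.1 f e).1, (hf.1 f e).2⟩, hf.2⟩
  filter_upwards [hG (F.sp0 B₀) k g (g - τ.r) d (τ.Q (F.w b) b c) _ τ.n fs (List.finRange τ.r) h.sg
    (by rw [Fintype.card_fin, sub_add_cancel]) h.cy_Q h.cy_C (fun _ => STy.card_lab) f
    (List.nodup_finRange _) List.mem_finRange,
    hN (F.sp0 B₀) k (g - τ.r) d {b, c} a a' (τ.Q (F.w b) b c) (τ.P (F.w b) b c) _ fs
      (List.finRange τ.r) h.sg (eq_compl_comm.1 h.dgn.mov) h.nice.2.2 hc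
      (by rw [Fintype.card_fin, sub_add_cancel]; exact h.cy_Q) h.cy_P STy.Q_iff
      (fun _ q e => forall_mem_insert.2 ⟨(q.van e).1, forall_eq.2 (q.van e).2⟩) f
      (List.nodup_finRange _) List.mem_finRange] with E e1 e2
  exact e1.trans e2

/-- the values at the new marked points lie on the divisor -/
theorem vl_P {E : ℕ} (hE : F.BigD k E) (e : Fin τ.r × Bool) :
    ∀ x ∈ (F.sp0 B₀).ZP k E g d (τ.P (F.w b) b c),
      Ch.vl x (.inl (.inr e)) ∈ (F.sub (slab B₀ 0) {b, c}).cone :=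
  Ch.Cuts.vl_clP (F := F.sp0 B₀) (chart_cuts hE) h.sg.toInv (A := {b, c})
    (disjoint_left.2 fun _ => h.dgn.not_mov.2) (empty_subset _)
    fun _ q => forall_mem_insert.2 ⟨(q.van e).1, forall_eq.2 (q.van e).2⟩

theorem vl_K {E : ℕ} (hE : F.BigD k E) (a : (ν × ℕ) ⊕ Fin τ.r × Bool) :
    ∀ x ∈ (F.sp0 B₀).ZP k E g d (τ.P (F.w b) b c), Ch.vl x (.inl (a.map Prod.fst id)) ∈
      Sum.elim (fun _ => F.cone) (fun _ => (F.sub (slab B₀ 0) {b, c}).cone) a := by
  cases a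
  exacts [fun _ hx => cone_sub h.slab_sub (h.dgn.zer_sub _) (Ch.vl_mem hx.1 _), h.vl_P hE _]

variable {V V' : Type} [AddCommGroup V] [Module ℂ V] [AddCommGroup V'] [Module ℂ V']
  {p : Fock.Par ℂ V} {p' : Fock.Par ℂ V'} {w : V →ₗ[ℂ] H (F.X F.cone)}
  {w' : V' →ₗ[ℂ] H (F.X (F.sub (slab B₀ 0) {b, c}).cone)} {L₂ : List (κ × ℕ × ℕ)}

theorem sw_fsK (hw : Fock.IsEv p (parH _) w) (hw' : Fock.IsEv p' (parH _) w') (h₂ : LG.Enum L₂) :
    ∀ᶠ E in atTop, LG.SW (p.prod p') fun L => (F.sp0 B₀).intQ k E g d (τ.P (F.w b) b c)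
      (F.fsK w w' L ++ F.fsL F.cone [] L₂) :=
  (F.eventually_bigD k).mono fun _ hE => h.sg.sw_intQ hE h.ivtP _
    (Sum.rec (fun _ v => hw v.1) fun _ v => hw' v.2) (h.vl_K hE)
    (fun _ a => at_of_od (od_fsL a)) (dg_fsL h₂)

theorem intQ_uns (L₁ : List (ν × ℕ × V)) (h₂ : LG.Enum L₂) (x y : Fin τ.r → V') :
    ∀ᶠ E in atTop, (F.sp0 B₀).intQ k E g d (τ.P (F.w b) b c)
      (F.fsK w w' (uns L₁ x y) ++ F.fsL F.cone [] L₂) =
      (F.sp0 B₀).intQ k E g d (τ.P (F.w b) b c)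
        ((F.fsL _ (L₁.map (Prod.map id (Prod.map id w))) L₂).map (Fac.re .inl id) ++
          (List.finRange τ.r).flatMap fun e =>
            [.ev (.inl (.inr (e, false))) _ (w' (x e)), .ev (.inl (.inr (e, true))) _ (w' (y e))]) := by
  filter_upwards [F.eventually_bigD k] with E hE
  have e : (F.fsK w w' (uns L₁ x y) : List (Fac F.toWt _ κ)) =
      (L₁.flatMap fun z => List.replicate z.2.1 (.psi (.inl (.inl z.1))) ++
        [.ev (.inl (.inl z.1)) _ (w z.2.2)]) ++ (List.finRange τ.r).flatMap fun e =>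
          [.ev (.inl (.inr (e, false))) _ (w' (x e)), .ev (.inl (.inr (e, true))) _ (w' (y e))] := by
    simp only [Wt.fsK, Wt.fsG, uns, List.flatMap_append, List.flatMap_map, List.flatMap_assoc]
    rfl
  refine h.sg.intQ_perm hE h.ivtP (List.forall_mem_append.2
    ⟨Wt.at_fsG _ _ (h.vl_K hE) _, fun _ a => at_of_od (od_fsL a)⟩)
    (fun q => List.mem_append_right _ (dg_fsL h₂ q)) ?_ ?_
  all_goals rw [e, map_fsL, List.flatMap_map]
  · rw [List.append_assoc, List.append_assoc]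
    exact List.perm_append_comm.append_left _
  · simp only [List.filter_append, filter_fsL, List.append_nil]
    rfl

end Fam.DgS

end Vale.Agent.P269
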