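import Vale.Agent.P269.Spl.Ty2
import Vale.Agent.P269.Spl.DictA
import Vale.Agent.P269.Pt.Split

/-!
# Types of split maps: pointwise theory
-/

set_option linter.unusedSectionVars false

namespace Vale.Agent.P269

open P291Z Set Function Topology Filter Module

variable {S Λ Λ₀ R J K ι ν κ α : Type} [Fintype S] [Fintype Λ] [Fintype Λ₀] [Fintype R] [Fintype J]
  [Fintype K] [Fintype ι] [DecidableEq ι] [Fintype ν] [Fintype κ]

namespace STy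

theorem u_ne (τ : STy R α) (e : Fin τ.r) : τ.u e ≠ 0 := τ.μ e |>.succ_ne_zero

theorem mem_set [Fintype α] [DecidableEq α] {i : R} {A : Finset ((R → ℤ) × ℤ × ℕ)} {τ : STy R α} :
    τ ∈ set i A ↔ τ.1 ∈ A ∧ ∑ e, τ.u e = (τ.d i).toNat := by
  rw [set, Finset.mem_sigma, Finset.mem_product, and_iff_left (Finset.mem_univ _), ctc,
    Finset.mem_filter, Fintype.mem_piFinset]
  refine and_congr_right fun _ => and_iff_right_of_imp fun h e => Finset.mem_range.2 ?_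
  exact h ▸ Finset.single_le_sum (f := fun e => τ.μ e + 1) (fun _ _ => Nat.zero_le _)
    (Finset.mem_univ e)

theorem n_ne (τ : STy R α) : τ.n ≠ 0 :=
  haveI : Nonempty {σ : Equiv.Perm (Fin τ.r) // τ.μ ∘ σ = τ.μ} := ⟨⟨1, rfl⟩⟩
  Nat.card_pos.ne'

/-- renumbering the nodes -/
def TyA.pm (τ : STy R α) (σ : Equiv.Perm (Fin τ.r)) : STy R α := ⟨τ.1, τ.μ ∘ σ, τ.s⟩

theorem TyA.pm_iff {τ τ' : STy R α} : τ.Pm τ' ↔ ∃ σ, τ' = TyA.pm τ σ := by
  refine ⟨?_, by rintro ⟨σ, rfl⟩; exact ⟨rfl, rfl, rfl, σ, rfl⟩⟩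
  obtain ⟨⟨d, j, r⟩, μ, s⟩ := τ
  obtain ⟨⟨d', j', r'⟩, μ', s'⟩ := τ'
  rintro ⟨rfl : d = d', rfl : j = j', rfl : s = s', σ, e⟩
  obtain rfl : r' = r := Fin.equiv_iff_eq.1 ⟨σ⟩
  exact ⟨σ, congrArg (fun x => (⟨(d, j, r'), x, s⟩ : STy R α)) e⟩

theorem TyA.n_pm [DecidableEq (STy R α)] (τ : STy R α) (σ : Equiv.Perm (Fin τ.r)) :
    (Finset.univ.filter fun ρ => TyA.pm τ ρ = TyA.pm τ σ).card = (TyA.pm τ σ).n := by
  rw [← Fintype.card_subtype, ← Nat.card_eq_fintype_card]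
  refine (Nat.card_congr ((Equiv.mulLeft σ).subtypeEquiv fun ρ => ?_)).symm
  simp only [TyA.pm, Sigma.mk.injEq, heq_eq_eq, Prod.mk.injEq, true_and, and_true]
  rfl

/-- the sum of the coefficients over an orbit -/
theorem sum_pm [Fintype α] [DecidableEq α] {i : R} {A : Finset ((R → ℤ) × ℤ × ℕ)} {τ : STy R α}
    [DecidablePred τ.Pm] (h : τ ∈ set i A) :
    ∑ τ' ∈ set i A with τ.Pm τ', τ'.c = (∏ e, τ.u e : ℕ) := by
  classical
  have h1 := Finset.card_eq_sum_card_fiberwise (f := TyA.pm τ) (s := Finset.univ)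
    (t := (set i A).filter τ.Pm) fun σ _ => Finset.mem_filter.2 ⟨mem_set.2 ⟨(mem_set.1 h).1,
      (Equiv.sum_comp σ τ.u).trans (mem_set.1 h).2⟩, TyA.pm_iff.2 ⟨σ, rfl⟩⟩
  rw [Finset.card_univ, Fintype.card_perm, Fintype.card_fin] at h1
  have h2 : (τ.r.factorial : ℂ) ≠ 0 := Nat.cast_ne_zero.2 (Nat.factorial_ne_zero _)
  rw [← mul_div_cancel_right₀ ((∏ e, τ.u e : ℕ) : ℂ) h2]
  nth_rw 1 [h1]
  rw [Nat.cast_sum, Finset.mul_sum, Finset.sum_div]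
  refine Finset.sum_congr rfl fun τ' a => ?_
  obtain ⟨σ, rfl⟩ := TyA.pm_iff.1 (Finset.mem_filter.1 a).2
  rw [TyA.n_pm, ← Equiv.prod_comp σ τ.u]
  rfl

variable {τ τ' : STy R (ν ⊕ κ)} {w : R → ℤ} {b c : J} {W : Wt S Λ R J} {A : Set J}

theorem TyA.ext_ne (e : Fin τ.r) (s : Bool) :
    extU (0 : Ch.Mk ν κ → ℤ) τ.u (.inr (.inr e, s)) ≠ 0 := by
  cases s <;> simp [extU, u_ne]

theorem P.van {m : AM Λ R J (ν ⊕ Fin τ.r × Bool) κ} (h : τ.P w b c m) (e : Fin τ.r × Bool) :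
    m.y b (m.p (.inl (.inr e))) = 0 ∧ m.y c (m.p (.inl (.inr e))) = 0 := by
  have := mt (h.2.1.ne_iff h.1 (k := .inl (.inr e))).2 (TyA.ext_ne e.1 e.2)
  rwa [not_or, not_not, not_not] at this

theorem Q_iff (m : AM Λ R J ν (κ ⊕ Fin τ.r)) :
    τ.Q w b c m ↔ τ.P w b c (m.re (Ch.unp ν κ _).toEmbedding) := by
  have um : ∀ z, (m.re (Ch.unp ν κ _).toEmbedding).Um z ↔ m.Um z := fun z =>
    (Ch.unp ν κ _).forall_congr_right (q := fun k => z ≠ m.p k)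
  have hP : (m.re (Ch.unp ν κ _).toEmbedding).P = m.P := Finset.ext fun z => by
    rw [AC.mem_P, AC.mem_P]
    exact (Ch.unp ν κ _).exists_congr_right (q := fun k => m.p k = z)
  have lv : ∀ B, m.Lv w b c (extU 0 τ.u) B ↔
      (m.re (Ch.unp ν κ _).toEmbedding).Lv w b c (extU 0 τ.u ∘ Ch.unp ν κ _) B := fun B => by
    have e := (Ch.unp ν κ _).prod_comp fun k => m.R.pt (m.p k) ^ extU 0 τ.u k
    refine ⟨fun l => ⟨(e ▸ l.mem :), l.ne, fun q => l.mt (.inl q), fun z a => l.eqb z ((um z).1 a),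
      fun z a => l.eqc z ((um z).1 a)⟩, fun l => ⟨e ▸ l.mem, l.ne, ?_,
      fun z a => l.eqb z ((um z).2 a), fun z a => l.eqc z ((um z).2 a)⟩⟩
    rintro (q | q)
    exacts [l.mt q, fun a => (TyA.ext_ne q false a).elim]
  have sp : m.SpT w b c (extU 0 τ.u) τ.a τ.d (extT _ τ.T) ↔
      (m.re (Ch.unp ν κ _).toEmbedding).SpT w b c (extU 0 τ.u ∘ Ch.unp ν κ _) τ.a τ.d
        (Ch.unp ν κ _ ⁻¹' extT _ τ.T) := by
    refine and_congr (and_congr (exists_congr lv) (forall_congr' fun z => by rw [um]))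
      (and_congr ?_ (and_congr_right fun _ => ((Ch.unp ν κ _).forall_congr_right
        (q := fun k => m.p k ∈ m.sb b ↔ k ∈ extT _ τ.T)).symm))
    rw [AC.degOn_ω, AC.degOn_ω, hP]
    rfl
  refine ⟨fun h => ⟨⟨h.1.b_mem, h.1.c_mem, h.1.mul, (AM.mt_unp.1 h.1.mtb).1,
    (AM.mt_unp.1 h.1.mtc).1⟩, sp.1 h.2⟩, fun h => ⟨⟨h.1.b_mem, h.1.c_mem, h.1.mul,
    AM.mt_unp.2 ⟨h.1.mtb, fun e => ?_⟩, AM.mt_unp.2 ⟨h.1.mtc, fun e => ?_⟩⟩, sp.2 h.2⟩⟩
  exacts [(h.van (e, false)).1.trans (h.van (e, true)).1.symm,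
    (h.van (e, false)).2.trans (h.van (e, true)).2.symm]

section ivt

variable (hb : b ∈ A) (hc : c ∈ A) (wb : W.w b = w) (wc : W.w c = -w)
include hb hc wb wc

theorem ivt_Q : AM.IvtA W A (τ.Q w b c) := AM.ivtA_spN hb hc wb wc

theorem ivt_P : AM.IvtA W A (τ.P w b c) := AM.ivtA_spN hb hc wb wc

theorem ivt_C : AM.IvtA W A (τ.C w b c) := (ivt_Q hb hc wb wc).ct

end ivt

variable {m : AM Λ R J ν κ}

/-- the number of labellings -/
theorem card_lab (h : τ.C w b c m) :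
    Nat.card {x : Fin τ.r × Bool → m.X // ∃ h : m.Nds x, τ.Q w b c (m.cut h)} = τ.n := by
  obtain ⟨n, hn, h1, h2⟩ := h
  refine (Nat.card_eq_of_bijective (fun σ : {σ : Equiv.Perm (Fin τ.r) // τ.μ ∘ σ = τ.μ} =>
    (⟨fun x => n (σ.1 x.1, x.2), ?_⟩ : {x // ∃ h : m.Nds x, τ.Q w b c (m.cut h)}))
    ⟨fun σ σ' e => ?_, fun ⟨n', hn', h3, h4⟩ => ?_⟩).symm
  · obtain ⟨hn', a⟩ := h2.perm σ.1
    rw [show τ.u ∘ σ.1 = τ.u from funext fun e => congrArg (· + 1) (congrFun σ.2 e)] at a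
    exact ⟨hn', h1.of_cut.cut hn', a⟩
  · exact Subtype.ext (Equiv.ext fun x =>
      congrArg Prod.fst (hn.inj (congrFun (congrArg Subtype.val e) (x, false))))
  · obtain ⟨-, -, -, σ, a, a'⟩ := h2.unique h1.of_cut τ.u_ne τ.u_ne h4
    exact ⟨⟨σ, funext fun e => Nat.succ_injective (congrFun a' e).symm⟩,
      Subtype.ext (funext fun x => (a x.1 x.2).symm)⟩

/-- every split map has a type -/
theorem exists_C {s : ℕ} {u : Fin s → ℕ} (hu : ∀ e, u e ≠ 0) {n : Fin s × Bool → m.X} (hn : m.Nds n)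
    (h : (m.cut hn).SpU w b c (extU 0 u)) : ∃ τ : STy R (ν ⊕ κ), τ.C w b c m := by
  classical
  obtain ⟨a, d, T, h1⟩ := h.2.exists_spT h.1.of_cut hu
  have h2 := (h1.sum h.1.of_cut hu).2
  have h3 := h.2.sat h.1
  obtain ⟨m₁, j, h4, h5⟩ := AM.exists_emb (φ := id) (ψ := id)
    (m := (m.cut hn).re (ν := Empty) (κ := Empty) .ofIsEmpty) h3 injective_id injective_id isEmptyElim
  have h6 := h4.gen_eq
  have h7 := h1.2.1.symm.trans (AC.degOn_ω_eq h3.1)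
  rw [h5] at h6
  have k1 : ∀ k, .inl k ∈ extT (Fin s) T ↔ .inl k ∈ T := fun _ => Iff.rfl
  have k2 : ∀ q β, .inr (.inl q, β) ∈ extT (Fin s) T ↔ .inr (q, false) ∈ T := fun q β => by
    cases β
    exacts [Iff.rfl, (h2 q).symm]
  have k3 : ∀ e β, .inr (.inr e, β) ∈ extT (Fin s) T ↔ β = false := fun _ _ => Iff.rfl
  simp only [← h6, h1.2.2.2, Finset.card_filter, Fintype.sum_sum_type, Fintype.sum_prod_type,
    Fintype.sum_bool, k1, k2, k3, Finset.sum_add_distrib, Bool.true_eq_false, if_true, if_false,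
    Finset.sum_const, Finset.card_univ, Fintype.card_fin, smul_eq_mul, mul_one, mul_zero] at h7
  let τ : STy R (ν ⊕ κ) :=
    ⟨(d, Cv.gen m₁.R m₁.N - 1 + (∑ q, if .inr (q, false) ∈ T then 1 else 0 : ℕ), s),
      fun e => u e - 1, Sum.elim (fun k => decide (.inl k ∈ T)) fun q => decide (.inr (q, false) ∈ T)⟩
  have e1 : τ.u = u := funext fun e => Nat.succ_pred_eq_of_ne_zero (hu e)
  have e2 : τ.T = T := Set.ext (by
    rintro (k | ⟨q, _ | _⟩)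
    exacts [decide_eq_true_iff, decide_eq_true_iff, decide_eq_true_iff.trans (h2 q)])
  have e3 : τ.a = a := by
    rw [STy.a, show {k | τ.s (.inl k) = true} = (Finset.univ.filter fun k => .inl k ∈ T :) from
      Set.ext fun k => by simp [τ, STy.s], Set.ncard_coe_finset, Finset.card_filter]
    simp only [τ, STy.j, STy.r]
    omega
  refine ⟨τ, n, hn, h.1, ?_⟩
  rwa [e1, e2, e3]

theorem C.pm (h : τ.C w b c m) (h' : τ'.C w b c m) : τ.Pm τ' := by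
  obtain ⟨n, hn, h1, h2⟩ := h
  obtain ⟨n', hn', -, h3⟩ := h'
  obtain ⟨a1, a2, a3, σ, -, a4⟩ := h2.unique h1.of_cut τ.u_ne τ'.u_ne h3
  have a5 : τ.s = τ'.s := funext fun k => Bool.eq_iff_iff.2 (by
    rcases k with k | q
    exacts [Set.ext_iff.1 a3 (.inl k), Set.ext_iff.1 a3 (.inr (q, false))])
  have a6 := Fin.equiv_iff_eq.1 ⟨σ⟩
  rw [STy.a, STy.a, a5] at a1
  exact ⟨a2, by omega, a5, σ, funext fun e => Nat.succ_injective (congrFun a4 e)⟩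

theorem C.of_pm (h : τ.C w b c m) (e : τ.Pm τ') : τ'.C w b c m := by
  obtain ⟨σ, rfl⟩ := TyA.pm_iff.1 e
  obtain ⟨n, hn, h1, h2⟩ := h
  obtain ⟨hn', a⟩ := h2.perm σ
  exact ⟨_, hn', h1.of_cut.cut hn', a⟩

theorem C.sum (h : τ.C w b c m) : ∑ r, w r * τ.d r = ∑ e, (τ.u e : ℤ) :=
  let ⟨_, _, h1, h2⟩ := h
  (h2.sum h1.of_cut τ.u_ne).1

theorem C.nb (h : τ.C w b c m) : m.Nb w b c := let ⟨_, _, h1, _⟩ := h; h1.of_cut

theorem C.sd (h : τ.C w b c m) : m.Sd b τ.a τ.d τ.T :=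
  let ⟨_, _, _, h2⟩ := h
  (AM.sd_cut.1 h2.2).1

/-- the values of the base fields at an ordinary marked point -/
theorem C.side (h : τ.C w b c m) (n : ν) : (m.y b (m.p (.inl n)) ≠ 0 ↔ τ.s (.inl n) = true) ∧
    (m.y c (m.p (.inl n)) ≠ 0 ↔ τ.s (.inl n) = false) := by
  have a := h.sd.2.2 (.inl n)
  obtain ⟨_, _, h1, h2⟩ := h
  refine ⟨(h2.1.b_ne h1 (k := .inl n) rfl).trans a,
    (h2.1.symm.b_ne h1.symm (k := .inl n) neg_zero).trans ?_⟩
  rw [h2.1.sb_c h1, ← Bool.not_eq_true]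
  exact a.not

end STy

end Vale.Agent.P269
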