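import Vale.Agent.P269.Spl.TyA
import Vale.Agent.P269.Spl.NFQ
import Vale.Agent.P269.Spl.LocF
import Vale.Agent.P269.Spl.StrA

/-!
# Strata of the special fibre in the standard chart
-/

set_option linter.unusedSectionVars false
set_option linter.unusedVariables false

namespace Vale.Agent.P269

open P291Z Set Function Topology Filter Module

variable {S Λ Λ₀ R J K ι ν κ α : Type} [Fintype S] [Fintype Λ] [Fintype Λ₀] [Fintype R] [Fintype J]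
  [Fintype K] [Fintype ι] [DecidableEq ι] [Fintype ν] [Fintype κ]

namespace Fam

variable [DecidableEq R] {k D : ℕ} {g : ℤ} {d : R → ℤ}

section pos

variable {F : Fam S Λ R J K}

theorem isOpen_posO : IsOpen (F.posO ν κ k D g d) := isOpen_interior

theorem ivt_posO (hD : F.BigD k D) : Ivt (Ch.actF F.toWt) (F.posO ν κ k D g d) := by
  rintro _ ⟨s, rfl⟩ x hx
  refine mem_interior_iff_mem_nhds.2 (((Ch.continuous_actF s⁻¹.isUnit).continuousAt.eventually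
    (mem_interior_iff_mem_nhds.1 (by rwa [← Ch.actF_mul, s.inv_mul, Ch.actF_one]))).mono
      fun y a b A m e => ?_)
  exact a (Cv.act_mem_base b (Ch.isUnit_dupF s⁻¹.isUnit)) A (m.scl F.toWt _)
    (e.actF b s⁻¹.isUnit)

theorem stb_posO (hD : F.BigD k D) (A : Set J) : Ch.Stb A (F.posO ν κ k D g d) := by
  intro x hx X _
  have c : Continuous fun y : (F.sch ν κ k D g d).WF ν κ Λ => (y.1, Ch.setX y.2 x.2.X) :=
    continuous_fst.prodMk (continuous_snd.fst.prodMk (continuous_snd.snd.fst.prodMk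
      (continuous_snd.snd.snd.fst.prodMk continuous_const)))
  exact mem_interior_iff_mem_nhds.2 (((c.tendsto (x.1, Ch.setX x.2 X)).eventually
    (mem_interior_iff_mem_nhds.1 hx)).mono fun y a b _ m ⟨e, B, π, r, f, _⟩ =>
      a b ∅ m ⟨e, B, π, ⟨r.par, r.mark, r.triv, r.xi⟩, f, fun _ hj => hj.elim⟩)

theorem sol_posO (hF : F.Inv) (hk : F.Big k) (hD : F.BigD k D) :
    Ch.solF _ ν κ F ⊆ F.posO ν κ k D g d :=
  let ⟨_, a, _, b, c⟩ := Fam.exists_pos (ν := ν) (κ := κ) hF hk hD g d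
  b.trans (interior_maximal c a)

theorem pos_of_posO {x} (hx : x ∈ F.posO ν κ k D g d) (h : x.2 ∈ Ch.base _ _) {A m}
    (hm : Ch.Rep ℓs A x m) : m.Pos F.θ k := interior_subset hx h A m hm

end pos

variable {F : Fam S (Option Λ₀) R J K} {i : R} {b c : J} {B₀ : Set (Λ₀ → ℂ)} {Ω : Set ℂ}
  {K₀ : Set K} {n₀ : ℕ} {τ τ' : STy R (ν ⊕ κ)}

theorem exists_dgS (h : F.Deg i b c B₀ Ω) (hG : F.Good) (hR : ∃ K₀, F.Reg K₀)
    (hB : ∃ n, ∀ l : B₀, Holo.IsMfd Subtype.val n l) (hk : F.Big k)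
    (hc : CompactSpace (F.Bs (slab B₀ 0))) : ∃ K₀ n₀, F.DgS i b c B₀ Ω k K₀ n₀ :=
  hR.elim fun _ a => hB.elim fun _ e => ⟨_, _, hG, h, a, e, hk, hc⟩

namespace DgS

variable (h : F.DgS i b c B₀ Ω k K₀ n₀)
include h

theorem two_le : 2 ≤ k := h.big.two_le

theorem wc : F.w c = -F.w b := by rw [h.dgn.wc, h.dgn.wb]

theorem mem_b : b ∈ F.movᶜ := h.dgn.not_mov.2 (.inl rfl)

theorem mem_c : c ∈ F.movᶜ := h.dgn.not_mov.2 (.inr rfl)

theorem slab_sub : slab B₀ 0 ⊆ F.B := h.dgn.slab_sub h.dgn.zero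

theorem good0 {Z : Set J} (hZ : Z ⊆ {b, c}) : (F.sub (slab B₀ 0) Z).Good :=
  h.dgn.good h.toGood h.dgn.zero (.inl rfl) hZ

theorem sm0 (t : ℂ) (Z : Set J) : (F.sub (slab B₀ t) Z).Sm n₀ := isMfd_slab h.sm t

theorem sm1 : F.Sm (n₀ + 1) := fun l =>
  have a : l.1 ∘ some ∈ B₀ ∧ l.1 none ∈ Ω := h.dgn.B.le l.2
  ((congrArg (Holo.MfdAt · _ l.1) h.dgn.B).mpr
    (mfd_tube (h.dgn.opn.mem_nhds a.2) ⟨a.1, h.sm _⟩)).2

theorem sg : (F.sp0 B₀).Sg k :=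
  ⟨h.good0 (empty_subset _), ⟨_, h.reg.sub h.slab_sub (h.dgn.zer_sub _)⟩, ⟨_, h.sm0 0 ∅⟩, h.cp,
    h.big.sub h.slab_sub (h.dgn.zer_sub _)⟩

theorem dg (hD : F.BigD k D) : (F.sch ν κ k D g d).Dg F.toWt ℓs (some i) b c :=
  h.dgn.dg h.two_le hD g d

theorem nice [DecidableEq J] : (F.sub (slab B₀ 0) {b}).Nice (Pi.single c 1) ∧
    (F.sub (slab B₀ 0) {c}).Nice (Pi.single b 1) ∧ (F.sub (slab B₀ 0) {b, c}).Nice 0 :=
  let ⟨a, e, f, _⟩ := St.degN F i b c B₀ Ω h.dgn h.toGood ⟨_, h.reg⟩ ⟨_, h.sm⟩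
  ⟨a, e, f⟩

theorem ivtQ : AM.IvtA F.toWt F.movᶜ (τ.Q (F.w b) b c) := STy.ivt_Q h.mem_b h.mem_c rfl h.wc

theorem ivtP : AM.IvtA F.toWt F.movᶜ (τ.P (F.w b) b c) := STy.ivt_P h.mem_b h.mem_c rfl h.wc

theorem ivtC : AM.IvtA F.toWt F.movᶜ (τ.C (F.w b) b c) := STy.ivt_C h.mem_b h.mem_c rfl h.wc

theorem exists_dgO (hD : F.BigD k D) (g : ℤ) (d : R → ℤ) :
    ∃ O : Set ((F.sch ν κ k D g d).WF ν κ (Option Λ₀)), F.DgO i b c B₀ Ω k K₀ n₀ O :=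
  let ⟨_, a⟩ := h.toGood.ok' ν κ h.reg h.sm1 h.big hD g d
  ⟨_, h, hD, a.inter isOpen_posO (ivt_posO hD) (sol_posO h.toInv h.big hD), inter_subset_right⟩

variable (ν κ) in
/-- finitely many types -/
theorem eventually_set [DecidableEq ν] [DecidableEq κ] (g : ℤ) (d : R → ℤ) :
    ∀ᶠ A in atTop, ∀ D, F.BigD k D → ∀ τ : STy R (ν ⊕ κ), (F.stT (k := k) b c B₀ D g d τ).Nonempty →
      τ ∈ STy.set i A := by
  let M := (F.sch ν κ k 0 g d).m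
  let f : (Option R → ℤ) × (ν ⊕ κ → Bool) × ℕ → (R → ℤ) × ℤ × ℕ := fun p =>
    (fun r => ∑ o, ℓs r o * p.1 o, ((∑ o, (Pi.single none 1 - k • Tgt.hat F.θ : Option R → ℤ) o *
      p.1 o) / k - {n | p.2.1 (.inl n) = true}.ncard - p.2.2) / 2, p.2.2)
  have e := ((finite_Icc 0 M).prod (finite_univ.prod (finite_Iic (M (some i)).toNat))).image f
  filter_upwards [eventually_ge_atTop e.toFinset] with A hA D hD τ ⟨x, a, m, r, p⟩
  obtain ⟨B, π, u, s, r⟩ := r.exists_data a.1.2.1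
  obtain ⟨α, a1, a2, a3⟩ := (h.dg hD).exists_deg r p.nb.clopen
  have a4 : τ.d i = ∑ e, (τ.u e : ℤ) := by simpa [h.dgn.wb, Pi.single_apply] using p.sum
  have a5 : τ.d i = α (some i) - α none := by
    rw [← p.sd.2.1, a3]
    simp [ℓs, Tgt.hat, Pi.single_apply, neg_add_eq_sub]
  have a6 : τ.r ≤ ∑ e, τ.u e := by
    simpa using Finset.card_nsmul_le_sum Finset.univ τ.u 1 fun e _ => Nat.pos_of_ne_zero (τ.u_ne e)
  have a7 : α (some i) ≤ M (some i) := (a1 _).2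
  have a8 := (a1 none).1
  rw [← Nat.cast_sum] at a4
  refine STy.mem_set.2 ⟨hA (e.mem_toFinset.2 ⟨(α, τ.s, τ.r), ⟨⟨fun o => (a1 o).1, fun o => (a1 o).2⟩,
    trivial, show τ.r ≤ _ by omega⟩, Prod.ext (funext fun r => (a3 r).symm.trans (p.sd.2.1 r))
      (Prod.ext ?_ rfl)⟩), by omega⟩
  rw [Cv.chart_χ _ _ _ hD, p.sd.1] at a2
  change (_ / (k : ℤ) - _ - _) / 2 = τ.j
  rw [← a2]
  change ((k : ℤ) * _ / _ - _ - _) / 2 = τ.j
  rw [Int.mul_ediv_cancel_left _ (by have := h.two_le; omega), STy.a]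
  dsimp only
  omega

variable (hD : F.BigD k D)
include hD

theorem stT_pm {x} (hx : x ∈ F.stT (k := k) b c B₀ D g d τ) : x ∈ F.stT (k := k) b c B₀ D g d τ' ↔ τ.Pm τ' :=
  let ⟨a, _, r, p⟩ := hx
  (Ch.mem_locP (F := F.sp0 B₀) chart_wd' h.ivtC a r).trans ⟨p.pm, p.of_pm⟩

theorem stT_sub : F.stT (k := k) b c B₀ D g d τ ⊆ Ch.cyc _ κ F 0 ∩ Ch.tAt 0 := fun _ hx =>
  ⟨(h.dg hD).mem_cyc h.dgn τ.u_ne hx, hx.1.1.1.2⟩

theorem clT_sub : F.clT (k := k) b c B₀ D g d τ ⊆ Ch.cyc _ κ F 0 ∩ Ch.tAt 0 := fun _ hx =>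
  ⟨⟨closure_minimal (fun _ a => (h.stT_sub hD a).1.1) isClosed_closure hx.1,
    h.slab_sub hx.2.1, hx.2.2⟩, hx.2.1.2⟩

/-- the closures of the strata are closed in the total space -/
theorem clT_eq : F.clT (k := k) b c B₀ D g d τ = Ch.cyc _ κ F 0 ∩ closure (F.stT (k := k) b c B₀ D g d τ) :=
  Subset.antisymm (fun _ hx => ⟨(h.clT_sub hD hx).1, hx.1⟩) fun _ hx =>
    ⟨hx.2, ⟨(h.dgn.B.le hx.1.2.1).1, closure_minimal (fun _ a => (h.stT_sub hD a).2)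
      (isClosed_eq ((continuous_apply none).comp continuous_fst) continuous_const) hx.2⟩, hx.1.2.2⟩

theorem stT_nhds {x} (hx : x ∈ F.stT (k := k) b c B₀ D g d τ) :
    F.stT (k := k) b c B₀ D g d τ ∈ 𝓝[Ch.cyc _ κ F 0 ∩ Ch.tAt 0] x :=
  mem_nhdsWithin_iff_eventually.2 (((h.dg hD).eventually_ct h.dgn τ.u_ne hx).mono
    fun _ a e => a e.1 e.2)

/-- the values of the base fields at an ordinary marked point -/
theorem stT_side {x} (hx : x ∈ F.stT (k := k) b c B₀ D g d τ) (n : ν) :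
    ((Ch.vl x (.inl n)).2 b ≠ 0 ↔ τ.s (.inl n) = true) ∧
      ((Ch.vl x (.inl n)).2 c ≠ 0 ↔ τ.s (.inl n) = false) := by
  obtain ⟨a, m, r, p⟩ := hx
  obtain ⟨B, π, u, s, r⟩ := r.exists_data a.1.2.1
  have e : ∀ j ∈ F.movᶜ, (Ch.vl x (.inl n)).2 j ≠ 0 ↔ m.y j (m.p (.inl n)) ≠ 0 := fun j hj =>
    (congrArg (· ≠ 0) (r.fld_p hj _)).to_iff.trans
      (mul_ne_zero_iff_left (Finset.prod_ne_zero_iff.2 fun _ _ => zpow_ne_zero _ (r.ne _ _)))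
  exact ⟨(e b h.mem_b).trans (p.side n).1, (e c h.mem_c).trans (p.side n).2⟩

theorem vl_mul {x : (F.sch ν κ k D g d).WF ν κ (Option Λ₀)} (hx : x ∈ Ch.adm _ ν κ F)
    (n : Ch.Mk ν κ) : (Ch.vl x n).2 b * (Ch.vl x n).2 c = x.1 none :=
  ((Ch.mem_adm_deg h.dgn).1 hx).2.mul _ (hx.1.2.1.2.2.2.1 n).1

theorem ivt_tAt : Ivt (Ch.actF F.toWt) (Ch.tAt 0 : Set ((F.sch ν κ k D g d).WF ν κ _)) :=
  fun _ _ _ hx => (congrArg (_ * ·) hx).trans (mul_zero _)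

end DgS

theorem DgO.ok0 {O : Set ((F.sch ν κ k D g d).WF ν κ (Option Λ₀))} (h : F.DgO i b c B₀ Ω k K₀ n₀ O) :
    (F.sch ν κ k D g d).Ok (F.sp0 B₀) (F.tdeg (F.sch ν κ k D g d)) K₀ ℓs n₀ O :=
  h.ok.subF h.slab_sub (h.dgn.zer_sub _) (h.good0 (empty_subset _)).toInv (h.sm0 0 ∅)

end Fam

end Vale.Agent.P269

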